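import Crest.Agent.R087.GateC_273
import Crest.Agent.R087.Red_738
import Crest.Agent.R087.OP0_270
import Mathlib
import Crest.Agent.R087.E2Kf_752
import Crest.Agent.R087.Mass_546
import Crest.Agent.R087.Omega_627
import Crest.Agent.R087.TB_820

-- ▼ part R087/GateD_273
section

/-!
Row 87 (S0115), GATING part D (helper273): **GATE**: `GDN ζ N M` implies `SBN (psE η) N M`.
-/

set_option autoImplicit false

noncomputable section

open MeasureTheory Crest.Agent.R087.Sh0x283 Crest.Agent.R087.Sh1x283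
open Crest.Agent.R087.GateDefx273 Crest.Agent.R087.GateAx273 Crest.Agent.R087.GateBx273
open Crest.Agent.R087.GateCx273 Crest.Agent.R087.S11x168 Crest.Agent.R087.Redx738
open scoped ENNReal

namespace Crest.Agent.R087.GateDx273

theorem sq3 (a b c : ℝ) : (a + b - c) ^ 2 ≤ 3 * (a ^ 2 + b ^ 2 + c ^ 2) := by
  nlinarith [sq_nonneg (a - b), sq_nonneg (a + c), sq_nonneg (b + c)]

/-- **GATE**: the gated single band estimate implies the single band estimate. -/
theorem gate {ζ : ℝ → ℝ} (h : ZetC ζ) (hc0 : c0 ζ ≠ 0) {N M : ℕ} (hNM : N ≤ M)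
    (H : GDN ζ N M) {η : ℝ → ℝ} (hη : EtaC η) : SBN (psE η) N M := by
  obtain ⟨c, hc, B₀, hB₀⟩ := H
  obtain ⟨T, hT⟩ := thE_bd h hη
  have hT0 : 0 ≤ T := (abs_nonneg _).trans (hT 0)
  set B : ℝ := max B₀ 0 with hBdef
  have hB : 0 ≤ B := le_max_right _ _
  refine ⟨min c (1 / 2), by positivity, ((c0 ζ) ^ 2)⁻¹ * (3 * (4 * B + 2 * (2 * T) ^ 2 * 4 +
    2 * (2 * T) ^ 2 * 4)), ?_⟩
  intro ω hω1 hω2 hω3 U f hU hf S
  set φ := iteratedDeriv N ω with hφdef
  have hsm : Crest.Agent.R087.Asm3x283.Sm ω := ⟨hω1, hω2⟩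
  have hφs : Crest.Agent.R087.Asm3x283.Sm φ := sm_iter hsm N
  have hφ : Continuous φ := hφs.1.continuous
  have hφ1 : ∀ r, 1 < |r| → φ r = 0 := hφs.2
  have hφc : HasCompactSupport φ := hφs.comp
  have hφb : ∀ r, |φ r| ≤ 1 := hω3 N hNM
  have hUc : Fld c U := ⟨hU.1, hU.2.1, fun x y y' => (hU.2.2 x y y').trans
    (mul_le_mul_of_nonneg_right (min_le_left _ _) (abs_nonneg _))⟩
  have hU2 : Fld (1 / 2) U := ⟨hU.1, hU.2.1, fun x y y' => (hU.2.2 x y y').trans
    (mul_le_mul_of_nonneg_right (min_le_right _ _) (abs_nonneg _))⟩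
  have hg : Nice (cv φ 0 f) := ALGx390.alg.1 φ hφ hφc 0 f hf
  have hgn : ∫ z, (cv φ 0 f z) ^ 2 ≤ 4 * ∫ z, (f z) ^ 2 := by
    have h1 := ALGx390.alg.2.1 φ hφ hφc 0 f hf
    have h2 : ∫ r, |φ r| ≤ 2 := by
      have h3 : ∫ r, |φ r| ≤ ∫ r, (Set.Icc (-1 : ℝ) 1).indicator (fun _ => (1 : ℝ)) r := by
        refine integral_mono (hφ.integrable_of_hasCompactSupport hφc).abs ?_ fun r => ?_
        · rw [integrable_indicator_iff measurableSet_Icc]
          exact integrableOn_const (by simp)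
        · by_cases hr : r ∈ Set.Icc (-1 : ℝ) 1
          · rw [Set.indicator_of_mem hr]; exact hφb r
          · rw [Set.indicator_of_notMem hr]
            rw [Set.mem_Icc, ← abs_le, not_le] at hr
            show |φ r| ≤ 0
            rw [hφ1 r hr, abs_zero]
      refine h3.trans ?_
      rw [integral_indicator_const _ measurableSet_Icc]
      simp only [Measure.real, Real.volume_Icc, smul_eq_mul, mul_one]
      rw [ENNReal.toReal_ofReal (by norm_num)]
      norm_num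
    have h3 : 0 ≤ ∫ r, |φ r| := integral_nonneg fun _ => abs_nonneg _
    have h4 : 0 ≤ ∫ z, (f z) ^ 2 := integral_nonneg fun _ => sq_nonneg _
    calc _ ≤ _ := h1
      _ ≤ 2 ^ 2 * ∫ z, (f z) ^ 2 := by gcongr
      _ = 4 * ∫ z, (f z) ^ 2 := by norm_num
  set g := cv φ 0 f with hgdef
  -- the error kernels
  set th : ℝ → ℝ := thE ζ η with hth
  set thS : ℝ → ℝ := fun t => 2 ^ S * thE ζ η (2 ^ S * t) with hthS
  have th_m : Measurable th := thE_meas h hη
  have th_z : ∀ t, 1 < |t| → th t = 0 := fun t ht => thE_zero h hη ht.le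
  have h2S : (1 : ℝ) ≤ 2 ^ S := one_le_pow₀ (by norm_num)
  have h2S0 : (0 : ℝ) < 2 ^ S := by positivity
  have thS_m : Measurable thS := (th_m.comp (measurable_const_mul _)).const_mul _
  have thS_b : ∃ M : ℝ, ∀ t, |thS t| ≤ M := by
    refine ⟨2 ^ S * T, fun t => ?_⟩
    simp only [hthS]
    rw [abs_mul, abs_of_pos h2S0]
    exact mul_le_mul_of_nonneg_left (hT _) h2S0.le
  have thS_z : ∀ t, 1 < |t| → thS t = 0 := by
    intro t ht
    simp only [hthS]
    rw [thE_zero h hη, mul_zero]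
    rw [abs_mul, abs_of_pos h2S0]
    nlinarith
  have th_i : ∫ t, |th t| ≤ 2 * T := by
    have h3 : ∫ r, |th r| ≤ ∫ r, (Set.Icc (-1 : ℝ) 1).indicator (fun _ => T) r := by
      refine integral_mono (TBx820.K_integrable th_m ⟨T, hT⟩ th_z).abs ?_ fun r => ?_
      · rw [integrable_indicator_iff measurableSet_Icc]
        exact integrableOn_const (by simp)
      · by_cases hr : r ∈ Set.Icc (-1 : ℝ) 1
        · rw [Set.indicator_of_mem hr]; exact hT r
        · rw [Set.indicator_of_notMem hr]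
          rw [Set.mem_Icc, ← abs_le, not_le] at hr
          show |th r| ≤ 0
          rw [th_z r hr, abs_zero]
    refine h3.trans ?_
    rw [integral_indicator_const _ measurableSet_Icc]
    simp only [Measure.real, Real.volume_Icc, smul_eq_mul]
    rw [ENNReal.toReal_ofReal (by norm_num)]
    linarith
  have thS_i : ∫ t, |thS t| ≤ 2 * T := by
    have e : ∫ t, |thS t| = ∫ t, |th t| := by
      have h4 := Measure.integral_comp_mul_left (fun t => |th t|) (2 ^ S)
      have h5 : ∀ t, |thS t| = 2 ^ S * |th (2 ^ S * t)| := by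
        intro t
        simp only [hthS, hth]
        rw [abs_mul, abs_of_pos h2S0]
      simp only [h5]
      rw [integral_const_mul, h4, smul_eq_mul, abs_of_pos (by positivity), ← mul_assoc,
        mul_inv_cancel₀ h2S0.ne', one_mul]
    rw [e]; exact th_i
  -- kernel KA
  have KA_eq : KA ζ S = fun t => c0 ζ * kerS (psE η) S t - th t + thS t := by
    funext t
    have := thE_eq h η S t
    simp only [hth, hthS]
    linarith
  have hker := psE_PsiC hη
  have hkc := kerS_continuous hker S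
  have hkz : ∀ t, 1 < |t| → kerS (psE η) S t = 0 := fun t ht => kerS_zero hker S ht
  have hkb : ∃ M : ℝ, ∀ t, |kerS (psE η) S t| ≤ M := by
    have hcs : HasCompactSupport (kerS (psE η) S) := by
      refine HasCompactSupport.intro (isCompact_Icc (a := (-1 : ℝ)) (b := 1)) ?_
      intro t ht
      apply hkz
      rwa [Set.mem_Icc, ← abs_le, not_le] at ht
    obtain ⟨C, hC⟩ := hkc.bounded_above_of_compact_support hcs
    exact ⟨C, hC⟩
  have KA_m : Measurable (KA ζ S) := by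
    rw [KA_eq]
    exact ((hkc.measurable.const_mul _).sub th_m).add thS_m
  have KA_b : ∃ M : ℝ, ∀ t, |KA ζ S t| ≤ M := by
    obtain ⟨C1, h1⟩ := hkb
    obtain ⟨C2, h2⟩ := thS_b
    refine ⟨|c0 ζ| * C1 + T + C2, fun t => ?_⟩
    rw [KA_eq]
    simp only
    have a1 : |c0 ζ * kerS (psE η) S t| ≤ |c0 ζ| * C1 := by
      rw [abs_mul]; exact mul_le_mul_of_nonneg_left (h1 t) (abs_nonneg _)
    have a2 := abs_add_le (c0 ζ * kerS (psE η) S t - th t) (thS t)
    have a3 := abs_sub (c0 ζ * kerS (psE η) S t) (th t)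
    have a4 : |th t| ≤ T := hT t
    have a5 := h2 t
    linarith
  have KA_z : ∀ t, 1 < |t| → KA ζ S t = 0 := by
    intro t ht
    rw [KA_eq]
    simp only
    rw [hkz t ht, th_z t ht, thS_z t ht]
    ring
  have hTn : Nice (tk (KA ζ S) U g) := TBx820.tk_nice KA_m KA_b KA_z hU.1 hU.2.1 hg
  have n1 : ∫ z, (tk (KA ζ S) U g z) ^ 2 ≤ 4 * B * ∫ z, (f z) ^ 2 := by
    refine KA_est h hφ hφ1 hφc hc.le hB S ?_ hUc hf hTn
    intro V g' hV hg'
    refine (hB₀ ω hω1 hω2 hω3 V g' hV hg' S).trans ?_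
    exact mul_le_mul_of_nonneg_right (le_max_left _ _) (integral_nonneg fun _ => sq_nonneg _)
  have hf0 : 0 ≤ ∫ z, (f z) ^ 2 := integral_nonneg fun _ => sq_nonneg _
  have n2 : ∫ z, (tk th U g z) ^ 2 ≤ 2 * (2 * T) ^ 2 * 4 * ∫ z, (f z) ^ 2 := by
    have h1 := TBx820.tk_sq_le th_m ⟨T, hT⟩ th_z (c := 1 / 2) le_rfl hU2 hg
    have h2 : 0 ≤ ∫ t, |th t| := integral_nonneg fun _ => abs_nonneg _
    calc _ ≤ _ := h1
      _ ≤ 2 * (2 * T) ^ 2 * (4 * ∫ z, (f z) ^ 2) := by gcongr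
      _ = _ := by ring
  have n3 : ∫ z, (tk thS U g z) ^ 2 ≤ 2 * (2 * T) ^ 2 * 4 * ∫ z, (f z) ^ 2 := by
    have h1 := TBx820.tk_sq_le thS_m thS_b thS_z (c := 1 / 2) le_rfl hU2 hg
    have h2 : 0 ≤ ∫ t, |thS t| := integral_nonneg fun _ => abs_nonneg _
    calc _ ≤ _ := h1
      _ ≤ 2 * (2 * T) ^ 2 * (4 * ∫ z, (f z) ^ 2) := by gcongr
      _ = _ := by ring
  -- linearity in the kernel
  have lin : ∀ z, tk (kerS (psE η) S) U g z =
      (c0 ζ)⁻¹ * (tk (KA ζ S) U g z + tk th U g z - tk thS U g z) := by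
    intro z
    have i1 := TBx820.Kf_integrable (U := U) KA_m KA_b KA_z hg z
    have i2 := TBx820.Kf_integrable (U := U) th_m ⟨T, hT⟩ th_z hg z
    have i3 := TBx820.Kf_integrable (U := U) thS_m thS_b thS_z hg z
    unfold tk
    have i12 : Integrable fun t => KA ζ S t * g (z.1 - t, z.2 - t * U z) +
        th t * g (z.1 - t, z.2 - t * U z) := i1.add i2
    rw [← integral_add i1 i2, ← integral_sub i12 i3, ← integral_const_mul]
    refine integral_congr_ae (Filter.Eventually.of_forall fun t => ?_)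
    have e := congrFun KA_eq t
    have e' : kerS (psE η) S t = (c0 ζ)⁻¹ * (KA ζ S t + th t - thS t) := by
      rw [e]
      field_simp
      ring
    show kerS (psE η) S t * g (z.1 - t, z.2 - t * U z) =
      (c0 ζ)⁻¹ * (KA ζ S t * g (z.1 - t, z.2 - t * U z) + th t * g (z.1 - t, z.2 - t * U z) -
        thS t * g (z.1 - t, z.2 - t * U z))
    rw [e']
    ring
  have hthn : Nice (tk th U g) := TBx820.tk_nice th_m ⟨T, hT⟩ th_z hU.1 hU.2.1 hg
  have hthSn : Nice (tk thS U g) := TBx820.tk_nice thS_m thS_b thS_z hU.1 hU.2.1 hg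
  have j1 := TBx820.nice_integrable_sq hTn
  have j2 := TBx820.nice_integrable_sq hthn
  have j3 := TBx820.nice_integrable_sq hthSn
  have j12 : Integrable fun z => (tk (KA ζ S) U g z) ^ 2 + (tk th U g z) ^ 2 := j1.add j2
  have j123 : Integrable fun z => (tk (KA ζ S) U g z) ^ 2 + (tk th U g z) ^ 2 +
      (tk thS U g z) ^ 2 := j12.add j3
  calc ∫ z, (tk (kerS (psE η) S) U g z) ^ 2
      ≤ ∫ z, ((c0 ζ) ^ 2)⁻¹ * (3 * ((tk (KA ζ S) U g z) ^ 2 + (tk th U g z) ^ 2 +
          (tk thS U g z) ^ 2)) := by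
        refine integral_mono_of_nonneg (Filter.Eventually.of_forall fun z => sq_nonneg _)
          ((j123.const_mul 3).const_mul _) (Filter.Eventually.of_forall fun z => ?_)
        simp only
        rw [lin z, mul_pow, inv_pow]
        exact mul_le_mul_of_nonneg_left (sq3 _ _ _) (by positivity)
    _ = ((c0 ζ) ^ 2)⁻¹ * (3 * ((∫ z, (tk (KA ζ S) U g z) ^ 2) + (∫ z, (tk th U g z) ^ 2) +
          ∫ z, (tk thS U g z) ^ 2)) := by
        rw [integral_const_mul, integral_const_mul, integral_add j12 j3, integral_add j1 j2]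
    _ ≤ ((c0 ζ) ^ 2)⁻¹ * (3 * (4 * B * (∫ z, (f z) ^ 2) +
          2 * (2 * T) ^ 2 * 4 * (∫ z, (f z) ^ 2) + 2 * (2 * T) ^ 2 * 4 * (∫ z, (f z) ^ 2))) := by
        gcongr
    _ = _ := by ring

end Crest.Agent.R087.GateDx273
end
end

-- ▼ part R087/Cls_70
section

/-!
Row 87 (S0115), operator part: leaf `CLS` of `OP0_270` (classification of the scales by the dilated
tile density), helper70.

* `Bad n s` : points `z` (of some colour `k`) with `¬ upp U h A n k s z`; increasing in `n` and `s`;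
* `ff n z`  : first scale `s ≤ S` with `z ∈ Bad n s`, `S` if there is none;
* `lc n z = max (lo z) (ff (n+1) z)`, `hc n z = min (hi z) (ff n z)`.
-/

set_option autoImplicit false

noncomputable section

open MeasureTheory

namespace Crest.Agent.R087.Clsx70

open Crest.Agent.R087.Sh0x283 Crest.Agent.R087.E2x542 Crest.Agent.R087.E2Kx752
  Crest.Agent.R087.GateDefx273 Crest.Agent.R087.OP0x270

/-! ### colours -/

theorem col_unique {h : ℝ × ℝ → ℝ} {k k' : ℤ} {z : ℝ × ℝ} (h1 : z ∈ col h k) (h2 : z ∈ col h k') :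
    k = k' := by
  obtain ⟨a1, a2⟩ := h1
  obtain ⟨b1, b2⟩ := h2
  have h3 : (2 : ℝ) ^ k < 2 ^ (k' + 1) := lt_of_le_of_lt a1 b2
  have h4 : (2 : ℝ) ^ k' < 2 ^ (k + 1) := lt_of_le_of_lt b1 a2
  have h5 := (zpow_lt_zpow_iff_right₀ (one_lt_two : (1 : ℝ) < 2)).1 h3
  have h6 := (zpow_lt_zpow_iff_right₀ (one_lt_two : (1 : ℝ) < 2)).1 h4
  omega

theorem col_exists {h : ℝ × ℝ → ℝ} {z : ℝ × ℝ} (hz : h z ≠ 0) : ∃ k, z ∈ col h k := by
  obtain ⟨k, hk1, hk2⟩ := exists_mem_Ico_zpow (abs_pos.2 hz) (one_lt_two : (1 : ℝ) < 2)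
  exact ⟨k, hk1, hk2⟩

theorem measurableSet_col {h : ℝ × ℝ → ℝ} (hh : Measurable h) (k : ℤ) :
    MeasurableSet (col h k) := by
  have h1 : Measurable fun z => |h z| := hh.abs
  exact (measurableSet_le measurable_const h1).inter (measurableSet_lt h1 measurable_const)

/-! ### monotonicity of `upp` -/

variable (U h : ℝ × ℝ → ℝ) (A : ℕ)

theorem upp_scale {n : ℕ} {k : ℤ} {s t : ℕ} (hst : s ≤ t) {z : ℝ × ℝ} (hz : upp U h A n k t z) :
    upp U h A n k s z := by
  intro i R hR hk hI hn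
  refine hz i R hR (hk.trans hst) hI ⟨hn.1, ?_⟩
  refine le_trans ?_ hn.2
  refine mul_le_mul_of_nonneg_left ?_ (abs_nonneg _)
  exact pow_le_pow_of_le_one (by norm_num) (by norm_num) hst

theorem upp_class {n n' : ℕ} (hn : n ≤ n') {k : ℤ} {s : ℕ} {z : ℝ × ℝ}
    (hz : upp U h A n' k s z) : upp U h A n k s z := by
  intro i R hR hk hI hne
  refine (hz i R hR hk hI hne).trans ?_
  have h1 : (1 / 2 : ℝ) ^ n' ≤ (1 / 2 : ℝ) ^ n := pow_le_pow_of_le_one (by norm_num) (by norm_num) hn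
  have h2 : 0 ≤ R.len := R.len_pos.le
  gcongr

/-- the volume of a fat tube -/
theorem volume_fat_le (K : ℝ) (hK : 0 ≤ K) (R : Tube) :
    volume (fat K R) ≤ ENNReal.ofReal (2 * K * R.len) := by
  have hms : MeasurableSet (fat K R) := by
    have h1 : MeasurableSet {z : ℝ × ℝ | z.1 ∈ R.I} := measurable_fst R.measurableSet_I
    have h2 : MeasurableSet {z : ℝ × ℝ | |z.2 - R.line z.1| ≤ K} := by
      apply measurableSet_le _ measurable_const
      have := R.measurable_line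
      fun_prop
    exact h1.inter h2
  rw [Measure.volume_eq_prod, Measure.prod_apply hms]
  calc ∫⁻ x, volume (Prod.mk x ⁻¹' fat K R) ≤ ∫⁻ x, R.I.indicator (fun _ => ENNReal.ofReal (2 * K)) x := by
        refine lintegral_mono (fun x => ?_)
        by_cases hx : x ∈ R.I
        · rw [Set.indicator_of_mem hx]
          have : Prod.mk x ⁻¹' fat K R ⊆ Set.Icc (R.line x - K) (R.line x + K) := by
            intro y hy
            have h1 := abs_le.1 hy.2
            exact ⟨by linarith [h1.1], by linarith [h1.2]⟩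
          refine (measure_mono this).trans ?_
          rw [Real.volume_Icc]
          exact ENNReal.ofReal_le_ofReal (by linarith)
        · rw [Set.indicator_of_notMem hx]
          have : Prod.mk x ⁻¹' fat K R = ∅ := by
            ext y
            simp only [Set.mem_preimage, Set.mem_empty_iff_false, iff_false]
            intro hy
            exact hx hy.1
          rw [this, measure_empty]
    _ = ENNReal.ofReal (2 * K) * volume R.I := by
        rw [lintegral_indicator R.measurableSet_I, setLIntegral_const]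
    _ = ENNReal.ofReal (2 * K * R.len) := by
        have hI : volume R.I = ENNReal.ofReal R.len := by
          unfold Tube.I
          rw [Real.volume_Ico]
          congr 1
          ring
        rw [hI, ← ENNReal.ofReal_mul (by positivity)]

/-- class `0` is everything -/
theorem upp_zero (hA : 1 ≤ A) (k : ℤ) (s : ℕ) (z : ℝ × ℝ) : upp U h A 0 k s z := by
  intro i R _ _ _ _
  have h1 : volume (col h k ∩ fatV U (2 ^ i) R) ≤ ENNReal.ofReal (2 * 2 ^ i * R.len) := by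
    refine le_trans (measure_mono ?_) (volume_fat_le (2 ^ i) (by positivity) R)
    exact fun w hw => hw.2.1
  have h2 : (volume (col h k ∩ fatV U (2 ^ i) R)).toReal ≤ 2 * 2 ^ i * R.len := by
    refine ENNReal.toReal_le_of_le_ofReal ?_ h1
    have := R.len_pos
    positivity
  refine h2.trans ?_
  have h3 : (2 : ℝ) ^ i ≤ 2 ^ (A * i) := pow_le_pow_right₀ (by norm_num) (by nlinarith)
  have h4 : 0 ≤ R.len := R.len_pos.le
  rw [pow_zero, mul_one, mul_comm (2 : ℝ) (2 ^ i)]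
  gcongr

/-! ### bad sets -/

/-- points whose colour is denser than the class `n` at the scale `s` -/
def Bad (n s : ℕ) : Set (ℝ × ℝ) := {z | ∃ k, z ∈ col h k ∧ ¬ upp U h A n k s z}

theorem bad_scale {n s t : ℕ} (hst : s ≤ t) : Bad U h A n s ⊆ Bad U h A n t := by
  rintro z ⟨k, h1, h2⟩
  exact ⟨k, h1, fun h3 => h2 (upp_scale U h A hst h3)⟩

theorem bad_class {n n' : ℕ} (hn : n ≤ n') (s : ℕ) : Bad U h A n s ⊆ Bad U h A n' s := by
  rintro z ⟨k, h1, h2⟩
  exact ⟨k, h1, fun h3 => h2 (upp_class U h A hn h3)⟩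

theorem bad_zero (hA : 1 ≤ A) (s : ℕ) : Bad U h A 0 s = ∅ := by
  ext z
  simp only [Bad, Set.mem_ofPred_eq, Set.mem_empty_iff_false, iff_false, not_exists, not_and,
    not_not]
  exact fun k _ => upp_zero U h A hA k s z

/-- the tube with integer data -/
def rt (p : ℕ × ℤ × ℤ × ℤ) : Tube := ⟨p.1, p.2.1, p.2.2.1, p.2.2.2⟩

theorem rt_int (p : ℕ × ℤ × ℤ × ℤ) : IntT (rt p) := ⟨⟨_, rfl⟩, ⟨_, rfl⟩⟩

theorem rt_surj {R : Tube} (hR : IntT R) : ∃ p, R = rt p := by
  obtain ⟨⟨q, hq⟩, ⟨q', hq'⟩⟩ := hR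
  refine ⟨(R.k, R.j, q, q'), ?_⟩
  cases R
  simp only [rt, Tube.mk.injEq, true_and]
  exact ⟨hq, hq'⟩

theorem bad_eq (n s : ℕ) : Bad U h A n s =
    ⋃ k : ℤ, ⋃ i : ℕ, ⋃ p : ℕ × ℤ × ℤ × ℤ,
      (col h k ∩ {z | z.1 ∈ (rt p).I ∧ near U (2 ^ i) (rt p).b (rt p).m s z}) ∩
        {_z | (rt p).k ≤ s ∧ ¬ (volume (col h k ∩ fatV U (2 ^ i) (rt p))).toReal ≤
          2 ^ (A * i) * (2 * (1 / 2 : ℝ) ^ n) * (rt p).len} := by
  ext z
  simp only [Bad, Set.mem_ofPred_eq, Set.mem_iUnion, Set.mem_inter_iff]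
  constructor
  · rintro ⟨k, hk, h1⟩
    unfold upp at h1
    push Not at h1
    obtain ⟨i, R, hR, h2, h3, h4, h5⟩ := h1
    obtain ⟨p, rfl⟩ := rt_surj hR
    exact ⟨k, i, p, ⟨hk, h3, h4⟩, h2, not_le.2 h5⟩
  · rintro ⟨k, i, p, ⟨hk, h3, h4⟩, h2, h5⟩
    exact ⟨k, hk, fun h6 => h5 (h6 i (rt p) (rt_int p) h2 h3 h4)⟩

theorem measurableSet_near {U : ℝ × ℝ → ℝ} (hU : Measurable U) (K b m : ℝ) (s : ℕ) :
    MeasurableSet {z | near U K b m s z} := by
  have h1 : Measurable fun z : ℝ × ℝ => |z.2 - (b + m * z.1)| := by fun_prop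
  have h2 : Measurable fun z : ℝ × ℝ => |U z - m| * (1 / 2 : ℝ) ^ s := by fun_prop
  exact (measurableSet_le h1 measurable_const).inter (measurableSet_le h2 measurable_const)

theorem measurableSet_bad {U h : ℝ × ℝ → ℝ} (hU : Measurable U) (hh : Measurable h) (n s : ℕ) :
    MeasurableSet (Bad U h A n s) := by
  rw [bad_eq]
  refine MeasurableSet.iUnion (fun k => MeasurableSet.iUnion (fun i => MeasurableSet.iUnion
    (fun p => ?_)))
  refine MeasurableSet.inter ((measurableSet_col hh k).inter ?_) (MeasurableSet.const _)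
  exact MeasurableSet.inter (measurable_fst (rt p).measurableSet_I) (measurableSet_near hU _ _ _ _)

/-! ### the first bad scale -/

open Classical in
/-- first scale `s ≤ S` with `z ∈ Bad n s`, `S` if there is none -/
def ff (S n : ℕ) (z : ℝ × ℝ) : ℕ :=
  Nat.find (⟨S, Or.inr le_rfl⟩ : ∃ s, z ∈ Bad U h A n s ∨ S ≤ s)

theorem ff_le (S n : ℕ) (z : ℝ × ℝ) : ff U h A S n z ≤ S := by
  classical
  exact Nat.find_min' _ (Or.inr le_rfl)

theorem ff_of_bad {S n s : ℕ} {z : ℝ × ℝ} (hz : z ∈ Bad U h A n s) : ff U h A S n z ≤ s := by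
  classical
  exact Nat.find_min' _ (Or.inl hz)

theorem not_bad_of_lt {S n s : ℕ} {z : ℝ × ℝ} (hs : s < ff U h A S n z) : z ∉ Bad U h A n s := by
  classical
  intro h1
  exact Nat.find_min _ hs (Or.inl h1)

theorem bad_of_lt {S n s : ℕ} {z : ℝ × ℝ} (hs : ff U h A S n z ≤ s) (hS : s < S) :
    z ∈ Bad U h A n s := by
  classical
  have h1 : z ∈ Bad U h A n (ff U h A S n z) ∨ S ≤ ff U h A S n z := Nat.find_spec (p := fun s => z ∈ Bad U h A n s ∨ S ≤ s) _
  rcases h1 with h1 | h1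
  · exact bad_scale U h A hs h1
  · omega

theorem ff_anti {S n n' : ℕ} (hn : n ≤ n') (z : ℝ × ℝ) : ff U h A S n' z ≤ ff U h A S n z := by
  rcases Nat.lt_or_ge (ff U h A S n z) S with h1 | h1
  · exact ff_of_bad U h A (bad_class U h A hn _ (bad_of_lt U h A le_rfl h1))
  · exact (ff_le U h A S n' z).trans h1

theorem ff_zero (hA : 1 ≤ A) (S : ℕ) (z : ℝ × ℝ) : ff U h A S 0 z = S := by
  apply le_antisymm (ff_le U h A S 0 z)
  by_contra h1
  push Not at h1
  have := bad_of_lt U h A le_rfl h1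
  rw [bad_zero U h A hA] at this
  exact this

theorem measurable_ff {U h : ℝ × ℝ → ℝ} (hU : Measurable U) (hh : Measurable h) (S n : ℕ) :
    Measurable (ff U h A S n) := by
  classical
  refine measurable_find _ (fun s => ?_)
  have : {z : ℝ × ℝ | z ∈ Bad U h A n s ∨ S ≤ s} = Bad U h A n s ∪ {_z | S ≤ s} := rfl
  rw [this]
  exact (measurableSet_bad A hU hh n s).union (MeasurableSet.const _)

/-! ### the exceptional set -/

/-- points which are not classified by `n` classes -/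
def QQ (n : ℕ) : Set (ℝ × ℝ) := {z | h z ≠ 0} \ Bad U h A n 0

theorem exists_int_near (u : ℝ) : ∃ q : ℤ, |u - q| ≤ 1 :=
  ⟨⌊u⌋, by rw [abs_of_nonneg (by linarith [Int.floor_le u])]; linarith [Int.lt_floor_add_one u]⟩

theorem null_inter {U h : ℝ × ℝ → ℝ} (hfin : ∀ k, volume (col h k) ≠ ⊤) :
    volume (⋂ n, QQ U h A n) = 0 := by
  have hsub : (⋂ n, QQ U h A n) ⊆ ⋃ k : ℤ, ⋃ p : ℕ × ℤ × ℤ × ℤ,
      (if volume (col h k ∩ fatV U (2 ^ 0) (rt p)) = 0 then col h k ∩ fatV U (2 ^ 0) (rt p) else ∅) := by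
    intro z hz
    simp only [Set.mem_iInter] at hz
    obtain ⟨k, hk⟩ := col_exists (hz 0).1
    -- an integer line near `z`
    obtain ⟨m, hm⟩ := exists_int_near (U z)
    obtain ⟨b, hb⟩ := exists_int_near (z.2 - m * z.1)
    set j : ℤ := ⌊z.1⌋ with hj
    set p : ℕ × ℤ × ℤ × ℤ := (0, j, b, m) with hp
    have hlen : (rt p).len = 1 := by simp [rt, Tube.len, hp]
    have hI : z.1 ∈ (rt p).I := by
      unfold Tube.I
      rw [hlen]
      refine ⟨?_, ?_⟩
      · simp only [rt, hp, mul_one]; exact Int.floor_le _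
      · simp only [rt, hp, mul_one]; exact Int.lt_floor_add_one _
    have hb' : |z.2 - ((b : ℝ) + m * z.1)| ≤ 1 := by
      have : z.2 - ((b : ℝ) + m * z.1) = z.2 - m * z.1 - b := by ring
      rw [this]; linarith
    have hnear : near U (2 ^ 0) (rt p).b (rt p).m 0 z := by
      refine ⟨?_, ?_⟩
      · simpa [rt, hp] using hb'
      · simp only [rt, hp, pow_zero, mul_one]; linarith
    have hmem : z ∈ col h k ∩ fatV U (2 ^ 0) (rt p) := by
      refine ⟨hk, ⟨⟨hI, ?_⟩, ?_⟩⟩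
      · simpa [rt, hp, Tube.line] using hb'
      · rw [hlen]; simpa [near] using hnear.2
    have hzero : volume (col h k ∩ fatV U (2 ^ 0) (rt p)) = 0 := by
      have h1 : ∀ n : ℕ, (volume (col h k ∩ fatV U (2 ^ 0) (rt p))).toReal ≤ 2 * (1 / 2 : ℝ) ^ n := by
        intro n
        have h2 : upp U h A n k 0 z := by
          by_contra h3
          exact (hz n).2 ⟨k, hk, h3⟩
        have h3 := h2 0 (rt p) (rt_int p) (le_refl _) hI hnear
        rw [hlen] at h3
        simpa using h3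
      have h2 : (volume (col h k ∩ fatV U (2 ^ 0) (rt p))).toReal ≤ 0 := by
        have h3 : Filter.Tendsto (fun n : ℕ => 2 * (1 / 2 : ℝ) ^ n) Filter.atTop (nhds (2 * 0)) :=
          (tendsto_pow_atTop_nhds_zero_of_lt_one (by norm_num) (by norm_num)).const_mul 2
        rw [mul_zero] at h3
        exact ge_of_tendsto' h3 h1
      have h3 : (volume (col h k ∩ fatV U (2 ^ 0) (rt p))).toReal = 0 :=
        le_antisymm h2 ENNReal.toReal_nonneg
      rcases (ENNReal.toReal_eq_zero_iff _).1 h3 with h4 | h4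
      · exact h4
      · exact absurd h4 (ne_top_of_le_ne_top (hfin k) (measure_mono Set.inter_subset_left))
    simp only [Set.mem_iUnion]
    refine ⟨k, p, ?_⟩
    rw [if_pos hzero]
    exact hmem
  refine measure_mono_null hsub ?_
  refine measure_iUnion_null (fun k => measure_iUnion_null (fun p => ?_))
  split_ifs with h1
  · exact h1
  · exact measure_empty

/-! ### telescoping -/

theorem tele (f : ℕ → ℝ) (F : ℕ → ℕ) (hF : ∀ n, F (n + 1) ≤ F n) (lo hi : ℕ) (h0 : hi ≤ F 0) (N : ℕ) :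
    ∑ n ∈ Finset.range N, ∑ s ∈ Finset.Ico (max lo (F (n + 1))) (min hi (F n)), f s =
      ∑ s ∈ Finset.Ico (max lo (F N)) hi, f s := by
  induction N with
  | zero =>
    rw [Finset.range_zero, Finset.sum_empty, Finset.Ico_eq_empty, Finset.sum_empty]
    intro h1
    have := le_max_right lo (F 0)
    omega
  | succ N ih =>
    rw [Finset.sum_range_succ, ih]
    have h1 := hF N
    rcases le_total hi (F N) with h2 | h2
    · rw [min_eq_left h2, Finset.Ico_eq_empty (a := max lo (F N)), Finset.sum_empty, zero_add]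
      intro h3
      have := le_max_right lo (F N)
      omega
    · rw [min_eq_right h2]
      rcases le_total lo (F N) with h3 | h3
      · rw [max_eq_right h3, add_comm,
          Finset.sum_Ico_consecutive _ (max_le h3 h1) h2]
      · rw [max_eq_left h3, max_eq_left (h1.trans h3), Finset.Ico_eq_empty (a := lo) (b := F N),
          Finset.sum_empty, add_zero]
        omega

/-! ### the leaf -/

theorem integrable_sq {h : ℝ × ℝ → ℝ} (hN : Nice h) : Integrable (fun z => (h z) ^ 2) := by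
  obtain ⟨hh, ⟨W, hW⟩, ⟨r, hr⟩⟩ := hN
  have h1 : Integrable ((Metric.closedBall (0 : ℝ × ℝ) r).indicator (fun _ => W ^ 2)) :=
    (integrable_indicator_iff Metric.isClosed_closedBall.measurableSet).2
      (integrableOn_const (measure_closedBall_lt_top).ne)
  refine h1.mono' (hh.pow_const 2).aestronglyMeasurable (Filter.Eventually.of_forall (fun z => ?_))
  rw [Real.norm_eq_abs, abs_of_nonneg (sq_nonneg _)]
  by_cases hz : z ∈ Metric.closedBall (0 : ℝ × ℝ) r
  · rw [Set.indicator_of_mem hz, ← sq_abs (h z)]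
    exact pow_le_pow_left₀ (abs_nonneg _) (hW z) 2
  · rw [Set.indicator_of_notMem hz]
    rw [Metric.mem_closedBall, dist_zero_right, not_le] at hz
    rw [hr z hz]
    norm_num

theorem col_finite {h : ℝ × ℝ → ℝ} (hN : Nice h) (k : ℤ) : volume (col h k) ≠ ⊤ := by
  obtain ⟨hh, ⟨W, hW⟩, ⟨r, hr⟩⟩ := hN
  refine ne_top_of_le_ne_top (measure_closedBall_lt_top (x := (0 : ℝ × ℝ)) (r := r)).ne
    (measure_mono (fun z hz => ?_))
  rw [Metric.mem_closedBall, dist_zero_right]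
  by_contra h1
  have h2 := hr z (not_le.1 h1)
  have h3 := hz.1
  rw [h2, abs_zero] at h3
  have h4 : (0 : ℝ) < 2 ^ k := by positivity
  linarith

theorem cls : CLS := by
  intro A hA U h S lo hi hU hN hch ε hε
  have hA1 : 1 ≤ A := by omega
  have hh : Measurable h := hN.1
  -- the exceptional set
  have hQm : ∀ n, MeasurableSet (QQ U h A n) := fun n =>
    (measurableSet_eq_fun hh measurable_const).compl.diff (measurableSet_bad A hU hh n 0)
  have hanti : Antitone (QQ U h A) := fun n n' hn z hz =>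
    ⟨hz.1, fun h1 => hz.2 (bad_class U h A hn 0 h1)⟩
  have hlim := tendsto_setIntegral_of_antitone (μ := volume) (f := fun z => (h z) ^ 2) hQm hanti
    ⟨0, (integrable_sq hN).integrableOn⟩
  rw [setIntegral_measure_zero _ (null_inter A (col_finite hN))] at hlim
  obtain ⟨n0, hn0⟩ := (hlim.eventually (gt_mem_nhds hε)).exists
  refine ⟨n0, fun n z => max (lo z) (ff U h A S (n + 1) z), fun n z => min (hi z) (ff U h A S n z),
    QQ U h A n0, hQm n0, fun n => ⟨⟨?_, ?_, ?_⟩, ?_, ?_⟩, hn0.le, ?_⟩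
  · exact hch.1.max (measurable_ff A hU hh S (n + 1))
  · exact hch.2.1.min (measurable_ff A hU hh S n)
  · exact fun z => (min_le_left _ _).trans (hch.2.2 z)
  · -- upper density
    intro z _ hlt k hk
    have h1 : min (hi z) (ff U h A S n z) - 1 < ff U h A S n z := by
      have h4 := min_le_right (hi z) (ff U h A S n z)
      have h5 : max (lo z) (ff U h A S (n + 1) z) < min (hi z) (ff U h A S n z) := hlt
      omega
    have h2 := not_bad_of_lt U h A h1
    by_contra h3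
    exact h2 ⟨k, hk, h3⟩
  · -- lower density
    intro z _ hlt k hk h3
    have h1 : max (lo z) (ff U h A S (n + 1) z) < S :=
      lt_of_lt_of_le hlt ((min_le_left _ _).trans (hch.2.2 z))
    obtain ⟨k', hk', h4⟩ := bad_of_lt U h A (le_max_right (lo z) (ff U h A S (n + 1) z)) h1
    rw [col_unique hk' hk] at h4
    exact h4 h3
  · intro z hz hzQ f
    have h0 : ff U h A S n0 z = 0 := by
      have h1 : z ∈ Bad U h A n0 0 := by
        by_contra h2
        exact hzQ ⟨hz, h2⟩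
      exact Nat.le_zero.1 (ff_of_bad U h A h1)
    rw [tele f (fun n => ff U h A S n z) (fun n => ff_anti U h A (Nat.le_succ n) z) (lo z) (hi z)
      (by simp only [ff_zero U h A hA1]; exact hch.2.2 z) n0]
    simp only [h0, Nat.max_zero]

end Crest.Agent.R087.Clsx70
end
end

-- ▼ part R087/Greedy_603
section

/-!
Row 87 (S0115), operator part: ABSTRACT GREEDY SELECTION of tops and measurable attachment (helper603).

* `greedy`  : longest first, maximal families with disjoint `E_m` ("every index meets an earlier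
  (longer or equally long) selected one");
* `sum_le`  : `∑ μ (E m) ≤ μ G` for such a family, also real valued and weighted;
* `attach`  : measurable choice of one selected index per point;
* `attach_nat` : the same for a choice among finitely many numbered conditions.
-/

set_option autoImplicit false

noncomputable section

open MeasureTheory Set
open scoped ENNReal

namespace Crest.Agent.R087.Greedyx603

variable {α : Type*} [MeasurableSpace α]

/-- finitely many disjoint subsets of `G` -/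
theorem sum_le (μ : Measure α) {ι : Type*} (M : Finset ι) (E : ι → Set α) (G : Set α)
    (hE : ∀ m ∈ M, MeasurableSet (E m)) (hEG : ∀ m ∈ M, E m ⊆ G)
    (hd : ∀ m ∈ M, ∀ m' ∈ M, m ≠ m' → Disjoint (E m) (E m')) :
    ∑ m ∈ M, μ (E m) ≤ μ G := by
  rw [← measure_biUnion_finset (fun m hm m' hm' h => hd m hm m' hm' h) hE]
  exact measure_mono (Set.iUnion₂_subset hEG)



/-- a family of disjoint sets of measure `≥ ε` in a set of finite measure has bounded cardinality -/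
theorem card_le (μ : Measure α) {ι : Type*} (E : ι → Set α) (G : Set α)
    (hE : ∀ i, MeasurableSet (E i)) (hEG : ∀ i, E i ⊆ G) (hG : μ G ≠ ∞)
    {ε : ℝ≥0∞} (hε : 0 < ε) (hεE : ∀ i, ε ≤ μ (E i)) :
    ∃ N : ℕ, ∀ M : Finset ι, (∀ m ∈ M, ∀ m' ∈ M, m ≠ m' → Disjoint (E m) (E m')) →
      M.card ≤ N := by
  obtain ⟨N, hN⟩ := exists_nat_gt (μ G / ε).toReal
  refine ⟨N, fun M hM => ?_⟩
  have h1 : (M.card : ℝ≥0∞) * ε ≤ μ G := by
    calc (M.card : ℝ≥0∞) * ε = ∑ _m ∈ M, ε := by simp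
      _ ≤ ∑ m ∈ M, μ (E m) := Finset.sum_le_sum (fun m _ => hεE m)
      _ ≤ μ G := sum_le μ M E G (fun m _ => hE m) (fun m _ => hEG m) hM
  by_cases hM0 : M.card = 0
  · omega
  have hεtop : ε ≠ ∞ := by
    rintro rfl
    obtain ⟨m, hm⟩ := Finset.card_pos.mp (Nat.pos_of_ne_zero hM0)
    exact hG (top_le_iff.mp ((hεE m).trans (measure_mono (hEG m))))
  have h2 : (M.card : ℝ≥0∞) ≤ μ G / ε := by
    rw [ENNReal.le_div_iff_mul_le (Or.inl hε.ne') (Or.inl hεtop)]
    exact h1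
  have h3 : (M.card : ℝ) ≤ (μ G / ε).toReal := by
    have h4 : μ G / ε ≠ ∞ := (ENNReal.div_lt_top hG hε.ne').ne
    have := ENNReal.toReal_mono h4 h2
    simpa using this
  have h5 : (M.card : ℝ) < N := lt_of_le_of_lt h3 hN
  exact le_of_lt (by exact_mod_cast h5)

/-- extension of a disjoint family to one which is maximal among the indices with property `P` -/
theorem extend (μ : Measure α) {ι : Type*} (E : ι → Set α) (G : Set α)
    (hE : ∀ i, MeasurableSet (E i)) (hEG : ∀ i, E i ⊆ G) (hG : μ G ≠ ∞)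
    {ε : ℝ≥0∞} (hε : 0 < ε) (hεE : ∀ i, ε ≤ μ (E i)) (P : ι → Prop)
    (M₀ : Finset ι) (h0 : ∀ m ∈ M₀, ∀ m' ∈ M₀, m ≠ m' → Disjoint (E m) (E m')) :
    ∃ M : Finset ι, M₀ ⊆ M ∧ (∀ m ∈ M, m ∉ M₀ → P m) ∧
      (∀ m ∈ M, ∀ m' ∈ M, m ≠ m' → Disjoint (E m) (E m')) ∧
      ∀ i, P i → ∃ m ∈ M, (E m ∩ E i).Nonempty := by
  classical
  obtain ⟨N, hN⟩ := card_le μ E G hE hEG hG hε hεE
  let Q : ℕ → Prop := fun n => ∃ M : Finset ι, M₀ ⊆ M ∧ (∀ m ∈ M, m ∉ M₀ → P m) ∧
      (∀ m ∈ M, ∀ m' ∈ M, m ≠ m' → Disjoint (E m) (E m')) ∧ M.card = n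
  have hQ0 : Q M₀.card := ⟨M₀, Finset.Subset.refl _, fun m hm hm' => absurd hm hm', h0, rfl⟩
  have hQN : ∀ n, Q n → n ≤ N := by
    rintro n ⟨M, -, -, h, rfl⟩
    exact hN M h
  obtain ⟨M, hM1, hM2, hM3, hM4⟩ : Q (Nat.findGreatest Q N) :=
    Nat.findGreatest_spec (hQN _ hQ0) hQ0
  refine ⟨M, hM1, hM2, hM3, fun i hi => ?_⟩
  by_contra hcon
  push Not at hcon
  have hdis : ∀ m ∈ M, Disjoint (E m) (E i) := by
    intro m hm
    rw [Set.disjoint_iff_inter_eq_empty]
    exact hcon m hm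
  have hne : (E i).Nonempty := by
    rw [Set.nonempty_iff_ne_empty]
    intro h
    have := hεE i
    rw [h, measure_empty] at this
    exact absurd this (not_le.mpr hε)
  have hiM : i ∉ M := by
    intro h
    have := hdis i h
    rw [disjoint_self] at this
    exact hne.ne_empty this
  have hQ1 : Q (M.card + 1) := by
    refine ⟨insert i M, hM1.trans (Finset.subset_insert _ _), ?_, ?_, ?_⟩
    · intro m hm hm'
      rcases Finset.mem_insert.mp hm with rfl | hm
      · exact hi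
      · exact hM2 m hm hm'
    · intro m hm m' hm' hne'
      rcases Finset.mem_insert.mp hm with h1 | h1
      · rcases Finset.mem_insert.mp hm' with h2 | h2
        · exact absurd (h1.trans h2.symm) hne'
        · rw [h1]; exact (hdis m' h2).symm
      · rcases Finset.mem_insert.mp hm' with h2 | h2
        · rw [h2]; exact hdis m h1
        · exact hM3 m h1 m' h2 hne'
    · rw [Finset.card_insert_of_notMem hiM]
  have := Nat.le_findGreatest (hQN _ hQ1) hQ1
  omega

/-- **Greedy selection**, longest (= smallest level) first. -/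
theorem greedy (μ : Measure α) {ι : Type*} (lv : ι → ℕ) (S : ℕ) (hlv : ∀ i, lv i < S)
    (E : ι → Set α) (G : Set α)
    (hE : ∀ i, MeasurableSet (E i)) (hEG : ∀ i, E i ⊆ G) (hG : μ G ≠ ∞)
    {ε : ℝ≥0∞} (hε : 0 < ε) (hεE : ∀ i, ε ≤ μ (E i)) :
    ∃ M : Finset ι, (∀ m ∈ M, ∀ m' ∈ M, m ≠ m' → Disjoint (E m) (E m')) ∧
      ∀ i, ∃ m ∈ M, lv m ≤ lv i ∧ (E m ∩ E i).Nonempty := by
  classical
  have key : ∀ s : ℕ, ∃ M : Finset ι, (∀ m ∈ M, lv m < s) ∧
      (∀ m ∈ M, ∀ m' ∈ M, m ≠ m' → Disjoint (E m) (E m')) ∧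
      ∀ i, lv i < s → ∃ m ∈ M, lv m ≤ lv i ∧ (E m ∩ E i).Nonempty := by
    intro s
    induction s with
    | zero => exact ⟨∅, by simp, by simp, fun i hi => absurd hi (Nat.not_lt_zero _)⟩
    | succ s ih =>
      obtain ⟨M₀, h1, h2, h3⟩ := ih
      obtain ⟨M, g1, g2, g3, g4⟩ := extend μ E G hE hEG hG hε hεE (fun i => lv i = s) M₀ h2
      refine ⟨M, ?_, g3, ?_⟩
      · intro m hm
        by_cases hm0 : m ∈ M₀
        · exact (h1 m hm0).trans (Nat.lt_succ_self s)
        · rw [g2 m hm hm0]; exact Nat.lt_succ_self s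
      · intro i hi
        rcases Nat.lt_succ_iff_lt_or_eq.mp hi with hi | hi
        · obtain ⟨m, hm, hm1, hm2⟩ := h3 i hi
          exact ⟨m, g1 hm, hm1, hm2⟩
        · obtain ⟨m, hm, hm2⟩ := g4 i hi
          refine ⟨m, hm, ?_, hm2⟩
          by_cases hm0 : m ∈ M₀
          · have := h1 m hm0
            omega
          · have := g2 m hm hm0
            omega
  obtain ⟨M, -, h2, h3⟩ := key S
  exact ⟨M, h2, fun i => h3 i (hlv i)⟩

/-- greedy selection inside a predicate (the admissible tiles): the index type is the whole type,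
only indices with `P` are selected and only they are covered. -/
theorem greedyP (μ : Measure α) {ι : Type*} (P : ι → Prop) (lv : ι → ℕ) (S : ℕ)
    (hlv : ∀ i, P i → lv i < S) (E : ι → Set α) (G : Set α)
    (hE : ∀ i, P i → MeasurableSet (E i)) (hEG : ∀ i, P i → E i ⊆ G) (hG : μ G ≠ ∞)
    {ε : ℝ≥0∞} (hε : 0 < ε) (hεE : ∀ i, P i → ε ≤ μ (E i)) :
    ∃ M : Finset ι, (∀ m ∈ M, P m) ∧
      (∀ m ∈ M, ∀ m' ∈ M, m ≠ m' → Disjoint (E m) (E m')) ∧
      ∀ i, P i → ∃ m ∈ M, lv m ≤ lv i ∧ (E m ∩ E i).Nonempty := by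
  classical
  obtain ⟨M, h1, h2⟩ := greedy μ (ι := {i // P i}) (fun i => lv i.1) S (fun i => hlv i.1 i.2)
    (fun i => E i.1) G (fun i => hE i.1 i.2) (fun i => hEG i.1 i.2) hG hε (fun i => hεE i.1 i.2)
  refine ⟨M.map (Function.Embedding.subtype P), ?_, ?_, ?_⟩
  · intro m hm
    simp only [Finset.mem_map, Function.Embedding.subtype_apply] at hm
    obtain ⟨a, -, rfl⟩ := hm
    exact a.2
  · intro m hm m' hm' hne
    simp only [Finset.mem_map, Function.Embedding.subtype_apply] at hm hm'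
    obtain ⟨a, ha, rfl⟩ := hm
    obtain ⟨b, hb, rfl⟩ := hm'
    exact h1 a ha b hb (fun h => hne (by rw [h]))
  · intro i hi
    obtain ⟨m, hm, hm1, hm2⟩ := h2 ⟨i, hi⟩
    refine ⟨m.1, ?_, hm1, hm2⟩
    simp only [Finset.mem_map, Function.Embedding.subtype_apply]
    exact ⟨m, hm, rfl⟩

/-- measurable choice of one index per point: `A m ⊆ R m` disjoint with the same union. -/
theorem attach {ι : Type*} (M : Finset ι) (R : ι → Set α) (hR : ∀ m ∈ M, MeasurableSet (R m)) :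
    ∃ A : ι → Set α, (∀ m, MeasurableSet (A m)) ∧ (∀ m, A m ⊆ R m) ∧
      (∀ m, m ∉ M → A m = ∅) ∧
      (∀ m m', m ≠ m' → Disjoint (A m) (A m')) ∧
      (∀ z, (∃ m ∈ M, z ∈ R m) → ∃ m ∈ M, z ∈ A m) := by
  classical
  induction M using Finset.induction_on with
  | empty =>
    refine ⟨fun _ => ∅, fun _ => MeasurableSet.empty, fun _ => Set.empty_subset _,
      fun _ _ => rfl, fun _ _ _ => disjoint_bot_left, ?_⟩
    rintro z ⟨m, hm, -⟩
    simp at hm
  | insert a M ha ih =>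
    obtain ⟨A, h1, h2, h3, h4, h5⟩ := ih (fun m hm => hR m (Finset.mem_insert_of_mem hm))
    let W : Set α := ⋃ m ∈ M, A m
    have hW : MeasurableSet W := Finset.measurableSet_biUnion M (fun m _ => h1 m)
    refine ⟨fun m => if m = a then R a \ W else A m, ?_, ?_, ?_, ?_, ?_⟩
    · intro m
      by_cases h : m = a
      · simp only [h, if_true]
        exact (hR a (Finset.mem_insert_self a M)).diff hW
      · simp only [h, if_false]; exact h1 m
    · intro m
      by_cases h : m = a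
      · simp only [h, if_true]; exact Set.sdiff_subset
      · simp only [h, if_false]; exact h2 m
    · intro m hm
      have hma : m ≠ a := fun h => hm (h ▸ Finset.mem_insert_self a M)
      simp only [hma, if_false]
      exact h3 m (fun h => hm (Finset.mem_insert_of_mem h))
    · have hdis : ∀ m, m ≠ a → Disjoint (R a \ W) (A m) := by
        intro m _
        by_cases hmM : m ∈ M
        · rw [Set.disjoint_left]
          intro z hz hz'
          exact hz.2 (Set.mem_biUnion hmM hz')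
        · rw [h3 m hmM]; exact disjoint_bot_right
      intro m m' hne
      by_cases h : m = a
      · have h' : m' ≠ a := fun h' => hne (h.trans h'.symm)
        simp only [h, h', if_true, if_false]
        exact hdis m' h'
      · by_cases h' : m' = a
        · simp only [h, h', if_true, if_false]
          exact (hdis m h).symm
        · simp only [h, h', if_false]
          exact h4 m m' hne
    · rintro z ⟨m, hm, hz⟩
      by_cases hzW : z ∈ W
      · obtain ⟨m', hm', hz'⟩ := Set.mem_iUnion₂.mp hzW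
        have hne : m' ≠ a := fun h => ha (h ▸ hm')
        refine ⟨m', Finset.mem_insert_of_mem hm', ?_⟩
        simp only [hne, if_false]
        exact hz'
      · rcases Finset.mem_insert.mp hm with rfl | hm
        · refine ⟨m, Finset.mem_insert_self _ _, ?_⟩
          simp only [if_true]
          exact ⟨hz, hzW⟩
        · obtain ⟨m', hm', hz'⟩ := h5 z ⟨m, hm, hz⟩
          exact absurd (Set.mem_biUnion hm' hz') hzW

end Crest.Agent.R087.Greedyx603
end
end

-- ▼ part R087/Tops_565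
section

/-!
# Row 87, operator part: selection of the tops and attachment of the points (leaf `TOPS`)

`tops_core` is generic in the set of admissible lines (`P : Tube → Prop`); `tops : TOPS`.
-/

set_option autoImplicit false

noncomputable section

open MeasureTheory

namespace Crest.Agent.R087.Topsx565

open Crest.Agent.R087 Sh0x283 E2x542 E2Kx752 GateDefx273 OP0x270

/-! ### dyadic intervals -/

theorem mem_I_iff (R : Tube) (t : ℝ) : t ∈ R.I ↔ ⌊(2 : ℝ) ^ R.k * t⌋ = R.j := by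
  have hp : (0 : ℝ) < 2 ^ R.k := by positivity
  have hl : (1 / 2 : ℝ) ^ R.k = ((2 : ℝ) ^ R.k)⁻¹ := by rw [one_div, inv_pow]
  rw [Int.floor_eq_iff]
  unfold Tube.I Tube.len
  rw [Set.mem_Ico, hl, ← div_eq_mul_inv, ← div_eq_mul_inv, div_le_iff₀ hp, lt_div_iff₀ hp,
    mul_comm t]

theorem floor_coarse {k k' : ℕ} (h : k ≤ k') (t : ℝ) :
    ⌊(2 : ℝ) ^ k * t⌋ = ⌊(2 : ℝ) ^ k' * t⌋ / (2 : ℤ) ^ (k' - k) := by
  have h1 : (2 : ℝ) ^ k * t = (2 : ℝ) ^ k' * t / ((2 ^ (k' - k) : ℕ) : ℝ) := by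
    have h2 : (2 : ℝ) ^ k' = 2 ^ k * 2 ^ (k' - k) := by rw [← pow_add]; congr 1; omega
    rw [h2]
    push_cast
    field_simp
  rw [h1, Int.floor_div_natCast]
  push_cast
  rfl

/-- nested dyadic intervals -/
theorem I_subset {R0 R1 : Tube} (hk : R1.k ≤ R0.k) {w : ℝ} (h0 : w ∈ R0.I) (h1 : w ∈ R1.I) :
    R0.I ⊆ R1.I := by
  intro t ht
  rw [mem_I_iff] at h0 h1 ht ⊢
  rw [floor_coarse hk] at h1 ⊢
  rw [ht, ← h0, h1]

theorem abs_sub_le_len {R : Tube} {s t : ℝ} (hs : s ∈ R.I) (ht : t ∈ R.I) : |s - t| ≤ R.len := by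
  unfold Tube.I at hs ht
  rw [Set.mem_Ico] at hs ht
  have h1 : (R.j + 1 : ℝ) * R.len = R.j * R.len + R.len := by ring
  rw [abs_le]
  constructor <;> linarith [hs.1, hs.2, ht.1, ht.2]

/-- the geometric heart: two fat tubes with a common direction point -/
theorem near_of_meet {U : ℝ × ℝ → ℝ} {K : ℝ} {R0 R1 : Tube} (hk : R1.k ≤ R0.k) {w z : ℝ × ℝ}
    {s : ℕ} (hs : R0.k ≤ s) (hw0 : w ∈ fatV U K R0) (hw1 : w ∈ fatV U K R1) (hz : z.1 ∈ R0.I)
    (hn : near U K R0.b R0.m s z) :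
    z.1 ∈ R1.I ∧ near U (5 * K) R1.b R1.m s z := by
  obtain ⟨⟨hw0I, hw0l⟩, hw0U⟩ := hw0
  obtain ⟨⟨hw1I, hw1l⟩, hw1U⟩ := hw1
  obtain ⟨hn1, hn2⟩ := hn
  have hK : 0 ≤ K := (abs_nonneg _).trans hn1
  have hlen : R0.len ≤ R1.len := by
    unfold Tube.len
    exact pow_le_pow_of_le_one (by norm_num) (by norm_num) hk
  have hl0 : 0 < R0.len := R0.len_pos
  have hm : |R0.m - R1.m| * R0.len ≤ 2 * K := by
    have h1 : |R0.m - R1.m| ≤ |U w - R0.m| + |U w - R1.m| := by
      have : R0.m - R1.m = (U w - R1.m) - (U w - R0.m) := by ring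
      rw [this]
      calc |(U w - R1.m) - (U w - R0.m)| ≤ |U w - R1.m| + |U w - R0.m| := abs_sub _ _
        _ = _ := by ring
    calc |R0.m - R1.m| * R0.len ≤ (|U w - R0.m| + |U w - R1.m|) * R0.len := by gcongr
      _ = |U w - R0.m| * R0.len + |U w - R1.m| * R0.len := by ring
      _ ≤ K + |U w - R1.m| * R1.len := by
          gcongr
      _ ≤ 2 * K := by linarith
  refine ⟨I_subset hk hw0I hw1I hz, ?_, ?_⟩
  · -- position
    have h1 : |z.1 - w.1| ≤ R0.len := abs_sub_le_len hz hw0I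
    have h2 : |(R0.m - R1.m) * (z.1 - w.1)| ≤ 2 * K := by
      rw [abs_mul]
      calc |R0.m - R1.m| * |z.1 - w.1| ≤ |R0.m - R1.m| * R0.len := by gcongr
        _ ≤ 2 * K := hm
    have h3 : z.2 - (R1.b + R1.m * z.1) =
        (z.2 - (R0.b + R0.m * z.1)) + (R0.m - R1.m) * (z.1 - w.1) +
          ((w.2 - R1.line w.1) - (w.2 - R0.line w.1)) := by
      unfold Tube.line; ring
    rw [h3]
    calc |(z.2 - (R0.b + R0.m * z.1)) + (R0.m - R1.m) * (z.1 - w.1) +
          ((w.2 - R1.line w.1) - (w.2 - R0.line w.1))|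
        ≤ |z.2 - (R0.b + R0.m * z.1)| + |(R0.m - R1.m) * (z.1 - w.1)| +
          (|w.2 - R1.line w.1| + |w.2 - R0.line w.1|) := by
            refine (abs_add_le _ _).trans (add_le_add (abs_add_le _ _) (abs_sub _ _))
      _ ≤ K + 2 * K + (K + K) := by gcongr
      _ = 5 * K := by ring
  · have h1 : (1 / 2 : ℝ) ^ s ≤ R0.len := by
      unfold Tube.len
      exact pow_le_pow_of_le_one (by norm_num) (by norm_num) hs
    have h2 : |U z - R1.m| ≤ |U z - R0.m| + |R0.m - R1.m| := by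
      have : U z - R1.m = (U z - R0.m) + (R0.m - R1.m) := by ring
      rw [this]
      exact abs_add_le _ _
    calc |U z - R1.m| * (1 / 2 : ℝ) ^ s ≤ (|U z - R0.m| + |R0.m - R1.m|) * (1 / 2 : ℝ) ^ s := by
          gcongr
      _ = |U z - R0.m| * (1 / 2 : ℝ) ^ s + |R0.m - R1.m| * (1 / 2 : ℝ) ^ s := by ring
      _ ≤ K + |R0.m - R1.m| * R0.len := by gcongr
      _ ≤ 5 * K := by linarith

/-! ### measurability -/

theorem measurableSet_col {h : ℝ × ℝ → ℝ} (hh : Measurable h) (k : ℤ) : MeasurableSet (col h k) := by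
  have h1 : MeasurableSet {z | (2 : ℝ) ^ k ≤ |h z|} := measurableSet_le measurable_const hh.abs
  have h2 : MeasurableSet {z | |h z| < (2 : ℝ) ^ (k + 1)} := measurableSet_lt hh.abs measurable_const
  exact h1.inter h2

theorem measurableSet_near {U : ℝ × ℝ → ℝ} (hU : Measurable U) {lo : ℝ × ℝ → ℕ}
    (hlo : Measurable lo) (K b m : ℝ) : MeasurableSet {z | near U K b m (lo z) z} := by
  have h1 : MeasurableSet {z : ℝ × ℝ | |z.2 - (b + m * z.1)| ≤ K} := by
    apply measurableSet_le _ measurable_const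
    fun_prop
  have h2 : MeasurableSet {z : ℝ × ℝ | |U z - m| * (1 / 2 : ℝ) ^ (lo z) ≤ K} := by
    apply measurableSet_le _ measurable_const
    have h3 : Measurable (fun z : ℝ × ℝ => (1 / 2 : ℝ) ^ (lo z)) :=
      (measurable_from_nat (f := fun n : ℕ => (1 / 2 : ℝ) ^ n)).comp hlo
    have h4 : Measurable (fun z : ℝ × ℝ => |U z - m|) := (hU.sub_const m).abs
    exact h4.mul h3
  exact h1.inter h2

theorem measurableSet_lolt {lo hi : ℝ × ℝ → ℕ} (hlo : Measurable lo) (hhi : Measurable hi) :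
    MeasurableSet {z | lo z < hi z} := measurableSet_lt hlo hhi

/-! ### colours -/

theorem exists_col {h : ℝ × ℝ → ℝ} {z : ℝ × ℝ} (hz : h z ≠ 0) : ∃ k : ℤ, z ∈ col h k := by
  obtain ⟨k, hk⟩ := exists_mem_Ico_zpow (abs_pos.mpr hz) (one_lt_two)
  exact ⟨k, hk.1, hk.2⟩

theorem col_disjoint {h : ℝ × ℝ → ℝ} {k k' : ℤ} (hkk : k ≠ k') : Disjoint (col h k) (col h k') := by
  rw [Set.disjoint_left]
  rintro z ⟨h1, h2⟩ ⟨h3, h4⟩
  have h5 : (2 : ℝ) ^ k < 2 ^ (k' + 1) := lt_of_le_of_lt h1 h4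
  have h6 : (2 : ℝ) ^ k' < 2 ^ (k + 1) := lt_of_le_of_lt h3 h2
  have h7 := (zpow_lt_zpow_iff_right₀ (one_lt_two (α := ℝ))).mp h5
  have h8 := (zpow_lt_zpow_iff_right₀ (one_lt_two (α := ℝ))).mp h6
  exact hkk (by omega)

theorem finite_colours {h : ℝ × ℝ → ℝ} (hh : Nice h) (hg : Gap h) :
    ∃ Ks : Finset ℤ, ∀ k z, z ∈ col h k → k ∈ Ks := by
  obtain ⟨-, ⟨M, hM⟩, -⟩ := hh
  obtain ⟨ε, hε, hgap⟩ := hg
  obtain ⟨a, ha⟩ := exists_mem_Ico_zpow hε (one_lt_two (α := ℝ))
  obtain ⟨b, hb⟩ := exists_mem_Ico_zpow (lt_of_lt_of_le one_pos (le_max_right M 1)) (one_lt_two (α := ℝ))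
  refine ⟨Finset.Icc (a - 1) (b + 1), ?_⟩
  rintro k z ⟨h1, h2⟩
  have hk0 : (0 : ℝ) < 2 ^ k := by positivity
  have hz : h z ≠ 0 := by
    intro h0
    rw [h0, abs_zero] at h1
    linarith
  have h3 : ε ≤ |h z| := (hgap z).resolve_left hz
  have h4 : |h z| ≤ max M 1 := (hM z).trans (le_max_left _ _)
  have h5 : (2 : ℝ) ^ a < 2 ^ (k + 1) := lt_of_le_of_lt (ha.1.trans h3) h2
  have h6 : (2 : ℝ) ^ k < 2 ^ (b + 1) := lt_of_le_of_lt (h1.trans h4) hb.2
  have h7 := (zpow_lt_zpow_iff_right₀ (one_lt_two (α := ℝ))).mp h5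
  have h8 := (zpow_lt_zpow_iff_right₀ (one_lt_two (α := ℝ))).mp h6
  rw [Finset.mem_Icc]
  constructor <;> omega

theorem volume_col_ne_top {h : ℝ × ℝ → ℝ} (hh : Nice h) (k : ℤ) : volume (col h k) ≠ ⊤ := by
  obtain ⟨-, -, R, hR⟩ := hh
  have hsub : col h k ⊆ Metric.closedBall 0 R := by
    rintro z ⟨h1, -⟩
    rw [mem_closedBall_zero_iff]
    by_contra hcon
    push Not at hcon
    have h0 := hR z hcon
    rw [h0, abs_zero] at h1
    have hk0 : (0 : ℝ) < 2 ^ k := by positivity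
    linarith
  exact ne_top_of_le_ne_top (measure_closedBall_lt_top).ne (measure_mono hsub)

/-! ### the range of the dilations -/

theorem i_le {U h : ℝ × ℝ → ℝ} {A n i : ℕ} (hA : 2 ≤ A) {k : ℤ} {R : Tube}
    (hd : 2 ^ (A * i) * ((1 / 2 : ℝ) ^ n) * R.len < (volume (col h k ∩ fatV U (2 ^ i) R)).toReal) :
    i ≤ n := by
  have h1 : (volume (col h k ∩ fatV U (2 ^ i) R)).toReal ≤ 2 * 2 ^ i * R.len := by
    have h2 : (volume (fat (2 ^ i) R)).toReal = 2 * 2 ^ i * R.len := by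
      rw [volume_fat, ENNReal.toReal_ofReal]
      have := R.len_pos
      positivity
    rw [← h2]
    apply ENNReal.toReal_mono (fat_ne_top _ _)
    exact measure_mono (fun z hz => hz.2.1)
  have hl : 0 < R.len := R.len_pos
  have h3 : (2 : ℝ) ^ (A * i) * ((1 / 2 : ℝ) ^ n) < 2 * 2 ^ i := lt_of_mul_lt_mul_right (lt_of_lt_of_le hd h1) hl.le
  by_contra hcon
  push Not at hcon
  have h4 : (2 : ℝ) ^ (A * i) < 2 ^ (i + 1 + n) := by
    have h5 : (1 / 2 : ℝ) ^ n * 2 ^ n = 1 := by rw [← mul_pow]; norm_num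
    calc (2 : ℝ) ^ (A * i) = 2 ^ (A * i) * ((1 / 2 : ℝ) ^ n * 2 ^ n) := by rw [h5, mul_one]
      _ = (2 ^ (A * i) * (1 / 2 : ℝ) ^ n) * 2 ^ n := by ring
      _ < (2 * 2 ^ i) * 2 ^ n := by gcongr
      _ = 2 ^ (i + 1 + n) := by ring
  have h6 := (pow_lt_pow_iff_right₀ (one_lt_two (α := ℝ))).mp h4
  have h7 : 2 * i ≤ A * i := Nat.mul_le_mul_right _ hA
  omega

/-! ### the selection -/

/-- admissible candidates of the colour `k` with dilation `2^i` -/
def Cand (P : Tube → Prop) (U h : ℝ × ℝ → ℝ) (A n S : ℕ) (k : ℤ) (i : ℕ) (R : Tube) : Prop :=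
  P R ∧ R.k < S ∧
    2 ^ (A * i) * ((1 / 2 : ℝ) ^ n) * R.len < (volume (col h k ∩ fatV U (2 ^ i) R)).toReal

theorem select (P : Tube → Prop) {U h : ℝ × ℝ → ℝ} (hU : Measurable U) (hh : Nice h) (A n S : ℕ)
    (k : ℤ) (i : ℕ) :
    ∃ M : Finset Tube, (∀ R ∈ M, Cand P U h A n S k i R) ∧
      (∀ R ∈ M, ∀ R' ∈ M, R ≠ R' →
        Disjoint (col h k ∩ fatV U (2 ^ i) R) (col h k ∩ fatV U (2 ^ i) R')) ∧
      ∀ R, Cand P U h A n S k i R → ∃ R' ∈ M, R'.k ≤ R.k ∧
        ((col h k ∩ fatV U (2 ^ i) R') ∩ (col h k ∩ fatV U (2 ^ i) R)).Nonempty := by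
  have hε : (0 : ENNReal) < ENNReal.ofReal (2 ^ (A * i) * ((1 / 2 : ℝ) ^ n) * (1 / 2 : ℝ) ^ S) := by
    rw [ENNReal.ofReal_pos]; positivity
  obtain ⟨M, h1, h2, h3⟩ := Greedyx603.greedyP volume (Cand P U h A n S k i) (fun R => R.k) S
    (fun R hR => hR.2.1) (fun R => col h k ∩ fatV U (2 ^ i) R) (col h k)
    (fun R _ => (measurableSet_col hh.1 k).inter (measurableSet_fatV hU _ _))
    (fun R _ => Set.inter_subset_left) (volume_col_ne_top hh k) hε (fun R hR => by
      have h4 : volume (col h k ∩ fatV U (2 ^ i) R) ≠ ⊤ :=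
        ne_top_of_le_ne_top (volume_col_ne_top hh k) (measure_mono Set.inter_subset_left)
      rw [← ENNReal.ofReal_toReal h4]
      apply ENNReal.ofReal_le_ofReal
      refine le_trans ?_ hR.2.2.le
      have h5 : (1 / 2 : ℝ) ^ S ≤ R.len := by
        unfold Tube.len
        exact pow_le_pow_of_le_one (by norm_num) (by norm_num) hR.2.1.le
      gcongr)
  exact ⟨M, h1, h2, h3⟩

/-- **tops, generic in the admissible lines**: for a predicate `D i k z` on points the density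
hypothesis gives a candidate. -/
theorem tops_core (P : Tube → Prop) {U h : ℝ × ℝ → ℝ} (hU : Measurable U) (hh : Nice h)
    (hgap : Gap h) (A n S : ℕ) (hA : 2 ≤ A) (lo hi : ℝ × ℝ → ℕ) (hc : Chain S lo hi)
    (hlow : ∀ z, h z ≠ 0 → lo z < hi z → ∀ k, z ∈ col h k → ∃ (i : ℕ) (R : Tube), P R ∧
      R.k ≤ lo z ∧ z.1 ∈ R.I ∧ near U (2 ^ i) R.b R.m (lo z) z ∧
      2 ^ (A * i) * ((1 / 2 : ℝ) ^ n) * R.len < (volume (col h k ∩ fatV U (2 ^ i) R)).toReal) :
    ∃ (N : ℕ) (R : Fin N → Tube) (k : Fin N → ℤ) (i : Fin N → ℕ) (E B : Fin N → Set (ℝ × ℝ)),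
      (∀ m, P (R m)) ∧ (∀ m, (R m).k < S) ∧ (∀ m, i m ≤ n) ∧
      (∀ m, MeasurableSet (E m)) ∧
      (∀ m, E m = col h (k m) ∩ fatV U (2 ^ i m) (R m)) ∧
      (∀ m m', m ≠ m' → i m = i m' → Disjoint (E m) (E m')) ∧
      (∀ m, (1 / 2 : ℝ) ^ n * 2 ^ (A * i m) * (R m).len < (volume (E m)).toReal) ∧
      (∀ m, MeasurableSet (B m)) ∧ Pairwise (Function.onFun Disjoint B) ∧
      (⋃ m, B m) = {z | h z ≠ 0 ∧ lo z < hi z} ∧
      (∀ m, B m ⊆ col h (k m)) ∧
      ∀ m, ∀ z ∈ B m, z.1 ∈ (R m).I ∧ (R m).k ≤ lo z ∧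
        near U (5 * 2 ^ i m) (R m).b (R m).m (lo z) z := by
  classical
  obtain ⟨Ks, hKs⟩ := finite_colours hh hgap
  choose M hM1 hM2 hM3 using fun (k : ℤ) (i : ℕ) => select P hU hh A n S k i
  -- the finite index set
  let T : Finset (Σ _ : ℤ × ℕ, Tube) := (Ks ×ˢ Finset.range (n + 1)).sigma (fun p => M p.1 p.2)
  let Rg : (Σ _ : ℤ × ℕ, Tube) → Set (ℝ × ℝ) := fun t =>
    {z | h z ≠ 0 ∧ lo z < hi z} ∩ (col h t.1.1 ∩ ({z | z.1 ∈ t.2.I} ∩
      ({z | t.2.k ≤ lo z} ∩ {z | near U (5 * 2 ^ t.1.2) t.2.b t.2.m (lo z) z})))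
  have hRg : ∀ t, MeasurableSet (Rg t) := by
    intro t
    have g1 : MeasurableSet {z : ℝ × ℝ | h z ≠ 0 ∧ lo z < hi z} :=
      ((measurableSet_eq_fun hh.1 measurable_const).compl).inter (measurableSet_lolt hc.1 hc.2.1)
    have g2 : MeasurableSet {z : ℝ × ℝ | z.1 ∈ t.2.I} := measurable_fst t.2.measurableSet_I
    have g3 : MeasurableSet {z : ℝ × ℝ | t.2.k ≤ lo z} := measurableSet_le measurable_const hc.1
    exact g1.inter ((measurableSet_col hh.1 _).inter (g2.inter (g3.inter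
      (measurableSet_near hU hc.1 _ _ _))))
  obtain ⟨B, hB1, hB2, hB3, hB4, hB5⟩ := Greedyx603.attach T Rg (fun t _ => hRg t)
  let e := T.equivFin
  let f : Fin T.card → (Σ _ : ℤ × ℕ, Tube) := fun m => (e.symm m).1
  have hf : ∀ m, f m ∈ T := fun m => (e.symm m).2
  have hfi : Function.Injective f := fun a b hab => e.symm.injective (Subtype.ext hab)
  have hfs : ∀ t ∈ T, ∃ m, f m = t := fun t ht => ⟨e ⟨t, ht⟩, by simp [f]⟩
  have hmem : ∀ m, f m ∈ T → (f m).1.1 ∈ Ks ∧ (f m).1.2 < n + 1 ∧ (f m).2 ∈ M (f m).1.1 (f m).1.2 := by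
    intro m hm
    have h1 := Finset.mem_sigma.mp hm
    have h2 := Finset.mem_product.mp h1.1
    exact ⟨h2.1, Finset.mem_range.mp h2.2, h1.2⟩
  refine ⟨T.card, fun m => (f m).2, fun m => (f m).1.1, fun m => (f m).1.2,
    fun m => col h (f m).1.1 ∩ fatV U (2 ^ (f m).1.2) (f m).2, fun m => B (f m), ?_, ?_, ?_, ?_,
    fun _ => rfl, ?_, ?_, ?_, ?_, ?_, ?_, ?_⟩
  · exact fun m => (hM1 _ _ _ (hmem m (hf m)).2.2).1
  · exact fun m => (hM1 _ _ _ (hmem m (hf m)).2.2).2.1
  · exact fun m => Nat.lt_succ_iff.mp (hmem m (hf m)).2.1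
  · exact fun m => (measurableSet_col hh.1 _).inter (measurableSet_fatV hU _ _)
  · intro m m' hne hi0
    have hi' : (f m).1.2 = (f m').1.2 := hi0
    have hne' : f m ≠ f m' := fun h => hne (hfi h)
    by_cases hk : (f m).1.1 = (f m').1.1
    · -- same colour, same dilation: different tubes
      have h1 : (f m).1 = (f m').1 := Prod.ext hk hi'
      have h2 : (f m).2 ≠ (f m').2 := by
        intro h3
        apply hne'
        exact Sigma.ext h1 (heq_of_eq h3)
      have h4 := hM2 (f m).1.1 (f m).1.2 (f m).2 (hmem m (hf m)).2.2 (f m').2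
        (by rw [hk, hi']; exact (hmem m' (hf m')).2.2) h2
      show Disjoint (col h (f m).1.1 ∩ fatV U (2 ^ (f m).1.2) (f m).2)
        (col h (f m').1.1 ∩ fatV U (2 ^ (f m').1.2) (f m').2)
      rw [← hk, ← hi']
      exact h4
    · exact (col_disjoint hk).mono Set.inter_subset_left Set.inter_subset_left
  · intro m
    have h1 := (hM1 _ _ _ (hmem m (hf m)).2.2).2.2
    calc (1 / 2 : ℝ) ^ n * 2 ^ (A * (f m).1.2) * (f m).2.len
        = 2 ^ (A * (f m).1.2) * (1 / 2 : ℝ) ^ n * (f m).2.len := by ring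
      _ < _ := h1
  · exact fun m => hB1 _
  · intro m m' hne
    exact hB4 _ _ (fun h => hne (hfi h))
  · ext z
    simp only [Set.mem_iUnion]
    constructor
    · rintro ⟨m, hm⟩
      exact (hB2 _ hm).1
    · intro hz
      obtain ⟨k, hk⟩ := exists_col hz.1
      obtain ⟨i, R0, hP, hR0k, hzI, hn, hd⟩ := hlow z hz.1 hz.2 k hk
      have hcand : Cand P U h A n S k i R0 :=
        ⟨hP, lt_of_le_of_lt hR0k (lt_of_lt_of_le hz.2 (hc.2.2 z)), hd⟩
      obtain ⟨R1, hR1, hR1k, w, hw1, hw0⟩ := hM3 k i R0 hcand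
      obtain ⟨g1, g2⟩ := near_of_meet hR1k hR0k hw0.2 hw1.2 hzI hn
      have hT : (⟨(k, i), R1⟩ : Σ _ : ℤ × ℕ, Tube) ∈ T := by
        refine Finset.mem_sigma.mpr ⟨Finset.mem_product.mpr ⟨hKs k z hk, ?_⟩, hR1⟩
        exact Finset.mem_range.mpr (Nat.lt_succ_of_le (i_le hA hd))
      obtain ⟨t, ht, hzt⟩ := hB5 z ⟨_, hT, hz, hk, g1, hR1k.trans hR0k, g2⟩
      obtain ⟨m, rfl⟩ := hfs t ht
      exact ⟨m, hzt⟩
  · exact fun m z hz => (hB2 _ hz).2.1
  · intro m z hz
    have h1 := hB2 _ hz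
    exact ⟨h1.2.2.1, h1.2.2.2.1, h1.2.2.2.2⟩

/-- **leaf TOPS** -/
theorem tops : TOPS := by
  intro A n hA U h S lo hi hU hh hgap hc hlow
  obtain ⟨N, R, k, i, E, B, h1, -, -, h3, h4, h5, h6, h7, h8, h9, h10, h11⟩ :=
    tops_core IntT hU hh hgap A n S hA lo hi hc (by
      intro z hz hlt k hk
      have h1 := hlow z hz hlt k hk
      unfold upp at h1
      push Not at h1
      obtain ⟨i, R, h2, h3, h4, h5, h6⟩ := h1
      refine ⟨i, R, h2, h3, h4, h5, ?_⟩
      have h7 : (2 : ℝ) * (1 / 2) ^ (n + 1) = (1 / 2) ^ n := by rw [pow_succ]; ring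
      rw [h7] at h6
      exact h6)
  exact ⟨N, R, k, i, E, B,
    { intT := h1
      mE := h3
      subE := fun m => (h4 m).le
      disE := h5
      mass := fun m => (h6 m).le
      mB := h7
      disB := h8
      subB := h10
      unB := fun z hz hlt => by
        have h12 : z ∈ (⋃ m, B m) := by rw [h9]; exact ⟨hz, hlt⟩
        exact Set.mem_iUnion.mp h12
      top := fun m z hz _ => h11 m z hz }⟩

end Crest.Agent.R087.Topsx565
end
end

-- ▼ part R087/MassLeaf_546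
section

/-!
Row 87 (S0115), operator part: the leaves `MASS3`, `MASSOM` of `OP0_270` (integer lines) (helper546).
-/

set_option autoImplicit false

noncomputable section

open MeasureTheory ENNReal

namespace Crest.Agent.R087.MassLeafx546

open Crest.Agent.R087.Sh0x283 Crest.Agent.R087.E2x542 Crest.Agent.R087.E2Kx752
  Crest.Agent.R087.OP0x270 Crest.Agent.R087.Massx546


theorem near_mono {U : ℝ × ℝ → ℝ} {K b m : ℝ} {s r : ℕ} {z : ℝ × ℝ} (h : s ≤ r)
    (hn : near U K b m s z) : near U K b m r z := by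
  refine ⟨hn.1, le_trans ?_ hn.2⟩
  gcongr ?_ * ?_
  exact pow_le_pow_of_le_one (by norm_num) (by norm_num) h


/-- the dyadic interval of a tube in terms of `jx` -/
theorem mem_I_iff (R : Tube) (x : ℝ) : x ∈ R.I ↔ jx R.k x = R.j := by
  have h2 : (0 : ℝ) < 2 ^ R.k := by positivity
  unfold Tube.I Tube.len jx
  rw [Int.floor_eq_iff, Set.mem_Ico]
  have e1 : (R.j : ℝ) * (1 / 2) ^ R.k = R.j / 2 ^ R.k := by rw [one_div, inv_pow]; rfl
  have e2 : ((R.j : ℝ) + 1) * (1 / 2) ^ R.k = (R.j + 1) / 2 ^ R.k := by rw [one_div, inv_pow]; rfl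
  rw [e1, e2, div_le_iff₀ h2, lt_div_iff₀ h2, mul_comm x]

theorem jx_mono {r s : ℕ} (h : r ≤ s) {x y : ℝ} (hxy : jx s x = jx s y) : jx r x = jx r y :=
  cel_mono h hxy

theorem measurable_jx (s : ℕ) : Measurable (jx s) := measurable_cel s

theorem abs_sub_le_of_jx {s : ℕ} {x y : ℝ} (h : jx s x = jx s y) : |x - y| ≤ (1 / 2 : ℝ) ^ s := by
  have h2 : (0 : ℝ) < 2 ^ s := by positivity
  have := Int.abs_sub_lt_one_of_floor_eq_floor (show ⌊(2 : ℝ) ^ s * x⌋ = ⌊(2 : ℝ) ^ s * y⌋ from h)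
  rw [← mul_sub, abs_mul, abs_of_pos h2] at this
  rw [one_div, inv_pow, ← one_div, le_div_iff₀ h2, mul_comm]
  exact this.le

theorem measurableSet_col {h : ℝ × ℝ → ℝ} (hh : Measurable h) (k : ℤ) :
    MeasurableSet (col h k) := by
  have h1 : Measurable fun z => |h z| := hh.abs
  exact (measurableSet_le measurable_const h1).inter (measurableSet_lt h1 measurable_const)

theorem volume_fatV_ne_top (U : ℝ × ℝ → ℝ) (K : ℝ) (R : Tube) : volume (fatV U K R) ≠ ⊤ :=
  ne_top_of_le_ne_top (fat_ne_top K R) (measure_mono fun _ hz => hz.1)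

theorem line_close {U : ℝ × ℝ → ℝ} {K b m : ℝ} {z : ℝ × ℝ} {s : ℕ} (hn : near U K b m s z) {x : ℝ}
    (hx : jx s x = jx s z.1) : |(z.2 + (x - z.1) * U z) - (b + m * x)| ≤ 2 * K := by
  have h3 : (z.2 + (x - z.1) * U z) - (b + m * x) =
      (z.2 - (b + m * z.1)) + (x - z.1) * (U z - m) := by ring
  rw [h3]
  calc |z.2 - (b + m * z.1) + (x - z.1) * (U z - m)|
      ≤ |z.2 - (b + m * z.1)| + |(x - z.1) * (U z - m)| := abs_add_le _ _
    _ ≤ K + K := by
      refine add_le_add hn.1 ?_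
      rw [abs_mul, mul_comm]
      exact le_trans (mul_le_mul_of_nonneg_left (abs_sub_le_of_jx hx) (abs_nonneg _)) hn.2
    _ = 2 * K := by ring

theorem lines_close {U : ℝ × ℝ → ℝ} {K b m K' b' m' : ℝ} {z : ℝ × ℝ} {s : ℕ}
    (hn : near U K b m s z) (hn' : near U K' b' m' s z) {x : ℝ} (hx : jx s x = jx s z.1) :
    |(b + m * x) - (b' + m' * x)| ≤ 2 * K + 2 * K' := by
  have h1 := line_close hn hx
  have h2 := line_close hn' hx
  calc |(b + m * x) - (b' + m' * x)|
      = |((z.2 + (x - z.1) * U z) - (b' + m' * x)) - ((z.2 + (x - z.1) * U z) - (b + m * x))| := by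
        ring_nf
    _ ≤ |(z.2 + (x - z.1) * U z) - (b' + m' * x)| + |(z.2 + (x - z.1) * U z) - (b + m * x)| :=
        abs_sub _ _
    _ ≤ _ := by linarith

/-- density bound at all scales above `z` from `upp` -/
theorem upp_den {U h : ℝ × ℝ → ℝ} {A n : ℕ} {k : ℤ} {s : ℕ} {z : ℝ × ℝ} (hu : upp U h A n k s z)
    (i : ℕ) {b m : ℝ} (hb : ∃ q : ℤ, b = q) (hm : ∃ q : ℤ, m = q) (hn : near U (2 ^ i) b m s z)
    {r : ℕ} (hr : r ≤ s) :
    volume {w : ℝ × ℝ | w ∈ col h k ∧ cel r w.1 = cel r z.1 ∧ near U (2 ^ i) b m r w} ≤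
      ENNReal.ofReal (2 ^ (A * i) * (2 * (1 / 2 : ℝ) ^ n)) * ENNReal.ofReal ((1 / 2 : ℝ) ^ r) := by
  set R : Tube := ⟨r, cel r z.1, b, m⟩ with hR
  have h1 := hu i R ⟨hb, hm⟩ hr ((mem_I_iff R z.1).2 rfl) hn
  have hfin : volume (col h k ∩ fatV U (2 ^ i) R) ≠ ⊤ :=
    ne_top_of_le_ne_top (volume_fatV_ne_top U (2 ^ i) R) (measure_mono Set.inter_subset_right)
  rw [← ENNReal.ofReal_mul (by positivity)]
  refine le_trans (measure_mono ?_) ((ENNReal.le_ofReal_iff_toReal_le hfin (by positivity)).2 h1)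
  rintro w ⟨hw1, hw2, hw3⟩
  exact ⟨hw1, ⟨(mem_I_iff R w.1).2 hw2, hw3.1⟩, hw3.2⟩

theorem col_unique {h : ℝ × ℝ → ℝ} {k k' : ℤ} {z : ℝ × ℝ} (h1 : z ∈ col h k) (h2 : z ∈ col h k') :
    k = k' := by
  have a1 := lt_of_le_of_lt h1.1 h2.2
  have a2 := lt_of_le_of_lt h2.1 h1.2
  have b1 := (zpow_lt_zpow_iff_right₀ (by norm_num : (1 : ℝ) < 2)).1 a1
  have b2 := (zpow_lt_zpow_iff_right₀ (by norm_num : (1 : ℝ) < 2)).1 a2
  omega

theorem ne_zero_of_col {h : ℝ × ℝ → ℝ} {k : ℤ} {z : ℝ × ℝ} (h1 : z ∈ col h k) : h z ≠ 0 := by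
  intro h0
  have := h1.1
  rw [h0, abs_zero] at this
  have h2 : (0 : ℝ) < 2 ^ k := by positivity
  linarith

theorem measurableSet_near {U : ℝ × ℝ → ℝ} (hU : Measurable U) (K b m : ℝ) {κ : ℝ × ℝ → ℕ}
    (hκ : Measurable κ) : MeasurableSet {z : ℝ × ℝ | near U K b m (κ z) z} := by
  have h1 : MeasurableSet {z : ℝ × ℝ | |z.2 - (b + m * z.1)| ≤ K} := by
    apply measurableSet_le _ measurable_const
    fun_prop
  have h2 : MeasurableSet {z : ℝ × ℝ | |U z - m| * (1 / 2 : ℝ) ^ (κ z) ≤ K} := by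
    apply measurableSet_le _ measurable_const
    have h3 : Measurable fun z : ℝ × ℝ => (1 / 2 : ℝ) ^ (κ z) :=
      (measurable_of_countable fun n : ℕ => (1 / 2 : ℝ) ^ n).comp hκ
    exact ((hU.sub measurable_const).abs).mul h3
  exact h1.inter h2

theorem vol_I_ne_top (R : Tube) (P : ℝ → Prop) : volume {x : ℝ | x ∈ R.I ∧ P x} ≠ ⊤ := by
  refine ne_top_of_le_ne_top ?_ (measure_mono (t := R.I) fun x hx => hx.1)
  unfold Tube.I
  rw [Real.volume_Ico]
  exact ENNReal.ofReal_ne_top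

/-- **leaf MASSOM** -/
theorem massom : MASSOM := by
  intro A n _ U h S lo hi hU hh hch hup N R kk ii E B ht k i R0 hR0
  set Z : Set (ℝ × ℝ) := {z | z ∈ col h k ∧ z.1 ∈ R0.I ∧ lo z < hi z ∧ R0.k < hi z ∧
    near U (2 ^ i) R0.b R0.m (hi z - 1) z} with hZdef
  set κ : ℝ × ℝ → ℕ := fun z => hi z - 1 with hκdef
  have hκm : Measurable κ := (measurable_of_countable fun n : ℕ => n - 1).comp hch.2.1
  have hI : MeasurableSet {z : ℝ × ℝ | z.1 ∈ R0.I} := measurable_fst R0.measurableSet_I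
  have hZ : MeasurableSet Z :=
    (measurableSet_col hh.1 k).inter (hI.inter ((measurableSet_lt hch.1 hch.2.1).inter
      ((measurableSet_lt measurable_const hch.2.1).inter (measurableSet_near hU _ _ _ hκm))))
  have hS : ∀ z ∈ Z, κ z < S := by
    rintro z ⟨_, _, h1, _, _⟩
    have := hch.2.2 z
    simp only [hκdef]; omega
  set T : Set ℝ := {x : ℝ | x ∈ R0.I ∧ ∃ m, kk m = k ∧ x ∈ (R m).I ∧
    |R0.line x - (R m).line x| ≤ 2 * 2 ^ i + 10 * 2 ^ ii m} with hT
  have hmass := mass_one Prod.fst κ Z volume measurable_fst hZ S hS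
    (ENNReal.ofReal (2 ^ (A * i) * (2 * (1 / 2 : ℝ) ^ n))) (by
      intro r _ z hz hr
      obtain ⟨h1, _, h3, _, h5⟩ := hz
      have hu := hup z (ne_zero_of_col h1) h3 k h1
      refine le_trans (measure_mono ?_) (upp_den hu i hR0.1 hR0.2 h5 hr)
      rintro w ⟨hw1, hw2, hw3⟩
      exact ⟨hw1.1, hw3, near_mono hw2 hw1.2.2.2.2⟩)
  have hsub : cover Prod.fst κ Z ⊆ T := by
    rintro x ⟨z, hz, hxz⟩
    obtain ⟨h1, h2, h3, h4, h5⟩ := hz
    have hk0 : R0.k ≤ κ z := by simp only [hκdef]; omega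
    refine ⟨?_, ?_⟩
    · rw [mem_I_iff] at h2 ⊢
      rw [← h2]; exact jx_mono hk0 hxz
    · obtain ⟨m, hm⟩ := ht.unB z (ne_zero_of_col h1) h3
      have hkm : kk m = k := col_unique (ht.subB m hm) h1
      obtain ⟨t1, t2, t3⟩ := ht.top m z hm h3
      have hlo : lo z ≤ κ z := by simp only [hκdef]; omega
      refine ⟨m, hkm, ?_, ?_⟩
      · rw [mem_I_iff] at t1 ⊢
        rw [← t1]; exact jx_mono (le_trans t2 hlo) hxz
      · have := lines_close h5 (near_mono hlo t3) hxz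
        unfold Tube.line
        refine le_trans this (le_of_eq (by ring))
  have hTfin : volume T ≠ ⊤ := vol_I_ne_top R0 _
  have h2 : volume Z ≤ 2 * ENNReal.ofReal (2 ^ (A * i) * (2 * (1 / 2 : ℝ) ^ n)) * volume T :=
    le_trans hmass (by gcongr)
  have h3 := ENNReal.toReal_mono (ENNReal.mul_ne_top (ENNReal.mul_ne_top (by norm_num)
    ENNReal.ofReal_ne_top) hTfin) h2
  rw [ENNReal.toReal_mul, ENNReal.toReal_mul, ENNReal.toReal_ofReal (by positivity)] at h3
  refine le_trans h3 (le_of_eq ?_)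
  rw [ENNReal.toReal_ofNat]
  ring

/-- **leaf MASS3** -/
theorem mass3 : MASS3 := by
  intro A n _ U h S lo hi hU hh hch hup k i R B hR hB hBk hBR t ht j hex
  obtain ⟨z0, hz0, hz0l, hz0t, hz0j⟩ := hex
  set Z : Set (ℝ × ℝ) := {z | z ∈ B ∧ lo z < hi z ∧ jx t z.1 = j} with hZdef
  show (volume Z).toReal ≤ _
  set κ : ℝ × ℝ → ℕ := fun z => max t (lo z) with hκdef
  have hZ : MeasurableSet Z := hB.inter ((measurableSet_lt hch.1 hch.2.1).inter
    (((measurable_jx t).comp measurable_fst) (MeasurableSet.singleton j)))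
  have hS : ∀ z ∈ Z, κ z < max t S + 1 := by
    rintro z ⟨_, h1, _⟩
    have := hch.2.2 z
    simp only [hκdef]; omega
  have hnr : ∀ z ∈ B, lo z < hi z → near U (2 ^ i) R.b R.m (lo z) z := fun z hz hl =>
    (hBR z hz hl).2.2
  have hmass := mass_one Prod.fst κ Z volume measurable_fst hZ (max t S + 1) hS
    (ENNReal.ofReal (2 ^ (A * i) * (2 * (1 / 2 : ℝ) ^ n))) (by
      intro r _ z hz hr
      have key : ∀ z1 ∈ B, lo z1 < hi z1 → r ≤ hi z1 - 1 → cel r z.1 = cel r z1.1 →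
          volume {w | w ∈ Z ∧ κ w ≤ r ∧ cel r w.1 = cel r z.1} ≤
            ENNReal.ofReal (2 ^ (A * i) * (2 * (1 / 2 : ℝ) ^ n)) *
              ENNReal.ofReal ((1 / 2 : ℝ) ^ r) := by
        intro z1 g1 g2 g3 g4
        have hu := hup z1 (ne_zero_of_col (hBk g1)) g2 k (hBk g1)
        have hlo1 : lo z1 ≤ hi z1 - 1 := by omega
        refine le_trans (measure_mono ?_)
          (upp_den hu i hR.1 hR.2 (near_mono hlo1 (hnr z1 g1 g2)) g3)
        rintro w ⟨hw1, hw2, hw3⟩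
        have : lo w ≤ r := le_trans (le_max_right _ _) hw2
        exact ⟨hBk hw1.1, hw3.trans g4, near_mono this (hnr w hw1.1 hw1.2.1)⟩
      obtain ⟨hz1, hz2, hz3⟩ := hz
      by_cases hrl : r ≤ lo z
      · exact key z hz1 hz2 (by omega) rfl
      · -- then `r ≤ t`
        have hrt : r ≤ t := by
          rcases le_max_iff.1 hr with h | h
          · exact h
          · exact absurd h hrl
        have hc : cel t z.1 = cel t z0.1 := by
          show jx t z.1 = jx t z0.1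
          rw [hz3, hz0j]
        exact key z0 hz0 hz0l (by omega) (cel_mono hrt hc))
  have hsub : cover Prod.fst κ Z ⊆ {x : ℝ | cel t x = j} := by
    rintro x ⟨z, hz, hxz⟩
    show cel t x = j
    have : cel t x = cel t z.1 := cel_mono (le_max_left _ _) hxz
    rw [this]; exact hz.2.2
  have h2 : volume Z ≤ 2 * ENNReal.ofReal (2 ^ (A * i) * (2 * (1 / 2 : ℝ) ^ n)) *
      ENNReal.ofReal ((1 / 2 : ℝ) ^ t) := by
    refine le_trans hmass ?_
    gcongr
    rw [← volume_cel t j]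
    exact measure_mono hsub
  have h3 := ENNReal.toReal_mono (ENNReal.mul_ne_top (ENNReal.mul_ne_top (by norm_num)
    ENNReal.ofReal_ne_top) ENNReal.ofReal_ne_top) h2
  rw [ENNReal.toReal_mul, ENNReal.toReal_mul, ENNReal.toReal_ofReal (by positivity),
    ENNReal.toReal_ofReal (by positivity)] at h3
  refine le_trans h3 (le_of_eq ?_)
  rw [ENNReal.toReal_ofNat]
  ring

/-! ### sub-chains -/




end Crest.Agent.R087.MassLeafx546
end
end

-- ▼ part R087/OmegaB_627
section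

/-!
# Row 87, leaf OMEGA (helper627)

`Om R kk ii k i` : the fat tops of the colour `k`.

* `fib_le`  : the `x`-set of `MASSOM` has measure at most `|R0.body ∩ Om|`;
* `vol_Om`  : `|Om k i| ≤ 50 * 2^i * 2^n * |col h k|`.
-/

set_option autoImplicit false

noncomputable section

open MeasureTheory

namespace Crest.Agent.R087.OmegaBx627

open Crest.Agent.R087.Sh0x283 Crest.Agent.R087.E2x542 Crest.Agent.R087.E2Kx752
  Crest.Agent.R087.GateDefx273 Crest.Agent.R087.OP0x270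

/-- fat tops of the colour `k` -/
def Om {N : ℕ} (R : Fin N → Tube) (kk : Fin N → ℤ) (ii : Fin N → ℕ) (k : ℤ) (i : ℕ) :
    Set (ℝ × ℝ) :=
  ⋃ m ∈ {m' : Fin N | kk m' = k}, fat (2 * 2 ^ i + 10 * 2 ^ ii m + 1 / 2) (R m)

theorem measurableSet_Om {N : ℕ} (R : Fin N → Tube) (kk : Fin N → ℤ) (ii : Fin N → ℕ) (k : ℤ)
    (i : ℕ) : MeasurableSet (Om R kk ii k i) :=
  MeasurableSet.biUnion (Set.to_countable _) (fun _ _ => measurableSet_fat _ _)

theorem Om_ne_top {N : ℕ} (R : Fin N → Tube) (kk : Fin N → ℤ) (ii : Fin N → ℕ) (k : ℤ)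
    (i : ℕ) : volume (Om R kk ii k i) ≠ ⊤ := by
  have h1 : Om R kk ii k i ⊆ ⋃ m, fat (2 * 2 ^ i + 10 * 2 ^ ii m + 1 / 2) (R m) := by
    intro z hz
    simp only [Om, Set.mem_iUnion] at hz ⊢
    obtain ⟨m, _, hm⟩ := hz
    exact ⟨m, hm⟩
  have h2 : volume (⋃ m, fat (2 * 2 ^ i + 10 * 2 ^ ii m + 1 / 2) (R m)) ≤
      ∑ m, volume (fat (2 * 2 ^ i + 10 * 2 ^ ii m + 1 / 2) (R m)) :=
    measure_iUnion_fintype_le _ _
  exact ne_top_of_le_ne_top (ENNReal.sum_ne_top.2 (fun m _ => fat_ne_top _ _))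
    ((measure_mono h1).trans h2)

/-- area of a strip over a measurable set -/
theorem vol_strip (X : Set ℝ) (hX : MeasurableSet X) (l : ℝ → ℝ) (hl : Measurable l) :
    volume {z : ℝ × ℝ | z.1 ∈ X ∧ |z.2 - l z.1| ≤ 1 / 2} = volume X := by
  have hm : MeasurableSet {z : ℝ × ℝ | z.1 ∈ X ∧ |z.2 - l z.1| ≤ 1 / 2} := by
    have h2 : Measurable fun z : ℝ × ℝ => |z.2 - l z.1| := by fun_prop
    exact MeasurableSet.inter (measurable_fst hX) (measurableSet_le h2 measurable_const)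
  rw [Measure.volume_eq_prod, Measure.prod_apply hm]
  have : ∀ x, volume (Prod.mk x ⁻¹' {z : ℝ × ℝ | z.1 ∈ X ∧ |z.2 - l z.1| ≤ 1 / 2}) =
      X.indicator (fun _ => (1 : ENNReal)) x := by
    intro x
    by_cases hx : x ∈ X
    · rw [Set.indicator_of_mem hx]
      have : Prod.mk x ⁻¹' {z : ℝ × ℝ | z.1 ∈ X ∧ |z.2 - l z.1| ≤ 1 / 2} =
          Set.Icc (l x - 1 / 2) (l x + 1 / 2) := by
        ext y
        simp only [Set.mem_preimage, Set.mem_ofPred_eq, Set.mem_Icc, hx, true_and, abs_le]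
        constructor
        · rintro ⟨h1, h2⟩; constructor <;> linarith
        · rintro ⟨h1, h2⟩; constructor <;> linarith
      rw [this, Real.volume_Icc]
      ring_nf
      simp
    · rw [Set.indicator_of_notMem hx]
      have : Prod.mk x ⁻¹' {z : ℝ × ℝ | z.1 ∈ X ∧ |z.2 - l z.1| ≤ 1 / 2} = ∅ := by
        ext y; simp [hx]
      rw [this, measure_empty]
  simp_rw [this]
  rw [lintegral_indicator hX]
  simp

/-- the `x`-set of `MASSOM` -/
def Xs {N : ℕ} (R : Fin N → Tube) (kk : Fin N → ℤ) (ii : Fin N → ℕ) (k : ℤ) (i : ℕ) (R0 : Tube) :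
    Set ℝ :=
  {x : ℝ | x ∈ R0.I ∧ ∃ m, kk m = k ∧ x ∈ (R m).I ∧
            |R0.line x - (R m).line x| ≤ 2 * 2 ^ i + 10 * 2 ^ ii m}

theorem measurableSet_Xs {N : ℕ} (R : Fin N → Tube) (kk : Fin N → ℤ) (ii : Fin N → ℕ) (k : ℤ)
    (i : ℕ) (R0 : Tube) : MeasurableSet (Xs R kk ii k i R0) := by
  have : Xs R kk ii k i R0 = R0.I ∩ ⋃ m ∈ {m : Fin N | kk m = k},
      ((R m).I ∩ {x : ℝ | |R0.line x - (R m).line x| ≤ 2 * 2 ^ i + 10 * 2 ^ ii m}) := by
    ext x
    simp only [Xs, Set.mem_ofPred_eq, Set.mem_inter_iff, Set.mem_iUnion, exists_prop]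
  rw [this]
  apply R0.measurableSet_I.inter
  apply MeasurableSet.biUnion (Set.to_countable _)
  intro m _
  apply (R m).measurableSet_I.inter
  apply measurableSet_le _ measurable_const
  have h1 := R0.measurable_line
  have h2 := (R m).measurable_line
  fun_prop

/-- the `x`-set of `MASSOM` has measure at most `|R0.body ∩ Om|` -/
theorem fib_le {N : ℕ} (R : Fin N → Tube) (kk : Fin N → ℤ) (ii : Fin N → ℕ) (k : ℤ) (i : ℕ)
    (R0 : Tube) :
    (volume (Xs R kk ii k i R0)).toReal ≤ (volume (R0.body ∩ Om R kk ii k i)).toReal := by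
  apply ENNReal.toReal_mono
    (measure_ne_top_of_subset Set.inter_subset_right (Om_ne_top R kk ii k i))
  rw [← vol_strip (Xs R kk ii k i R0) (measurableSet_Xs R kk ii k i R0) R0.line R0.measurable_line]
  apply measure_mono
  rintro z ⟨hz, hz2⟩
  obtain ⟨hx, m, hm, hxm, hd⟩ := hz
  refine ⟨⟨hx, hz2⟩, ?_⟩
  simp only [Om, Set.mem_iUnion]
  refine ⟨m, hm, hxm, ?_⟩
  have : z.2 - (R m).line z.1 = (z.2 - R0.line z.1) + (R0.line z.1 - (R m).line z.1) := by ring
  rw [this]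
  refine (abs_add_le _ _).trans ?_
  linarith

/-! ### measure of the fat tops -/

theorem col_meas {h : ℝ × ℝ → ℝ} (hh : Measurable h) (k : ℤ) : MeasurableSet (col h k) := by
  have h2 : Measurable fun z : ℝ × ℝ => |h z| := by fun_prop
  exact MeasurableSet.inter (measurableSet_le measurable_const h2)
    (measurableSet_lt h2 measurable_const)

theorem col_ne_top {h : ℝ × ℝ → ℝ} (hh : Nice h) (k : ℤ) : volume (col h k) ≠ ⊤ := by
  obtain ⟨_, _, r, hr⟩ := hh
  refine measure_ne_top_of_subset (?_ : col h k ⊆ Metric.closedBall (0 : ℝ × ℝ) r) ?_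
  · intro z hz
    rw [mem_closedBall_zero_iff]
    by_contra hcon
    push Not at hcon
    have h1 := hr z hcon
    have h2 := hz.1
    rw [h1, abs_zero] at h2
    have : (0 : ℝ) < 2 ^ k := by positivity
    linarith
  · exact (isCompact_closedBall (0 : ℝ × ℝ) r).measure_lt_top.ne

theorem geo_sum_le (A : ℕ) (hA : 2 ≤ A) (s : Finset ℕ) :
    ∑ j ∈ s, (2 : ℝ) ^ j * (1 / 2 : ℝ) ^ (A * j) ≤ 2 := by
  have h1 : ∀ j : ℕ, (2 : ℝ) ^ j * (1 / 2 : ℝ) ^ (A * j) ≤ (1 / 2 : ℝ) ^ j := by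
    intro j
    have e : (1 / 2 : ℝ) ^ (A * j) ≤ (1 / 2 : ℝ) ^ (2 * j) :=
      pow_le_pow_of_le_one (by norm_num) (by norm_num) (Nat.mul_le_mul_right j hA)
    calc (2 : ℝ) ^ j * (1 / 2 : ℝ) ^ (A * j) ≤ 2 ^ j * (1 / 2 : ℝ) ^ (2 * j) :=
          mul_le_mul_of_nonneg_left e (by positivity)
      _ = (1 / 2 : ℝ) ^ j := by
          rw [two_mul, pow_add, ← mul_assoc, ← mul_pow]; norm_num
  calc ∑ j ∈ s, (2 : ℝ) ^ j * (1 / 2 : ℝ) ^ (A * j) ≤ ∑ j ∈ s, (1 / 2 : ℝ) ^ j :=
        Finset.sum_le_sum (fun j _ => h1 j)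
    _ ≤ ∑' j : ℕ, (1 / 2 : ℝ) ^ j :=
        (summable_geometric_of_lt_one (by norm_num) (by norm_num)).sum_le_tsum s
          (fun _ _ => by positivity)
    _ = 2 := by rw [tsum_geometric_of_lt_one (by norm_num) (by norm_num)]; norm_num

/-- `|Om k i| ≤ 50 * 2^i * 2^n * |col h k|` -/
theorem vol_Om {U h : ℝ × ℝ → ℝ} {A n : ℕ} {lo hi : ℝ × ℝ → ℕ} {N : ℕ} {R : Fin N → Tube}
    {kk : Fin N → ℤ} {ii : Fin N → ℕ} {E B : Fin N → Set (ℝ × ℝ)} (hA : 2 ≤ A) (hh : Nice h)
    (hT : IsTops U h A n lo hi N R kk ii E B) (k : ℤ) (i : ℕ) :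
    (volume (Om R kk ii k i)).toReal ≤ 50 * 2 ^ i * 2 ^ n * (volume (col h k)).toReal := by
  classical
  set c : ℝ := (volume (col h k)).toReal with hc
  have hc0 : 0 ≤ c := ENNReal.toReal_nonneg
  set s : Finset (Fin N) := Finset.univ.filter (fun m => kk m = k) with hs
  -- union bound
  have h1 : (volume (Om R kk ii k i)).toReal ≤
      ∑ m ∈ s, (volume (fat (2 * 2 ^ i + 10 * 2 ^ ii m + 1 / 2) (R m))).toReal := by
    have hsub : Om R kk ii k i ⊆ ⋃ m ∈ s, fat (2 * 2 ^ i + 10 * 2 ^ ii m + 1 / 2) (R m) := by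
      intro z hz
      simp only [Om, Set.mem_iUnion] at hz ⊢
      obtain ⟨m, hm, hz⟩ := hz
      exact ⟨m, by simp [hs]; exact hm, hz⟩
    rw [← ENNReal.toReal_sum (fun m _ => fat_ne_top _ _)]
    apply ENNReal.toReal_mono (ENNReal.sum_ne_top.2 (fun m _ => fat_ne_top _ _))
    exact (measure_mono hsub).trans (measure_biUnion_finset_le _ _)
  -- one top
  have h2 : ∀ m ∈ s, (volume (fat (2 * 2 ^ i + 10 * 2 ^ ii m + 1 / 2) (R m))).toReal ≤
      25 * 2 ^ i * 2 ^ n * ((2 : ℝ) ^ ii m * (1 / 2 : ℝ) ^ (A * ii m) *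
        (volume (E m)).toReal) := by
    intro m _
    have hl := (R m).len_pos
    rw [volume_fat, ENNReal.toReal_ofReal (by positivity)]
    have hm := hT.mass m
    have hE : (R m).len ≤ 2 ^ n * (1 / 2 : ℝ) ^ (A * ii m) * (volume (E m)).toReal := by
      have e1 : (2 : ℝ) ^ n * (1 / 2 : ℝ) ^ n = 1 := by rw [← mul_pow]; norm_num
      have e2 : (2 : ℝ) ^ (A * ii m) * (1 / 2 : ℝ) ^ (A * ii m) = 1 := by
        rw [← mul_pow]; norm_num
      calc (R m).len = 2 ^ n * (1 / 2 : ℝ) ^ (A * ii m) *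
            ((1 / 2 : ℝ) ^ n * 2 ^ (A * ii m) * (R m).len) := by
            have : 2 ^ n * (1 / 2 : ℝ) ^ (A * ii m) *
              ((1 / 2 : ℝ) ^ n * 2 ^ (A * ii m) * (R m).len) =
              ((2 : ℝ) ^ n * (1 / 2 : ℝ) ^ n) * ((2 : ℝ) ^ (A * ii m) *
                (1 / 2 : ℝ) ^ (A * ii m)) * (R m).len := by ring
            rw [this, e1, e2]; ring
        _ ≤ _ := mul_le_mul_of_nonneg_left hm (by positivity)
    have hi1 : (1 : ℝ) ≤ 2 ^ i := one_le_pow₀ (by norm_num)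
    have hi2 : (1 : ℝ) ≤ 2 ^ ii m := one_le_pow₀ (by norm_num)
    have hw : (2 : ℝ) * (2 * 2 ^ i + 10 * 2 ^ ii m + 1 / 2) ≤ 25 * 2 ^ i * 2 ^ ii m := by
      nlinarith [mul_nonneg (sub_nonneg.2 hi1) (sub_nonneg.2 hi2)]
    calc 2 * (2 * 2 ^ i + 10 * 2 ^ ii m + 1 / 2) * (R m).len
        ≤ (25 * 2 ^ i * 2 ^ ii m) * (R m).len := mul_le_mul_of_nonneg_right hw hl.le
      _ ≤ (25 * 2 ^ i * 2 ^ ii m) *
          (2 ^ n * (1 / 2 : ℝ) ^ (A * ii m) * (volume (E m)).toReal) :=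
          mul_le_mul_of_nonneg_left hE (by positivity)
      _ = _ := by ring
  -- fixed dilation : disjoint
  have h3 : ∀ j ∈ s.image ii, ∑ m ∈ s with ii m = j, (volume (E m)).toReal ≤ c := by
    intro j _
    have hEf : ∀ m, volume (E m) ≠ ⊤ := by
      intro m
      exact measure_ne_top_of_subset ((hT.subE m).trans Set.inter_subset_right)
        (measure_ne_top_of_subset (fun z hz => hz.1) (fat_ne_top _ _))
    rw [← ENNReal.toReal_sum (fun m _ => hEf m)]
    apply ENNReal.toReal_mono (col_ne_top hh k)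
    rw [← measure_biUnion_finset _ (fun m _ => hT.mE m)]
    · apply measure_mono
      intro z hz
      simp only [Set.mem_iUnion] at hz
      obtain ⟨m, hm, hz⟩ := hz
      have hk : kk m = k := by
        have := (Finset.mem_filter.1 hm).1
        simpa [hs] using this
      have := (hT.subE m hz).1
      rwa [hk] at this
    · intro m hm m' hm' hne
      apply hT.disE m m' hne
      have a1 := (Finset.mem_filter.1 hm).2
      have a2 := (Finset.mem_filter.1 hm').2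
      rw [a1, a2]
  calc (volume (Om R kk ii k i)).toReal
      ≤ ∑ m ∈ s, (volume (fat (2 * 2 ^ i + 10 * 2 ^ ii m + 1 / 2) (R m))).toReal := h1
    _ ≤ ∑ m ∈ s, 25 * 2 ^ i * 2 ^ n * ((2 : ℝ) ^ ii m * (1 / 2 : ℝ) ^ (A * ii m) *
        (volume (E m)).toReal) := Finset.sum_le_sum h2
    _ = 25 * 2 ^ i * 2 ^ n * ∑ j ∈ s.image ii, ∑ m ∈ s with ii m = j,
        (2 : ℝ) ^ ii m * (1 / 2 : ℝ) ^ (A * ii m) * (volume (E m)).toReal := by
        rw [← Finset.mul_sum]
        congr 1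
        exact (Finset.sum_fiberwise_of_maps_to (fun m hm => Finset.mem_image_of_mem ii hm) _).symm
    _ ≤ 25 * 2 ^ i * 2 ^ n * ∑ j ∈ s.image ii, (2 : ℝ) ^ j * (1 / 2 : ℝ) ^ (A * j) * c := by
        apply mul_le_mul_of_nonneg_left _ (by positivity)
        apply Finset.sum_le_sum
        intro j hj
        have : ∑ m ∈ s with ii m = j,
            (2 : ℝ) ^ ii m * (1 / 2 : ℝ) ^ (A * ii m) * (volume (E m)).toReal =
            (2 : ℝ) ^ j * (1 / 2 : ℝ) ^ (A * j) * ∑ m ∈ s with ii m = j,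
              (volume (E m)).toReal := by
          rw [Finset.mul_sum]
          refine Finset.sum_congr rfl (fun m hm => ?_)
          rw [(Finset.mem_filter.1 hm).2]
        rw [this]
        exact mul_le_mul_of_nonneg_left (h3 j hj) (by positivity)
    _ = 25 * 2 ^ i * 2 ^ n * ((∑ j ∈ s.image ii, (2 : ℝ) ^ j * (1 / 2 : ℝ) ^ (A * j)) * c) := by
        rw [Finset.sum_mul]
    _ ≤ 25 * 2 ^ i * 2 ^ n * (2 * c) := by
        apply mul_le_mul_of_nonneg_left _ (by positivity)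
        exact mul_le_mul_of_nonneg_right (geo_sum_le A hA _) hc0
    _ = _ := by ring

/-! ### the function `W` -/

/-- finitely many colours: those of the tops -/
theorem colors {U h : ℝ × ℝ → ℝ} {A n : ℕ} {lo hi : ℝ × ℝ → ℕ} {N : ℕ} {R : Fin N → Tube}
    {kk : Fin N → ℤ} {ii : Fin N → ℕ} {E B : Fin N → Set (ℝ × ℝ)}
    (hT : IsTops U h A n lo hi N R kk ii E B) :
    ∀ z, h z ≠ 0 → lo z < hi z → ∃ k ∈ Finset.univ.image kk, z ∈ col h k := by
  intro z hz hlt
  obtain ⟨m, hm⟩ := hT.unB z hz hlt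
  exact ⟨kk m, Finset.mem_image_of_mem kk (Finset.mem_univ m), hT.subB m hm⟩

/-- `∑_k 4^k |col h k| ≤ ∫ h²` -/
theorem sum_col {h : ℝ × ℝ → ℝ} (hh : Nice h) (F : Finset ℤ) :
    ∑ k ∈ F, (4 : ℝ) ^ k * (volume (col h k)).toReal ≤ ∫ z, (h z) ^ 2 := by
  have hint : Integrable (fun z => (h z) ^ 2) := TBx820.nice_integrable_sq hh
  have h1 : ∀ k ∈ F, (4 : ℝ) ^ k * (volume (col h k)).toReal ≤ ∫ z in col h k, (h z) ^ 2 := by
    intro k _
    have : (4 : ℝ) ^ k * (volume (col h k)).toReal = ∫ _ in col h k, (4 : ℝ) ^ k := by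
      rw [setIntegral_const]
      simp [Measure.real, mul_comm]
    rw [this]
    apply setIntegral_mono_on (integrableOn_const (col_ne_top hh k) (by simp))
      hint.integrableOn (col_meas hh.1 k)
    intro z hz
    have e : (4 : ℝ) ^ k = ((2 : ℝ) ^ k) ^ 2 := by
      rw [← zpow_natCast, ← zpow_mul, mul_comm k, zpow_mul]; norm_num
    rw [e, ← sq_abs (h z)]
    exact pow_le_pow_left₀ (by positivity) hz.1 2
  have hd : Set.Pairwise (↑F : Set ℤ) (Function.onFun Disjoint (col h)) := by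
    intro k _ k' _ hne
    rw [Function.onFun, Set.disjoint_left]
    rintro z ⟨a1, a2⟩ ⟨b1, b2⟩
    have c1 : (2 : ℝ) ^ k < 2 ^ (k' + 1) := lt_of_le_of_lt a1 b2
    have c2 : (2 : ℝ) ^ k' < 2 ^ (k + 1) := lt_of_le_of_lt b1 a2
    have d1 := (zpow_lt_zpow_iff_right₀ (one_lt_two : (1 : ℝ) < 2)).1 c1
    have d2 := (zpow_lt_zpow_iff_right₀ (one_lt_two : (1 : ℝ) < 2)).1 c2
    apply hne; omega
  calc ∑ k ∈ F, (4 : ℝ) ^ k * (volume (col h k)).toReal
      ≤ ∑ k ∈ F, ∫ z in col h k, (h z) ^ 2 := Finset.sum_le_sum h1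
    _ = ∫ z in ⋃ k ∈ F, col h k, (h z) ^ 2 := by
        rw [integral_biUnion_finset F (fun k _ => col_meas hh.1 k) hd
          (fun k _ => hint.integrableOn)]
    _ ≤ ∫ z, (h z) ^ 2 := setIntegral_le_integral hint
        (Filter.Eventually.of_forall (fun z => sq_nonneg _))

/-- the weight `W = ∑_k 2^k 1_{Om_k}` -/
def WW {N : ℕ} (R : Fin N → Tube) (kk : Fin N → ℤ) (ii : Fin N → ℕ) (F : Finset ℤ) (i : ℕ)
    (p : ℝ × ℝ) : ℝ :=
  ∑ k ∈ F, (2 : ℝ) ^ k * (Om R kk ii k i).indicator 1 p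

theorem WW_nonneg {N : ℕ} (R : Fin N → Tube) (kk : Fin N → ℤ) (ii : Fin N → ℕ) (F : Finset ℤ)
    (i : ℕ) (p : ℝ × ℝ) : 0 ≤ WW R kk ii F i p :=
  Finset.sum_nonneg (fun k _ => mul_nonneg (by positivity)
    (Set.indicator_nonneg (fun _ _ => zero_le_one) _))

theorem WW_mem {N : ℕ} (R : Fin N → Tube) (kk : Fin N → ℤ) (ii : Fin N → ℕ) (F : Finset ℤ)
    (i : ℕ) : MemLp (WW R kk ii F i) 2 volume :=
  Omegax627.mem_ind volume F _ _ (fun k _ => measurableSet_Om R kk ii k i)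
    (fun k _ => Om_ne_top R kk ii k i)

theorem WW_integrable {N : ℕ} (R : Fin N → Tube) (kk : Fin N → ℤ) (ii : Fin N → ℕ) (F : Finset ℤ)
    (i : ℕ) : Integrable (WW R kk ii F i) := by
  apply integrable_finsetSum
  intro k _
  apply Integrable.const_mul
  exact (integrable_indicator_iff (measurableSet_Om R kk ii k i)).2
    (integrableOn_const (Om_ne_top R kk ii k i) (by simp))

/-- `∫ W² ≤ 200 * 2^i * 2^n * ∫ h²` -/
theorem WW_sq {U h : ℝ × ℝ → ℝ} {A n : ℕ} {lo hi : ℝ × ℝ → ℕ} {N : ℕ} {R : Fin N → Tube}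
    {kk : Fin N → ℤ} {ii : Fin N → ℕ} {E B : Fin N → Set (ℝ × ℝ)} (hA : 2 ≤ A) (hh : Nice h)
    (hT : IsTops U h A n lo hi N R kk ii E B) (F : Finset ℤ) (i : ℕ) :
    ∫ p, (WW R kk ii F i p) ^ 2 ≤ 200 * 2 ^ i * 2 ^ n * ∫ z, (h z) ^ 2 := by
  calc ∫ p, (WW R kk ii F i p) ^ 2
      ≤ 4 * ∑ k ∈ F, (4 : ℝ) ^ k * (volume (Om R kk ii k i)).toReal :=
        Geox752.geo_int volume F _ (fun k _ => measurableSet_Om R kk ii k i)
          (fun k _ => Om_ne_top R kk ii k i)
    _ ≤ 4 * ∑ k ∈ F, (4 : ℝ) ^ k * (50 * 2 ^ i * 2 ^ n * (volume (col h k)).toReal) := by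
        apply mul_le_mul_of_nonneg_left _ (by norm_num)
        exact Finset.sum_le_sum (fun k _ =>
          mul_le_mul_of_nonneg_left (vol_Om hA hh hT k i) (by positivity))
    _ = 200 * 2 ^ i * 2 ^ n * ∑ k ∈ F, (4 : ℝ) ^ k * (volume (col h k)).toReal := by
        rw [Finset.mul_sum, Finset.mul_sum]
        exact Finset.sum_congr rfl (fun k _ => by ring)
    _ ≤ _ := mul_le_mul_of_nonneg_left (sum_col hh F) (by positivity)

/-! ### mass of the near points -/

/-- the points whose bottom interval is `2^i`-near the tube `R0` -/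
def Zs (U h : ℝ × ℝ → ℝ) (lo hi : ℝ × ℝ → ℕ) (i : ℕ) (R0 : Tube) : Set (ℝ × ℝ) :=
  {z | h z ≠ 0 ∧ z.1 ∈ R0.I ∧ lo z < hi z ∧ R0.k < hi z ∧ near U (2 ^ i) R0.b R0.m (hi z - 1) z}

theorem measurableSet_Zs {U h : ℝ × ℝ → ℝ} {lo hi : ℝ × ℝ → ℕ} (hU : Measurable U)
    (hh : Measurable h) (hlo : Measurable lo) (hhi : Measurable hi) (i : ℕ) (R0 : Tube) :
    MeasurableSet (Zs U h lo hi i R0) := by
  have m1 : MeasurableSet {z | h z ≠ 0} := (measurableSet_eq_fun hh measurable_const).compl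
  have m2 : MeasurableSet {z : ℝ × ℝ | z.1 ∈ R0.I} := measurable_fst R0.measurableSet_I
  have m3 : MeasurableSet {z | lo z < hi z} := measurableSet_lt hlo hhi
  have m4 : MeasurableSet {z | R0.k < hi z} := measurableSet_lt measurable_const hhi
  have f5 : Measurable fun z : ℝ × ℝ => |z.2 - (R0.b + R0.m * z.1)| := by fun_prop
  have m5 : MeasurableSet {z : ℝ × ℝ | |z.2 - (R0.b + R0.m * z.1)| ≤ 2 ^ i} :=
    measurableSet_le f5 measurable_const
  have g6 : Measurable fun z : ℝ × ℝ => (1 / 2 : ℝ) ^ (hi z - 1) :=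
    (measurable_from_nat (f := fun t : ℕ => (1 / 2 : ℝ) ^ (t - 1))).comp hhi
  have f6 : Measurable fun z : ℝ × ℝ => |U z - R0.m| * (1 / 2 : ℝ) ^ (hi z - 1) :=
    (by fun_prop : Measurable fun z : ℝ × ℝ => |U z - R0.m|).mul g6
  have m6 : MeasurableSet {z : ℝ × ℝ | |U z - R0.m| * (1 / 2 : ℝ) ^ (hi z - 1) ≤ 2 ^ i} :=
    measurableSet_le f6 measurable_const
  exact m1.inter (m2.inter (m3.inter (m4.inter (m5.inter m6))))

/-- MASS + OMEGA: `∫_{near_i R0} |h| ≤ 8 * 2^(A i) * 2^-n * ∫_{R0} W` -/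
theorem mass_WW (hM : MASSOM) {A n : ℕ} (hA : 2 ≤ A) {U h : ℝ × ℝ → ℝ} {S : ℕ}
    {lo hi : ℝ × ℝ → ℕ} (hU : Measurable U) (hh : Nice h) (hch : Chain S lo hi)
    (hup : UppAt U h A n lo hi) {N : ℕ} {R : Fin N → Tube}
    {kk : Fin N → ℤ} {ii : Fin N → ℕ} {E B : Fin N → Set (ℝ × ℝ)}
    (hT : IsTops U h A n lo hi N R kk ii E B) (F : Finset ℤ)
    (hF : ∀ z, h z ≠ 0 → lo z < hi z → ∃ k ∈ F, z ∈ col h k) (i : ℕ) (R0 : Tube)
    (hR0 : IntT R0) :
    ∫ z in Zs U h lo hi i R0, |h z| ≤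
      8 * 2 ^ (A * i) * (1 / 2 : ℝ) ^ n * ∫ p in R0.body, WW R kk ii F i p := by
  classical
  have hint : Integrable (fun z => |h z|) := (TBx820.nice_integrable hh).abs
  set Zk : ℤ → Set (ℝ × ℝ) := fun k => {z | z ∈ col h k ∧ z.1 ∈ R0.I ∧ lo z < hi z ∧ R0.k < hi z ∧
          near U (2 ^ i) R0.b R0.m (hi z - 1) z} with hZk
  have hZm := measurableSet_Zs hU hh.1 hch.1 hch.2.1 i R0
  have hZkm : ∀ k, MeasurableSet (Zk k) := by
    intro k
    have : Zk k = col h k ∩ Zs U h lo hi i R0 := by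
      ext z
      simp only [hZk, Zs, Set.mem_ofPred_eq, Set.mem_inter_iff]
      constructor
      · rintro ⟨a, b⟩
        refine ⟨a, ?_, b⟩
        intro h0
        have := a.1
        rw [h0, abs_zero] at this
        have : (0 : ℝ) < 2 ^ k := by positivity
        linarith
      · rintro ⟨a, _, b⟩
        exact ⟨a, b⟩
    rw [this]
    exact (col_meas hh.1 k).inter hZm
  have hZf : ∀ k, volume (Zk k) ≠ ⊤ := fun k =>
    measure_ne_top_of_subset (fun z hz => hz.1) (col_ne_top hh k)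
  -- cover by colours
  have h1 : ∫ z in Zs U h lo hi i R0, |h z| ≤ ∑ k ∈ F, ∫ z in Zk k, |h z| := by
    have hsub : Zs U h lo hi i R0 ⊆ ⋃ k ∈ F, Zk k := by
      intro z hz
      obtain ⟨k, hk, hzk⟩ := hF z hz.1 hz.2.2.1
      simp only [Set.mem_iUnion]
      exact ⟨k, hk, hzk, hz.2⟩
    have hd : Set.Pairwise (↑F : Set ℤ) (Function.onFun Disjoint Zk) := by
      intro k _ k' _ hne
      rw [Function.onFun, Set.disjoint_left]
      rintro z ⟨⟨a1, a2⟩, _⟩ ⟨⟨b1, b2⟩, _⟩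
      have c1 : (2 : ℝ) ^ k < 2 ^ (k' + 1) := lt_of_le_of_lt a1 b2
      have c2 : (2 : ℝ) ^ k' < 2 ^ (k + 1) := lt_of_le_of_lt b1 a2
      have d1 := (zpow_lt_zpow_iff_right₀ (one_lt_two : (1 : ℝ) < 2)).1 c1
      have d2 := (zpow_lt_zpow_iff_right₀ (one_lt_two : (1 : ℝ) < 2)).1 c2
      apply hne; omega
    rw [← integral_biUnion_finset F (fun k _ => hZkm k) hd (fun k _ => hint.integrableOn)]
    exact setIntegral_mono_set hint.integrableOn
      (Filter.Eventually.of_forall (fun z => abs_nonneg _)) hsub.eventuallyLE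
  -- one colour
  have h2 : ∀ k ∈ F, ∫ z in Zk k, |h z| ≤
      8 * 2 ^ (A * i) * (1 / 2 : ℝ) ^ n *
        ((2 : ℝ) ^ k * (volume (R0.body ∩ Om R kk ii k i)).toReal) := by
    intro k _
    have e1 : ∫ z in Zk k, |h z| ≤ (2 : ℝ) ^ (k + 1) * (volume (Zk k)).toReal := by
      have : (2 : ℝ) ^ (k + 1) * (volume (Zk k)).toReal = ∫ _ in Zk k, (2 : ℝ) ^ (k + 1) := by
        rw [setIntegral_const]
        simp [Measure.real, mul_comm]
      rw [this]
      apply setIntegral_mono_on hint.integrableOn (integrableOn_const (hZf k) (by simp)) (hZkm k)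
      intro z hz
      exact hz.1.2.le
    have e2 := hM A n hA U h S lo hi hU hh hch hup N R kk ii E B hT k i R0 hR0
    have e3 := fib_le R kk ii k i R0
    calc ∫ z in Zk k, |h z| ≤ (2 : ℝ) ^ (k + 1) * (volume (Zk k)).toReal := e1
      _ ≤ (2 : ℝ) ^ (k + 1) * (4 * 2 ^ (A * i) * (1 / 2 : ℝ) ^ n *
            (volume (Xs R kk ii k i R0)).toReal) :=
          mul_le_mul_of_nonneg_left e2 (by positivity)
      _ ≤ (2 : ℝ) ^ (k + 1) * (4 * 2 ^ (A * i) * (1 / 2 : ℝ) ^ n *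
            (volume (R0.body ∩ Om R kk ii k i)).toReal) := by
          apply mul_le_mul_of_nonneg_left _ (by positivity)
          exact mul_le_mul_of_nonneg_left e3 (by positivity)
      _ = _ := by rw [zpow_add_one₀ (by norm_num)]; ring
  have h3 : ∫ p in R0.body, WW R kk ii F i p =
      ∑ k ∈ F, (2 : ℝ) ^ k * (volume (R0.body ∩ Om R kk ii k i)).toReal := by
    unfold WW
    rw [integral_finsetSum]
    · refine Finset.sum_congr rfl (fun k _ => ?_)
      rw [integral_const_mul]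
      congr 1
      rw [integral_indicator_one (measurableSet_Om R kk ii k i), Measure.real,
        Measure.restrict_apply (measurableSet_Om R kk ii k i), Set.inter_comm]
    · intro k _
      apply Integrable.const_mul
      exact ((integrable_indicator_iff (measurableSet_Om R kk ii k i)).2
        (integrableOn_const (Om_ne_top R kk ii k i) (by simp))).integrableOn
  rw [h3, Finset.mul_sum]
  exact h1.trans (Finset.sum_le_sum h2)


end Crest.Agent.R087.OmegaBx627
end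
end

-- ▼ part R087/OmegaC_627
section

/-!
# Row 87, leaf OMEGA, literal form (helper627): `omega : MASSOM → OMEGA`
-/

set_option autoImplicit false

noncomputable section

open MeasureTheory Filter Topology

namespace Crest.Agent.R087.OmegaCx627

open Crest.Agent.R087.Sh0x283 Crest.Agent.R087.E2x542 Crest.Agent.R087.E2Kx752
  Crest.Agent.R087.GateDefx273 Crest.Agent.R087.OP0x270 Crest.Agent.R087.OmegaBx627

/-- infinite sums of nonnegative bounded functions, `L²` bound by Fatou -/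
theorem sum_fun {α : Type*} [MeasurableSpace α] (μ : Measure α) (f : ℕ → α → ℝ) (b v : ℕ → ℝ)
    (M S1 S2 : ℝ) (hb : ∀ i, 0 ≤ b i) (hbs : HasSum b S1) (hvs : HasSum (fun i => b i * v i) S2)
    (hf : ∀ i, Measurable (f i)) (hf0 : ∀ i x, 0 ≤ f i x) (hfM : ∀ i x, f i x ≤ M)
    (hf2 : ∀ i, MemLp (f i) 2 μ) (hv : ∀ i, ∫ x, (f i x) ^ 2 ∂μ ≤ v i) :
    ∃ W : α → ℝ, Measurable W ∧ (∀ x, 0 ≤ W x) ∧ (∀ x, W x ≤ S1 * M) ∧
      (∀ I x, ∑ i ∈ Finset.range I, b i * f i x ≤ W x) ∧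
      Integrable (fun x => (W x) ^ 2) μ ∧ ∫ x, (W x) ^ 2 ∂μ ≤ S1 * S2 := by
  have hsum : ∀ x, Summable fun i => b i * f i x := by
    intro x
    refine Summable.of_nonneg_of_le (fun i => mul_nonneg (hb i) (hf0 i x))
      (fun i => mul_le_mul_of_nonneg_left (hfM i x) (hb i)) (hbs.summable.mul_right M)
  have hS1 : 0 ≤ S1 := hbs.nonneg hb
  have hpart : ∀ I x, 0 ≤ ∑ i ∈ Finset.range I, b i * f i x := fun I x =>
    Finset.sum_nonneg (fun i _ => mul_nonneg (hb i) (hf0 i x))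
  have hmeas : ∀ I : ℕ, Measurable fun x => ∑ i ∈ Finset.range I, b i * f i x := by
    intro I
    apply Finset.measurable_sum
    intro i _
    exact (hf i).const_mul _
  have htend : ∀ x, Tendsto (fun I => ∑ i ∈ Finset.range I, b i * f i x) atTop
      (𝓝 (∑' i, b i * f i x)) := fun x => (hsum x).hasSum.tendsto_sum_nat
  have hWm : Measurable fun x => ∑' i, b i * f i x :=
    measurable_of_tendsto_metrizable hmeas (tendsto_pi_nhds.2 htend)
  have hle : ∀ I x, ∑ i ∈ Finset.range I, b i * f i x ≤ ∑' i, b i * f i x := fun I x =>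
    (hsum x).sum_le_tsum _ (fun i _ => mul_nonneg (hb i) (hf0 i x))
  -- uniform L2 bound
  have hQ : ∀ I : ℕ, ∫⁻ x, ENNReal.ofReal ((∑ i ∈ Finset.range I, b i * f i x) ^ 2) ∂μ ≤
      ENNReal.ofReal (S1 * S2) := by
    intro I
    have hmem : MemLp (fun x => ∑ i ∈ Finset.range I, b i * f i x) 2 μ := by
      apply memLp_finsetSum
      intro i _
      exact (hf2 i).const_mul (b i)
    rw [← ofReal_integral_eq_lintegral_ofReal hmem.integrable_sq
      (Eventually.of_forall (fun x => sq_nonneg _))]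
    apply ENNReal.ofReal_le_ofReal
    have hcs : ∀ x, (∑ i ∈ Finset.range I, b i * f i x) ^ 2 ≤
        (∑ i ∈ Finset.range I, b i) * ∑ i ∈ Finset.range I, b i * (f i x) ^ 2 := by
      intro x
      apply Finset.sum_sq_le_sum_mul_sum_of_sq_le_mul
      · intro i _; exact hb i
      · intro i _; exact mul_nonneg (hb i) (sq_nonneg _)
      · intro i _; exact le_of_eq (by ring)
    have hint : ∀ i ∈ Finset.range I, Integrable (fun x => b i * (f i x) ^ 2) μ := fun i _ =>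
      (hf2 i).integrable_sq.const_mul _
    calc ∫ x, (∑ i ∈ Finset.range I, b i * f i x) ^ 2 ∂μ
        ≤ ∫ x, (∑ i ∈ Finset.range I, b i) * ∑ i ∈ Finset.range I, b i * (f i x) ^ 2 ∂μ :=
          integral_mono_of_nonneg (Eventually.of_forall (fun x => sq_nonneg _))
            ((integrable_finsetSum _ hint).const_mul _) (Eventually.of_forall hcs)
      _ = (∑ i ∈ Finset.range I, b i) * ∑ i ∈ Finset.range I, b i * ∫ x, (f i x) ^ 2 ∂μ := by
          rw [integral_const_mul, integral_finsetSum _ hint]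
          congr 1
          exact Finset.sum_congr rfl (fun i _ => integral_const_mul _ _)
      _ ≤ S1 * ∑ i ∈ Finset.range I, b i * v i := by
          apply mul_le_mul
          · exact sum_le_hasSum _ (fun i _ => hb i) hbs
          · exact Finset.sum_le_sum (fun i _ => mul_le_mul_of_nonneg_left (hv i) (hb i))
          · exact Finset.sum_nonneg (fun i _ => mul_nonneg (hb i)
              (integral_nonneg (fun x => sq_nonneg _)))
          · exact hS1
      _ ≤ S1 * S2 := by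
          apply mul_le_mul_of_nonneg_left _ hS1
          apply sum_le_hasSum _ _ hvs
          intro i _
          exact mul_nonneg (hb i) ((integral_nonneg (fun x => sq_nonneg _)).trans (hv i))
  -- Fatou
  have hfat : ∫⁻ x, ENNReal.ofReal ((∑' i, b i * f i x) ^ 2) ∂μ ≤ ENNReal.ofReal (S1 * S2) := by
    have h1 : ∀ x, liminf (fun I => ENNReal.ofReal ((∑ i ∈ Finset.range I, b i * f i x) ^ 2))
        atTop = ENNReal.ofReal ((∑' i, b i * f i x) ^ 2) := by
      intro x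
      apply Tendsto.liminf_eq
      exact (ENNReal.continuous_ofReal.tendsto _).comp ((htend x).pow 2)
    calc ∫⁻ x, ENNReal.ofReal ((∑' i, b i * f i x) ^ 2) ∂μ
        = ∫⁻ x, liminf (fun I => ENNReal.ofReal ((∑ i ∈ Finset.range I, b i * f i x) ^ 2))
          atTop ∂μ := by simp_rw [h1]
      _ ≤ liminf (fun I => ∫⁻ x, ENNReal.ofReal ((∑ i ∈ Finset.range I, b i * f i x) ^ 2) ∂μ)
          atTop := lintegral_liminf_le (fun I => ((hmeas I).pow_const 2).ennreal_ofReal)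
      _ ≤ ENNReal.ofReal (S1 * S2) := by
          apply liminf_le_of_le
          · isBoundedDefault
          · intro c hc
            obtain ⟨I, hI⟩ := hc.exists
            exact hI.trans (hQ I)
  have hW0 : ∀ x, 0 ≤ ∑' i, b i * f i x := fun x =>
    tsum_nonneg (fun i => mul_nonneg (hb i) (hf0 i x))
  refine ⟨fun x => ∑' i, b i * f i x, hWm, hW0, ?_, hle, ?_, ?_⟩
  · intro x
    have : HasSum (fun i => b i * M) (S1 * M) := hbs.mul_right M
    exact hasSum_le (fun i => mul_le_mul_of_nonneg_left (hfM i x) (hb i)) (hsum x).hasSum this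
  · refine ⟨(hWm.pow_const 2).aestronglyMeasurable, ?_⟩
    rw [hasFiniteIntegral_iff_ofReal (Eventually.of_forall (fun x => sq_nonneg _))]
    exact lt_of_le_of_lt hfat ENNReal.ofReal_lt_top
  · rw [integral_eq_lintegral_of_nonneg_ae (Eventually.of_forall (fun x => sq_nonneg _))
      (hWm.pow_const 2).aestronglyMeasurable]
    apply ENNReal.toReal_le_of_le_ofReal _ hfat
    apply mul_nonneg hS1
    apply hvs.nonneg
    intro i
    exact mul_nonneg (hb i) ((integral_nonneg (fun x => sq_nonneg _)).trans (hv i))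

/-- dyadic layers of the weight -/
theorem layer (q : ℕ) {a ρ : ℝ} (ha : 0 ≤ a) (hρ : 0 ≤ ρ) (I : ℕ) (hI : a ≤ 2 ^ I ∧ ρ ≤ 2 ^ I) :
    ∃ i ∈ Finset.range (I + 1), (a ≤ 2 ^ i ∧ ρ ≤ 2 ^ i) ∧
      1 / (1 + a + ρ) ^ q ≤ 2 ^ q * (1 / 2 : ℝ) ^ (q * i) := by
  classical
  have hex : ∃ i : ℕ, a ≤ 2 ^ i ∧ ρ ≤ 2 ^ i := ⟨I, hI⟩
  refine ⟨Nat.find hex, ?_, Nat.find_spec hex, ?_⟩
  · rw [Finset.mem_range]
    exact Nat.lt_succ_of_le (Nat.find_min' hex hI)
  · have hpos : 0 < (1 + a + ρ) ^ q := by positivity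
    have key : ((2 : ℝ) ^ Nat.find hex) ^ q ≤ 2 ^ q * (1 + a + ρ) ^ q := by
      rw [← mul_pow]
      apply pow_le_pow_left₀ (by positivity)
      rcases Nat.eq_zero_or_pos (Nat.find hex) with h0 | h0
      · rw [h0]; nlinarith
      · have h1 := Nat.find_min hex (Nat.sub_lt h0 one_pos)
        have h2 : (2 : ℝ) ^ (Nat.find hex - 1) < 1 + a + ρ := by
          by_contra hcon
          push Not at hcon
          exact h1 ⟨by linarith, by linarith⟩
        have h3 : (2 : ℝ) ^ Nat.find hex = 2 * 2 ^ (Nat.find hex - 1) := by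
          rw [← pow_succ', Nat.sub_add_cancel h0]
        rw [h3]; linarith
    have e : (2 : ℝ) ^ q * (1 / 2 : ℝ) ^ (q * Nat.find hex) =
        2 ^ q / ((2 : ℝ) ^ Nat.find hex) ^ q := by
      rw [mul_comm q, pow_mul, one_div_pow, one_div_pow, mul_one_div]
    rw [e, div_le_div_iff₀ hpos (by positivity)]
    linarith

theorem pow_aux (A q i : ℕ) (h : A + 2 ≤ q) :
    (2 : ℝ) ^ (A * i) * (1 / 2 : ℝ) ^ (q * i) ≤ (1 / 4 : ℝ) ^ i := by
  have e : (1 / 2 : ℝ) ^ (q * i) ≤ (1 / 2 : ℝ) ^ ((A + 2) * i) :=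
    pow_le_pow_of_le_one (by norm_num) (by norm_num) (Nat.mul_le_mul_right i h)
  calc (2 : ℝ) ^ (A * i) * (1 / 2 : ℝ) ^ (q * i)
      ≤ 2 ^ (A * i) * (1 / 2 : ℝ) ^ ((A + 2) * i) := mul_le_mul_of_nonneg_left e (by positivity)
    _ = (1 / 4 : ℝ) ^ i := by
        rw [add_mul, pow_add, ← mul_assoc, ← mul_pow]
        norm_num
        rw [pow_mul]; norm_num

theorem body_sub_fat (R : Tube) : R.body ⊆ fat 1 R := by
  rintro z ⟨h1, h2⟩
  exact ⟨h1, h2.trans (by norm_num)⟩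

/-- general form, variables `A`, `q` -/
theorem omega_gen (hM : MASSOM) (A q : ℕ) (hA : 2 ≤ A) (hq : A + 2 ≤ q) (n : ℕ)
    (U h : ℝ × ℝ → ℝ) (S : ℕ) (lo hi : ℝ × ℝ → ℕ) (hU : Measurable U) (hh : Nice h)
    (hch : Chain S lo hi) (hup : UppAt U h A n lo hi)
    (N : ℕ) (R : Fin N → Tube) (kk : Fin N → ℤ) (ii : Fin N → ℕ) (E B : Fin N → Set (ℝ × ℝ))
    (hT : IsTops U h A n lo hi N R kk ii E B) :
    ∃ W : ℝ × ℝ → ℝ, Measurable W ∧ (∀ w, 0 ≤ W w) ∧ Integrable (fun w => (W w) ^ 2) ∧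
      ∫ w, (W w) ^ 2 ≤ (40000 * 4 ^ q) * (1 / 2 : ℝ) ^ n * ∫ z, (h z) ^ 2 ∧
      ∀ R0 : Tube, IntT R0 →
        IntegrableOn W (fat 1 R0) ∧
        ∫ z in {z | z.1 ∈ R0.I ∧ lo z < hi z ∧ R0.k < hi z},
          |h z| / (1 + |U z - R0.m| * (1 / 2 : ℝ) ^ (hi z - 1) + |z.2 - R0.line z.1|) ^ q ≤
          ∫ w in fat 1 R0, W w := by
  classical
  have hF := colors hT
  set F := Finset.univ.image kk
  set β : ℝ := 8 * 2 ^ q * (1 / 2 : ℝ) ^ n with hβ
  have hβ0 : 0 ≤ β := by positivity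
  set V : ℝ := 200 * 2 ^ n * ∫ z, (h z) ^ 2 with hV
  have hV0 : 0 ≤ V := mul_nonneg (by positivity) (integral_nonneg (fun z => sq_nonneg _))
  have hb1 : HasSum (fun i : ℕ => β * (1 / 4 : ℝ) ^ i) (β * (4 / 3)) := by
    have := hasSum_geometric_of_lt_one (r := (1 / 4 : ℝ)) (by norm_num) (by norm_num)
    norm_num at this
    exact this.mul_left β
  have hb2 : HasSum (fun i : ℕ => (β * (1 / 4 : ℝ) ^ i) * (V * 2 ^ i)) (β * V * 2) := by
    have := hasSum_geometric_of_lt_one (r := (1 / 2 : ℝ)) (by norm_num) (by norm_num)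
    have e : (1 - (1 / 2 : ℝ))⁻¹ = 2 := by norm_num
    rw [e] at this
    have h2 := this.mul_left (β * V)
    have e3 : (fun i : ℕ => (β * (1 / 4 : ℝ) ^ i) * (V * 2 ^ i)) =
        fun i : ℕ => β * V * (1 / 2 : ℝ) ^ i := by
      funext i
      have e2 : (1 / 4 : ℝ) ^ i * 2 ^ i = (1 / 2 : ℝ) ^ i := by rw [← mul_pow]; norm_num
      rw [← e2]; ring
    rw [e3]; exact h2
  have hWWm : ∀ i, Measurable (WW R kk ii F i) := by
    intro i
    apply Finset.measurable_sum
    intro k _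
    apply Measurable.const_mul
    exact measurable_one.indicator (measurableSet_Om R kk ii k i)
  have hwM : ∀ i x, WW R kk ii F i x ≤ ∑ k ∈ F, (2 : ℝ) ^ k := by
    intro i x
    apply Finset.sum_le_sum
    intro k _
    have : (Om R kk ii k i).indicator (1 : ℝ × ℝ → ℝ) x ≤ 1 :=
      Set.indicator_le_self' (fun _ _ => zero_le_one) x
    calc (2 : ℝ) ^ k * (Om R kk ii k i).indicator 1 x ≤ 2 ^ k * 1 :=
          mul_le_mul_of_nonneg_left this (by positivity)
      _ = 2 ^ k := mul_one _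
  have hwv : ∀ i, ∫ p, (WW R kk ii F i p) ^ 2 ≤ V * 2 ^ i := by
    intro i
    refine (WW_sq hA hh hT F i).trans (le_of_eq ?_)
    rw [hV]; ring
  obtain ⟨W, hWm, hW0, hWM, hWI, hWint, hWle⟩ := sum_fun volume (fun i => WW R kk ii F i)
    (fun i => β * (1 / 4 : ℝ) ^ i) (fun i => V * 2 ^ i) (∑ k ∈ F, (2 : ℝ) ^ k) (β * (4 / 3))
    (β * V * 2) (fun i => by positivity) hb1 hb2 hWWm (fun i x => WW_nonneg R kk ii F i x)
    hwM (fun i => WW_mem R kk ii F i) hwv
  refine ⟨W, hWm, hW0, hWint, ?_, ?_⟩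
  · refine hWle.trans ?_
    have e1 : (2 : ℝ) ^ n * (1 / 2 : ℝ) ^ n = 1 := by rw [← mul_pow]; norm_num
    have e2 : (4 : ℝ) ^ q = 2 ^ q * 2 ^ q := by rw [← mul_pow]; norm_num
    have hI : 0 ≤ ∫ z, (h z) ^ 2 := integral_nonneg (fun z => sq_nonneg _)
    calc β * (4 / 3) * (β * V * 2)
        = (102400 / 3) * (2 ^ q * 2 ^ q) * (1 / 2 : ℝ) ^ n * ((2 : ℝ) ^ n * (1 / 2 : ℝ) ^ n) *
          ∫ z, (h z) ^ 2 := by rw [hβ, hV]; ring
      _ ≤ 40000 * (2 ^ q * 2 ^ q) * (1 / 2 : ℝ) ^ n * ((2 : ℝ) ^ n * (1 / 2 : ℝ) ^ n) *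
          ∫ z, (h z) ^ 2 := by gcongr; norm_num
      _ = _ := by rw [e1, e2]; ring
  intro R0 hR0
  have hfin : volume (fat 1 R0) ≠ ⊤ := fat_ne_top _ _
  have hWon : IntegrableOn W (fat 1 R0) := by
    apply Measure.integrableOn_of_bounded hfin hWm.aestronglyMeasurable
      (M := β * (4 / 3) * ∑ k ∈ F, (2 : ℝ) ^ k)
    refine Eventually.of_forall (fun x => ?_)
    rw [Real.norm_of_nonneg (hW0 x)]
    exact hWM x
  refine ⟨hWon, ?_⟩
  -- the weight
  set aa : ℝ × ℝ → ℝ := fun z => |U z - R0.m| * (1 / 2 : ℝ) ^ (hi z - 1) with haa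
  set ρρ : ℝ × ℝ → ℝ := fun z => |z.2 - R0.line z.1| with hρρ
  have haa0 : ∀ z, 0 ≤ aa z := fun z => by simp only [haa]; positivity
  have hρρ0 : ∀ z, 0 ≤ ρρ z := fun z => abs_nonneg _
  have g6 : Measurable fun z : ℝ × ℝ => (1 / 2 : ℝ) ^ (hi z - 1) :=
    (measurable_from_nat (f := fun t : ℕ => (1 / 2 : ℝ) ^ (t - 1))).comp hch.2.1
  have haam : Measurable aa := (by fun_prop : Measurable fun z : ℝ × ℝ => |U z - R0.m|).mul g6
  have hlm := R0.measurable_line
  have hρρm : Measurable ρρ := by simp only [hρρ]; fun_prop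
  set f : ℝ × ℝ → ℝ := fun z => |h z| / (1 + aa z + ρρ z) ^ q with hf
  have hhm : Measurable h := hh.1
  have hfm : Measurable f := by simp only [hf]; fun_prop
  have hint : Integrable (fun z => |h z|) := (TBx820.nice_integrable hh).abs
  have hfle : ∀ z, f z ≤ |h z| := by
    intro z
    apply div_le_self (abs_nonneg _)
    apply one_le_pow₀
    linarith [haa0 z, hρρ0 z]
  have hf0 : ∀ z, 0 ≤ f z := fun z => div_nonneg (abs_nonneg _) (by
    have := haa0 z; have := hρρ0 z; positivity)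
  have hfint : Integrable f := by
    apply hint.mono' hfm.aestronglyMeasurable
    refine Eventually.of_forall (fun z => ?_)
    rw [Real.norm_of_nonneg (hf0 z)]
    exact hfle z
  set Z : Set (ℝ × ℝ) := {z | z.1 ∈ R0.I ∧ lo z < hi z ∧ R0.k < hi z} with hZ
  set ZI : ℕ → Set (ℝ × ℝ) := fun I => Z ∩ {z | aa z ≤ 2 ^ I ∧ ρρ z ≤ 2 ^ I} with hZI
  have hZm : MeasurableSet Z :=
    (measurable_fst R0.measurableSet_I).inter
      ((measurableSet_lt hch.1 hch.2.1).inter (measurableSet_lt measurable_const hch.2.1))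
  have hZIm : ∀ I, MeasurableSet (ZI I) := fun I =>
    hZm.inter ((measurableSet_le haam measurable_const).inter
      (measurableSet_le hρρm measurable_const))
  have hZmono : Monotone ZI := by
    intro I J hIJ z hz
    have h2 : (2 : ℝ) ^ I ≤ 2 ^ J := pow_le_pow_right₀ (by norm_num) hIJ
    exact ⟨hz.1, hz.2.1.trans h2, hz.2.2.trans h2⟩
  have hZU : (⋃ I, ZI I) = Z := by
    ext z
    simp only [hZI, Set.mem_iUnion, Set.mem_inter_iff]
    constructor
    · rintro ⟨_, h1, _⟩; exact h1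
    · intro h1
      obtain ⟨I, hI⟩ := pow_unbounded_of_one_lt (max (aa z) (ρρ z)) (one_lt_two : (1 : ℝ) < 2)
      exact ⟨I, h1, (le_max_left _ _).trans hI.le, (le_max_right _ _).trans hI.le⟩
  have hlim : Tendsto (fun I => ∫ z in ZI I, f z) atTop (𝓝 (∫ z in Z, f z)) := by
    have := tendsto_setIntegral_of_monotone (μ := volume) hZIm hZmono
      (f := f) (hfint.integrableOn)
    rwa [hZU] at this
  refine le_of_tendsto' hlim (fun I => ?_)
  -- one truncation
  have hZsm : ∀ i, MeasurableSet (Zs U h lo hi i R0) := fun i =>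
    measurableSet_Zs hU hh.1 hch.1 hch.2.1 i R0
  have hpt : ∀ z ∈ ZI I, f z ≤ ∑ i ∈ Finset.range (I + 1),
      (2 ^ q * (1 / 2 : ℝ) ^ (q * i)) * (Zs U h lo hi i R0).indicator (fun z => |h z|) z := by
    intro z hz
    have hnn : ∀ i ∈ Finset.range (I + 1), 0 ≤ (2 ^ q * (1 / 2 : ℝ) ^ (q * i)) *
        (Zs U h lo hi i R0).indicator (fun z => |h z|) z := fun i _ =>
      mul_nonneg (by positivity) (Set.indicator_nonneg (fun _ _ => abs_nonneg _) _)
    by_cases hz0 : h z = 0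
    · simp only [hf, hz0, abs_zero, zero_div]
      exact Finset.sum_nonneg hnn
    obtain ⟨i, hi1, hi2, hi3⟩ := layer q (haa0 z) (hρρ0 z) I hz.2
    have hmem : z ∈ Zs U h lo hi i R0 := ⟨hz0, hz.1.1, hz.1.2.1, hz.1.2.2, hi2.2, hi2.1⟩
    refine le_trans ?_ (Finset.single_le_sum hnn hi1)
    rw [Set.indicator_of_mem hmem]
    have : f z = 1 / (1 + aa z + ρρ z) ^ q * |h z| := by simp only [hf]; ring
    rw [this]
    exact mul_le_mul_of_nonneg_right hi3 (abs_nonneg _)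
  have hinti : ∀ i ∈ Finset.range (I + 1), Integrable (fun z => (2 ^ q * (1 / 2 : ℝ) ^ (q * i)) *
      (Zs U h lo hi i R0).indicator (fun z => |h z|) z) := fun i _ =>
    (hint.indicator (hZsm i)).const_mul _
  calc ∫ z in ZI I, f z
      ≤ ∫ z in ZI I, ∑ i ∈ Finset.range (I + 1), (2 ^ q * (1 / 2 : ℝ) ^ (q * i)) *
        (Zs U h lo hi i R0).indicator (fun z => |h z|) z :=
        setIntegral_mono_on hfint.integrableOn (integrable_finsetSum _ hinti).integrableOn
          (hZIm I) hpt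
    _ ≤ ∫ z, ∑ i ∈ Finset.range (I + 1), (2 ^ q * (1 / 2 : ℝ) ^ (q * i)) *
        (Zs U h lo hi i R0).indicator (fun z => |h z|) z :=
        setIntegral_le_integral (integrable_finsetSum _ hinti)
          (Eventually.of_forall (fun z => Finset.sum_nonneg (fun i _ =>
            mul_nonneg (by positivity) (Set.indicator_nonneg (fun _ _ => abs_nonneg _) _))))
    _ = ∑ i ∈ Finset.range (I + 1), (2 ^ q * (1 / 2 : ℝ) ^ (q * i)) *
        ∫ z in Zs U h lo hi i R0, |h z| := by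
        rw [integral_finsetSum _ hinti]
        refine Finset.sum_congr rfl (fun i _ => ?_)
        rw [integral_const_mul, integral_indicator (hZsm i)]
    _ ≤ ∑ i ∈ Finset.range (I + 1), (β * (1 / 4 : ℝ) ^ i) * ∫ p in R0.body, WW R kk ii F i p := by
        apply Finset.sum_le_sum
        intro i _
        have h1 := mass_WW hM hA hU hh hch hup hT F hF i R0 hR0
        have hnn : 0 ≤ ∫ p in R0.body, WW R kk ii F i p :=
          integral_nonneg (fun p => WW_nonneg R kk ii F i p)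
        calc (2 ^ q * (1 / 2 : ℝ) ^ (q * i)) * ∫ z in Zs U h lo hi i R0, |h z|
            ≤ (2 ^ q * (1 / 2 : ℝ) ^ (q * i)) * (8 * 2 ^ (A * i) * (1 / 2 : ℝ) ^ n *
              ∫ p in R0.body, WW R kk ii F i p) := mul_le_mul_of_nonneg_left h1 (by positivity)
          _ = β * (2 ^ (A * i) * (1 / 2 : ℝ) ^ (q * i)) *
              ∫ p in R0.body, WW R kk ii F i p := by rw [hβ]; ring
          _ ≤ _ := by
              apply mul_le_mul_of_nonneg_right _ hnn
              exact mul_le_mul_of_nonneg_left (pow_aux A q i hq) hβ0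
    _ = ∫ p in R0.body, ∑ i ∈ Finset.range (I + 1), (β * (1 / 4 : ℝ) ^ i) *
          WW R kk ii F i p := by
        rw [integral_finsetSum _ (fun i _ => ((WW_integrable R kk ii F i).const_mul _).integrableOn)]
        exact Finset.sum_congr rfl (fun i _ => (integral_const_mul _ _).symm)
    _ ≤ ∫ p in R0.body, W p := by
        apply setIntegral_mono_on _ (hWon.mono_set (body_sub_fat R0)) R0.measurableSet_body
          (fun p _ => hWI (I + 1) p)
        exact (integrable_finsetSum _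
          (fun i _ => (WW_integrable R kk ii F i).const_mul _)).integrableOn
    _ ≤ ∫ p in fat 1 R0, W p :=
        setIntegral_mono_set hWon (Eventually.of_forall hW0) (body_sub_fat R0).eventuallyLE

/-- **leaf OMEGA** -/
theorem omega : L_OMEGA := by
  intro hM
  refine ⟨40000 * 4 ^ qq, by positivity, ?_⟩
  intro n U h S lo hi hU hh hch hup N R kk ii E B hT
  exact omega_gen hM AA qq (by norm_num [AA]) (by norm_num [AA, qq]) n U h S lo hi hU hh hch hup N R
    kk ii E B hT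

end Crest.Agent.R087.OmegaCx627
end
end

-- ▼ part R087/ClassN_233

/-!
Row 87 (S0115), operator part, leaf CLASSN (helper233): the chain of one class splits into one LOW
chain and `n + 7` one-scale TOP chains.
-/

set_option autoImplicit false

noncomputable section

open MeasureTheory

namespace Crest.Agent.R087.ClassNx233

open Crest.Agent.R087.Sh0x283 Crest.Agent.R087.E2x542 Crest.Agent.R087.E2Kx752
  Crest.Agent.R087.GateDefx273 Crest.Agent.R087.OP0x270

/-- larger Lipschitz constant -/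
theorem fld_mono {c c' : ℝ} (h : c ≤ c') {U : ℝ × ℝ → ℝ} (hU : Fld c U) : Fld c' U :=
  ⟨hU.1, hU.2.1, fun x y y' => (hU.2.2 x y y').trans (mul_le_mul_of_nonneg_right h (abs_nonneg _))⟩

theorem subC_mono {ζ ω : ℝ → ℝ} {U h : ℝ × ℝ → ℝ} {n : ℕ} {lo hi : ℝ × ℝ → ℕ} {Λ C C' : ℝ}
    (hΛ : 1 ≤ Λ) (hC : C ≤ C') (H : SubC ζ ω U h n lo hi Λ C) : SubC ζ ω U h n lo hi Λ C' := by
  obtain ⟨hi', h1, h2, h3, h4⟩ := H
  have h0 : 0 ≤ ∫ z, (h z) ^ 2 := integral_nonneg fun _ => sq_nonneg _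
  have h5 : (0 : ℝ) ≤ (2 : ℝ) ^ (-(n : ℝ) / 4) := by positivity
  have h6 : (0 : ℝ) ≤ (1 / Λ) ^ 2 := by positivity
  have h7 : (0 : ℝ) ≤ (n : ℝ) + 1 := by positivity
  refine ⟨hi', h1, h2, h3.trans ?_, h4.trans ?_⟩
  · refine mul_le_mul_of_nonneg_right ?_ h0
    refine mul_le_mul_of_nonneg_right ?_ h5
    exact mul_le_mul_of_nonneg_right hC (by linarith)
  · refine mul_le_mul_of_nonneg_right ?_ h0
    refine mul_le_mul_of_nonneg_right ?_ h6
    exact mul_le_mul_of_nonneg_right hC h7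

theorem upp_scale {U h : ℝ × ℝ → ℝ} {A n : ℕ} {k : ℤ} {s t : ℕ} (hst : s ≤ t) {z : ℝ × ℝ}
    (hz : upp U h A n k t z) : upp U h A n k s z := by
  intro i R h1 h2 h3 h4
  refine hz i R h1 (h2.trans hst) h3 ⟨h4.1, le_trans ?_ h4.2⟩
  have : (1 / 2 : ℝ) ^ t ≤ (1 / 2 : ℝ) ^ s := pow_le_pow_of_le_one (by norm_num) (by norm_num) hst
  exact mul_le_mul_of_nonneg_left this (abs_nonneg _)

theorem uppAt_sub {U h : ℝ × ℝ → ℝ} {A n : ℕ} {lo hi lo' hi' : ℝ × ℝ → ℕ}
    (H : UppAt U h A n lo hi) (hs : ∀ z, lo' z < hi' z → lo z < hi z ∧ hi' z ≤ hi z) :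
    UppAt U h A n lo' hi' := by
  intro z hz h' k hk
  exact upp_scale (Nat.sub_le_sub_right (hs z h').2 1) (H z hz (hs z h').1 k hk)

/-- slope of the top of a point -/
def sl {N : ℕ} (R : Fin N → Tube) (B : Fin N → Set (ℝ × ℝ)) (z : ℝ × ℝ) : ℝ :=
  ∑ m, (B m).indicator (fun _ => (R m).m) z

theorem sl_meas {N : ℕ} (R : Fin N → Tube) {B : Fin N → Set (ℝ × ℝ)}
    (hB : ∀ m, MeasurableSet (B m)) : Measurable (sl R B) := by
  unfold sl
  exact Finset.measurable_sum _ fun m _ => measurable_const.indicator (hB m)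

theorem sl_eq {N : ℕ} (R : Fin N → Tube) {B : Fin N → Set (ℝ × ℝ)}
    (hd : Pairwise (Function.onFun Disjoint B)) {m : Fin N} {z : ℝ × ℝ} (hz : z ∈ B m) :
    sl R B z = (R m).m := by
  unfold sl
  rw [Finset.sum_eq_single m]
  · simp [hz]
  · intro m' _ hm
    have : z ∉ B m' := fun h => Set.disjoint_left.1 (hd hm) h hz
    simp [this]
  · simp

/-- counting a decreasing predicate -/
theorem cnt_spec (p : ℕ → Prop) [DecidablePred p] (hp : ∀ s t, s ≤ t → p t → p s) (T : ℕ) :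
    (∑ t ∈ Finset.range T, if p t then 1 else 0) ≤ T ∧
    ((∑ t ∈ Finset.range T, if p t then 1 else 0) < T →
      ¬ p (∑ t ∈ Finset.range T, if p t then 1 else 0)) := by
  induction T with
  | zero => simp
  | succ T ih =>
    obtain ⟨h1, h2⟩ := ih
    rw [Finset.sum_range_succ]
    set c := ∑ t ∈ Finset.range T, if p t then 1 else 0 with hc
    by_cases hT : p T
    · have h3 : c = T := by
        rcases h1.lt_or_eq with h | h
        · exact absurd (hp _ _ h1 hT) (h2 h)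
        · exact h
      simp [hT, h3]
    · simp only [hT, if_false, add_zero]
      refine ⟨by omega, fun h => ?_⟩
      rcases h1.lt_or_eq with h' | h'
      · exact h2 h'
      · rw [h']; exact hT

/-- number of TOP scales -/
def cnt (T : ℕ) (U σ : ℝ × ℝ → ℝ) (lo : ℝ × ℝ → ℕ) (z : ℝ × ℝ) : ℕ :=
  ∑ t ∈ Finset.range T, if 1 < |U z - σ z| * (1 / 2 : ℝ) ^ (lo z + t) then 1 else 0

theorem cnt_meas (T : ℕ) {U σ : ℝ × ℝ → ℝ} {lo : ℝ × ℝ → ℕ} (hU : Measurable U)
    (hσ : Measurable σ) (hlo : Measurable lo) : Measurable (cnt T U σ lo) := by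
  unfold cnt
  refine Finset.measurable_sum _ fun t _ => ?_
  refine Measurable.ite ?_ measurable_const measurable_const
  refine measurableSet_lt measurable_const ?_
  refine Measurable.mul ?_ ?_
  · exact (hU.sub hσ).abs
  · exact (measurable_from_nat (f := fun n : ℕ => (1 / 2 : ℝ) ^ (n + t))).comp hlo

theorem cnt_le (T : ℕ) (U σ : ℝ × ℝ → ℝ) (lo : ℝ × ℝ → ℕ) (z : ℝ × ℝ) : cnt T U σ lo z ≤ T := by
  unfold cnt
  calc ∑ t ∈ Finset.range T, (if 1 < |U z - σ z| * (1 / 2 : ℝ) ^ (lo z + t) then 1 else 0)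
      ≤ ∑ t ∈ Finset.range T, 1 := Finset.sum_le_sum fun t _ => by split_ifs <;> omega
    _ = T := by simp

theorem cnt_low {T : ℕ} {U σ : ℝ × ℝ → ℝ} {lo : ℝ × ℝ → ℕ} {z : ℝ × ℝ}
    (h : |U z - σ z| * (1 / 2 : ℝ) ^ (lo z + T) ≤ 1) :
    |U z - σ z| * (1 / 2 : ℝ) ^ (lo z + cnt T U σ lo z) ≤ 1 := by
  have hp : ∀ s t : ℕ, s ≤ t → 1 < |U z - σ z| * (1 / 2 : ℝ) ^ (lo z + t) →
      1 < |U z - σ z| * (1 / 2 : ℝ) ^ (lo z + s) := by
    intro s t hst ht
    refine lt_of_lt_of_le ht ?_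
    refine mul_le_mul_of_nonneg_left ?_ (abs_nonneg _)
    exact pow_le_pow_of_le_one (by norm_num) (by norm_num) (by omega)
  have h1 := cnt_spec (fun t : ℕ => 1 < |U z - σ z| * (1 / 2 : ℝ) ^ (lo z + t)) hp T
  rcases h1.1.lt_or_eq with h2 | h2
  · exact not_lt.1 (h1.2 h2)
  · have h3 : cnt T U σ lo z = T := h2
    rw [h3]; exact h

/-- first LOW scale -/
def mid (T : ℕ) (U σ : ℝ × ℝ → ℝ) (lo hi : ℝ × ℝ → ℕ) (z : ℝ × ℝ) : ℕ :=
  min (hi z) (lo z + cnt T U σ lo z)

theorem mid_meas (T : ℕ) {U σ : ℝ × ℝ → ℝ} {lo hi : ℝ × ℝ → ℕ} (hU : Measurable U)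
    (hσ : Measurable σ) (hlo : Measurable lo) (hhi : Measurable hi) :
    Measurable (mid T U σ lo hi) := by
  unfold mid
  exact hhi.min (hlo.add (cnt_meas T hU hσ hlo))

/-- tops of the sub-chains -/
def lcc (T : ℕ) (U σ : ℝ × ℝ → ℝ) (lo hi : ℝ × ℝ → ℕ) (i : ℕ) (z : ℝ × ℝ) : ℕ :=
  if i = 0 then mid T U σ lo hi z else lo z + (i - 1)

/-- bottoms of the sub-chains -/
def hcc (T : ℕ) (U σ : ℝ × ℝ → ℝ) (lo hi : ℝ × ℝ → ℕ) (i : ℕ) (z : ℝ × ℝ) : ℕ :=
  if i = 0 then hi z else min (lo z + (i - 1) + 1) (mid T U σ lo hi z)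

theorem range_split (lo m T : ℕ) (_h : lo ≤ m) (f : ℕ → ℝ) :
    ∑ t ∈ Finset.range T, ∑ s ∈ Finset.Ico (lo + t) (min (lo + t + 1) m), f s =
      ∑ s ∈ Finset.Ico lo (min (lo + T) m), f s := by
  induction T with
  | zero => simp
  | succ T ih =>
    rw [Finset.sum_range_succ, ih]
    rcases lt_or_ge (lo + T) m with h1 | h1
    · rw [min_eq_left h1.le, min_eq_left (by omega : lo + T + 1 ≤ m),
        show lo + (T + 1) = lo + T + 1 by ring, min_eq_left (by omega : lo + T + 1 ≤ m)]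
      exact Finset.sum_Ico_consecutive f (by omega) (by omega)
    · rw [min_eq_right h1, min_eq_right (by omega : m ≤ lo + T + 1),
        min_eq_right (by omega : m ≤ lo + (T + 1)), Finset.Ico_eq_empty (by omega : ¬ lo + T < m)]
      simp

theorem split_sum (lo hi c T : ℕ) (hc : c ≤ T) (f : ℕ → ℝ) :
    ∑ s ∈ Finset.Ico lo hi, f s =
      (∑ t ∈ Finset.range T, ∑ s ∈ Finset.Ico (lo + t) (min (lo + t + 1) (min hi (lo + c))), f s) +
        ∑ s ∈ Finset.Ico (min hi (lo + c)) hi, f s := by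
  rcases le_or_gt lo hi with h | h
  · rw [range_split lo _ T (le_min h (by omega)) f]
    have h1 : min (lo + T) (min hi (lo + c)) = min hi (lo + c) :=
      min_eq_right ((min_le_right _ _).trans (by omega))
    rw [h1]
    exact (Finset.sum_Ico_consecutive f (le_min h (by omega)) (min_le_left _ _)).symm
  · have h1 : min hi (lo + c) = hi := min_eq_left (by omega)
    rw [h1, Finset.Ico_eq_empty (by omega : ¬ lo < hi), Finset.Ico_self]
    simp only [Finset.sum_empty, add_zero]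
    refine (Finset.sum_eq_zero fun t _ => ?_).symm
    rw [min_eq_right (by omega : hi ≤ lo + t + 1), Finset.Ico_eq_empty (by omega : ¬ lo + t < hi)]
    simp

theorem classn (ζ : ℝ → ℝ) (hT : TOPS) (hR : REMSUM) (hL : LOWN ζ) (hP : TOPN ζ) : CLASSN ζ := by
  obtain ⟨c1, hc1, C1, hC1, L⟩ := hL
  obtain ⟨c2, hc2, C2, hC2, P⟩ := hP
  refine ⟨min c1 c2, lt_min hc1 hc2, max C1 C2, le_max_of_le_left hC1, ?_⟩
  intro ω hω U h n S lo hi Λ hU hh hg hch hup hlow hΛ
  have hA : 2 ≤ AA := by unfold AA; norm_num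
  obtain ⟨N, R, k, i, E, B, HT⟩ := hT AA n hA U h S lo hi hU.1 hh hg hch hlow
  obtain ⟨hi1, -⟩ := hR n U h lo hi hU.1 hh N R k i E B HT
  have hin : ∀ m, i m ≤ n + 1 := by
    intro m
    have h1 := hi1 m
    have h2 : 1 ≤ AA - 1 := by unfold AA; norm_num
    calc i m = 1 * i m := (one_mul _).symm
      _ ≤ (AA - 1) * i m := Nat.mul_le_mul_right _ h2
      _ ≤ n + 1 := h1
  set σ := sl R B with hσ
  have hσm : Measurable σ := sl_meas R HT.mB
  set T := n + 7 with hTn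
  -- the first low scale
  have hlow1 : ∀ m, ∀ z ∈ B m, lo z < hi z →
      |U z - (R m).m| * (1 / 2 : ℝ) ^ (lo z + cnt T U σ lo z) ≤ 1 := by
    intro m z hz hlt
    have e : σ z = (R m).m := sl_eq R HT.disB hz
    have h1 : |U z - σ z| * (1 / 2 : ℝ) ^ (lo z + T) ≤ 1 := by
      rw [e, pow_add, ← mul_assoc]
      have h2 := (HT.top m z hz hlt).2.2.2
      have h3 : (2 : ℝ) ^ i m ≤ 2 ^ (n + 1) := pow_le_pow_right₀ (by norm_num) (hin m)
      have h4 : (0 : ℝ) < (1 / 2 : ℝ) ^ T := by positivity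
      have h5 : (5 * 2 ^ (n + 1) : ℝ) * (1 / 2 : ℝ) ^ T ≤ 1 := by
        rw [hTn, show n + 7 = (n + 1) + 6 by ring, pow_add (1 / 2 : ℝ) (n + 1) 6, ← mul_assoc,
          mul_assoc 5 ((2 : ℝ) ^ (n + 1)), ← mul_pow]
        norm_num
      calc |U z - (R m).m| * (1 / 2 : ℝ) ^ lo z * (1 / 2 : ℝ) ^ T
          ≤ (5 * 2 ^ i m) * (1 / 2 : ℝ) ^ T := mul_le_mul_of_nonneg_right h2 h4.le
        _ ≤ (5 * 2 ^ (n + 1)) * (1 / 2 : ℝ) ^ T :=
            mul_le_mul_of_nonneg_right (by linarith) h4.le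
        _ ≤ 1 := h5
    have h6 := cnt_low h1
    rwa [e] at h6
  refine ⟨lcc T U σ lo hi, hcc T U σ lo hi, ?_, ?_⟩
  · intro j
    rcases Nat.eq_zero_or_pos j with hj | hj
    · subst hj
      have e1 : lcc T U σ lo hi 0 = mid T U σ lo hi := by funext z; simp [lcc]
      have e2 : hcc T U σ lo hi 0 = hi := by funext z; simp [hcc]
      rw [e1, e2]
      have hsub : ∀ z, mid T U σ lo hi z < hi z → lo z ≤ mid T U σ lo hi z ∧ lo z < hi z := by
        intro z hz
        unfold mid at hz ⊢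
        rcases min_lt_iff.1 hz with h1 | h1
        · omega
        · have : lo z < hi z := by omega
          exact ⟨le_min this.le (by omega), this⟩
      have hchm : Chain S (mid T U σ lo hi) hi := ⟨mid_meas T hU.1 hσm hch.1 hch.2.1, hch.2.1, hch.2.2⟩
      refine ⟨hchm, ?_⟩
      refine subC_mono hΛ (le_max_left _ _) ?_
      refine L ω hω U h n S _ hi Λ (fld_mono (min_le_left _ _) hU) hh hchm
        (uppAt_sub hup fun z hz => ⟨(hsub z hz).2, le_rfl⟩) hΛ N R k i E B (HT.sub hsub) ?_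
      intro m z hz hlt
      have h1 : mid T U σ lo hi z = lo z + cnt T U σ lo z := by
        unfold mid at hlt ⊢
        rcases min_lt_iff.1 hlt with h1 | h1
        · omega
        · exact min_eq_right h1.le
      rw [h1]
      exact hlow1 m z hz (hsub z hlt).2
    · have hj' : j ≠ 0 := by omega
      have e1 : ∀ z, lcc T U σ lo hi j z = lo z + (j - 1) := by intro z; simp [lcc, hj']
      have e2 : ∀ z, hcc T U σ lo hi j z = min (lo z + (j - 1) + 1) (mid T U σ lo hi z) := by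
        intro z; simp [hcc, hj']
      have hm := mid_meas T hU.1 hσm hch.1 hch.2.1 (hi := hi)
      have m1 : Measurable (lcc T U σ lo hi j) := by
        have : lcc T U σ lo hi j = fun z => lo z + (j - 1) := funext e1
        rw [this]; exact hch.1.add_const _
      have m2 : Measurable (hcc T U σ lo hi j) := by
        have : hcc T U σ lo hi j = fun z => min (lo z + (j - 1) + 1) (mid T U σ lo hi z) :=
          funext e2
        rw [this]; exact ((hch.1.add_const _).add_const _).min hm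
      have hmh : ∀ z, mid T U σ lo hi z ≤ hi z := fun z => min_le_left _ _
      have hhc : ∀ z, hcc T U σ lo hi j z ≤ hi z := by
        intro z; rw [e2]; exact (min_le_right _ _).trans (hmh z)
      have hchj : Chain S (lcc T U σ lo hi j) (hcc T U σ lo hi j) :=
        ⟨m1, m2, fun z => (hhc z).trans (hch.2.2 z)⟩
      have hsub : ∀ z, lcc T U σ lo hi j z < hcc T U σ lo hi j z →
          lo z ≤ lcc T U σ lo hi j z ∧ lo z < hi z := by
        intro z hz
        have h1 := hhc z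
        rw [e1] at hz ⊢
        omega
      refine ⟨hchj, ?_⟩
      refine subC_mono hΛ (le_max_right _ _) ?_
      refine P ω hω U h n S _ _ Λ (fld_mono (min_le_right _ _) hU) hh hchj
        (uppAt_sub hup fun z hz => ⟨(hsub z hz).2, hhc z⟩) hΛ N R k i E B (HT.sub hsub) ?_
      intro z
      rw [e1, e2]
      exact min_le_left _ _
  · intro z _ f
    rw [show n + 8 = T + 1 by omega, Finset.sum_range_succ']
    have h1 := split_sum (lo z) (hi z) (cnt T U σ lo z) T (cnt_le T U σ lo z) f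
    rw [h1]
    congr 1

theorem l_classn : L_CLASSN := fun ζ _ hT hR hL hP => classn ζ hT hR hL hP

end Crest.Agent.R087.ClassNx233
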