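import Crest.Agent.R087.Sh1_283
import Crest.Agent.R087.SqB_90

-- ▼ part R087/ABS_52
section

/-! Row 87, SHELL S9 (helper52): the abstract diagonalisation theorem. -/

set_option autoImplicit false

noncomputable section

open MeasureTheory Crest.Agent.R087.Sh0x283 Crest.Agent.R087.Sh1x283
open scoped RealInnerProductSpace

namespace Crest.Agent.R087.ABSx52

/-! ### Schur test with the kernel `2^{-|k-l|}` -/

lemma sum_geom (s : Finset ℕ) : ∑ j ∈ s, (1 / 2 : ℝ) ^ j ≤ 2 := by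
  have := Summable.sum_le_tsum s (fun i _ => by positivity) summable_geometric_two
  rwa [tsum_geometric_two] at this

lemma row_sum (F : Finset ℤ) (m : ℤ) : ∑ k ∈ F, (2 : ℝ) ^ (-|m - k|) ≤ 3 := by
  rw [← Finset.sum_filter_add_sum_filter_not F (fun k => m ≤ k)]
  have h1 : ∑ k ∈ F.filter (fun k => m ≤ k), (2 : ℝ) ^ (-|m - k|) ≤ 2 := by
    have e : ∑ k ∈ F.filter (fun k => m ≤ k), (2 : ℝ) ^ (-|m - k|) =
        ∑ j ∈ (F.filter (fun k => m ≤ k)).image (fun k => (k - m).toNat), (1 / 2 : ℝ) ^ j := by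
      rw [Finset.sum_image]
      · refine Finset.sum_congr rfl fun k hk => ?_
        have hk' : m ≤ k := (Finset.mem_filter.1 hk).2
        have : |m - k| = (((k - m).toNat : ℕ) : ℤ) := by
          rw [Int.toNat_of_nonneg (by omega), abs_sub_comm, abs_of_nonneg (by omega)]
        rw [this, zpow_neg, zpow_natCast, one_div, inv_pow]
      · intro a ha b hb hab
        have ha' := (Finset.mem_filter.1 ha).2
        have hb' := (Finset.mem_filter.1 hb).2
        simp only at hab ha' hb'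
        omega
    rw [e]
    exact sum_geom _
  have h2 : ∑ k ∈ F.filter (fun k => ¬ m ≤ k), (2 : ℝ) ^ (-|m - k|) ≤ 1 := by
    have e : ∑ k ∈ F.filter (fun k => ¬ m ≤ k), (2 : ℝ) ^ (-|m - k|) =
        ∑ j ∈ (F.filter (fun k => ¬ m ≤ k)).image (fun k => (m - k - 1).toNat),
          (1 / 2) * (1 / 2 : ℝ) ^ j := by
      rw [Finset.sum_image]
      · refine Finset.sum_congr rfl fun k hk => ?_
        have hk' : ¬ m ≤ k := (Finset.mem_filter.1 hk).2
        have : |m - k| = (((m - k - 1).toNat + 1 : ℕ) : ℤ) := by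
          rw [Nat.cast_add, Int.toNat_of_nonneg (by omega), abs_of_nonneg (by omega)]
          simp
        rw [this, zpow_neg, zpow_natCast, one_div, inv_pow, pow_succ, mul_inv, mul_comm]
      · intro a ha b hb hab
        have ha' := (Finset.mem_filter.1 ha).2
        have hb' := (Finset.mem_filter.1 hb).2
        simp only at hab ha' hb'
        omega
    rw [e, ← Finset.mul_sum]
    have := sum_geom ((F.filter (fun k => ¬ m ≤ k)).image (fun k => (m - k - 1).toNat))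
    linarith
  linarith

lemma schur1 (F : Finset ℤ) (a : ℤ → ℝ) :
    ∑ k ∈ F, ∑ l ∈ F, (2 : ℝ) ^ (-|l - k|) * (a k * a l) ≤ 3 * ∑ k ∈ F, a k ^ 2 := by
  have h1 : ∀ k ∈ F, ∀ l ∈ F, (2 : ℝ) ^ (-|l - k|) * (a k * a l) ≤
      (2 : ℝ) ^ (-|l - k|) * (a k ^ 2 / 2) + (2 : ℝ) ^ (-|l - k|) * (a l ^ 2 / 2) := by
    intro k _ l _
    rw [← mul_add]
    refine mul_le_mul_of_nonneg_left ?_ (by positivity)
    nlinarith [sq_nonneg (a k - a l)]
  calc ∑ k ∈ F, ∑ l ∈ F, (2 : ℝ) ^ (-|l - k|) * (a k * a l)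
      ≤ ∑ k ∈ F, ∑ l ∈ F, ((2 : ℝ) ^ (-|l - k|) * (a k ^ 2 / 2) +
          (2 : ℝ) ^ (-|l - k|) * (a l ^ 2 / 2)) :=
        Finset.sum_le_sum fun k hk => Finset.sum_le_sum fun l hl => h1 k hk l hl
    _ = ∑ k ∈ F, (∑ l ∈ F, (2 : ℝ) ^ (-|l - k|)) * (a k ^ 2 / 2) +
          ∑ l ∈ F, (∑ k ∈ F, (2 : ℝ) ^ (-|l - k|)) * (a l ^ 2 / 2) := by
        simp only [Finset.sum_add_distrib]
        congr 1
        · exact Finset.sum_congr rfl fun k _ => by rw [Finset.sum_mul]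
        · rw [Finset.sum_comm]
          exact Finset.sum_congr rfl fun k _ => by rw [Finset.sum_mul]
    _ ≤ ∑ k ∈ F, 3 * (a k ^ 2 / 2) + ∑ l ∈ F, 3 * (a l ^ 2 / 2) := by
        refine add_le_add (Finset.sum_le_sum fun k _ => ?_) (Finset.sum_le_sum fun l _ => ?_)
        · refine mul_le_mul_of_nonneg_right ?_ (by positivity)
          have := row_sum F k
          simpa only [abs_sub_comm] using this
        · exact mul_le_mul_of_nonneg_right (row_sum F l) (by positivity)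
    _ = 3 * ∑ k ∈ F, a k ^ 2 := by
        rw [← Finset.sum_add_distrib, Finset.mul_sum]
        exact Finset.sum_congr rfl fun k _ => by ring

lemma schur2 (G F : Finset ℤ) (a : ℤ → ℝ) :
    ∑ m ∈ G, (∑ k ∈ F, (2 : ℝ) ^ (-|m - k|) * a k) ^ 2 ≤ 9 * ∑ k ∈ F, a k ^ 2 := by
  have h1 : ∀ m ∈ G, (∑ k ∈ F, (2 : ℝ) ^ (-|m - k|) * a k) ^ 2 ≤
      3 * ∑ k ∈ F, (2 : ℝ) ^ (-|m - k|) * a k ^ 2 := by
    intro m _
    have h := Finset.sum_sq_le_sum_mul_sum_of_sq_le_mul F
      (r := fun k => (2 : ℝ) ^ (-|m - k|) * a k) (f := fun k => (2 : ℝ) ^ (-|m - k|))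
      (g := fun k => (2 : ℝ) ^ (-|m - k|) * a k ^ 2) (fun _ _ => by positivity)
      (fun _ _ => by positivity) (fun _ _ => le_of_eq (by ring))
    refine h.trans (mul_le_mul_of_nonneg_right (row_sum F m) ?_)
    exact Finset.sum_nonneg fun _ _ => by positivity
  calc ∑ m ∈ G, (∑ k ∈ F, (2 : ℝ) ^ (-|m - k|) * a k) ^ 2
      ≤ ∑ m ∈ G, 3 * ∑ k ∈ F, (2 : ℝ) ^ (-|m - k|) * a k ^ 2 := Finset.sum_le_sum h1
    _ = 3 * ∑ k ∈ F, (∑ m ∈ G, (2 : ℝ) ^ (-|m - k|)) * a k ^ 2 := by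
        rw [← Finset.mul_sum, Finset.sum_comm]
        congr 1
        exact Finset.sum_congr rfl fun k _ => by rw [Finset.sum_mul]
    _ ≤ 3 * ∑ k ∈ F, 3 * a k ^ 2 := by
        refine mul_le_mul_of_nonneg_left (Finset.sum_le_sum fun k _ => ?_) (by norm_num)
        refine mul_le_mul_of_nonneg_right ?_ (by positivity)
        have := row_sum G k
        simpa only [abs_sub_comm] using this
    _ = 9 * ∑ k ∈ F, a k ^ 2 := by
        rw [← Finset.mul_sum]
        ring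

/-! ### almost orthogonality -/

section

variable {V : Type*} [SeminormedAddCommGroup V] [InnerProductSpace ℝ V]

/-- Cotlar-Stein for squares. -/
lemma cotlar (D : ℤ → V →ₗ[ℝ] V) (C₀ : ℝ) (hC : 0 ≤ C₀) (sym : ∀ m f g, ⟪D m f, g⟫ = ⟪f, D m g⟫)
    (ao : ∀ k l f, ‖D k (D l f)‖ ≤ C₀ * (2 : ℝ) ^ (-|k - l|) * ‖f‖) (F : Finset ℤ) (f : V) :
    ∑ k ∈ F, ‖D k f‖ ^ 2 ≤ 3 * C₀ * ‖f‖ ^ 2 := by
  obtain ⟨S, hS⟩ : ∃ S : ℝ, S = ∑ k ∈ F, ‖D k f‖ ^ 2 := ⟨_, rfl⟩
  obtain ⟨g, hg⟩ : ∃ g : V, g = ∑ k ∈ F, D k (D k f) := ⟨_, rfl⟩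
  have hS0 : 0 ≤ S := by rw [hS]; exact Finset.sum_nonneg fun _ _ => by positivity
  have e1 : S = ⟪f, g⟫ := by
    rw [hS, hg, inner_sum]
    refine Finset.sum_congr rfl fun k _ => ?_
    rw [← sym, real_inner_self_eq_norm_sq]
  have e2 : ‖g‖ ^ 2 ≤ 3 * C₀ * S := by
    rw [← real_inner_self_eq_norm_sq, hg, sum_inner]
    calc ∑ k ∈ F, ⟪D k (D k f), ∑ l ∈ F, D l (D l f)⟫
        = ∑ k ∈ F, ∑ l ∈ F, ⟪D l (D k (D k f)), D l f⟫ := by
          refine Finset.sum_congr rfl fun k _ => ?_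
          rw [inner_sum]
          exact Finset.sum_congr rfl fun l _ => (sym l (D k (D k f)) (D l f)).symm
      _ ≤ ∑ k ∈ F, ∑ l ∈ F, C₀ * ((2 : ℝ) ^ (-|l - k|) * (‖D k f‖ * ‖D l f‖)) := by
          refine Finset.sum_le_sum fun k _ => Finset.sum_le_sum fun l _ => ?_
          refine (real_inner_le_norm _ _).trans ?_
          calc ‖D l (D k (D k f))‖ * ‖D l f‖
              ≤ (C₀ * (2 : ℝ) ^ (-|l - k|) * ‖D k f‖) * ‖D l f‖ :=
                mul_le_mul_of_nonneg_right (ao l k _) (norm_nonneg _)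
            _ = _ := by ring
      _ = C₀ * ∑ k ∈ F, ∑ l ∈ F, (2 : ℝ) ^ (-|l - k|) * (‖D k f‖ * ‖D l f‖) := by
          rw [Finset.mul_sum]
          exact Finset.sum_congr rfl fun k _ => by rw [Finset.mul_sum]
      _ ≤ C₀ * (3 * S) := by
          rw [hS]
          exact mul_le_mul_of_nonneg_left (schur1 F fun k => ‖D k f‖) hC
      _ = _ := by ring
  have e3 : S ^ 2 ≤ ‖f‖ ^ 2 * (3 * C₀ * S) := by
    have h1 : S ≤ ‖f‖ * ‖g‖ := by rw [e1]; exact real_inner_le_norm _ _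
    calc S ^ 2 ≤ (‖f‖ * ‖g‖) ^ 2 := pow_le_pow_left₀ hS0 h1 2
      _ = ‖f‖ ^ 2 * ‖g‖ ^ 2 := by ring
      _ ≤ ‖f‖ ^ 2 * (3 * C₀ * S) := mul_le_mul_of_nonneg_left e2 (by positivity)
  rw [← hS]
  rcases hS0.eq_or_lt with h0 | h0
  · rw [← h0]; positivity
  · have : S * S ≤ (3 * C₀ * ‖f‖ ^ 2) * S := by nlinarith
    exact le_of_mul_le_mul_right this h0

/-- the polynomial `q(X) = 3 X^2 - 2 X^3` -/
def qq (X : ℤ → V →ₗ[ℝ] V) (m : ℤ) (f : V) : V :=
  (3 : ℝ) • X m (X m f) - (2 : ℝ) • X m (X m (X m f))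

lemma AA_DD (X : ℤ → V →ₗ[ℝ] V) (comm : ∀ m n f, X m (X n f) = X n (X m f)) (m : ℤ) (f : V) :
    AA X m (DD X m f) = qq X m f - qq X (m + 1) f := by
  simp only [AA, DD, qq, LinearMap.sub_apply, LinearMap.smul_apply, LinearMap.add_apply,
    LinearMap.comp_apply, map_sub, map_add, comm m (m + 1)]
  module

lemma symD (X : ℤ → V →ₗ[ℝ] V) (sym : ∀ m f g, ⟪X m f, g⟫ = ⟪f, X m g⟫) (m : ℤ) (f g : V) :
    ⟪DD X m f, g⟫ = ⟪f, DD X m g⟫ := by
  simp only [DD, LinearMap.sub_apply, inner_sub_left, inner_sub_right, sym]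

lemma symA (X : ℤ → V →ₗ[ℝ] V) (sym : ∀ m f g, ⟪X m f, g⟫ = ⟪f, X m g⟫)
    (comm : ∀ m n f, X m (X n f) = X n (X m f)) (m : ℤ) (f g : V) :
    ⟪AA X m f, g⟫ = ⟪f, AA X m g⟫ := by
  simp only [AA, LinearMap.sub_apply, LinearMap.smul_apply, LinearMap.add_apply,
    LinearMap.comp_apply, inner_sub_left, inner_sub_right, inner_add_left, inner_add_right,
    real_inner_smul_left, real_inner_smul_right, sym, comm (m + 1) m]

/-- the window `{-N, …, N-1}` -/
def win (N : ℕ) : Finset ℤ :=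
  (Finset.range (2 * N)).map ⟨fun i : ℕ => (i : ℤ) - N, fun a b h => by
    simp only at h; omega⟩

lemma sum_win (N : ℕ) {M : Type*} [AddCommMonoid M] (g : ℤ → M) :
    ∑ m ∈ win N, g m = ∑ i ∈ Finset.range (2 * N), g ((i : ℤ) - N) := by
  rw [win, Finset.sum_map]
  rfl

/-- `f_N` -/
def fN (X : ℤ → V →ₗ[ℝ] V) (N : ℕ) (f : V) : V := ∑ m ∈ win N, AA X m (DD X m f)

lemma fN_eq (X : ℤ → V →ₗ[ℝ] V) (comm : ∀ m n f, X m (X n f) = X n (X m f)) (N : ℕ) (f : V) :
    fN X N f = qq X (-(N : ℤ)) f - qq X N f := by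
  rw [fN, sum_win]
  have : ∀ i ∈ Finset.range (2 * N), AA X ((i : ℤ) - N) (DD X ((i : ℤ) - N) f) =
      qq X ((i : ℤ) - N) f - qq X (((i + 1 : ℕ) : ℤ) - N) f := by
    intro i _
    rw [AA_DD X comm]
    congr 2
    push_cast
    ring
  rw [Finset.sum_congr rfl this,
    Finset.sum_range_sub' (fun i : ℕ => qq X ((i : ℤ) - N) f) (2 * N)]
  congr 2
  · simp
  · push_cast
    ring

lemma norm_qq_le (X : ℤ → V →ₗ[ℝ] V) (con : ∀ m f, ‖X m f‖ ≤ ‖f‖) (m : ℤ) (f : V) :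
    ‖qq X m f‖ ≤ 5 * ‖X m f‖ := by
  unfold qq
  refine (norm_sub_le _ _).trans ?_
  rw [norm_smul, norm_smul, Real.norm_eq_abs, Real.norm_eq_abs, abs_of_pos (by norm_num : (0:ℝ) < 3),
    abs_of_pos (by norm_num : (0:ℝ) < 2)]
  have h1 := con m (X m f)
  have h2 := con m (X m (X m f))
  linarith

lemma norm_qq_sub_le (X : ℤ → V →ₗ[ℝ] V) (con : ∀ m f, ‖X m f‖ ≤ ‖f‖) (m : ℤ) (f : V) :
    ‖qq X m f - f‖ ≤ 12 * ‖X m f - f‖ := by
  have e : qq X m f - f = (3 : ℝ) • (X m (X m f - f) + (X m f - f)) -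
      (2 : ℝ) • (X m (X m (X m f - f)) + X m (X m f - f) + (X m f - f)) := by
    unfold qq
    simp only [map_sub]
    module
  rw [e]
  refine (norm_sub_le _ _).trans ?_
  rw [norm_smul, norm_smul, Real.norm_eq_abs, Real.norm_eq_abs, abs_of_pos (by norm_num : (0:ℝ) < 3),
    abs_of_pos (by norm_num : (0:ℝ) < 2)]
  have h1 := con m (X m f - f)
  have h2 := con m (X m (X m f - f))
  have h3 := norm_add_le (X m (X m f - f)) (X m f - f)
  have h4 := norm_add₃_le (a := X m (X m (X m f - f))) (b := X m (X m f - f)) (c := X m f - f)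
  linarith

lemma fN_tendsto (X : ℤ → V →ₗ[ℝ] V) (con : ∀ m f, ‖X m f‖ ≤ ‖f‖)
    (comm : ∀ m n f, X m (X n f) = X n (X m f)) (f : V)
    (l1 : Filter.Tendsto (fun N : ℕ => ‖X (-(N : ℤ)) f - f‖) Filter.atTop (nhds 0))
    (l2 : Filter.Tendsto (fun N : ℕ => ‖X (N : ℤ) f‖) Filter.atTop (nhds 0)) :
    Filter.Tendsto (fun N : ℕ => ‖fN X N f - f‖) Filter.atTop (nhds 0) := by
  have hb : ∀ N : ℕ, ‖fN X N f - f‖ ≤ 12 * ‖X (-(N : ℤ)) f - f‖ + 5 * ‖X (N : ℤ) f‖ := by
    intro N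
    rw [fN_eq X comm, show qq X (-(N : ℤ)) f - qq X N f - f =
      (qq X (-(N : ℤ)) f - f) - qq X N f by abel]
    refine (norm_sub_le _ _).trans ?_
    exact add_le_add (norm_qq_sub_le X con _ _) (norm_qq_le X con _ _)
  have ht : Filter.Tendsto (fun N : ℕ => 12 * ‖X (-(N : ℤ)) f - f‖ + 5 * ‖X (N : ℤ) f‖)
      Filter.atTop (nhds 0) := by
    have := (l1.const_mul 12).add (l2.const_mul 5)
    simpa using this
  exact squeeze_zero (fun _ => norm_nonneg _) hb ht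

lemma norm_fN_le (X : ℤ → V →ₗ[ℝ] V) (con : ∀ m f, ‖X m f‖ ≤ ‖f‖)
    (comm : ∀ m n f, X m (X n f) = X n (X m f)) (N : ℕ) (f : V) : ‖fN X N f‖ ≤ 10 * ‖f‖ := by
  rw [fN_eq X comm]
  refine (norm_sub_le _ _).trans ?_
  have h1 := norm_qq_le X con (-(N : ℤ)) f
  have h2 := norm_qq_le X con N f
  have h3 := con (-(N : ℤ)) f
  have h4 := con N f
  linarith

/-- step (4): recover `‖F‖` from the pieces -/
lemma recover (X : ℤ → V →ₗ[ℝ] V) (sym : ∀ m f g, ⟪X m f, g⟫ = ⟪f, X m g⟫)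
    (con : ∀ m f, ‖X m f‖ ≤ ‖f‖)
    (comm : ∀ m n f, X m (X n f) = X n (X m f)) (g : V)
    (l1 : Filter.Tendsto (fun N : ℕ => ‖X (-(N : ℤ)) g - g‖) Filter.atTop (nhds 0))
    (l2 : Filter.Tendsto (fun N : ℕ => ‖X (N : ℤ) g‖) Filter.atTop (nhds 0)) (R : ℝ)
    (hD : ∀ F : Finset ℤ, ∑ k ∈ F, ‖DD X k g‖ ^ 2 ≤ R)
    (hA : ∀ F : Finset ℤ, ∑ k ∈ F, ‖AA X k g‖ ^ 2 ≤ R) : ‖g‖ ^ 2 ≤ R := by
  have hb : ∀ N : ℕ, ‖g‖ ^ 2 ≤ R + ‖g‖ * ‖fN X N g - g‖ := by
    intro N
    have e : ‖g‖ ^ 2 = ⟪g, fN X N g⟫ + ⟪g, g - fN X N g⟫ := by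
      rw [← inner_add_right, add_sub_cancel, real_inner_self_eq_norm_sq]
    have h1 : ⟪g, fN X N g⟫ ≤ R := by
      rw [fN, inner_sum]
      calc ∑ m ∈ win N, ⟪g, AA X m (DD X m g)⟫
          ≤ ∑ m ∈ win N, (‖DD X m g‖ ^ 2 / 2 + ‖AA X m g‖ ^ 2 / 2) := by
            refine Finset.sum_le_sum fun m _ => ?_
            rw [← symA X sym comm]
            refine (real_inner_le_norm _ _).trans ?_
            nlinarith [sq_nonneg (‖AA X m g‖ - ‖DD X m g‖)]
        _ = (∑ m ∈ win N, ‖DD X m g‖ ^ 2) / 2 + (∑ m ∈ win N, ‖AA X m g‖ ^ 2) / 2 := by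
            rw [Finset.sum_add_distrib, Finset.sum_div, Finset.sum_div]
        _ ≤ R := by
            have := hD (win N)
            have := hA (win N)
            linarith
    have h2 : ⟪g, g - fN X N g⟫ ≤ ‖g‖ * ‖fN X N g - g‖ := by
      refine (real_inner_le_norm _ _).trans ?_
      rw [norm_sub_rev]
    linarith
  have ht : Filter.Tendsto (fun N : ℕ => R + ‖g‖ * ‖fN X N g - g‖) Filter.atTop (nhds R) := by
    have := ((fN_tendsto X con comm g l1 l2).const_mul ‖g‖).const_add R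
    simpa using this
  exact ge_of_tendsto' ht hb

/-- step (3), abstract form -/
lemma piece (X : ℤ → V →ₗ[ℝ] V) (T : V →ₗ[ℝ] V) (P : ℤ → V →ₗ[ℝ] V) (B L C₀ : ℝ) (hB : 0 ≤ B)
    (con : ∀ m f, ‖X m f‖ ≤ ‖f‖) (comm : ∀ m n f, X m (X n f) = X n (X m f))
    (hTP : ∀ k m f, ‖T (P k (AA X m f))‖ ≤ B * (2 : ℝ) ^ (-|k - m|) * ‖f‖)
    (hcom : ∀ (F : Finset ℤ) f, ∑ k ∈ F, ‖P k (T f) - T (P k f)‖ ^ 2 ≤ L ^ 2 * ‖f‖ ^ 2)
    (hLP : ∀ (F : Finset ℤ) f, ∑ k ∈ F, ‖DD X k f‖ ^ 2 ≤ 3 * C₀ * ‖f‖ ^ 2) (N : ℕ) (f : V)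
    (G : Finset ℤ) :
    ∑ m ∈ G, ‖P m (T (fN X N f))‖ ^ 2 ≤ (54 * C₀ * B ^ 2 + 200 * L ^ 2) * ‖f‖ ^ 2 := by
  have h1 : ∀ m, ‖T (P m (fN X N f))‖ ≤ B * ∑ k ∈ win N, (2 : ℝ) ^ (-|m - k|) * ‖DD X k f‖ := by
    intro m
    rw [fN, map_sum, map_sum, Finset.mul_sum]
    refine (norm_sum_le _ _).trans (Finset.sum_le_sum fun k _ => ?_)
    have := hTP m k (DD X k f)
    linarith
  have h2 : ∑ m ∈ G, ‖T (P m (fN X N f))‖ ^ 2 ≤ 27 * C₀ * B ^ 2 * ‖f‖ ^ 2 := by
    calc ∑ m ∈ G, ‖T (P m (fN X N f))‖ ^ 2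
        ≤ ∑ m ∈ G, B ^ 2 * (∑ k ∈ win N, (2 : ℝ) ^ (-|m - k|) * ‖DD X k f‖) ^ 2 := by
          refine Finset.sum_le_sum fun m _ => ?_
          rw [← mul_pow]
          exact pow_le_pow_left₀ (norm_nonneg _) (h1 m) 2
      _ = B ^ 2 * ∑ m ∈ G, (∑ k ∈ win N, (2 : ℝ) ^ (-|m - k|) * ‖DD X k f‖) ^ 2 := by
          rw [Finset.mul_sum]
      _ ≤ B ^ 2 * (9 * ∑ k ∈ win N, ‖DD X k f‖ ^ 2) :=
          mul_le_mul_of_nonneg_left (schur2 G (win N) _) (by positivity)
      _ ≤ B ^ 2 * (9 * (3 * C₀ * ‖f‖ ^ 2)) := by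
          refine mul_le_mul_of_nonneg_left ?_ (by positivity)
          exact mul_le_mul_of_nonneg_left (hLP _ _) (by norm_num)
      _ = _ := by ring
  have h3 : ∑ m ∈ G, ‖P m (T (fN X N f)) - T (P m (fN X N f))‖ ^ 2 ≤ 100 * L ^ 2 * ‖f‖ ^ 2 := by
    refine (hcom G _).trans ?_
    have := norm_fN_le X con comm N f
    have h4 : ‖fN X N f‖ ^ 2 ≤ (10 * ‖f‖) ^ 2 := pow_le_pow_left₀ (norm_nonneg _) this 2
    calc L ^ 2 * ‖fN X N f‖ ^ 2 ≤ L ^ 2 * (10 * ‖f‖) ^ 2 :=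
          mul_le_mul_of_nonneg_left h4 (by positivity)
      _ = _ := by ring
  have h5 : ∀ m ∈ G, ‖P m (T (fN X N f))‖ ^ 2 ≤ 2 * ‖T (P m (fN X N f))‖ ^ 2 +
      2 * ‖P m (T (fN X N f)) - T (P m (fN X N f))‖ ^ 2 := by
    intro m _
    have h6 : ‖P m (T (fN X N f))‖ ≤ ‖T (P m (fN X N f))‖ +
        ‖P m (T (fN X N f)) - T (P m (fN X N f))‖ := by
      have := norm_add_le (T (P m (fN X N f))) (P m (T (fN X N f)) - T (P m (fN X N f)))
      rwa [add_sub_cancel] at this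
    have h7 := pow_le_pow_left₀ (norm_nonneg _) h6 2
    nlinarith [sq_nonneg (‖T (P m (fN X N f))‖ - ‖P m (T (fN X N f)) - T (P m (fN X N f))‖)]
  calc ∑ m ∈ G, ‖P m (T (fN X N f))‖ ^ 2
      ≤ ∑ m ∈ G, (2 * ‖T (P m (fN X N f))‖ ^ 2 +
          2 * ‖P m (T (fN X N f)) - T (P m (fN X N f))‖ ^ 2) := Finset.sum_le_sum h5
    _ = 2 * ∑ m ∈ G, ‖T (P m (fN X N f))‖ ^ 2 +
          2 * ∑ m ∈ G, ‖P m (T (fN X N f)) - T (P m (fN X N f))‖ ^ 2 := by
        rw [Finset.sum_add_distrib, Finset.mul_sum, Finset.mul_sum]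
    _ ≤ _ := by nlinarith

end

theorem abs9 : ABS := by
  refine ⟨fun C₀ => 15 * (1 + C₀), ?_⟩
  intro V _ _ X T C₀ B L M hC hB hL hM sym con comm l1 l2 aoD aoA hTD hTA hcD hcA hT f
  have hLP : ∀ (F : Finset ℤ) f, ∑ k ∈ F, ‖DD X k f‖ ^ 2 ≤ 3 * C₀ * ‖f‖ ^ 2 := fun F f =>
    cotlar (DD X) C₀ hC (symD X sym) aoD F f
  have key : ∀ N : ℕ, ‖T (fN X N f)‖ ≤ 15 * (1 + C₀) * (B + L) * ‖f‖ := by
    intro N
    have h := recover X sym con comm (T (fN X N f)) (l1 _) (l2 _)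
      ((54 * C₀ * B ^ 2 + 200 * L ^ 2) * ‖f‖ ^ 2)
      (fun G => piece X T (DD X) B L C₀ hB con comm hTD hcD hLP N f G)
      (fun G => piece X T (AA X) B L C₀ hB con comm hTA hcA hLP N f G)
    have h2 : (54 * C₀ * B ^ 2 + 200 * L ^ 2) ≤ (15 * (1 + C₀) * (B + L)) ^ 2 := by
      have e : (15 * (1 + C₀) * (B + L)) ^ 2 = 225 * (1 + C₀) ^ 2 * (B + L) ^ 2 := by ring
      rw [e]
      have h3 : B ^ 2 + L ^ 2 ≤ (B + L) ^ 2 := by nlinarith [mul_nonneg hB hL]
      have h4 : 1 + 2 * C₀ ≤ (1 + C₀) ^ 2 := by nlinarith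
      have h5 : 225 * (1 + 2 * C₀) * (B ^ 2 + L ^ 2) ≤ 225 * (1 + C₀) ^ 2 * (B + L) ^ 2 := by
        have : 0 ≤ B ^ 2 + L ^ 2 := by positivity
        nlinarith [mul_le_mul h4 h3 this (by positivity)]
      have h6 : 0 ≤ C₀ * L ^ 2 := by positivity
      have h7 : 0 ≤ C₀ * B ^ 2 := by positivity
      nlinarith [sq_nonneg B, sq_nonneg L]
    have h3 : ‖T (fN X N f)‖ ^ 2 ≤ (15 * (1 + C₀) * (B + L) * ‖f‖) ^ 2 := by
      rw [mul_pow]
      exact h.trans (mul_le_mul_of_nonneg_right h2 (by positivity))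
    exact le_of_sq_le_sq h3 (by positivity)
  have hb : ∀ N : ℕ, ‖T f‖ ≤ 15 * (1 + C₀) * (B + L) * ‖f‖ + M * ‖fN X N f - f‖ := by
    intro N
    have h1 : ‖T f‖ ≤ ‖T (fN X N f)‖ + ‖T (fN X N f - f)‖ := by
      have := norm_sub_le (T (fN X N f)) (T (fN X N f - f))
      rwa [← map_sub, sub_sub_cancel] at this
    have h2 := hT (fN X N f - f)
    have h3 := key N
    linarith
  have ht : Filter.Tendsto (fun N : ℕ => 15 * (1 + C₀) * (B + L) * ‖f‖ + M * ‖fN X N f - f‖)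
      Filter.atTop (nhds (15 * (1 + C₀) * (B + L) * ‖f‖)) := by
    have := ((fN_tendsto X con comm f (l1 f) (l2 f)).const_mul M).const_add
      (15 * (1 + C₀) * (B + L) * ‖f‖)
    simpa using this
  exact ge_of_tendsto' ht hb

end Crest.Agent.R087.ABSx52
end
end

-- ▼ part R087/Apx_738
section

/-!
Row 87 (S0115), outer shell leaf S8 (helper738): approximate identity `APX`.
-/

set_option autoImplicit false

noncomputable section

open MeasureTheory Filter Topology Crest.Agent.R087.Sh0x283 Crest.Agent.R087.Sh1x283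

namespace Crest.Agent.R087.Apxx738

/-- change of variable in a one dimensional convolution -/
theorem cvar (χ G : ℝ → ℝ) (y lam : ℝ) (hl : 0 < lam) :
    ∫ r, χ r * G (y - lam * r) = lam⁻¹ * ∫ s, χ ((y - s) / lam) * G s := by
  have h1 := Measure.integral_comp_mul_left (fun u => χ ((y - (y - u)) / lam) * G (y - u)) lam
  have h2 := integral_sub_left_eq_self (fun s => χ ((y - s) / lam) * G s) volume y
  rw [h2, abs_of_pos (inv_pos.2 hl), smul_eq_mul] at h1
  rw [← h1]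
  congr 1
  funext r
  have : (y - (y - lam * r)) / lam = r := by field_simp; ring
  rw [this]

/-- averaging against a bounded profile supported in `[-1,1]` -/
theorem cvx (χ G : ℝ → ℝ) (hχ0 : ∀ r, 0 ≤ χ r) (hχs : ∀ r, 1 < |r| → χ r = 0) (B : ℝ)
    (hB : ∀ r, χ r ≤ B) (y lam : ℝ) (hl : 0 < lam) (hG : ∀ s, 0 ≤ G s)
    (hGi : IntegrableOn G (Metric.closedBall y lam)) :
    ∫ r, χ r * G (y - lam * r) ≤ lam⁻¹ * (B * ∫ s in Metric.closedBall y lam, G s) := by
  rw [cvar χ G y lam hl]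
  apply mul_le_mul_of_nonneg_left _ (inv_nonneg.2 hl.le)
  rw [← setIntegral_eq_integral_of_forall_compl_eq_zero (s := Metric.closedBall y lam), ← integral_const_mul]
  · apply integral_mono_of_nonneg
    · exact Eventually.of_forall fun s => mul_nonneg (hχ0 _) (hG s)
    · exact hGi.const_mul B
    · exact Eventually.of_forall fun s => mul_le_mul_of_nonneg_right (hB _) (hG s)
  · intro s hs
    rw [Metric.mem_closedBall, Real.dist_eq, not_le, abs_sub_comm] at hs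
    rw [hχs, zero_mul]
    rw [abs_div, abs_of_pos hl, lt_div_iff₀ hl]
    linarith

theorem cv_sm (χ : ℝ → ℝ) (hχ : Continuous χ) (k : ℤ) (f : ℝ × ℝ → ℝ) (hf : Measurable f) :
    StronglyMeasurable (cv χ k f) := by
  unfold cv
  have h : StronglyMeasurable (fun q : (ℝ × ℝ) × ℝ => χ q.2 * f (q.1.1, q.1.2 - (2 : ℝ) ^ k * q.2)) := by
    apply Measurable.stronglyMeasurable
    apply Measurable.mul
    · exact hχ.measurable.comp measurable_snd
    · apply hf.comp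
      fun_prop
  exact h.integral_prod_right'

/-- bounded profile -/
theorem chi_bd (χ : ℝ → ℝ) (h : ChiC χ) : ∃ B : ℝ, 0 ≤ B ∧ ∀ r, χ r ≤ B := by
  have hc : Continuous χ := h.1.continuous
  have hs : HasCompactSupport χ := by
    apply HasCompactSupport.of_support_subset_isCompact (isCompact_Icc (a := (-1 / 8 : ℝ)) (b := 1 / 8))
    intro r hr
    by_contra hn
    apply hr
    apply h.2.2.2.1
    rw [Set.mem_Icc, not_and_or, not_le, not_le] at hn
    rcases hn with hn | hn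
    · rw [lt_abs]; right; linarith
    · rw [lt_abs]; left; linarith
  obtain ⟨B, hB⟩ := hs.exists_bound_of_continuous hc
  refine ⟨B, (norm_nonneg _).trans (hB 0), fun r => (le_abs_self _).trans (hB r)⟩

theorem chi_int (χ : ℝ → ℝ) (h : ChiC χ) : Integrable χ := by
  by_contra hn
  have := h.2.2.2.2
  rw [integral_undef hn] at this
  norm_num at this

/-- `|cv χ k f z| ≤ M` -/
theorem cv_bd (χ : ℝ → ℝ) (h : ChiC χ) (k : ℤ) (f : ℝ × ℝ → ℝ) (M : ℝ) (hM : ∀ z, |f z| ≤ M)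
    (z : ℝ × ℝ) : |cv χ k f z| ≤ M := by
  have h1 : |cv χ k f z| ≤ ∫ r, χ r * M := by
    unfold cv
    rw [← Real.norm_eq_abs]
    refine (norm_integral_le_of_norm_le (g := fun r => χ r * M) ((chi_int χ h).mul_const M) ?_)
    refine Eventually.of_forall fun r => ?_
    rw [Real.norm_eq_abs, abs_mul, abs_of_nonneg (h.2.2.1 r)]
    exact mul_le_mul_of_nonneg_left (hM _) (h.2.2.1 r)
  rwa [integral_mul_const, h.2.2.2.2, one_mul] at h1

theorem cv_zero (χ : ℝ → ℝ) (h : ChiC χ) (k : ℤ) (f : ℝ × ℝ → ℝ) (R : ℝ)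
    (hR : ∀ z, R < ‖z‖ → f z = 0) (z : ℝ × ℝ) (hz : R + (2 : ℝ) ^ k < ‖z‖) : cv χ k f z = 0 := by
  unfold cv
  rw [show (0 : ℝ) = ∫ _ : ℝ, (0 : ℝ) by simp]
  congr 1
  funext r
  by_cases hr : 1 / 8 < |r|
  · rw [h.2.2.2.1 r hr, zero_mul]
  · rw [hR, mul_zero]
    rw [not_lt] at hr
    have h2 : (0 : ℝ) < (2 : ℝ) ^ k := by positivity
    have h3 : ‖z‖ ≤ ‖((z.1, z.2 - (2 : ℝ) ^ k * r) : ℝ × ℝ)‖ + ‖(((0 : ℝ), (2 : ℝ) ^ k * r) : ℝ × ℝ)‖ := by
      have : z = ((z.1, z.2 - (2 : ℝ) ^ k * r) : ℝ × ℝ) + (((0 : ℝ), (2 : ℝ) ^ k * r) : ℝ × ℝ) := by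
        ext <;> simp
      conv_lhs => rw [this]
      exact norm_add_le _ _
    have h4 : ‖(((0 : ℝ), (2 : ℝ) ^ k * r) : ℝ × ℝ)‖ ≤ (2 : ℝ) ^ k := by
      rw [Prod.norm_def]
      simp only [norm_zero, norm_mul, Real.norm_eq_abs]
      rw [abs_of_pos h2]
      apply max_le h2.le
      nlinarith
    linarith

/-- pointwise a.e. convergence -/
theorem cv_tendsto (χ : ℝ → ℝ) (h : ChiC χ) (f : ℝ × ℝ → ℝ) (hf : Nice f) :
    ∀ᵐ z, Tendsto (fun N : ℕ => cv χ (-(N : ℤ)) f z) atTop (𝓝 (f z)) := by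
  obtain ⟨hfm, ⟨M, hM⟩, _⟩ := hf
  have hm : MeasurableSet {z | Tendsto (fun N : ℕ => cv χ (-(N : ℤ)) f z) atTop (𝓝 (f z))} :=
    measurableSet_tendsto_fun (fun N => (cv_sm χ h.1.continuous _ f hfm).measurable) hfm
  rw [Measure.volume_eq_prod, Measure.ae_prod_iff_ae_ae hm]
  refine Eventually.of_forall fun x => ?_
  obtain ⟨B, hB0, hB⟩ := chi_bd χ h
  have hχs : ∀ r, 1 < |r| → χ r = 0 := fun r hr => h.2.2.2.1 r (by linarith)
  have hgm : Measurable (fun y => f (x, y)) := hfm.comp measurable_prodMk_left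
  have hgi : LocallyIntegrable (fun y => f (x, y)) volume := by
    intro y
    refine ⟨Metric.ball y 1, Metric.ball_mem_nhds y one_pos, ?_⟩
    exact IntegrableOn.of_bound measure_ball_lt_top hgm.aestronglyMeasurable M
      (Eventually.of_forall fun s => hM _)
  filter_upwards [IsUnifLocDoublingMeasure.ae_tendsto_average_norm_sub volume hgi 1] with y hy
  have hlim : Tendsto (fun N : ℕ => (2 : ℝ) ^ (-(N : ℤ))) atTop (𝓝[>] 0) := by
    rw [tendsto_nhdsWithin_iff]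
    constructor
    · have := tendsto_pow_atTop_nhds_zero_of_lt_one (r := (1 / 2 : ℝ)) (by norm_num) (by norm_num)
      refine this.congr fun N => ?_
      rw [zpow_neg, zpow_natCast, one_div, inv_pow]
    · exact Eventually.of_forall fun N => Set.mem_Ioi.2 (by positivity)
  have h2 := hy (fun _ : ℕ => y) (fun N : ℕ => (2 : ℝ) ^ (-(N : ℤ))) hlim
    (Eventually.of_forall fun N => by
      rw [Metric.mem_closedBall, dist_self]; positivity)
  rw [tendsto_iff_norm_sub_tendsto_zero]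
  have h3 : Tendsto (fun N : ℕ => 2 * B * ⨍ s in Metric.closedBall y ((2 : ℝ) ^ (-(N : ℤ))),
      ‖f (x, s) - f (x, y)‖) atTop (𝓝 0) := by
    have := h2.const_mul (2 * B)
    rwa [mul_zero] at this
  refine squeeze_zero (fun _ => norm_nonneg _) (fun N => ?_) h3
  set lam : ℝ := (2 : ℝ) ^ (-(N : ℤ)) with hlam
  have hl : 0 < lam := by positivity
  have hGi : IntegrableOn (fun s => ‖f (x, s) - f (x, y)‖) (Metric.closedBall y lam) := by
    refine IntegrableOn.of_bound measure_closedBall_lt_top ?_ (M + M) ?_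
    · exact ((hgm.sub_const _).norm).aestronglyMeasurable
    · refine Eventually.of_forall fun s => ?_
      rw [norm_norm]
      exact (norm_sub_le _ _).trans (add_le_add (hM _) (hM _))
  have h5 := cvx χ (fun s => ‖f (x, s) - f (x, y)‖) h.2.2.1 hχs B hB y lam hl
    (fun s => norm_nonneg _) hGi
  have h6 : ⨍ s in Metric.closedBall y lam, ‖f (x, s) - f (x, y)‖ =
      (2 * lam)⁻¹ * ∫ s in Metric.closedBall y lam, ‖f (x, s) - f (x, y)‖ := by
    rw [setAverage_eq, Real.volume_real_closedBall hl.le, smul_eq_mul]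
  rw [h6]
  have h7 : ‖cv χ (-(N : ℤ)) f (x, y) - f (x, y)‖ ≤ ∫ r, χ r * ‖f (x, y - lam * r) - f (x, y)‖ := by
    have e1 : cv χ (-(N : ℤ)) f (x, y) - f (x, y) = ∫ r, χ r * (f (x, y - lam * r) - f (x, y)) := by
      have e2 : ∫ r, χ r * f (x, y) = f (x, y) := by
        rw [integral_mul_const, h.2.2.2.2, one_mul]
      conv_lhs => rw [← e2]
      unfold cv
      rw [← integral_sub]
      · congr 1; funext r; simp only []; ring
      · apply (chi_int χ h).mul_bdd (c := M)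
        · apply Measurable.aestronglyMeasurable
          apply hfm.comp
          fun_prop
        · exact Eventually.of_forall fun r => hM _
      · exact (chi_int χ h).mul_const _
    rw [e1]
    refine (norm_integral_le_integral_norm _).trans (le_of_eq ?_)
    congr 1
    funext r
    rw [norm_mul, Real.norm_eq_abs, abs_of_nonneg (h.2.2.1 r)]
  refine h7.trans (h5.trans (le_of_eq ?_))
  field_simp

theorem apx1 (χ : ℝ → ℝ) (h : ChiC χ) (f : ℝ × ℝ → ℝ) (hf : Nice f) :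
    Tendsto (fun N : ℕ => ∫ z, (cv χ (-(N : ℤ)) f z - f z) ^ 2) atTop (𝓝 0) := by
  have hae := cv_tendsto χ h f hf
  obtain ⟨hfm, ⟨M, hM⟩, ⟨R, hR⟩⟩ := hf
  have hlim := tendsto_integral_of_dominated_convergence (μ := (volume : Measure (ℝ × ℝ)))
    (F := fun (N : ℕ) z => (cv χ (-(N : ℤ)) f z - f z) ^ 2) (f := fun _ => (0 : ℝ))
    (fun z => (Metric.closedBall (0 : ℝ × ℝ) (R + 1)).indicator (fun _ => (2 * M) ^ 2) z) ?_ ?_ ?_ ?_
  · simpa using hlim
  · intro N
    exact (((cv_sm χ h.1.continuous _ f hfm).measurable.sub hfm).pow_const 2).aestronglyMeasurable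
  · refine (integrable_indicator_iff measurableSet_closedBall).2 ?_
    exact integrableOn_const measure_closedBall_lt_top.ne
  · intro N
    refine Eventually.of_forall fun z => ?_
    by_cases hz : z ∈ Metric.closedBall (0 : ℝ × ℝ) (R + 1)
    · rw [Set.indicator_of_mem hz, Real.norm_eq_abs, abs_pow]
      apply pow_le_pow_left₀ (abs_nonneg _)
      have h1 := cv_bd χ h (-(N : ℤ)) f M hM z
      have h2 := hM z
      calc |cv χ (-(N : ℤ)) f z - f z| ≤ |cv χ (-(N : ℤ)) f z| + |f z| := abs_sub _ _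
        _ ≤ 2 * M := by linarith
    · rw [Set.indicator_of_notMem hz]
      rw [mem_closedBall_zero_iff, not_le] at hz
      have h2 : (2 : ℝ) ^ (-(N : ℤ)) ≤ 1 := by
        rw [zpow_neg, zpow_natCast]
        exact inv_le_one_of_one_le₀ (one_le_pow₀ (by norm_num))
      rw [cv_zero χ h _ f R hR z (by linarith), hR z (by linarith)]
      simp
  · filter_upwards [hae] with z hz
    have := (hz.sub_const (f z)).pow 2
    simpa using this

theorem apx2 (χ : ℝ → ℝ) (h : ChiC χ) (f : ℝ × ℝ → ℝ) (hf : Nice f) :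
    Tendsto (fun N : ℕ => ∫ z, (cv χ (N : ℤ) f z) ^ 2) atTop (𝓝 0) := by
  obtain ⟨hfm, ⟨M, hM⟩, ⟨R0, hR0⟩⟩ := hf
  obtain ⟨B, hB0, hB⟩ := chi_bd χ h
  have hM0 : 0 ≤ M := (abs_nonneg _).trans (hM 0)
  set R : ℝ := max R0 0 with hRdef
  have hRn : 0 ≤ R := le_max_right _ _
  have hR : ∀ z, R < ‖z‖ → f z = 0 := fun z hz => hR0 z ((le_max_left _ _).trans_lt hz)
  set K : ℝ := B * M * (2 * R) with hK
  have hK0 : 0 ≤ K := by positivity
  have hpt : ∀ (N : ℕ) (z : ℝ × ℝ), |cv χ (N : ℤ) f z| ≤ ((2 : ℝ) ^ N)⁻¹ * K := by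
    intro N z
    have hl : (0 : ℝ) < (2 : ℝ) ^ N := by positivity
    have e1 : cv χ (N : ℤ) f z = ((2 : ℝ) ^ N)⁻¹ * ∫ s, χ ((z.2 - s) / (2 : ℝ) ^ N) * f (z.1, s) := by
      rw [← cvar χ (fun s => f (z.1, s)) z.2 ((2 : ℝ) ^ N) hl]
      unfold cv
      rw [zpow_natCast]
    rw [e1, abs_mul, abs_of_pos (inv_pos.2 hl)]
    apply mul_le_mul_of_nonneg_left _ (inv_nonneg.2 hl.le)
    rw [← setIntegral_eq_integral_of_forall_compl_eq_zero (s := Metric.closedBall (0 : ℝ) R)]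
    · rw [← Real.norm_eq_abs]
      refine (norm_setIntegral_le_of_norm_le_const (C := B * M) measure_closedBall_lt_top ?_).trans ?_
      · intro s _
        rw [norm_mul, Real.norm_eq_abs, Real.norm_eq_abs, abs_of_nonneg (h.2.2.1 _)]
        exact mul_le_mul (hB _) (hM _) (abs_nonneg _) hB0
      · rw [Real.volume_real_closedBall hRn]
    · intro s hs
      rw [mem_closedBall_zero_iff, not_le] at hs
      rw [hR, mul_zero]
      exact hs.trans_le (by simp [Prod.norm_def])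
  have hsup : ∀ (N : ℕ) (z : ℝ × ℝ), z ∉ Metric.closedBall (0 : ℝ) R ×ˢ
      Metric.closedBall (0 : ℝ) (R + (2 : ℝ) ^ N) → cv χ (N : ℤ) f z = 0 := by
    intro N z hz
    rw [Set.mem_prod, not_and_or, mem_closedBall_zero_iff, mem_closedBall_zero_iff, not_le, not_le] at hz
    rcases hz with hz | hz
    · unfold cv
      rw [show (0 : ℝ) = ∫ _ : ℝ, (0 : ℝ) by simp]
      congr 1
      funext r
      rw [hR, mul_zero]
      exact hz.trans_le (by simp [Prod.norm_def])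
    · apply cv_zero χ h _ f R hR
      rw [zpow_natCast]
      exact hz.trans_le (by simp [Prod.norm_def])
  have hub : ∀ N : ℕ, ∫ z, (cv χ (N : ℤ) f z) ^ 2 ≤
      (((2 : ℝ) ^ N)⁻¹ * K) ^ 2 * ((2 * R) * (2 * (R + (2 : ℝ) ^ N))) := by
    intro N
    have hl : (0 : ℝ) < (2 : ℝ) ^ N := by positivity
    rw [← setIntegral_eq_integral_of_forall_compl_eq_zero (s := Metric.closedBall (0 : ℝ) R ×ˢ
      Metric.closedBall (0 : ℝ) (R + (2 : ℝ) ^ N)) (fun z hz => by rw [hsup N z hz]; norm_num)]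
    refine (le_abs_self _).trans ?_
    rw [← Real.norm_eq_abs]
    have hfin : volume (Metric.closedBall (0 : ℝ) R ×ˢ Metric.closedBall (0 : ℝ) (R + (2 : ℝ) ^ N)) < ⊤ := by
      rw [Measure.volume_eq_prod, Measure.prod_prod]
      exact ENNReal.mul_lt_top measure_closedBall_lt_top measure_closedBall_lt_top
    refine (norm_setIntegral_le_of_norm_le_const (C := (((2 : ℝ) ^ N)⁻¹ * K) ^ 2) hfin ?_).trans ?_
    · intro z _
      rw [norm_pow, Real.norm_eq_abs]
      exact pow_le_pow_left₀ (abs_nonneg _) (hpt N z) 2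
    · rw [Measure.volume_eq_prod, measureReal_prod_prod, Real.volume_real_closedBall hRn,
        Real.volume_real_closedBall (by positivity)]
  have hlim : Tendsto (fun N : ℕ => (((2 : ℝ) ^ N)⁻¹ * K) ^ 2 * ((2 * R) * (2 * (R + (2 : ℝ) ^ N))))
      atTop (𝓝 0) := by
    have h1 : Tendsto (fun N : ℕ => ((1 / 2 : ℝ)) ^ N) atTop (𝓝 0) :=
      tendsto_pow_atTop_nhds_zero_of_lt_one (by norm_num) (by norm_num)
    have h2 : Tendsto (fun N : ℕ => K ^ 2 * (4 * R * R) * ((1 / 2 : ℝ) ^ N) ^ 2 +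
        K ^ 2 * (4 * R) * (1 / 2 : ℝ) ^ N) atTop (𝓝 (K ^ 2 * (4 * R * R) * 0 ^ 2 + K ^ 2 * (4 * R) * 0)) :=
      ((h1.pow 2).const_mul _).add (h1.const_mul _)
    simp only [ne_eq, OfNat.ofNat_ne_zero, not_false_eq_true, zero_pow, mul_zero, add_zero] at h2
    refine h2.congr fun N => ?_
    rw [one_div, inv_pow]
    have hl : (0 : ℝ) < (2 : ℝ) ^ N := by positivity
    field_simp
    ring
  exact squeeze_zero (fun N => integral_nonneg fun z => sq_nonneg _) hub hlim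

theorem apx : Sh1x283.APX := fun χ h f hf => ⟨apx1 χ h f hf, apx2 χ h f hf⟩

end Crest.Agent.R087.Apxx738
end
end

-- ▼ part R087/Comm_824
section

/-!
Row 87, OUTER SHELL, leaf S4 (helper824): the commutator estimate `COMM` from Lemma L.
-/

set_option autoImplicit false

noncomputable section

open MeasureTheory Crest.Agent.R087.Sh0x283 Crest.Agent.R087.Sh1x283

namespace Crest.Agent.R087.Commx824

section General

variable {X : Type*} [NormedAddCommGroup X] [MeasurableSpace X]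

/-- measurable, bounded, bounded support -/
def NiceG (g : X → ℝ) : Prop :=
  Measurable g ∧ (∃ M : ℝ, ∀ x, |g x| ≤ M) ∧ (∃ R : ℝ, ∀ x, R < ‖x‖ → g x = 0)

theorem NiceG.integrable [BorelSpace X] [ProperSpace X] {μ : Measure X}
    [IsFiniteMeasureOnCompacts μ] {g : X → ℝ} (hg : NiceG g) : Integrable g μ := by
  obtain ⟨h1, ⟨M, h2⟩, ⟨R, h3⟩⟩ := hg
  have hsub : Function.support g ⊆ Metric.closedBall 0 R := by
    intro x hx
    rw [mem_closedBall_zero_iff]
    by_contra h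
    push Not at h
    exact hx (h3 x h)
  rw [← integrableOn_iff_integrable_of_support_subset hsub]
  exact Measure.integrableOn_of_bounded (M := M)
    (isCompact_closedBall (0 : X) R).measure_lt_top.ne h1.aestronglyMeasurable
    (Filter.Eventually.of_forall fun x => by simpa using h2 x)



/-- Cauchy-Schwarz with weight -/
theorem cs_weight {K D : ℝ → ℝ} (h0 : Integrable fun t => |K t|)
    (h1 : Integrable fun t => |K t| * |D t|) (h2 : Integrable fun t => |K t| * D t ^ 2) :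
    (∫ t, K t * D t) ^ 2 ≤ (∫ t, |K t|) * ∫ t, |K t| * D t ^ 2 := by
  set I0 := ∫ t, |K t|
  set I1 := ∫ t, |K t| * |D t|
  set I2 := ∫ t, |K t| * D t ^ 2
  have hI0 : 0 ≤ I0 := integral_nonneg fun t => abs_nonneg _
  have hI1 : 0 ≤ I1 := integral_nonneg fun t => mul_nonneg (abs_nonneg _) (abs_nonneg _)
  have key : ∀ l : ℝ, 0 ≤ I0 * (l * l) + (-2 * I1) * l + I2 := by
    intro l
    have e1 : ∫ t, |K t| * (|D t| - l) ^ 2 = I0 * (l * l) + (-2 * I1) * l + I2 := by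
      have e2 : (fun t => |K t| * (|D t| - l) ^ 2) =
          fun t => (|K t| * D t ^ 2 + (-2 * l) * (|K t| * |D t|)) + (l * l) * |K t| := by
        funext t
        have : D t ^ 2 = |D t| ^ 2 := (sq_abs _).symm
        rw [this]; ring
      have i1 : Integrable (fun t => |K t| * D t ^ 2 + (-2 * l) * (|K t| * |D t|)) :=
        h2.add (h1.const_mul _)
      have i2 : Integrable (fun t => (l * l) * |K t|) := h0.const_mul _
      rw [e2, integral_add i1 i2, integral_add h2 (h1.const_mul _), integral_const_mul,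
        integral_const_mul]
      ring
    rw [← e1]
    exact integral_nonneg fun t => mul_nonneg (abs_nonneg _) (sq_nonneg _)
  have hd := discrim_le_zero key
  unfold discrim at hd
  have h3 : I1 ^ 2 ≤ I0 * I2 := by nlinarith
  have h4 : |∫ t, K t * D t| ≤ I1 := by
    refine (abs_integral_le_integral_abs).trans (le_of_eq ?_)
    refine integral_congr_ae (Filter.Eventually.of_forall fun t => ?_)
    simp [abs_mul]
  calc (∫ t, K t * D t) ^ 2 = |∫ t, K t * D t| ^ 2 := (sq_abs _).symm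
    _ ≤ I1 ^ 2 := pow_le_pow_left₀ (abs_nonneg _) h4 2
    _ ≤ I0 * I2 := h3

end General

section Main

/-- the commutator with the map at parameter `t` -/
def Dk (φ : ℝ → ℝ) (U f : ℝ × ℝ → ℝ) (k : ℤ) (z : ℝ × ℝ) (t : ℝ) : ℝ :=
  (∫ r, φ r * f (z.1 - t, (z.2 - (2 : ℝ) ^ k * r) - t * U (z.1, z.2 - (2 : ℝ) ^ k * r))) -
    ∫ r, φ r * f (z.1 - t, (z.2 - t * U z) - (2 : ℝ) ^ k * r)


variable {φ : ℝ → ℝ} {U f : ℝ × ℝ → ℝ}

theorem measurable_Dk (hφ : Measurable φ) (hU : Measurable U) (hf : Measurable f) (k : ℤ) :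
    Measurable (fun p : (ℝ × ℝ) × ℝ => Dk φ U f k p.1 p.2) := by
  have m1 : Measurable (fun q : ((ℝ × ℝ) × ℝ) × ℝ => φ q.2 * f (q.1.1.1 - q.1.2,
      (q.1.1.2 - (2 : ℝ) ^ k * q.2) - q.1.2 * U (q.1.1.1, q.1.1.2 - (2 : ℝ) ^ k * q.2))) := by
    fun_prop
  have m2 : Measurable (fun q : ((ℝ × ℝ) × ℝ) × ℝ => φ q.2 * f (q.1.1.1 - q.1.2,
      (q.1.1.2 - q.1.2 * U q.1.1) - (2 : ℝ) ^ k * q.2)) := by
    fun_prop
  have s1 := (m1.stronglyMeasurable.integral_prod_right' (ν := (volume : Measure ℝ))).measurable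
  have s2 := (m2.stronglyMeasurable.integral_prod_right' (ν := (volume : Measure ℝ))).measurable
  exact s1.sub s2

theorem phi_niceG (hφ : PhiC φ) : NiceG φ := by
  have hc : Continuous φ := hφ.1.continuous
  refine ⟨hc.measurable, ?_, 1, fun r hr => hφ.2.1 r hr⟩
  have hcs : HasCompactSupport φ := by
    apply HasCompactSupport.of_support_subset_isCompact (isCompact_closedBall (0 : ℝ) 1)
    intro r hr
    rw [mem_closedBall_zero_iff]
    by_contra h
    push Not at h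
    exact hr (hφ.2.1 r h)
  obtain ⟨M, hM⟩ := hc.bounded_above_of_compact_support hcs
  exact ⟨M, fun x => by simpa using hM x⟩

theorem Dk_bound (hφ : PhiC φ) {M : ℝ} (hM : ∀ z, |f z| ≤ M) (k : ℤ) (z : ℝ × ℝ) (t : ℝ) :
    |Dk φ U f k z t| ≤ 2 * ((∫ r, |φ r|) * M) := by
  have hint : Integrable φ := (phi_niceG hφ).integrable
  have h : ∀ h : ℝ → ℝ × ℝ, |∫ r, φ r * f (h r)| ≤ (∫ r, |φ r|) * M := by
    intro h
    rw [← integral_mul_const, ← Real.norm_eq_abs]
    refine norm_integral_le_of_norm_le (hint.abs.mul_const M) ?_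
    refine Filter.Eventually.of_forall fun r => ?_
    rw [Real.norm_eq_abs, abs_mul]
    exact mul_le_mul_of_nonneg_left (hM _) (abs_nonneg _)
  unfold Dk
  refine (abs_sub _ _).trans ?_
  have h1 := h (fun r => (z.1 - t, (z.2 - (2 : ℝ) ^ k * r) - t * U (z.1, z.2 - (2 : ℝ) ^ k * r)))
  have h2 := h (fun r => (z.1 - t, (z.2 - t * U z) - (2 : ℝ) ^ k * r))
  linarith

theorem Dk_supp (hφ : PhiC φ) {R W : ℝ} (hR : ∀ z, R < ‖z‖ → f z = 0)
    (hW : ∀ z, |U z| ≤ W) (k : ℤ) (z : ℝ × ℝ) (t : ℝ) (ht : |t| ≤ 1)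
    (hz : |R| + 1 + (2 : ℝ) ^ k + W < ‖z‖) : Dk φ U f k z t = 0 := by
  have hW0 : 0 ≤ W := (abs_nonneg _).trans (hW z)
  have h2k : (0 : ℝ) < (2 : ℝ) ^ k := by positivity
  have key : ∀ r c u : ℝ, |r| ≤ 1 → |u| ≤ W → c = z.2 - (2 : ℝ) ^ k * r - t * u →
      f (z.1 - t, c) = 0 := by
    intro r c u hr hu hc
    apply hR
    have h1 : R ≤ |R| := le_abs_self R
    rw [Prod.norm_def] at hz ⊢
    simp only [Real.norm_eq_abs] at hz ⊢
    rcases lt_max_iff.mp hz with h | h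
    · apply lt_max_of_lt_left
      have := abs_sub_abs_le_abs_sub z.1 t
      linarith
    · apply lt_max_of_lt_right
      have e1 : |(2 : ℝ) ^ k * r| ≤ (2 : ℝ) ^ k := by
        rw [abs_mul, abs_of_pos h2k]
        nlinarith
      have e2 : |t * u| ≤ W := by
        rw [abs_mul]
        nlinarith [abs_nonneg t, abs_nonneg u]
      have e3 : |z.2| ≤ |c| + |(2 : ℝ) ^ k * r| + |t * u| := by
        have : z.2 = c + (2 : ℝ) ^ k * r + t * u := by rw [hc]; ring
        calc |z.2| = |c + (2 : ℝ) ^ k * r + t * u| := by rw [← this]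
          _ ≤ |c + (2 : ℝ) ^ k * r| + |t * u| := abs_add_le _ _
          _ ≤ |c| + |(2 : ℝ) ^ k * r| + |t * u| := by
              have := abs_add_le c ((2 : ℝ) ^ k * r)
              linarith
      linarith
  unfold Dk
  have z1 : (∫ r, φ r * f (z.1 - t, (z.2 - (2 : ℝ) ^ k * r) -
      t * U (z.1, z.2 - (2 : ℝ) ^ k * r))) = 0 := by
    apply integral_eq_zero_of_ae
    refine Filter.Eventually.of_forall fun r => ?_
    by_cases hr : |r| ≤ 1
    · have := key r _ (U (z.1, z.2 - (2 : ℝ) ^ k * r)) hr (hW _) rfl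
      simp only [Pi.zero_apply]
      rw [this, mul_zero]
    · push Not at hr
      simp only [Pi.zero_apply]
      rw [hφ.2.1 r hr, zero_mul]
  have z2 : (∫ r, φ r * f (z.1 - t, (z.2 - t * U z) - (2 : ℝ) ^ k * r)) = 0 := by
    apply integral_eq_zero_of_ae
    refine Filter.Eventually.of_forall fun r => ?_
    by_cases hr : |r| ≤ 1
    · have := key r ((z.2 - t * U z) - (2 : ℝ) ^ k * r) (U z) hr (hW _) (by ring)
      simp only [Pi.zero_apply]
      rw [this, mul_zero]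
    · push Not at hr
      simp only [Pi.zero_apply]
      rw [hφ.2.1 r hr, zero_mul]
  rw [z1, z2, sub_zero]

theorem niceG_mul_Dk {K : ℝ → ℝ} (hK : NiceG K) (hK1 : ∀ t, 1 < |t| → K t = 0) (hφ : PhiC φ)
    (hU : Measurable U) {W : ℝ} (hW : ∀ z, |U z| ≤ W) (hf : Nice f) (k : ℤ) (n : ℕ) (hn : n ≠ 0) :
    NiceG (fun p : (ℝ × ℝ) × ℝ => |K p.2| * Dk φ U f k p.1 p.2 ^ n) := by
  obtain ⟨f1, ⟨M, f2⟩, ⟨R, f3⟩⟩ := hf
  obtain ⟨k1, ⟨N, k2⟩, -⟩ := hK
  have hm := measurable_Dk (φ := φ) (U := U) (f := f) hφ.1.continuous.measurable hU f1 k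
  refine ⟨?_, ⟨|N| * |2 * ((∫ r, |φ r|) * M)| ^ n, fun p => ?_⟩,
    ⟨max (|R| + 1 + (2 : ℝ) ^ k + W) 1, fun p hp => ?_⟩⟩
  · exact ((k1.comp measurable_snd).abs).mul (hm.pow_const n)
  · rw [abs_mul, abs_abs, abs_pow]
    refine mul_le_mul ((k2 _).trans (le_abs_self _)) ?_ (by positivity) (abs_nonneg _)
    exact pow_le_pow_left₀ (abs_nonneg _) ((Dk_bound hφ f2 k p.1 p.2).trans (le_abs_self _)) n
  · by_cases ht : |p.2| ≤ 1
    · have : Dk φ U f k p.1 p.2 = 0 := by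
        apply Dk_supp hφ f3 hW k p.1 p.2 ht
        rw [Prod.norm_def] at hp
        rcases lt_max_iff.mp hp with h | h
        · exact (le_max_left _ _).trans_lt h
        · exfalso
          have := (le_max_right (|R| + 1 + (2 : ℝ) ^ k + W) 1).trans_lt h
          rw [Real.norm_eq_abs] at this
          linarith
      change |K p.2| * Dk φ U f k p.1 p.2 ^ n = 0
      rw [this, zero_pow hn, mul_zero]
    · push Not at ht
      change |K p.2| * Dk φ U f k p.1 p.2 ^ n = 0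
      rw [hK1 _ ht]
      simp

theorem niceG_Dk_slice (hφ : PhiC φ)
    (hU : Measurable U) {W : ℝ} (hW : ∀ z, |U z| ≤ W) (hf : Nice f) (k : ℤ) (t : ℝ) (ht : |t| ≤ 1) :
    NiceG (fun z : ℝ × ℝ => Dk φ U f k z t ^ 2) := by
  obtain ⟨f1, ⟨M, f2⟩, ⟨R, f3⟩⟩ := hf
  have hm := measurable_Dk (φ := φ) (U := U) (f := f) hφ.1.continuous.measurable hU f1 k
  refine ⟨(hm.comp (measurable_id.prodMk measurable_const)).pow_const 2,
    ⟨|2 * ((∫ r, |φ r|) * M)| ^ 2, fun z => ?_⟩, ⟨|R| + 1 + (2 : ℝ) ^ k + W, fun z hz => ?_⟩⟩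
  · rw [abs_pow]
    exact pow_le_pow_left₀ (abs_nonneg _) ((Dk_bound hφ f2 k z t).trans (le_abs_self _)) 2
  · have : Dk φ U f k z t = 0 := Dk_supp hφ f3 hW k z t ht hz
    change Dk φ U f k z t ^ 2 = 0
    rw [this]; norm_num

theorem niceG_slice {X : Type*} [NormedAddCommGroup X] [MeasurableSpace X]
    {h : X × ℝ → ℝ} (hh : NiceG h) (x : X) : NiceG (fun t : ℝ => h (x, t)) := by
  obtain ⟨h1, ⟨M, h2⟩, ⟨R, h3⟩⟩ := hh
  refine ⟨h1.comp (measurable_const.prodMk measurable_id), ⟨M, fun t => h2 _⟩, ⟨R, fun t ht => ?_⟩⟩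
  apply h3
  rw [Prod.norm_def]
  exact ht.trans_le (le_max_right _ _)

theorem nice_sq {f : ℝ × ℝ → ℝ} (hf : Nice f) : NiceG (fun z => f z ^ 2) := by
  obtain ⟨f1, ⟨M, f2⟩, ⟨R, f3⟩⟩ := hf
  refine ⟨f1.pow_const 2, ⟨|M| ^ 2, fun z => ?_⟩, ⟨R, fun z hz => by simp only; rw [f3 z hz]; norm_num⟩⟩
  rw [abs_pow]
  exact pow_le_pow_left₀ (abs_nonneg _) ((f2 z).trans (le_abs_self _)) 2

theorem nice1_shift {f : ℝ × ℝ → ℝ} (hf : Nice f) (a : ℝ) : Nice1 (fun y => f (a, y)) := by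
  obtain ⟨f1, ⟨M, f2⟩, ⟨R, f3⟩⟩ := hf
  refine ⟨f1.comp (measurable_const.prodMk measurable_id), ⟨M, fun t => f2 _⟩,
    ⟨R, fun y hy => ?_⟩⟩
  apply f3
  rw [Prod.norm_def]
  exact hy.trans_le (le_max_right _ _)

/-- the estimate at a fixed `t` -/
theorem slice_bound {C : ℝ} (_hC : 0 ≤ C)
    (hL : ∀ (δ : ℝ) (w : ℝ → ℝ), 0 ≤ δ → δ ≤ 1 / 2 →
      ContDiff ℝ 1 w → (∀ y y', |w y - w y'| ≤ δ * |y - y'|) → ∀ g : ℝ → ℝ, Nice1 g → ∀ F : Finset ℤ,
      ∑ k ∈ F, ∫ y, (cv1 φ k (fun y => g (y - w y)) y - cv1 φ k g (y - w y)) ^ 2 ≤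
        C * δ ^ 2 * ∫ y, (g y) ^ 2)
    (hφ : PhiC φ) (hU : Fld (1 / 2) U) (hU1 : ∀ x, ContDiff ℝ 1 (fun y => U (x, y)))
    (hf : Nice f) (F : Finset ℤ) (t : ℝ) (ht : |t| ≤ 1) :
    ∑ k ∈ F, ∫ z, Dk φ U f k z t ^ 2 ≤ C * (|t| / 2) ^ 2 * ∫ z, (f z) ^ 2 := by
  obtain ⟨u1, ⟨W, u2⟩, u3⟩ := hU
  have hi : ∀ k, Integrable (fun z : ℝ × ℝ => Dk φ U f k z t ^ 2) (volume.prod volume) := fun k =>
    (niceG_Dk_slice hφ u1 u2 hf k t ht).integrable
  have e1 : ∀ k, ∫ z, Dk φ U f k z t ^ 2 = ∫ x, ∫ y, Dk φ U f k (x, y) t ^ 2 := fun k => by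
    rw [Measure.volume_eq_prod, integral_prod _ (hi k)]
  have hif : Integrable (fun z : ℝ × ℝ => (f z) ^ 2) (volume.prod volume) :=
    (nice_sq hf).integrable
  have e2 : ∫ z, (f z) ^ 2 = ∫ x, ∫ y, f (x - t, y) ^ 2 := by
    rw [Measure.volume_eq_prod, integral_prod _ hif]
    exact (integral_sub_right_eq_self (fun x => ∫ y, f (x, y) ^ 2) t).symm
  simp_rw [e1]
  rw [← integral_finsetSum _ fun k _ => (hi k).integral_prod_left, e2, ← integral_const_mul]
  apply integral_mono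
  · exact integrable_finsetSum _ fun k _ => (hi k).integral_prod_left
  · exact (hif.integral_prod_left.comp_sub_right t).const_mul _
  · intro x
    have := hL (|t| / 2) (fun y => t * U (x, y)) (by positivity) (by linarith)
      (contDiff_const.mul (hU1 x)) (fun y y' => by
        have h := u3 x y y'
        rw [← mul_sub, abs_mul]
        calc |t| * |U (x, y) - U (x, y')| ≤ |t| * (1 / 2 * |y - y'|) :=
              mul_le_mul_of_nonneg_left h (abs_nonneg _)
          _ = |t| / 2 * |y - y'| := by ring)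
      (fun y => f (x - t, y)) (nice1_shift hf _) F
    exact this

theorem single {C : ℝ} (hC : 0 ≤ C)
    (hL : ∀ (δ : ℝ) (w : ℝ → ℝ), 0 ≤ δ → δ ≤ 1 / 2 →
      ContDiff ℝ 1 w → (∀ y y', |w y - w y'| ≤ δ * |y - y'|) → ∀ g : ℝ → ℝ, Nice1 g → ∀ F : Finset ℤ,
      ∑ k ∈ F, ∫ y, (cv1 φ k (fun y => g (y - w y)) y - cv1 φ k g (y - w y)) ^ 2 ≤
        C * δ ^ 2 * ∫ y, (g y) ^ 2)
    (hφ : PhiC φ) (hU : Fld (1 / 2) U) (hU1 : ∀ x, ContDiff ℝ 1 (fun y => U (x, y)))
    (hf : Nice f) (F : Finset ℤ) {K : ℝ → ℝ} (hK : NiceG K) {ρ : ℝ} (_hρ0 : 0 ≤ ρ) (hρ : ρ ≤ 1)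
    (hKρ : ∀ t, ρ < |t| → K t = 0) :
    ∑ k ∈ F, ∫ z, (∫ t, K t * Dk φ U f k z t) ^ 2 ≤
      C * (ρ / 2) ^ 2 * (∫ t, |K t|) ^ 2 * ∫ z, (f z) ^ 2 := by
  have hK1 : ∀ t, 1 < |t| → K t = 0 := fun t ht => hKρ t (hρ.trans_lt ht)
  obtain ⟨u1, ⟨W, u2⟩, u3⟩ := hU
  set I := ∫ z, (f z) ^ 2 with hI
  have hI0 : 0 ≤ I := integral_nonneg fun z => sq_nonneg _
  have n2 := fun k => niceG_mul_Dk hK hK1 hφ u1 u2 hf k 2 two_ne_zero
  have n1 := fun k => niceG_mul_Dk hK hK1 hφ u1 u2 hf k 1 one_ne_zero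
  have hKi : Integrable fun t => |K t| := hK.integrable.abs
  -- Cauchy-Schwarz
  have A1 : ∀ k z, (∫ t, K t * Dk φ U f k z t) ^ 2 ≤
      (∫ t, |K t|) * ∫ t, |K t| * Dk φ U f k z t ^ 2 := by
    intro k z
    refine cs_weight hKi ?_ (niceG_slice (n2 k) z).integrable
    have h := (niceG_slice (n1 k) z).integrable (μ := (volume : Measure ℝ))
    refine h.abs.congr (Filter.Eventually.of_forall fun t => ?_)
    simp [abs_mul]
  have i2 : ∀ k, Integrable (fun p : (ℝ × ℝ) × ℝ => |K p.2| * Dk φ U f k p.1 p.2 ^ 2)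
      (volume.prod volume) := fun k => (n2 k).integrable
  have A2 : ∀ k, ∫ z, (∫ t, K t * Dk φ U f k z t) ^ 2 ≤
      (∫ t, |K t|) * ∫ t, |K t| * ∫ z, Dk φ U f k z t ^ 2 := by
    intro k
    have e1 : ∫ z, ∫ t, |K t| * Dk φ U f k z t ^ 2 = ∫ t, |K t| * ∫ z, Dk φ U f k z t ^ 2 := by
      rw [integral_integral_swap (i2 k)]
      refine integral_congr_ae (Filter.Eventually.of_forall fun t => ?_)
      exact integral_const_mul _ _
    rw [← e1, ← integral_const_mul]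
    refine integral_mono_of_nonneg (Filter.Eventually.of_forall fun z => sq_nonneg _) ?_
      (Filter.Eventually.of_forall fun z => A1 k z)
    exact (i2 k).integral_prod_left.const_mul _
  have i3 : ∀ k, Integrable (fun t => |K t| * ∫ z, Dk φ U f k z t ^ 2) := by
    intro k
    refine (i2 k).integral_prod_right.congr (Filter.Eventually.of_forall fun t => ?_)
    exact integral_const_mul (μ := (volume : Measure (ℝ × ℝ))) (|K t|)
      (fun z => Dk φ U f k z t ^ 2)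
  have hsum : ∑ k ∈ F, ∫ t, |K t| * ∫ z, Dk φ U f k z t ^ 2 ≤
      (∫ t, |K t|) * (C * (ρ / 2) ^ 2 * I) := by
    rw [← integral_finsetSum _ fun k _ => i3 k, ← integral_mul_const]
    refine integral_mono (integrable_finsetSum _ fun k _ => i3 k) (hKi.mul_const _) fun t => ?_
    simp only
    rw [← Finset.mul_sum]
    by_cases ht : |t| ≤ ρ
    · refine mul_le_mul_of_nonneg_left ?_ (abs_nonneg _)
      refine (slice_bound hC hL hφ ⟨u1, ⟨W, u2⟩, u3⟩ hU1 hf F t (ht.trans hρ)).trans ?_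
      refine mul_le_mul_of_nonneg_right ?_ hI0
      refine mul_le_mul_of_nonneg_left ?_ hC
      exact pow_le_pow_left₀ (by positivity) (by linarith) 2
    · push Not at ht
      rw [hKρ t ht]
      simp
  calc ∑ k ∈ F, ∫ z, (∫ t, K t * Dk φ U f k z t) ^ 2
      ≤ ∑ k ∈ F, (∫ t, |K t|) * ∫ t, |K t| * ∫ z, Dk φ U f k z t ^ 2 :=
        Finset.sum_le_sum fun k _ => A2 k
    _ = (∫ t, |K t|) * ∑ k ∈ F, ∫ t, |K t| * ∫ z, Dk φ U f k z t ^ 2 := by rw [Finset.mul_sum]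
    _ ≤ (∫ t, |K t|) * ((∫ t, |K t|) * (C * (ρ / 2) ^ 2 * I)) :=
        mul_le_mul_of_nonneg_left hsum (integral_nonneg fun t => abs_nonneg _)
    _ = C * (ρ / 2) ^ 2 * (∫ t, |K t|) ^ 2 * I := by ring

/-- the difference as an integral in `t` -/
theorem diff_eq (hφ : PhiC φ) (hU : Fld (1 / 2) U) (hf : Nice f) {K : ℝ → ℝ} (hK : NiceG K)
    (k : ℤ) (z : ℝ × ℝ) :
    cv φ k (tk K U f) z - tk K U (cv φ k f) z = ∫ t, K t * Dk φ U f k z t := by
  obtain ⟨u1, ⟨W, u2⟩, u3⟩ := hU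
  obtain ⟨f1, ⟨M, f2⟩, ⟨R, f3⟩⟩ := hf
  obtain ⟨k1, ⟨N, k2⟩, ⟨Q, k3⟩⟩ := hK
  obtain ⟨p1, ⟨P, p2⟩, ⟨p0, p3⟩⟩ := phi_niceG hφ
  have nice2 : ∀ h : ℝ × ℝ → ℝ × ℝ, Measurable h →
      NiceG (fun q : ℝ × ℝ => K q.1 * (φ q.2 * f (h q))) := by
    intro h hh
    refine ⟨(k1.comp measurable_fst).mul ((p1.comp measurable_snd).mul (f1.comp hh)),
      ⟨|N| * (|P| * |M|), fun q => ?_⟩, ⟨max Q p0, fun q hq => ?_⟩⟩
    · rw [abs_mul, abs_mul]
      refine mul_le_mul ((k2 _).trans (le_abs_self _)) ?_ (by positivity) (abs_nonneg _)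
      exact mul_le_mul ((p2 _).trans (le_abs_self _)) ((f2 _).trans (le_abs_self _))
        (abs_nonneg _) (abs_nonneg _)
    · rw [Prod.norm_def] at hq
      rcases lt_max_iff.mp hq with h' | h'
      · change K q.1 * (φ q.2 * f (h q)) = 0
        rw [k3 _ ((le_max_left _ _).trans_lt h')]; simp
      · change K q.1 * (φ q.2 * f (h q)) = 0
        rw [p3 _ ((le_max_right _ _).trans_lt h')]; simp
  set h1 : ℝ × ℝ → ℝ × ℝ := fun q => (z.1 - q.1, (z.2 - (2 : ℝ) ^ k * q.2) -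
    q.1 * U (z.1, z.2 - (2 : ℝ) ^ k * q.2)) with hh1
  set h2 : ℝ × ℝ → ℝ × ℝ := fun q => (z.1 - q.1, (z.2 - q.1 * U z) - (2 : ℝ) ^ k * q.2) with hh2
  have m1 : Measurable h1 := by rw [hh1]; fun_prop
  have m2 : Measurable h2 := by rw [hh2]; fun_prop
  have i1 : Integrable (fun q : ℝ × ℝ => K q.1 * (φ q.2 * f (h1 q))) (volume.prod volume) :=
    (nice2 h1 m1).integrable
  have i2 : Integrable (fun q : ℝ × ℝ => K q.1 * (φ q.2 * f (h2 q))) (volume.prod volume) :=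
    (nice2 h2 m2).integrable
  have e1 : cv φ k (tk K U f) z = ∫ t, K t * ∫ r, φ r * f (h1 (t, r)) := by
    calc cv φ k (tk K U f) z = ∫ r, ∫ t, K t * (φ r * f (h1 (t, r))) := by
          refine integral_congr_ae (Filter.Eventually.of_forall fun r => ?_)
          simp only [tk]
          rw [← integral_const_mul]
          refine integral_congr_ae (Filter.Eventually.of_forall fun t => ?_)
          simp only [hh1]
          ring
      _ = ∫ t, ∫ r, K t * (φ r * f (h1 (t, r))) := (integral_integral_swap i1).symm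
      _ = ∫ t, K t * ∫ r, φ r * f (h1 (t, r)) :=
          integral_congr_ae (Filter.Eventually.of_forall fun t => integral_const_mul _ _)
  have e2 : tk K U (cv φ k f) z = ∫ t, K t * ∫ r, φ r * f (h2 (t, r)) := rfl
  have j1 : Integrable (fun t => K t * ∫ r, φ r * f (h1 (t, r))) :=
    i1.integral_prod_left.congr (Filter.Eventually.of_forall fun t =>
      integral_const_mul (μ := (volume : Measure ℝ)) (K t) (fun r => φ r * f (h1 (t, r))))
  have j2 : Integrable (fun t => K t * ∫ r, φ r * f (h2 (t, r))) :=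
    i2.integral_prod_left.congr (Filter.Eventually.of_forall fun t =>
      integral_const_mul (μ := (volume : Measure ℝ)) (K t) (fun r => φ r * f (h2 (t, r))))
  rw [e1, e2, ← integral_sub j1 j2]
  refine integral_congr_ae (Filter.Eventually.of_forall fun t => ?_)
  simp only [Dk, hh1, hh2]
  ring

end Main

theorem psi_piece {ψ : ℝ → ℝ} (hψ : PsiC ψ) (s : ℕ) :
    NiceG (fun t => (2 : ℝ) ^ s * ψ ((2 : ℝ) ^ s * t)) ∧
    (∀ t, ((2 : ℝ) ^ s)⁻¹ < |t| → (2 : ℝ) ^ s * ψ ((2 : ℝ) ^ s * t) = 0) ∧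
    ∫ t, |(2 : ℝ) ^ s * ψ ((2 : ℝ) ^ s * t)| = ∫ t, |ψ t| := by
  obtain ⟨h1, h2, h3⟩ := hψ
  have hpos : (0 : ℝ) < (2 : ℝ) ^ s := by positivity
  have hsupp : ∀ t, ((2 : ℝ) ^ s)⁻¹ < |t| → (2 : ℝ) ^ s * ψ ((2 : ℝ) ^ s * t) = 0 := by
    intro t ht
    by_contra hne
    have hne' : ψ ((2 : ℝ) ^ s * t) ≠ 0 := fun h => hne (by rw [h, mul_zero])
    have := (h3 _ hne').2
    rw [abs_mul, abs_of_pos hpos] at this
    have h4 : 1 < (2 : ℝ) ^ s * |t| := by
      rwa [inv_lt_iff_one_lt_mul₀ hpos, mul_comm] at ht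
    linarith
  have hc : HasCompactSupport ψ := by
    apply HasCompactSupport.of_support_subset_isCompact (isCompact_closedBall (0 : ℝ) 1)
    intro r hr
    rw [mem_closedBall_zero_iff]
    exact (h3 r hr).2
  obtain ⟨M, hM⟩ := h1.continuous.bounded_above_of_compact_support hc
  refine ⟨⟨?_, ⟨(2 : ℝ) ^ s * M, fun t => ?_⟩, ⟨((2 : ℝ) ^ s)⁻¹, hsupp⟩⟩, hsupp, ?_⟩
  · have := h1.continuous
    fun_prop
  · rw [abs_mul, abs_of_pos hpos]
    exact mul_le_mul_of_nonneg_left (by simpa using hM ((2 : ℝ) ^ s * t)) hpos.le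
  · have e : (fun t => |(2 : ℝ) ^ s * ψ ((2 : ℝ) ^ s * t)|) =
        fun t => (2 : ℝ) ^ s * |ψ ((2 : ℝ) ^ s * t)| := by
      funext t
      rw [abs_mul, abs_of_pos hpos]
    rw [e, integral_const_mul, Measure.integral_comp_mul_left (fun t => |ψ t|), abs_inv,
      abs_of_pos hpos, smul_eq_mul, mul_inv_cancel_left₀ hpos.ne']

/-- S4 -/
theorem comm : LemL → COMM := by
  intro hLem φ ψ hφ hψ
  obtain ⟨C, hC, hL⟩ := hLem φ hφ
  set Ψ := ∫ t, |ψ t| with hΨ
  refine ⟨C * Ψ ^ 2, by positivity, ?_⟩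
  intro U f hU hU1 hf S F
  set I := ∫ z, (f z) ^ 2 with hI
  have hI0 : 0 ≤ I := integral_nonneg fun z => sq_nonneg _
  set Ks : ℕ → ℝ → ℝ := fun s t => (2 : ℝ) ^ s * ψ ((2 : ℝ) ^ s * t) with hKs
  have p := fun s => psi_piece hψ s
  have hU' := hU
  obtain ⟨u1, ⟨W, u2⟩, u3⟩ := hU'
  have hone : ∀ s : ℕ, ((2 : ℝ) ^ s)⁻¹ ≤ 1 := fun s => inv_le_one_of_one_le₀ (one_le_pow₀ (by norm_num))
  have hK1 : ∀ s t, 1 < |t| → Ks s t = 0 := fun s t ht => (p s).2.1 t ((hone s).trans_lt ht)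
  -- the full kernel is nice
  have hKer : NiceG (kerS ψ S) := by
    refine ⟨?_, ⟨∑ s ∈ Finset.range S, (p s).1.2.1.choose, fun t => ?_⟩, ⟨1, fun t ht => ?_⟩⟩
    · unfold kerS
      exact Finset.measurable_sum _ fun s _ => (p s).1.1
    · unfold kerS
      refine (Finset.abs_sum_le_sum_abs _ _).trans (Finset.sum_le_sum fun s _ => ?_)
      exact (p s).1.2.1.choose_spec t
    · unfold kerS
      refine Finset.sum_eq_zero fun s _ => hK1 s t ?_
      simpa using ht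
  have hint : ∀ s k z, Integrable (fun t => Ks s t * Dk φ U f k z t) := by
    intro s k z
    have n1 := niceG_mul_Dk (p s).1 (hK1 s) hφ u1 u2 hf k 1 one_ne_zero
    have h := (niceG_slice n1 z).integrable (μ := (volume : Measure ℝ))
    refine h.mono ?_ (Filter.Eventually.of_forall fun t => ?_)
    · have hm := measurable_Dk (φ := φ) (U := U) (f := f) hφ.1.continuous.measurable u1 hf.1 k
      exact ((p s).1.1.mul (hm.comp (measurable_const.prodMk measurable_id))).aestronglyMeasurable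
    · simp [abs_mul, hKs]
  set a : ℕ → ℤ → ℝ × ℝ → ℝ := fun s k z => ∫ t, Ks s t * Dk φ U f k z t with ha
  have hd : ∀ k z, cv φ k (tk (kerS ψ S) U f) z - tk (kerS ψ S) U (cv φ k f) z =
      ∑ s ∈ Finset.range S, a s k z := by
    intro k z
    rw [diff_eq hφ hU hf hKer]
    simp only [ha]
    rw [← integral_finsetSum _ fun s _ => hint s k z]
    refine integral_congr_ae (Filter.Eventually.of_forall fun t => ?_)
    simp only [kerS, hKs]
    rw [Finset.sum_mul]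
  have hgeo : ∑ s ∈ Finset.range S, ((2 : ℝ) ^ s)⁻¹ ≤ 2 := by
    have h1 : ∀ s : ℕ, ((2 : ℝ) ^ s)⁻¹ = (1 / 2 : ℝ) ^ s := fun s => by
      rw [one_div, inv_pow]
    simp_rw [h1]
    have := (summable_geometric_two).sum_le_tsum (Finset.range S) (fun i _ => by positivity)
    rwa [tsum_geometric_two] at this
  have hcs : ∀ k z, (∑ s ∈ Finset.range S, a s k z) ^ 2 ≤
      2 * ∑ s ∈ Finset.range S, (2 : ℝ) ^ s * a s k z ^ 2 := by
    intro k z
    have h1 := Finset.sum_sq_le_sum_mul_sum_of_sq_le_mul (Finset.range S)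
      (r := fun s => a s k z) (f := fun s => ((2 : ℝ) ^ s)⁻¹)
      (g := fun s => (2 : ℝ) ^ s * a s k z ^ 2) (fun s _ => by positivity) (fun s _ => by positivity)
      (fun s _ => by
        rw [inv_mul_cancel_left₀ (by positivity)])
    refine h1.trans ?_
    refine mul_le_mul_of_nonneg_right hgeo ?_
    exact Finset.sum_nonneg fun s _ => by positivity
  have hs : ∀ s, ∑ k ∈ F, ∫ z, a s k z ^ 2 ≤ C * (((2 : ℝ) ^ s)⁻¹ / 2) ^ 2 * Ψ ^ 2 * I := by
    intro s
    have h1 := single hC hL hφ hU hU1 hf F (p s).1 (ρ := ((2 : ℝ) ^ s)⁻¹) (by positivity) (hone s)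
      (p s).2.1
    rw [(p s).2.2] at h1
    exact h1
  -- integrability of the squares
  have hai : ∀ s k, Integrable (fun z => a s k z ^ 2) := by
    intro s k
    have n2 := niceG_mul_Dk (p s).1 (hK1 s) hφ u1 u2 hf k 2 two_ne_zero
    have n1 := niceG_mul_Dk (p s).1 (hK1 s) hφ u1 u2 hf k 1 one_ne_zero
    have i2 : Integrable (fun q : (ℝ × ℝ) × ℝ => |Ks s q.2| * Dk φ U f k q.1 q.2 ^ 2)
      (volume.prod volume) := n2.integrable
    have hm := measurable_Dk (φ := φ) (U := U) (f := f) hφ.1.continuous.measurable u1 hf.1 k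
    have hmeas : Measurable (fun z => a s k z) := by
      have : Measurable (fun q : (ℝ × ℝ) × ℝ => Ks s q.2 * Dk φ U f k q.1 q.2) :=
        ((p s).1.1.comp measurable_snd).mul hm
      exact (this.stronglyMeasurable.integral_prod_right' (ν := (volume : Measure ℝ))).measurable
    refine (i2.integral_prod_left.const_mul (∫ t, |Ks s t|)).mono
      (hmeas.pow_const 2).aestronglyMeasurable (Filter.Eventually.of_forall fun z => ?_)
    rw [Real.norm_eq_abs, Real.norm_eq_abs, abs_of_nonneg (sq_nonneg _)]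
    refine le_trans ?_ (le_abs_self _)
    refine cs_weight (p s).1.integrable.abs ?_ (niceG_slice n2 z).integrable
    have h := (niceG_slice n1 z).integrable (μ := (volume : Measure ℝ))
    refine h.abs.congr (Filter.Eventually.of_forall fun t => ?_)
    simp [abs_mul, hKs]
  calc ∑ k ∈ F, ∫ z, (cv φ k (tk (kerS ψ S) U f) z - tk (kerS ψ S) U (cv φ k f) z) ^ 2
      ≤ ∑ k ∈ F, ∑ s ∈ Finset.range S, 2 * (2 : ℝ) ^ s * ∫ z, a s k z ^ 2 := by
        refine Finset.sum_le_sum fun k _ => ?_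
        have e : ∑ s ∈ Finset.range S, 2 * (2 : ℝ) ^ s * ∫ z, a s k z ^ 2 =
            ∫ z, 2 * ∑ s ∈ Finset.range S, (2 : ℝ) ^ s * a s k z ^ 2 := by
          rw [integral_const_mul, integral_finsetSum _ fun s _ => (hai s k).const_mul _,
            Finset.mul_sum]
          refine Finset.sum_congr rfl fun s _ => ?_
          rw [integral_const_mul]
          ring
        rw [e]
        refine integral_mono_of_nonneg (Filter.Eventually.of_forall fun z => sq_nonneg _) ?_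
          (Filter.Eventually.of_forall fun z => ?_)
        · exact (integrable_finsetSum _ fun s _ => (hai s k).const_mul _).const_mul _
        · simp only
          rw [hd]
          exact hcs k z
    _ = ∑ s ∈ Finset.range S, 2 * (2 : ℝ) ^ s * ∑ k ∈ F, ∫ z, a s k z ^ 2 := by
        rw [Finset.sum_comm]
        refine Finset.sum_congr rfl fun s _ => ?_
        rw [Finset.mul_sum]
    _ ≤ ∑ s ∈ Finset.range S, 2 * (2 : ℝ) ^ s * (C * (((2 : ℝ) ^ s)⁻¹ / 2) ^ 2 * Ψ ^ 2 * I) :=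
        Finset.sum_le_sum fun s _ => mul_le_mul_of_nonneg_left (hs s) (by positivity)
    _ = (C * Ψ ^ 2 * I / 2) * ∑ s ∈ Finset.range S, ((2 : ℝ) ^ s)⁻¹ := by
        rw [Finset.mul_sum]
        refine Finset.sum_congr rfl fun s _ => ?_
        have : (2 : ℝ) ^ s ≠ 0 := by positivity
        field_simp
    _ ≤ (C * Ψ ^ 2 * I / 2) * 2 := mul_le_mul_of_nonneg_left hgeo (by positivity)
    _ = C * Ψ ^ 2 * I := by ring

end Crest.Agent.R087.Commx824
end
end

-- ▼ part R087/SQT1_90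
section

/-!
Row 87, shell leaf S2b: `SQT1` from the dyadic Carleson embedding `DCE` (helper90).
-/

set_option autoImplicit false

noncomputable section

open MeasureTheory Crest.Agent.R087.Sh0x283 Crest.Agent.R087.Sh1x283 Crest.Agent.R087.SqIx90
  Crest.Agent.R087.SqBx90

namespace Crest.Agent.R087.SQT1x90

/-! ### generic tools -/

theorem nice_integrable {Φ : ℝ × ℝ → ℝ} (h : Nice Φ) : Integrable Φ (volume.prod volume) := by
  obtain ⟨hm, ⟨M, hM⟩, R, hR⟩ := h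
  have h1 : IntegrableOn Φ (Set.Icc (-R) R ×ˢ Set.Icc (-R) R) (volume.prod volume) := by
    refine Measure.integrableOn_of_bounded (M := M) ?_ hm.aestronglyMeasurable ?_
    · rw [Measure.prod_prod]
      exact (ENNReal.mul_lt_top (by simp) (by simp)).ne
    · exact Filter.Eventually.of_forall fun y => by simpa using hM y
  refine (integrableOn_iff_integrable_of_support_subset ?_).1 h1
  intro z hz
  by_contra hc
  refine hz (hR z ?_)
  rw [Set.mem_prod, Set.mem_Icc, Set.mem_Icc, ← abs_le, ← abs_le] at hc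
  by_contra h'
  rw [not_lt] at h'
  exact hc ⟨(norm_fst_le z).trans h', (norm_snd_le z).trans h'⟩

theorem cs {f g : ℝ → ℝ} (hf : Integrable (fun r => f r ^ 2)) (hg : Integrable (fun r => g r ^ 2))
    (hfg : Integrable (fun r => f r * g r)) :
    (∫ r, f r * g r) ^ 2 ≤ (∫ r, f r ^ 2) * ∫ r, g r ^ 2 := by
  have h : ∀ t : ℝ, 0 ≤ (∫ r, f r ^ 2) * (t * t) + (2 * ∫ r, f r * g r) * t + ∫ r, g r ^ 2 := by
    intro t
    have : ∫ r, (t * f r + g r) ^ 2 =
        (∫ r, f r ^ 2) * (t * t) + (2 * ∫ r, f r * g r) * t + ∫ r, g r ^ 2 := by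
      rw [← integral_const_mul, ← integral_mul_const, ← integral_mul_const, ← integral_add,
        ← integral_add]
      · congr 1; funext r; ring
      · exact (hf.mul_const _).add ((hfg.const_mul 2).mul_const _)
      · exact hg
      · exact hf.mul_const _
      · exact (hfg.const_mul 2).mul_const _
    rw [← this]
    exact integral_nonneg fun r => sq_nonneg _
  have := discrim_le_zero h
  unfold discrim at this
  nlinarith

/-- indicator of `[-ρ, ρ]`. -/
def box (ρ : ℝ) : ℝ → ℝ := Set.indicator (Set.Icc (-ρ) ρ) (fun _ => (1 : ℝ))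

theorem box_meas (ρ : ℝ) : Measurable (box ρ) := measurable_const.indicator measurableSet_Icc

theorem box_one {ρ t : ℝ} (h : |t| ≤ ρ) : box ρ t = 1 := by
  unfold box; rw [Set.indicator_of_mem]; exact abs_le.1 h

theorem box_zero {ρ t : ℝ} (h : ρ < |t|) : box ρ t = 0 := by
  unfold box; rw [Set.indicator_of_notMem]
  rw [Set.mem_Icc, ← abs_le]; exact not_le.2 h

theorem box_cases (ρ t : ℝ) : box ρ t = 0 ∨ box ρ t = 1 := by
  rcases le_or_gt (|t|) ρ with h | h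
  · exact Or.inr (box_one h)
  · exact Or.inl (box_zero h)

theorem box_nonneg (ρ t : ℝ) : 0 ≤ box ρ t := by rcases box_cases ρ t with h | h <;> rw [h]; norm_num

theorem box_abs_le (ρ t : ℝ) : |box ρ t| ≤ 1 := by rcases box_cases ρ t with h | h <;> rw [h] <;> norm_num

theorem box_sq (ρ t : ℝ) : box ρ t ^ 2 = box ρ t := by rcases box_cases ρ t with h | h <;> rw [h] <;> norm_num

theorem box_integral {ρ : ℝ} (hρ : 0 ≤ ρ) : ∫ t, box ρ t = 2 * ρ := by
  unfold box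
  rw [integral_indicator measurableSet_Icc, setIntegral_const, smul_eq_mul, mul_one,
    Real.volume_real_Icc_of_le (by linarith)]
  ring

theorem box_nice (ρ : ℝ) : Nice1 (box ρ) :=
  ⟨box_meas ρ, ⟨1, box_abs_le ρ⟩, ρ, fun _ h => box_zero h⟩

/-- shifted nice function -/
theorem nice_shift {h : ℝ → ℝ} (hh : Nice1 h) (c : ℝ) : Nice1 (fun r => h (r - c)) := by
  obtain ⟨hm, ⟨M, hM⟩, R, hR⟩ := hh
  refine ⟨hm.comp (measurable_id.sub_const c), ⟨M, fun y => hM _⟩, R + |c|, fun y hy => hR _ ?_⟩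
  have : |y| ≤ |y - c| + |c| := by simpa using abs_add_le (y - c) c
  linarith

/-- square integral of a local kernel slice -/
theorem slice_sq {u : ℝ → ℝ} {B ρ y : ℝ} (hρ : 0 ≤ ρ) (hb : ∀ r, |u r| ≤ B)
    (hs : ∀ r, ρ < |y - r| → u r = 0) : ∫ r, u r ^ 2 ≤ B ^ 2 * (2 * ρ) := by
  have h1 : ∫ r, B ^ 2 * box ρ (r - y) = B ^ 2 * (2 * ρ) := by
    rw [integral_const_mul, integral_sub_right_eq_self (fun r => box ρ r) y, box_integral hρ]
  rw [← h1]
  refine integral_mono_of_nonneg (Filter.Eventually.of_forall fun r => sq_nonneg _)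
    ((n1_integrable (nice_shift (box_nice ρ) y)).const_mul _) (Filter.Eventually.of_forall fun r => ?_)
  simp only
  rcases le_or_gt (|y - r|) ρ with h | h
  · rw [box_one (by rwa [abs_sub_comm]), mul_one]
    exact sq_le_sq' (by linarith [(abs_le.1 (hb r)).1]) (abs_le.1 (hb r)).2
  · rw [hs r h, zero_pow two_ne_zero]
    exact mul_nonneg (sq_nonneg _) (box_nonneg ρ (r - y))

theorem slice_nice {u : ℝ → ℝ} {B ρ y : ℝ} (hm : Measurable u) (hb : ∀ r, |u r| ≤ B)
    (hs : ∀ r, ρ < |y - r| → u r = 0) : Nice1 u := by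
  refine ⟨hm, ⟨B, hb⟩, |y| + ρ, fun r hr => hs r ?_⟩
  have : |r| ≤ |y - r| + |y| := by
    have := abs_add_le (r - y) y
    rw [sub_add_cancel, abs_sub_comm] at this
    exact this
  linarith

/-- Schur test for a local kernel. -/
theorem loc {L : ℝ → ℝ → ℝ} {a c : ℝ} {k : ℤ} (hc : 0 ≤ c)
    (hm : Measurable (Function.uncurry L)) (hb : ∀ y r, |L y r| ≤ a * ((2 : ℝ) ^ k)⁻¹)
    (hs : ∀ y r, c * (2 : ℝ) ^ k < |y - r| → L y r = 0) {h : ℝ → ℝ} (hh : Nice1 h) :
    ∫ y, (∫ r, L y r * h r) ^ 2 ≤ 4 * c ^ 2 * a ^ 2 * ∫ r, h r ^ 2 := by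
  have hk := zp k
  set ρ : ℝ := c * (2 : ℝ) ^ k with hρdef
  have hρ : 0 ≤ ρ := by positivity
  -- pointwise bound
  have hpt : ∀ y, (∫ r, L y r * h r) ^ 2 ≤
      ((a * ((2 : ℝ) ^ k)⁻¹) ^ 2 * (2 * ρ)) * ∫ r, box ρ (y - r) * h r ^ 2 := by
    intro y
    have hLm : Measurable (L y) := hm.of_uncurry_left
    have hLn : Nice1 (L y) := slice_nice hLm (hb y) (hs y)
    have hBn : Nice1 (fun r => box ρ (y - r) * h r) :=
      n1_bdd_mul ((box_meas ρ).comp (measurable_const.sub measurable_id)) ⟨1, fun r => box_abs_le ρ _⟩ hh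
    have e1 : ∫ r, L y r * h r = ∫ r, L y r * (box ρ (y - r) * h r) := by
      congr 1; funext r
      rcases le_or_gt (|y - r|) ρ with h' | h'
      · rw [box_one h', one_mul]
      · rw [hs y r h']; ring
    rw [e1]
    refine (cs (n1_integrable (n1_sq hLn)) (n1_integrable (n1_sq hBn)) (n1_integrable (n1_mul hLn hBn))).trans ?_
    have e2 : ∫ r, (box ρ (y - r) * h r) ^ 2 = ∫ r, box ρ (y - r) * h r ^ 2 := by
      congr 1; funext r; rw [mul_pow, box_sq]
    rw [e2]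
    refine mul_le_mul_of_nonneg_right (slice_sq hρ (hb y) (hs y)) (integral_nonneg fun r => ?_)
    exact mul_nonneg (box_nonneg _ _) (sq_nonneg _)
  -- Fubini
  have hN : Nice (fun z : ℝ × ℝ => box ρ (z.1 - z.2) * h z.2 ^ 2) := by
    obtain ⟨hm', ⟨M, hM⟩, R, hR⟩ := hh
    refine ⟨?_, ⟨1 * M ^ 2, fun z => ?_⟩, ρ + |R|, fun z hz => ?_⟩
    · exact ((box_meas ρ).comp (measurable_fst.sub measurable_snd)).mul ((hm'.comp measurable_snd).pow_const 2)
    · rw [abs_mul, abs_pow]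
      exact mul_le_mul (box_abs_le _ _) (pow_le_pow_left₀ (abs_nonneg _) (hM _) 2) (by positivity) (by norm_num)
    · rcases le_or_gt (|z.2|) R with h2 | h2
      · have : ρ < |z.1 - z.2| := by
          have h3 : |z.1| ≤ |z.1 - z.2| + |z.2| := by simpa using abs_add_le (z.1 - z.2) z.2
          have h4 : R ≤ |R| := le_abs_self R
          rw [Prod.norm_def, Real.norm_eq_abs, Real.norm_eq_abs, lt_max_iff] at hz
          rcases hz with hz | hz <;> linarith
        simp only [box_zero this, zero_mul]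
      · simp only [hR _ h2]; ring
  have hI := nice_integrable hN
  have hsw : ∫ y, ∫ r, box ρ (y - r) * h r ^ 2 = (2 * ρ) * ∫ r, h r ^ 2 := by
    rw [integral_integral_swap (f := fun y r => box ρ (y - r) * h r ^ 2) hI]
    rw [← integral_const_mul]
    congr 1; funext r
    rw [integral_mul_const, integral_sub_right_eq_self (fun y => box ρ y) r, box_integral hρ]
  have hIy : Integrable (fun y => ∫ r, box ρ (y - r) * h r ^ 2) := hI.integral_prod_left
  calc ∫ y, (∫ r, L y r * h r) ^ 2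
      ≤ ∫ y, ((a * ((2 : ℝ) ^ k)⁻¹) ^ 2 * (2 * ρ)) * ∫ r, box ρ (y - r) * h r ^ 2 :=
        integral_mono_of_nonneg (Filter.Eventually.of_forall fun r => sq_nonneg _)
          (hIy.const_mul _) (Filter.Eventually.of_forall hpt)
    _ = 4 * c ^ 2 * a ^ 2 * ∫ r, h r ^ 2 := by
        rw [integral_const_mul, hsw, hρdef]
        field_simp
        ring

/-- hypotheses on one kernel. -/
structure Ker (A : ℝ) (k : ℤ) (K : ℝ → ℝ → ℝ) : Prop where
  meas : Measurable (Function.uncurry K)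
  size : ∀ y r, |K y r| ≤ A * ((2 : ℝ) ^ k)⁻¹
  supp : ∀ y r, 2 * (2 : ℝ) ^ k < |y - r| → K y r = 0
  lip : ∀ y r r', |K y r - K y r'| ≤ A * ((2 : ℝ) ^ k)⁻¹ * ((2 : ℝ) ^ k)⁻¹ * |r - r'|

/-- the operator -/
def op (K : ℝ → ℝ → ℝ) (h : ℝ → ℝ) (y : ℝ) : ℝ := ∫ r, K y r * h r

/-- `K 1` -/
def bb (K : ℝ → ℝ → ℝ) (y : ℝ) : ℝ := ∫ r, K y r

/-- the part killing constants -/
def SS (K : ℝ → ℝ → ℝ) (k : ℤ) (h : ℝ → ℝ) (y : ℝ) : ℝ := op K h y - bb K y * EE k h y

theorem Ker.slice {A : ℝ} {k : ℤ} {K : ℝ → ℝ → ℝ} (hK : Ker A k K) (y : ℝ) : Nice1 (K y) :=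
  slice_nice hK.meas.of_uncurry_left (hK.size y) (hK.supp y)

theorem abs_slice {u : ℝ → ℝ} {B ρ y : ℝ} (hρ : 0 ≤ ρ) (hb : ∀ r, |u r| ≤ B)
    (hs : ∀ r, ρ < |y - r| → u r = 0) : ∫ r, |u r| ≤ B * (2 * ρ) := by
  have h1 : ∫ r, B * box ρ (r - y) = B * (2 * ρ) := by
    rw [integral_const_mul, integral_sub_right_eq_self (fun r => box ρ r) y, box_integral hρ]
  rw [← h1]
  refine integral_mono_of_nonneg (Filter.Eventually.of_forall fun r => abs_nonneg _)
    ((n1_integrable (nice_shift (box_nice ρ) y)).const_mul _) (Filter.Eventually.of_forall fun r => ?_)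
  simp only
  rcases le_or_gt (|y - r|) ρ with h | h
  · rw [box_one (by rwa [abs_sub_comm]), mul_one]
    exact hb r
  · rw [hs r h, abs_zero]
    exact mul_nonneg ((abs_nonneg _).trans (hb r)) (box_nonneg _ _)

theorem bb_bound {A : ℝ} {k : ℤ} {K : ℝ → ℝ → ℝ} (hK : Ker A k K) (y : ℝ) : |bb K y| ≤ 4 * A := by
  have hk := zp k
  unfold bb
  refine (abs_integral_le_integral_abs).trans ?_
  refine (abs_slice (B := A * ((2 : ℝ) ^ k)⁻¹) (ρ := 2 * (2 : ℝ) ^ k) (y := y) (by positivity)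
    (hK.size y) (hK.supp y)).trans (le_of_eq ?_)
  field_simp
  ring

theorem bb_meas {A : ℝ} {k : ℤ} {K : ℝ → ℝ → ℝ} (hK : Ker A k K) : Measurable (bb K) :=
  (hK.meas.stronglyMeasurable.integral_prod_right (ν := volume)).measurable

theorem op_nice {A : ℝ} {k : ℤ} {K : ℝ → ℝ → ℝ} (hK : Ker A k K) {h : ℝ → ℝ} (hh : Nice1 h) :
    Nice1 (op K h) := by
  have hh' := hh
  obtain ⟨hm, ⟨M, hM⟩, R, hR⟩ := hh
  have hk := zp k
  refine ⟨?_, ⟨(A * ((2 : ℝ) ^ k)⁻¹ * M) * (2 * (2 * (2 : ℝ) ^ k)), fun y => ?_⟩, R + 2 * (2 : ℝ) ^ k,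
    fun y hy => ?_⟩
  · have : Measurable (Function.uncurry fun y r => K y r * h r) :=
      hK.meas.mul (hm.comp measurable_snd)
    exact (this.stronglyMeasurable.integral_prod_right (ν := volume)).measurable
  · unfold op
    refine (abs_integral_le_integral_abs).trans ?_
    refine abs_slice (y := y) (by positivity) (fun r => ?_) (fun r hr => ?_)
    · rw [abs_mul]
      exact mul_le_mul (hK.size y r) (hM r) (abs_nonneg _) ((abs_nonneg _).trans (hK.size y r))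
    · rw [hK.supp y r hr, zero_mul]
  · unfold op
    have : (fun r => K y r * h r) = fun _ => 0 := by
      funext r
      rcases le_or_gt (|r|) R with h2 | h2
      · rw [hK.supp y r, zero_mul]
        have h3 : |y| ≤ |y - r| + |r| := by simpa using abs_add_le (y - r) r
        linarith
      · rw [hR r h2, mul_zero]
    rw [this, integral_zero]

theorem SS_nice {A : ℝ} {k : ℤ} {K : ℝ → ℝ → ℝ} (hK : Ker A k K) {h : ℝ → ℝ} (hh : Nice1 h) :
    Nice1 (SS K k h) :=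
  n1_sub (op_nice hK hh) (n1_bdd_mul (bb_meas hK) ⟨4 * A, bb_bound hK⟩ (nice_EE hh k))

theorem SS_sub {A : ℝ} {k : ℤ} {K : ℝ → ℝ → ℝ} (hK : Ker A k K) {f g : ℝ → ℝ} (hf : Nice1 f)
    (hg : Nice1 g) (y : ℝ) : SS K k (fun r => f r - g r) y = SS K k f y - SS K k g y := by
  unfold SS op
  rw [EE_sub hf hg]
  have : ∫ r, K y r * (f r - g r) = (∫ r, K y r * f r) - ∫ r, K y r * g r := by
    rw [← integral_sub]
    · congr 1; funext r; ring
    · exact n1_integrable (n1_mul (hK.slice y) hf)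
    · exact n1_integrable (n1_mul (hK.slice y) hg)
  rw [this]; ring

/-- small scales: `h` with zero averages on intervals of length `2^i`, `i ≤ k`. -/
theorem low {A : ℝ} {k i : ℤ} {K : ℝ → ℝ → ℝ} (hA : 0 ≤ A) (hK : Ker A k K) (hik : i ≤ k) {h : ℝ → ℝ}
    (hh : Nice1 h) (h0 : ∀ y, EE i h y = 0) :
    ∫ y, op K h y ^ 2 ≤ 36 * A ^ 2 * ((2 : ℝ) ^ i * ((2 : ℝ) ^ k)⁻¹) ^ 2 * ∫ y, h y ^ 2 := by
  have hk := zp k
  have hi := zp i
  have hle : (2 : ℝ) ^ i ≤ (2 : ℝ) ^ k := zpow_le_zpow_right₀ (by norm_num) hik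
  let c : ℝ → ℝ := fun r => (fl i r : ℝ) * (2 : ℝ) ^ i
  have hc : Measurable c := ((measurable_of_countable (fun n : ℤ => (n : ℝ))).comp (measurable_fl i)).mul_const _
  have hcd : ∀ r, |r - c r| ≤ (2 : ℝ) ^ i := by
    intro r
    have h1 := mem_II_fl i r
    rw [abs_le]
    constructor
    · have := h1.1; simp only [c]; linarith
    · have := h1.2; simp only [c]; nlinarith
  have hop : ∀ y, op K h y = ∫ r, (K y r - K y (c r)) * h r := by
    intro y
    have hKm : Measurable (K y) := hK.meas.of_uncurry_left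
    have hl : Cst i (fun r => K y (c r)) := fun r r' hr => by simp only [c, hr]
    have e := integral_mul_EE' hl ⟨_, fun r => hK.size y (c r)⟩ hh
    have e0 : ∫ r, K y (c r) * EE i h r = 0 := by
      simp only [h0, mul_zero, integral_zero]
    rw [e0] at e
    have i1 : Integrable (fun r => K y r * h r) := n1_integrable (n1_mul (hK.slice y) hh)
    have i2 : Integrable (fun r => K y (c r) * h r) :=
      n1_integrable (n1_bdd_mul (hKm.comp hc) ⟨_, fun r => hK.size y (c r)⟩ hh)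
    unfold op
    rw [← sub_zero (∫ r, K y r * h r), ← e, ← integral_sub i1 i2]
    congr 1; funext r; ring
  simp only [hop]
  have hb : ∀ y r, |K y r - K y (c r)| ≤ (A * ((2 : ℝ) ^ i * ((2 : ℝ) ^ k)⁻¹)) * ((2 : ℝ) ^ k)⁻¹ := by
    intro y r
    refine (hK.lip y r (c r)).trans ?_
    calc A * ((2 : ℝ) ^ k)⁻¹ * ((2 : ℝ) ^ k)⁻¹ * |r - c r|
        ≤ A * ((2 : ℝ) ^ k)⁻¹ * ((2 : ℝ) ^ k)⁻¹ * (2 : ℝ) ^ i :=
          mul_le_mul_of_nonneg_left (hcd r) (by positivity)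
      _ = _ := by ring
  have hs : ∀ y r, 3 * (2 : ℝ) ^ k < |y - r| → K y r - K y (c r) = 0 := by
    intro y r hr
    have h1 : |y - r| ≤ |y - c r| + |r - c r| := by
      have := abs_add_le (y - c r) (c r - r)
      rw [abs_sub_comm (c r) r] at this
      simpa using this
    rw [hK.supp y r (by linarith), hK.supp y (c r) (by linarith [hcd r]), sub_zero]
  have hm : Measurable (Function.uncurry fun y r => K y r - K y (c r)) := by
    refine hK.meas.sub ?_
    exact hK.meas.comp (measurable_fst.prodMk (hc.comp measurable_snd))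
  have := loc (k := k) (by norm_num : (0 : ℝ) ≤ 3) hm hb hs hh
  refine this.trans (le_of_eq ?_)
  ring

/-! ### large scales -/

/-- `1` if `y` and `y + t` are in different intervals of length `2^i`. -/
def chi (i : ℤ) (t y : ℝ) : ℝ := if fl i (y + t) = fl i y then 0 else 1

theorem chi_meas (i : ℤ) (t : ℝ) : Measurable (chi i t) := by
  unfold chi
  refine Measurable.ite ?_ measurable_const measurable_const
  exact measurableSet_eq_fun ((measurable_fl i).comp (measurable_id.add_const t)) (measurable_fl i)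

theorem chi_cases (i : ℤ) (t y : ℝ) : chi i t y = 0 ∨ chi i t y = 1 := by
  unfold chi; split_ifs <;> simp

theorem chi_abs (i : ℤ) (t y : ℝ) : |chi i t y| ≤ 1 := by
  rcases chi_cases i t y with h | h <;> rw [h] <;> norm_num

theorem chi_nonneg (i : ℤ) (t y : ℝ) : 0 ≤ chi i t y := by
  rcases chi_cases i t y with h | h <;> rw [h]; norm_num

/-- average of `chi` -/
theorem chi_avg (i : ℤ) (t y₀ : ℝ) : EE i (chi i t) y₀ ≤ |t| * ((2 : ℝ) ^ i)⁻¹ := by
  have hi := zp i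
  unfold EE
  rw [mul_comm]
  refine mul_le_mul_of_nonneg_right ?_ (inv_nonneg.2 hi.le)
  set a : ℝ := (fl i y₀ : ℝ) * (2 : ℝ) ^ i with ha
  set b : ℝ := ((fl i y₀ : ℝ) + 1) * (2 : ℝ) ^ i with hb
  -- the exceptional set
  have key : ∃ p q : ℝ, p ≤ q ∧ q - p = |t| ∧ ∀ y ∈ Set.Ico a b, fl i (y + t) ≠ fl i y → y ∈ Set.Ico p q := by
    rcases le_or_gt 0 t with ht | ht
    · refine ⟨b - t, b, by linarith, by rw [abs_of_nonneg ht]; ring, ?_⟩
      intro y hy hne
      refine ⟨?_, hy.2⟩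
      by_contra hlt
      rw [not_le] at hlt
      have h1 : y + t ∈ II i (fl i y₀) := ⟨by linarith [hy.1], by linarith⟩
      have h2 : y ∈ II i (fl i y₀) := hy
      exact hne ((mem_II.1 h1).trans (mem_II.1 h2).symm)
    · refine ⟨a, a - t, by linarith, by rw [abs_of_neg ht]; ring, ?_⟩
      intro y hy hne
      refine ⟨hy.1, ?_⟩
      by_contra hlt
      rw [not_lt] at hlt
      have h1 : y + t ∈ II i (fl i y₀) := ⟨by linarith, by linarith [hy.2]⟩
      have h2 : y ∈ II i (fl i y₀) := hy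
      exact hne ((mem_II.1 h1).trans (mem_II.1 h2).symm)
  obtain ⟨p, q, hpq, hlen, hmem⟩ := key
  rw [← integral_indicator measurableSet_Ico]
  have h1 : ∫ y, Set.indicator (Set.Ico p q) (fun _ => (1 : ℝ)) y = |t| := by
    rw [integral_indicator measurableSet_Ico, setIntegral_const, smul_eq_mul, mul_one,
      Real.volume_real_Ico_of_le hpq, hlen]
  rw [← h1]
  refine integral_mono_of_nonneg (Filter.Eventually.of_forall fun y => ?_) ?_
    (Filter.Eventually.of_forall fun y => ?_)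
  · exact Set.indicator_nonneg (fun z _ => chi_nonneg i t z) y
  · exact (integrable_indicator_iff measurableSet_Ico).2 (by simp)
  · by_cases hy : y ∈ Set.Ico a b
    · rw [Set.indicator_of_mem hy]
      by_cases hne : fl i (y + t) = fl i y
      · have : chi i t y = 0 := by unfold chi; rw [if_pos hne]
        rw [this]
        exact Set.indicator_nonneg (fun z _ => zero_le_one) y
      · rw [Set.indicator_of_mem (hmem y hy hne)]
        exact (abs_le.1 (chi_abs i t y)).2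
    · rw [Set.indicator_of_notMem hy]
      exact Set.indicator_nonneg (fun z _ => zero_le_one) y

theorem cross {i : ℤ} {h : ℝ → ℝ} (hh : Nice1 h) (hc : Cst i h) (t : ℝ) :
    ∫ y, h y ^ 2 * chi i t y ≤ (|t| * ((2 : ℝ) ^ i)⁻¹) * ∫ y, h y ^ 2 := by
  have hb : ∃ M : ℝ, ∀ y, |chi i t y| ≤ M := ⟨1, chi_abs i t⟩
  have hbE : ∃ M : ℝ, ∀ y, |EE i (chi i t) y| ≤ M := ⟨1, EE_bound (chi_abs i t) i⟩
  have i1 : Integrable (fun y => h y ^ 2 * chi i t y) :=
    n1_integrable (n1_mul_bdd (n1_sq hh) (chi_meas i t) hb)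
  have i2 : Integrable (fun y => h y ^ 2 * EE i (chi i t) y) :=
    n1_integrable (n1_mul_bdd (n1_sq hh) (cst_EE i _).measurable hbE)
  rw [integral_mul_EE (hc.pow 2) i1 i2, ← integral_const_mul]
  refine integral_mono i2 ((n1_integrable (n1_sq hh)).const_mul _) fun y => ?_
  simp only
  rw [mul_comm (|t| * ((2 : ℝ) ^ i)⁻¹)]
  exact mul_le_mul_of_nonneg_left (chi_avg i t y) (sq_nonneg _)

/-- translation estimate for functions constant on dyadic intervals. -/
theorem trans_est {i : ℤ} {h : ℝ → ℝ} (hh : Nice1 h) (hc : Cst i h) (t : ℝ) :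
    ∫ y, (h (y + t) - h y) ^ 2 ≤ 4 * (|t| * ((2 : ℝ) ^ i)⁻¹) * ∫ y, h y ^ 2 := by
  have hs : Nice1 (fun y => h (y + t)) := by simpa using nice_shift hh (-t)
  have hb : ∃ M : ℝ, ∀ y, |chi i t y| ≤ M := ⟨1, chi_abs i t⟩
  have hb' : ∃ M : ℝ, ∀ y, |chi i (-t) y| ≤ M := ⟨1, chi_abs i (-t)⟩
  have j1 : Integrable (fun y => h (y + t) ^ 2 * chi i t y) :=
    n1_integrable (n1_mul_bdd (n1_sq hs) (chi_meas i t) hb)
  have j2 : Integrable (fun y => h y ^ 2 * chi i t y) :=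
    n1_integrable (n1_mul_bdd (n1_sq hh) (chi_meas i t) hb)
  have e1 : ∫ y, h (y + t) ^ 2 * chi i t y = ∫ y, h y ^ 2 * chi i (-t) y := by
    rw [← integral_add_right_eq_self (fun y => h y ^ 2 * chi i (-t) y) t]
    congr 1; funext y
    congr 1
    unfold chi
    simp only [add_neg_cancel_right, eq_comm]
  have hpt : ∀ y, (h (y + t) - h y) ^ 2 ≤ 2 * (h (y + t) ^ 2 * chi i t y) + 2 * (h y ^ 2 * chi i t y) := by
    intro y
    by_cases hne : fl i (y + t) = fl i y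
    · rw [hc _ _ hne, sub_self, zero_pow two_ne_zero]
      have := chi_nonneg i t y
      have h1 := mul_nonneg (sq_nonneg (h y)) this
      linarith
    · have : chi i t y = 1 := by unfold chi; rw [if_neg hne]
      rw [this]
      nlinarith [sq_nonneg (h (y + t) + h y)]
  calc ∫ y, (h (y + t) - h y) ^ 2
      ≤ ∫ y, (2 * (h (y + t) ^ 2 * chi i t y) + 2 * (h y ^ 2 * chi i t y)) :=
        integral_mono_of_nonneg (Filter.Eventually.of_forall fun r => sq_nonneg _)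
          ((j1.const_mul 2).add (j2.const_mul 2)) (Filter.Eventually.of_forall hpt)
    _ = 2 * (∫ y, h y ^ 2 * chi i (-t) y) + 2 * ∫ y, h y ^ 2 * chi i t y := by
        rw [integral_add (j1.const_mul 2) (j2.const_mul 2), integral_const_mul, integral_const_mul, e1]
    _ ≤ 2 * ((|(-t)| * ((2 : ℝ) ^ i)⁻¹) * ∫ y, h y ^ 2) + 2 * ((|t| * ((2 : ℝ) ^ i)⁻¹) * ∫ y, h y ^ 2) :=
        add_le_add (mul_le_mul_of_nonneg_left (cross hh hc (-t)) (by norm_num))
          (mul_le_mul_of_nonneg_left (cross hh hc t) (by norm_num))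
    _ = _ := by rw [abs_neg]; ring

/-- large scales: `h` constant on intervals of length `2^i`, `k ≤ i`. -/
theorem high {A : ℝ} {k i : ℤ} {K : ℝ → ℝ → ℝ} (hK : Ker A k K) (hik : k ≤ i) {h : ℝ → ℝ}
    (hh : Nice1 h) (hc : Cst i h) :
    ∫ y, SS K k h y ^ 2 ≤ 128 * A ^ 2 * ((2 : ℝ) ^ k * ((2 : ℝ) ^ i)⁻¹) * ∫ y, h y ^ 2 := by
  have hk := zp k
  have hi := zp i
  set ρ : ℝ := 2 * (2 : ℝ) ^ k with hρdef
  have hρ : 0 ≤ ρ := by positivity
  have hSS : ∀ y, SS K k h y = ∫ r, K y r * (box ρ (r - y) * (h r - h y)) := by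
    intro y
    unfold SS op bb
    rw [EE_of_cst (hc.mono hik)]
    rw [← integral_mul_const, ← integral_sub]
    · congr 1; funext r
      rcases le_or_gt (|y - r|) ρ with h' | h'
      · rw [box_one (by rwa [abs_sub_comm])]; ring
      · rw [hK.supp y r h']; ring
    · exact n1_integrable (n1_mul (hK.slice y) hh)
    · exact (n1_integrable (hK.slice y)).mul_const _
  have hpt : ∀ y, SS K k h y ^ 2 ≤ ((A * ((2 : ℝ) ^ k)⁻¹) ^ 2 * (2 * ρ)) *
      ∫ t, box ρ t * (h (y + t) - h y) ^ 2 := by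
    intro y
    have hBn : Nice1 (fun r => box ρ (r - y) * (h r - h y)) := by
      have hb1 : Measurable (fun r => h r - h y) := hh.1.sub_const _
      obtain ⟨M, hM⟩ := hh.2.1
      exact n1_mul_bdd (nice_shift (box_nice ρ) y) hb1
        ⟨M + M, fun r => (abs_sub _ _).trans (add_le_add (hM r) (hM y))⟩
    rw [hSS y]
    refine (cs (n1_integrable (n1_sq (hK.slice y))) (n1_integrable (n1_sq hBn))
      (n1_integrable (n1_mul (hK.slice y) hBn))).trans ?_
    have e2 : ∫ r, (box ρ (r - y) * (h r - h y)) ^ 2 = ∫ t, box ρ t * (h (y + t) - h y) ^ 2 := by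
      rw [← integral_sub_right_eq_self (fun t => box ρ t * (h (y + t) - h y) ^ 2) y]
      congr 1; funext r; rw [mul_pow, box_sq, add_sub_cancel]
    rw [e2]
    refine mul_le_mul_of_nonneg_right (slice_sq hρ (hK.size y) (hK.supp y)) (integral_nonneg fun r => ?_)
    exact mul_nonneg (box_nonneg _ _) (sq_nonneg _)
  have hN : Nice (fun z : ℝ × ℝ => box ρ z.2 * (h (z.1 + z.2) - h z.1) ^ 2) := by
    obtain ⟨hm', ⟨M, hM⟩, R, hR⟩ := hh
    refine ⟨?_, ⟨1 * (M + M) ^ 2, fun z => ?_⟩, ρ + |R|, fun z hz => ?_⟩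
    · exact ((box_meas ρ).comp measurable_snd).mul
        (((hm'.comp (measurable_fst.add measurable_snd)).sub (hm'.comp measurable_fst)).pow_const 2)
    · rw [abs_mul, abs_pow]
      exact mul_le_mul (box_abs_le _ _) (pow_le_pow_left₀ (abs_nonneg _)
        ((abs_sub _ _).trans (add_le_add (hM _) (hM _))) 2) (by positivity) (by norm_num)
    · rcases le_or_gt (|z.2|) ρ with h2 | h2
      · have h4 : R ≤ |R| := le_abs_self R
        have h5 : 0 ≤ |R| := abs_nonneg R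
        rw [Prod.norm_def, Real.norm_eq_abs, Real.norm_eq_abs, lt_max_iff] at hz
        have h6 : ρ + |R| < |z.1| := by
          rcases hz with hz | hz
          · exact hz
          · linarith
        have h7 : R < |z.1 + z.2| := by
          have : |z.1| ≤ |z.1 + z.2| + |z.2| := by
            have := abs_add_le (z.1 + z.2) (-z.2)
            rw [abs_neg] at this
            simpa using this
          linarith
        simp only [hR _ h7, hR z.1 (by linarith)]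
        ring
      · simp only [box_zero h2, zero_mul]
  have hI := nice_integrable hN
  have hsw : ∫ y, ∫ t, box ρ t * (h (y + t) - h y) ^ 2 ≤
      (4 * (ρ * ((2 : ℝ) ^ i)⁻¹) * (∫ y, h y ^ 2)) * (2 * ρ) := by
    rw [integral_integral_swap (f := fun y t => box ρ t * (h (y + t) - h y) ^ 2) hI]
    have hIt : Integrable (fun t => ∫ y, box ρ t * (h (y + t) - h y) ^ 2) := hI.integral_prod_right
    rw [← box_integral hρ, ← integral_const_mul]
    refine integral_mono hIt ((n1_integrable (box_nice ρ)).const_mul _) fun t => ?_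
    simp only
    rw [integral_const_mul, mul_comm]
    rcases le_or_gt (|t|) ρ with h' | h'
    · rw [box_one h', mul_one, mul_one]
      refine (trans_est hh hc t).trans ?_
      refine mul_le_mul_of_nonneg_right ?_ (integral_nonneg fun y => sq_nonneg _)
      refine mul_le_mul_of_nonneg_left ?_ (by norm_num)
      exact mul_le_mul_of_nonneg_right h' (inv_nonneg.2 hi.le)
    · rw [box_zero h', mul_zero, mul_zero]
  have hIy : Integrable (fun y => ∫ t, box ρ t * (h (y + t) - h y) ^ 2) := hI.integral_prod_left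
  calc ∫ y, SS K k h y ^ 2
      ≤ ∫ y, ((A * ((2 : ℝ) ^ k)⁻¹) ^ 2 * (2 * ρ)) * ∫ t, box ρ t * (h (y + t) - h y) ^ 2 :=
        integral_mono_of_nonneg (Filter.Eventually.of_forall fun r => sq_nonneg _)
          (hIy.const_mul _) (Filter.Eventually.of_forall hpt)
    _ ≤ ((A * ((2 : ℝ) ^ k)⁻¹) ^ 2 * (2 * ρ)) *
          ((4 * (ρ * ((2 : ℝ) ^ i)⁻¹) * (∫ y, h y ^ 2)) * (2 * ρ)) := by
        rw [integral_const_mul]
        exact mul_le_mul_of_nonneg_left hsw (by positivity)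
    _ = 128 * A ^ 2 * ((2 : ℝ) ^ k * ((2 : ℝ) ^ i)⁻¹) * ∫ y, h y ^ 2 := by
        rw [hρdef]
        field_simp
        ring

/-! ### truncated martingale -/

/-- `Q 0 = g`, `Q i = E_{i-1-N} g` for `1 ≤ i ≤ 2N+1`, `Q i = 0` afterwards. -/
def Q (N : ℕ) (g : ℝ → ℝ) (i : ℕ) : ℝ → ℝ :=
  if i = 0 then g else if i ≤ 2 * N + 1 then EE ((i : ℤ) - 1 - N) g else fun _ => 0

theorem Q_zero (N : ℕ) (g : ℝ → ℝ) : Q N g 0 = g := by simp [Q]

theorem Q_mid {N : ℕ} (g : ℝ → ℝ) {i : ℕ} (h1 : 1 ≤ i) (h2 : i ≤ 2 * N + 1) :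
    Q N g i = EE ((i : ℤ) - 1 - N) g := by
  unfold Q; rw [if_neg (by omega), if_pos h2]

theorem Q_top {N : ℕ} (g : ℝ → ℝ) {i : ℕ} (h2 : 2 * N + 1 < i) : Q N g i = fun _ => 0 := by
  unfold Q; rw [if_neg (by omega), if_neg (by omega)]

theorem Q_nice (N : ℕ) {g : ℝ → ℝ} (hg : Nice1 g) (i : ℕ) : Nice1 (Q N g i) := by
  unfold Q
  split_ifs
  · exact hg
  · exact nice_EE hg _
  · exact n1_zero

/-- martingale differences -/
def ev (N : ℕ) (g : ℝ → ℝ) (i : ℕ) : ℝ → ℝ := fun y => Q N g i y - Q N g (i + 1) y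

theorem ev_nice (N : ℕ) {g : ℝ → ℝ} (hg : Nice1 g) (i : ℕ) : Nice1 (ev N g i) :=
  n1_sub (Q_nice N hg i) (Q_nice N hg (i + 1))

theorem EE_Q {N : ℕ} {g : ℝ → ℝ} (hg : Nice1 g) {i : ℕ} {k : ℤ} (hi : i ≤ 2 * N + 1)
    (hk : (i : ℤ) - 1 - N ≤ k) : EE k (Q N g i) = EE k g := by
  rcases Nat.eq_zero_or_pos i with h0 | h0
  · subst h0; rw [Q_zero]
  · rw [Q_mid g h0 hi, EE_EE_of_le hk hg]

theorem EE_ev {N : ℕ} {g : ℝ → ℝ} (hg : Nice1 g) {i : ℕ} {k : ℤ} (hi : i ≤ 2 * N)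
    (hk : (i : ℤ) - N ≤ k) (y : ℝ) : EE k (ev N g i) y = 0 := by
  unfold ev
  rw [EE_sub (Q_nice N hg i) (Q_nice N hg (i + 1)), EE_Q hg (by omega) (by omega),
    EE_Q hg (by omega) (by push_cast; omega)]
  exact sub_self _

theorem cst_ev (N : ℕ) (g : ℝ → ℝ) {i : ℕ} (h1 : 1 ≤ i) : Cst ((i : ℤ) - 1 - N) (ev N g i) := by
  have hQ : ∀ l : ℕ, i ≤ l → Cst ((i : ℤ) - 1 - N) (Q N g l) := by
    intro l hl
    rcases Nat.lt_or_ge (2 * N + 1) l with h | h
    · rw [Q_top g h]; exact Cst.const 0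
    · rw [Q_mid g (by omega) h]
      exact (cst_EE _ g).mono (by omega)
  exact (hQ i le_rfl).sub (hQ (i + 1) (by omega))

theorem ev_energy {N : ℕ} {g : ℝ → ℝ} (hg : Nice1 g) {i : ℕ} (hi : i < 2 * N + 2) :
    ∫ y, ev N g i y ^ 2 = (∫ y, Q N g i y ^ 2) - ∫ y, Q N g (i + 1) y ^ 2 := by
  rcases Nat.lt_or_ge i (2 * N + 1) with h | h
  · have h1 : EE ((i : ℤ) - N) (Q N g i) = Q N g (i + 1) := by
      rw [EE_Q hg (by omega) (by omega), Q_mid g (by omega) (by omega)]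
      congr 1; push_cast; ring
    rw [pythag (Q_nice N hg i) ((i : ℤ) - N), h1]
    unfold ev
    ring
  · have h1 : Q N g (i + 1) = fun _ => 0 := Q_top g (by omega)
    unfold ev
    rw [h1]
    simp

theorem sum_ev_energy (N : ℕ) {g : ℝ → ℝ} (hg : Nice1 g) :
    ∑ i ∈ Finset.range (2 * N + 2), ∫ y, ev N g i y ^ 2 = ∫ y, g y ^ 2 := by
  rw [Finset.sum_congr rfl fun i hi => ev_energy hg (Finset.mem_range.1 hi),
    Finset.sum_range_sub' (fun i => ∫ y, Q N g i y ^ 2), Q_zero, Q_top g (by omega)]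
  simp

theorem SS_zero (K : ℝ → ℝ → ℝ) (k : ℤ) (y : ℝ) : SS K k (fun _ => 0) y = 0 := by
  unfold SS op EE
  simp

theorem SS_sum {A : ℝ} {k : ℤ} {K : ℝ → ℝ → ℝ} (hK : Ker A k K) (N : ℕ) {g : ℝ → ℝ} (hg : Nice1 g)
    (y : ℝ) : SS K k g y = ∑ i ∈ Finset.range (2 * N + 2), SS K k (ev N g i) y := by
  have h1 : ∀ i, SS K k (ev N g i) y = SS K k (Q N g i) y - SS K k (Q N g (i + 1)) y := fun i =>
    SS_sub hK (Q_nice N hg i) (Q_nice N hg (i + 1)) y
  simp only [h1]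
  rw [Finset.sum_range_sub' (fun i => SS K k (Q N g i) y), Q_zero, Q_top g (by omega), SS_zero,
    sub_zero]

theorem half_pow (m : ℤ) (hm : 0 ≤ m) : (1 / 2 : ℝ) ^ m.natAbs = (2 : ℝ) ^ (-m) := by
  obtain ⟨n, rfl⟩ := Int.eq_ofNat_of_zero_le hm
  rw [Int.natAbs_natCast, zpow_neg, zpow_natCast, one_div, inv_pow]

theorem half_pow' (m : ℤ) (hm : m ≤ 0) : (1 / 2 : ℝ) ^ m.natAbs = (2 : ℝ) ^ m := by
  have := half_pow (-m) (by omega)
  rwa [Int.natAbs_neg, neg_neg] at this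

theorem SS_ev {A : ℝ} {k : ℤ} {K : ℝ → ℝ → ℝ} (hA : 0 ≤ A) (hK : Ker A k K) {N : ℕ} {g : ℝ → ℝ}
    (hg : Nice1 g) (hk1 : -(N : ℤ) ≤ k) (hk2 : k ≤ N) (i : ℕ) :
    ∫ y, SS K k (ev N g i) y ^ 2 ≤
      144 * A ^ 2 * (1 / 2 : ℝ) ^ ((i : ℤ) - 1 - N - k).natAbs * ∫ y, ev N g i y ^ 2 := by
  have hn : 0 ≤ ∫ y, ev N g i y ^ 2 := integral_nonneg fun y => sq_nonneg _
  rcases le_or_gt ((i : ℤ) - N) k with h | h
  · have h0 : ∀ y, EE k (ev N g i) y = 0 := EE_ev hg (by omega) h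
    have h0' : ∀ y, EE ((i : ℤ) - N) (ev N g i) y = 0 := EE_ev hg (by omega) le_rfl
    have e : ∀ y, SS K k (ev N g i) y = op K (ev N g i) y := by
      intro y; unfold SS; rw [h0 y, mul_zero, sub_zero]
    simp only [e]
    refine (low hA hK h (ev_nice N hg i) h0').trans ?_
    refine mul_le_mul_of_nonneg_right ?_ hn
    rw [half_pow' _ (by omega)]
    set m : ℤ := (i : ℤ) - 1 - N - k with hm
    have e1 : (2 : ℝ) ^ ((i : ℤ) - N) * ((2 : ℝ) ^ k)⁻¹ = 2 * (2 : ℝ) ^ m := by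
      rw [← zpow_neg, ← zpow_add₀ two_ne_zero, ← zpow_one_add₀ two_ne_zero]
      congr 1; rw [hm]; ring
    rw [e1]
    have h2 : (2 : ℝ) ^ m ≤ 1 := zpow_le_one_of_nonpos₀ (by norm_num) (by omega)
    have h3 := zp m
    have h4 : (2 : ℝ) ^ m * (2 : ℝ) ^ m ≤ (2 : ℝ) ^ m := by nlinarith
    have hA2 : 0 ≤ A ^ 2 := sq_nonneg A
    nlinarith
  · have h5 : 1 ≤ i := by omega
    refine (high hK (by omega) (ev_nice N hg i) (cst_ev N g h5)).trans ?_
    refine mul_le_mul_of_nonneg_right ?_ hn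
    rw [half_pow _ (by omega)]
    have e1 : (2 : ℝ) ^ k * ((2 : ℝ) ^ ((i : ℤ) - 1 - N))⁻¹ = (2 : ℝ) ^ (-((i : ℤ) - 1 - N - k)) := by
      rw [← zpow_neg, ← zpow_add₀ two_ne_zero]
      congr 1; ring
    rw [e1]
    have h3 := zp (-((i : ℤ) - 1 - N - k))
    have hA2 : 0 ≤ A ^ 2 := sq_nonneg A
    have := mul_nonneg hA2 h3.le
    nlinarith

theorem geo_half {ι : Type*} (t : Finset ι) (f : ι → ℕ) (hf : Set.InjOn f t) {ρ : ℝ} (h0 : 0 ≤ ρ)
    (h1 : ρ < 1) : ∑ j ∈ t, ρ ^ (f j) ≤ (1 - ρ)⁻¹ := by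
  rw [← Finset.sum_image (f := fun n => ρ ^ n) (g := f) hf, ← tsum_geometric_of_lt_one h0 h1]
  exact Summable.sum_le_tsum _ (fun _ _ => by positivity) (summable_geometric_of_lt_one h0 h1)

theorem geo {ι : Type*} (s : Finset ι) (f : ι → ℤ) (hf : Function.Injective f) {ρ : ℝ} (h0 : 0 ≤ ρ)
    (h1 : ρ < 1) : ∑ j ∈ s, ρ ^ (f j).natAbs ≤ 2 * (1 - ρ)⁻¹ := by
  classical
  rw [← Finset.sum_filter_add_sum_filter_not s (fun j => 0 ≤ f j)]
  have a1 := geo_half (s.filter fun j => 0 ≤ f j) (fun j => (f j).natAbs) (by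
    intro a ha b hb hab
    simp only [Finset.coe_filter, Set.mem_setOf_eq] at ha hb hab
    exact hf (by omega)) h0 h1
  have a2 := geo_half (s.filter fun j => ¬ 0 ≤ f j) (fun j => (f j).natAbs) (by
    intro a ha b hb hab
    simp only [Finset.coe_filter, Set.mem_setOf_eq] at ha hb hab
    exact hf (by omega)) h0 h1
  linarith

theorem SS_total {A : ℝ} {k : ℤ} {K : ℝ → ℝ → ℝ} (hA : 0 ≤ A) (hK : Ker A k K) {N : ℕ} {g : ℝ → ℝ}
    (hg : Nice1 g) (hk1 : -(N : ℤ) ≤ k) (hk2 : k ≤ N) :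
    ∫ y, SS K k g y ^ 2 ≤ 1152 * A ^ 2 * ∑ i ∈ Finset.range (2 * N + 2),
      (2 / 3 : ℝ) ^ ((i : ℤ) - 1 - N - k).natAbs * ∫ y, ev N g i y ^ 2 := by
  set m : ℕ → ℕ := fun i => ((i : ℤ) - 1 - N - k).natAbs with hm
  have hu : ∀ i, Nice1 (SS K k (ev N g i)) := fun i => SS_nice hK (ev_nice N hg i)
  have hgeo : ∑ i ∈ Finset.range (2 * N + 2), (3 / 4 : ℝ) ^ m i ≤ 8 := by
    have := geo (Finset.range (2 * N + 2)) (fun i : ℕ => (i : ℤ) - 1 - N - k)
      (fun a b hab => by simp only at hab; omega) (by norm_num : (0 : ℝ) ≤ 3 / 4) (by norm_num)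
    refine this.trans (by norm_num)
  have hpt : ∀ y, SS K k g y ^ 2 ≤
      8 * ∑ i ∈ Finset.range (2 * N + 2), (4 / 3 : ℝ) ^ m i * SS K k (ev N g i) y ^ 2 := by
    intro y
    rw [SS_sum hK N hg y]
    have h := Finset.sum_sq_le_sum_mul_sum_of_sq_eq_mul (Finset.range (2 * N + 2))
      (r := fun i => SS K k (ev N g i) y) (f := fun i => (3 / 4 : ℝ) ^ m i)
      (g := fun i => (4 / 3 : ℝ) ^ m i * SS K k (ev N g i) y ^ 2)
      (fun i _ => by positivity) (fun i _ => by positivity) (fun i _ => by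
        rw [← mul_assoc, ← mul_pow]; norm_num)
    refine h.trans ?_
    exact mul_le_mul_of_nonneg_right hgeo (Finset.sum_nonneg fun i _ => by positivity)
  have hint : ∀ i ∈ Finset.range (2 * N + 2),
      Integrable (fun y => (4 / 3 : ℝ) ^ m i * SS K k (ev N g i) y ^ 2) := fun i _ =>
    (n1_integrable (n1_sq (hu i))).const_mul _
  calc ∫ y, SS K k g y ^ 2
      ≤ ∫ y, 8 * ∑ i ∈ Finset.range (2 * N + 2), (4 / 3 : ℝ) ^ m i * SS K k (ev N g i) y ^ 2 :=
        integral_mono_of_nonneg (Filter.Eventually.of_forall fun r => sq_nonneg _)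
          ((integrable_finset_sum _ hint).const_mul _) (Filter.Eventually.of_forall hpt)
    _ = 8 * ∑ i ∈ Finset.range (2 * N + 2), (4 / 3 : ℝ) ^ m i * ∫ y, SS K k (ev N g i) y ^ 2 := by
        rw [integral_const_mul, integral_finset_sum _ hint]
        simp only [integral_const_mul]
    _ ≤ 8 * ∑ i ∈ Finset.range (2 * N + 2), (4 / 3 : ℝ) ^ m i *
          (144 * A ^ 2 * (1 / 2 : ℝ) ^ m i * ∫ y, ev N g i y ^ 2) := by
        refine mul_le_mul_of_nonneg_left (Finset.sum_le_sum fun i _ => ?_) (by norm_num)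
        exact mul_le_mul_of_nonneg_left (SS_ev hA hK hg hk1 hk2 i) (by positivity)
    _ = 1152 * A ^ 2 * ∑ i ∈ Finset.range (2 * N + 2), (2 / 3 : ℝ) ^ m i * ∫ y, ev N g i y ^ 2 := by
        rw [Finset.mul_sum, Finset.mul_sum]
        refine Finset.sum_congr rfl fun i _ => ?_
        have : (2 / 3 : ℝ) ^ m i = (4 / 3 : ℝ) ^ m i * (1 / 2 : ℝ) ^ m i := by
          rw [← mul_pow]; norm_num
        rw [this]; ring

/-- square function bound for the part killing constants. -/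
theorem SS_square {A : ℝ} {Kk : ℤ → ℝ → ℝ → ℝ} {F : Finset ℤ} (hA : 0 ≤ A)
    (hK : ∀ k ∈ F, Ker A k (Kk k)) {g : ℝ → ℝ} (hg : Nice1 g) :
    ∑ k ∈ F, ∫ y, SS (Kk k) k g y ^ 2 ≤ 6912 * A ^ 2 * ∫ y, g y ^ 2 := by
  -- choose `N`
  obtain ⟨N, hN⟩ : ∃ N : ℕ, ∀ k ∈ F, -(N : ℤ) ≤ k ∧ k ≤ N := by
    refine ⟨∑ k ∈ F, k.natAbs, fun k hk => ?_⟩
    have : k.natAbs ≤ ∑ k ∈ F, k.natAbs :=
      Finset.single_le_sum (f := fun k : ℤ => k.natAbs) (fun _ _ => Nat.zero_le _) hk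
    omega
  calc ∑ k ∈ F, ∫ y, SS (Kk k) k g y ^ 2
      ≤ ∑ k ∈ F, 1152 * A ^ 2 * ∑ i ∈ Finset.range (2 * N + 2),
          (2 / 3 : ℝ) ^ ((i : ℤ) - 1 - N - k).natAbs * ∫ y, ev N g i y ^ 2 :=
        Finset.sum_le_sum fun k hk => SS_total hA (hK k hk) hg (hN k hk).1 (hN k hk).2
    _ = 1152 * A ^ 2 * ∑ i ∈ Finset.range (2 * N + 2),
          (∑ k ∈ F, (2 / 3 : ℝ) ^ ((i : ℤ) - 1 - N - k).natAbs) * ∫ y, ev N g i y ^ 2 := by
        rw [← Finset.mul_sum, Finset.sum_comm]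
        simp only [Finset.sum_mul]
    _ ≤ 1152 * A ^ 2 * ∑ i ∈ Finset.range (2 * N + 2), 6 * ∫ y, ev N g i y ^ 2 := by
        refine mul_le_mul_of_nonneg_left (Finset.sum_le_sum fun i _ => ?_) (by positivity)
        refine mul_le_mul_of_nonneg_right ?_ (integral_nonneg fun y => sq_nonneg _)
        have := geo F (fun k : ℤ => (i : ℤ) - 1 - N - k) (fun a b hab => by simp only at hab; omega)
          (by norm_num : (0 : ℝ) ≤ 2 / 3) (by norm_num)
        refine this.trans (by norm_num)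
    _ = 6912 * A ^ 2 * ∫ y, g y ^ 2 := by
        rw [← Finset.mul_sum, sum_ev_energy N hg]; ring

/-- S2b: the square function `T(1)` theorem from the dyadic Carleson embedding. -/
theorem sqt1_of_dce (hD : DCE) : SQT1 := by
  refine ⟨13832, by norm_num, ?_⟩
  intro A Kk F hA hm hsz hsp hlip hcar g hg
  have hK : ∀ k ∈ F, Ker A k (Kk k) := fun k hk => ⟨hm k hk, hsz k hk, hsp k hk, hlip k hk⟩
  have h1 := SS_square hA hK hg
  have h2 := hD A F (fun k => bb (Kk k)) hA (fun k hk => bb_meas (hK k hk))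
    (fun k hk => bb_bound (hK k hk)) hcar g hg
  have h3 : ∀ k ∈ F, ∫ y, (∫ r, Kk k y r * g r) ^ 2 ≤
      2 * (∫ y, SS (Kk k) k g y ^ 2) + 2 * ∫ y, (bb (Kk k) y * EE k g y) ^ 2 := by
    intro k hk
    have i1 := n1_integrable (n1_sq (SS_nice (hK k hk) hg))
    have i2 := n1_integrable (n1_sq (n1_bdd_mul (bb_meas (hK k hk)) ⟨4 * A, bb_bound (hK k hk)⟩
      (nice_EE hg k)))
    rw [← integral_const_mul, ← integral_const_mul, ← integral_add (i1.const_mul 2) (i2.const_mul 2)]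
    refine integral_mono_of_nonneg (Filter.Eventually.of_forall fun r => sq_nonneg _)
      ((i1.const_mul 2).add (i2.const_mul 2)) (Filter.Eventually.of_forall fun y => ?_)
    simp only
    have e : ∫ r, Kk k y r * g r = SS (Kk k) k g y + bb (Kk k) y * EE k g y := by
      unfold SS op; ring
    rw [e]
    nlinarith [sq_nonneg (SS (Kk k) k g y - bb (Kk k) y * EE k g y)]
  refine (Finset.sum_le_sum h3).trans ?_
  rw [Finset.sum_add_distrib, ← Finset.mul_sum, ← Finset.mul_sum]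
  linarith

end Crest.Agent.R087.SQT1x90
end
end

-- ▼ part R087/DCE_90

/-!
Row 87, shell leaf S2a: dyadic Carleson embedding (Bellman function), helper90.
-/

set_option autoImplicit false

noncomputable section

open MeasureTheory Crest.Agent.R087.Sh0x283 Crest.Agent.R087.Sh1x283 Crest.Agent.R087.SqIx90
  Crest.Agent.R087.SqBx90

namespace Crest.Agent.R087.DCEx90

theorem intOn {f : ℝ → ℝ} (hm : Measurable f) (hb : ∃ M : ℝ, ∀ y, |f y| ≤ M) (n m : ℤ) :
    IntegrableOn f (II n m) := by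
  obtain ⟨M, hM⟩ := hb
  refine Measure.integrableOn_of_bounded (M := M) (by rw [volume_II]; exact ENNReal.ofReal_ne_top)
    hm.aestronglyMeasurable ?_
  exact Filter.Eventually.of_forall fun y => by simpa using hM y

theorem EE_add_bdd {n : ℤ} {f g : ℝ → ℝ} (hf : Measurable f) (hfb : ∃ M : ℝ, ∀ y, |f y| ≤ M)
    (hg : Measurable g) (hgb : ∃ M : ℝ, ∀ y, |g y| ≤ M) (y : ℝ) :
    EE n (fun y => f y + g y) y = EE n f y + EE n g y := by
  unfold EE
  rw [integral_add (intOn hf hfb n _) (intOn hg hgb n _)]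
  ring

theorem EE_EE_bdd {m n : ℤ} (h : m ≤ n) {f : ℝ → ℝ} (hf : Measurable f)
    (hfb : ∃ M : ℝ, ∀ y, |f y| ≤ M) : EE n (EE m f) = EE n f := by
  classical
  obtain ⟨M, hM⟩ := hfb
  funext y
  unfold EE
  congr 1
  change ∫ r in II n (fl n y), EE m f r = ∫ r in II n (fl n y), f r
  have hl : Cst m (Set.indicator (II n (fl n y)) (fun _ => (1 : ℝ))) := by
    intro z z' hz
    have : z ∈ II n (fl n y) ↔ z' ∈ II n (fl n y) := by
      rw [mem_II, mem_II, fl_mono h hz]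
    by_cases hh : z ∈ II n (fl n y)
    · rw [Set.indicator_of_mem hh, Set.indicator_of_mem (this.1 hh)]
    · rw [Set.indicator_of_notMem hh, Set.indicator_of_notMem (fun h' => hh (this.2 h'))]
  have aux : ∀ g : ℝ → ℝ, Set.indicator (II n (fl n y)) g =
      fun z => Set.indicator (II n (fl n y)) (fun _ => (1 : ℝ)) z * g z := by
    intro g
    funext z
    by_cases hh : z ∈ II n (fl n y)
    · rw [Set.indicator_of_mem hh, Set.indicator_of_mem hh, one_mul]
    · rw [Set.indicator_of_notMem hh, Set.indicator_of_notMem hh, zero_mul]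
  have i1 : Integrable (fun z => Set.indicator (II n (fl n y)) (fun _ => (1 : ℝ)) z * f z) := by
    rw [← aux f]
    exact (intOn hf ⟨M, hM⟩ n _).integrable_indicator (measurableSet_II _ _)
  have i2 : Integrable (fun z => Set.indicator (II n (fl n y)) (fun _ => (1 : ℝ)) z * EE m f z) := by
    rw [← aux (EE m f)]
    exact (intOn (cst_EE m f).measurable ⟨M, EE_bound hM m⟩ n _).integrable_indicator
      (measurableSet_II _ _)
  have key := integral_mul_EE hl i1 i2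
  rw [← integral_indicator (measurableSet_II _ _), ← integral_indicator (measurableSet_II _ _)]
  rw [aux (EE m f), aux f, key]

/-- Jensen's inequality for `(f, w) ↦ f² / (c + w)`. -/
theorem jensen {c : ℝ} (hc : 0 < c) {G w : ℝ → ℝ} (hG : Nice1 G) (hw : Measurable w)
    (hwb : ∃ M : ℝ, ∀ y, |w y| ≤ M) (hw0 : ∀ y, 0 ≤ w y) (n : ℤ) :
    ∫ y, EE n G y ^ 2 / (c + EE n w y) ≤ ∫ y, G y ^ 2 / (c + w y) := by
  have hwn0 : ∀ y, 0 ≤ EE n w y := EE_nonneg hw0
  obtain ⟨W, hW⟩ := hwb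
  -- reciprocals are bounded
  have hinv : ∀ v : ℝ → ℝ, (∀ y, 0 ≤ v y) → ∀ y, |(c + v y)⁻¹| ≤ c⁻¹ := by
    intro v hv y
    rw [abs_of_nonneg (inv_nonneg.2 (by linarith [hv y]))]
    exact inv_anti₀ hc (by linarith [hv y])
  have hwm : Measurable (EE n w) := (cst_EE n w).measurable
  have hGn := nice_EE hG n
  let lam : ℝ → ℝ := fun y => EE n G y * (c + EE n w y)⁻¹
  have hlc : Cst n lam := (cst_EE n G).mul ((cst_EE n w).comp fun t => (c + t)⁻¹)
  have hln : Nice1 lam := n1_mul_bdd hGn ((hwm.const_add c).inv) ⟨c⁻¹, hinv _ hwn0⟩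
  have i0 : Integrable (fun y => G y ^ 2 / (c + w y)) := by
    simp only [div_eq_mul_inv]
    exact n1_integrable (n1_mul_bdd (n1_sq hG) ((hw.const_add c).inv) ⟨c⁻¹, hinv _ hw0⟩)
  have i1 : Integrable (fun y => lam y * G y) := n1_integrable (n1_mul hln hG)
  have i1' : Integrable (fun y => lam y * EE n G y) := n1_integrable (n1_mul hln hGn)
  have i2 : Integrable (fun y => lam y ^ 2 * w y) :=
    n1_integrable (n1_mul_bdd (n1_sq hln) hw ⟨W, hW⟩)
  have i2' : Integrable (fun y => lam y ^ 2 * EE n w y) :=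
    n1_integrable (n1_mul_bdd (n1_sq hln) hwm ⟨W, EE_bound hW n⟩)
  have i3 : Integrable (fun y => lam y ^ 2) := n1_integrable (n1_sq hln)
  have i4 : Integrable (fun y => c * lam y ^ 2 + lam y ^ 2 * w y) := (i3.const_mul c).add i2
  have i4' : Integrable (fun y => c * lam y ^ 2 + lam y ^ 2 * EE n w y) := (i3.const_mul c).add i2'
  have e1 := integral_mul_EE hlc i1 i1'
  have e2 := integral_mul_EE (hlc.pow 2) i2 i2'
  calc ∫ y, EE n G y ^ 2 / (c + EE n w y)
      = ∫ y, (2 * (lam y * EE n G y) - (c * lam y ^ 2 + lam y ^ 2 * EE n w y)) := by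
        congr 1; funext y
        have : c + EE n w y ≠ 0 := by have := hwn0 y; positivity
        simp only [lam]
        field_simp
        ring
    _ = 2 * (∫ y, lam y * EE n G y) - (c * (∫ y, lam y ^ 2) + ∫ y, lam y ^ 2 * EE n w y) := by
        rw [integral_sub (i1'.const_mul 2) i4',
          integral_add (i3.const_mul c) i2', integral_const_mul, integral_const_mul]
    _ = 2 * (∫ y, lam y * G y) - (c * (∫ y, lam y ^ 2) + ∫ y, lam y ^ 2 * w y) := by rw [e1, e2]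
    _ = ∫ y, (2 * (lam y * G y) - (c * lam y ^ 2 + lam y ^ 2 * w y)) := by
        rw [integral_sub (i1.const_mul 2) i4,
          integral_add (i3.const_mul c) i2, integral_const_mul, integral_const_mul]
    _ ≤ ∫ y, G y ^ 2 / (c + w y) := by
        refine integral_mono ((i1.const_mul 2).sub ((i3.const_mul c).add i2)) i0 fun y => ?_
        simp only
        have h1 : 0 < c + w y := by linarith [hw0 y]
        rw [le_div_iff₀ h1]
        nlinarith [sq_nonneg (G y - lam y * (c + w y))]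

/-- sum of squares -/
def sg (b : ℤ → ℝ → ℝ) (s : Finset ℤ) (y : ℝ) : ℝ := ∑ k ∈ s, b k y ^ 2

theorem bellman {A : ℝ} (hA : 0 < A) (b : ℤ → ℝ → ℝ) {g : ℝ → ℝ} (hg : Nice1 g) (F : Finset ℤ) :
    (∀ k ∈ F, Measurable (b k)) → (∀ k ∈ F, ∀ y, |b k y| ≤ 4 * A) →
    (∀ n m : ℤ, ∑ k ∈ F.filter (· ≤ n), ∫ y in II n m, (b k y) ^ 2 ≤ A ^ 2 * (2 : ℝ) ^ n) →
    ∀ n : ℤ, (∀ k ∈ F, k ≤ n) →
      (∫ y, EE n g y ^ 2 / (A ^ 2 + EE n (sg b F) y)) +
        (4 * A ^ 4)⁻¹ * ∑ k ∈ F, ∫ y, (b k y * EE k g y) ^ 2 ≤ (A ^ 2)⁻¹ * ∫ y, g y ^ 2 := by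
  have hA2 : 0 < A ^ 2 := by positivity
  induction F using Finset.induction_on_max with
  | empty =>
    intro _ _ _ n _
    have : ∀ y, EE n (sg b ∅) y = 0 := by
      intro y; unfold EE sg; simp
    simp only [this, add_zero, Finset.sum_empty, mul_zero, div_eq_inv_mul]
    rw [integral_const_mul]
    exact mul_le_mul_of_nonneg_left (EE_contr hg n) (by positivity)
  | insert a s hmax ih =>
    intro hm hb hC n hn
    have has : a ∉ s := fun h => lt_irrefl _ (hmax a h)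
    have hms : ∀ k ∈ s, Measurable (b k) := fun k hk => hm k (Finset.mem_insert_of_mem hk)
    have hbs : ∀ k ∈ s, ∀ y, |b k y| ≤ 4 * A := fun k hk => hb k (Finset.mem_insert_of_mem hk)
    have hma : Measurable (b a) := hm a (Finset.mem_insert_self _ _)
    have hba : ∀ y, |b a y| ≤ 4 * A := hb a (Finset.mem_insert_self _ _)
    have hCs : ∀ n m : ℤ, ∑ k ∈ s.filter (· ≤ n), ∫ y in II n m, (b k y) ^ 2 ≤ A ^ 2 * (2 : ℝ) ^ n := by
      intro n m
      refine le_trans ?_ (hC n m)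
      refine Finset.sum_le_sum_of_subset_of_nonneg ?_ fun k _ _ => integral_nonneg fun y => sq_nonneg _
      exact Finset.filter_subset_filter _ (Finset.subset_insert _ _)
    have ih' := ih hms hbs hCs a (fun k hk => (hmax k hk).le)
    -- bounded measurable functions
    have hsq : ∀ (u : ℝ → ℝ), (∀ y, |u y| ≤ 4 * A) → ∀ y, |u y ^ 2| ≤ (4 * A) ^ 2 := by
      intro u hu y
      rw [abs_pow]
      exact pow_le_pow_left₀ (abs_nonneg _) (hu y) 2
    have hsgm : ∀ t : Finset ℤ, (∀ k ∈ t, Measurable (b k)) → Measurable (sg b t) := by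
      intro t ht
      unfold sg
      exact Finset.measurable_sum _ fun k hk => (ht k hk).pow_const 2
    have hsgb : ∀ t : Finset ℤ, (∀ k ∈ t, ∀ y, |b k y| ≤ 4 * A) → ∃ M : ℝ, ∀ y, |sg b t y| ≤ M := by
      intro t ht
      refine ⟨∑ k ∈ t, (4 * A) ^ 2, fun y => ?_⟩
      unfold sg
      refine (Finset.abs_sum_le_sum_abs _ _).trans (Finset.sum_le_sum fun k hk => hsq _ (ht k hk) y)
    have hsg0 : ∀ t : Finset ℤ, ∀ y, 0 ≤ sg b t y := fun t y => Finset.sum_nonneg fun k _ => sq_nonneg _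
    have hins : sg b (insert a s) = fun y => b a y ^ 2 + sg b s y := by
      funext y; unfold sg; rw [Finset.sum_insert has]
    have hEa : ∀ y, EE a (sg b (insert a s)) y = EE a (fun y => b a y ^ 2) y + EE a (sg b s) y := by
      intro y
      rw [hins]
      exact EE_add_bdd (hma.pow_const 2) ⟨_, hsq _ hba⟩ (hsgm s hms) (hsgb s hbs) y
    -- Carleson bound at level `a`
    have hcar : ∀ y, EE a (sg b (insert a s)) y ≤ A ^ 2 := by
      intro y
      unfold EE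
      rw [inv_mul_le_iff₀ (zp a)]
      refine le_trans (le_of_eq ?_) ((hC a (fl a y)).trans (le_of_eq (by ring)))
      unfold sg
      rw [integral_finsetSum]
      · refine Finset.sum_congr ?_ fun k _ => rfl
        ext k
        simp only [Finset.mem_filter, Finset.mem_insert]
        constructor
        · rintro (rfl | h)
          · exact ⟨Or.inl rfl, le_rfl⟩
          · exact ⟨Or.inr h, (hmax k h).le⟩
        · exact fun h => h.1
      · intro k hk
        exact intOn ((hm k hk).pow_const 2) ⟨_, hsq _ (hb k hk)⟩ a _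
    have hGn := nice_EE hg a
    have hba0 : ∀ y, 0 ≤ EE a (fun y => b a y ^ 2) y := EE_nonneg fun y => sq_nonneg _
    have hs0 : ∀ y, 0 ≤ EE a (sg b s) y := EE_nonneg (hsg0 s)
    have hi0 : ∀ y, 0 ≤ EE a (sg b (insert a s)) y := EE_nonneg (hsg0 _)
    have hinv : ∀ v : ℝ → ℝ, (∀ y, 0 ≤ v y) → ∀ y, |(A ^ 2 + v y)⁻¹| ≤ (A ^ 2)⁻¹ := by
      intro v hv y
      rw [abs_of_nonneg (inv_nonneg.2 (by linarith [hv y]))]
      exact inv_anti₀ hA2 (by linarith [hv y])
    have j1 : Integrable (fun y => EE a g y ^ 2 / (A ^ 2 + EE a (sg b s) y)) := by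
      simp only [div_eq_mul_inv]
      exact n1_integrable (n1_mul_bdd (n1_sq hGn) (((cst_EE a _).measurable.const_add _).inv)
        ⟨_, hinv _ hs0⟩)
    have j2 : Integrable (fun y => EE a g y ^ 2 / (A ^ 2 + EE a (sg b (insert a s)) y)) := by
      simp only [div_eq_mul_inv]
      exact n1_integrable (n1_mul_bdd (n1_sq hGn) (((cst_EE a _).measurable.const_add _).inv)
        ⟨_, hinv _ hi0⟩)
    have j3 : Integrable (fun y => EE a g y ^ 2 * b a y ^ 2) :=
      n1_integrable (n1_mul_bdd (n1_sq hGn) (hma.pow_const 2) ⟨_, hsq _ hba⟩)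
    have j4 : Integrable (fun y => EE a g y ^ 2 * EE a (fun y => b a y ^ 2) y) :=
      n1_integrable (n1_mul_bdd (n1_sq hGn) (cst_EE a _).measurable ⟨_, EE_bound (hsq _ hba) a⟩)
    -- adding the mass at level `a`
    have step1 : (∫ y, EE a g y ^ 2 / (A ^ 2 + EE a (sg b (insert a s)) y)) +
        (4 * A ^ 4)⁻¹ * (∫ y, (b a y * EE a g y) ^ 2) ≤
        ∫ y, EE a g y ^ 2 / (A ^ 2 + EE a (sg b s) y) := by
      have e : ∫ y, (b a y * EE a g y) ^ 2 = ∫ y, EE a g y ^ 2 * EE a (fun y => b a y ^ 2) y := by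
        rw [← integral_mul_EE ((cst_EE a g).pow 2) j3 j4]
        congr 1; funext y; ring
      rw [e, ← integral_const_mul, ← integral_add j2 (j4.const_mul _)]
      refine integral_mono (j2.add (j4.const_mul _)) j1 fun y => ?_
      simp only
      have h1 := hs0 y
      have h2 := hba0 y
      have h3 := hcar y
      rw [hEa y] at h3 ⊢
      set v := EE a (sg b s) y
      set p := EE a (fun y => b a y ^ 2) y
      set G := EE a g y
      have q1 : 0 < A ^ 2 + v := by linarith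
      have q2 : 0 < A ^ 2 + (p + v) := by linarith
      have q3 : G ^ 2 / (A ^ 2 + v) - G ^ 2 / (A ^ 2 + (p + v)) =
          (G ^ 2 * p) / ((A ^ 2 + v) * (A ^ 2 + (p + v))) := by
        field_simp; ring
      have q4 : (4 * A ^ 4)⁻¹ * (G ^ 2 * p) ≤ (G ^ 2 * p) / ((A ^ 2 + v) * (A ^ 2 + (p + v))) := by
        rw [div_eq_inv_mul]
        refine mul_le_mul_of_nonneg_right ?_ (mul_nonneg (sq_nonneg _) h2)
        refine inv_anti₀ (mul_pos q1 q2) ?_
        calc (A ^ 2 + v) * (A ^ 2 + (p + v)) ≤ (2 * A ^ 2) * (2 * A ^ 2) :=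
              mul_le_mul (by linarith) (by linarith) q2.le (by positivity)
          _ = 4 * A ^ 4 := by ring
      linarith
    -- going up from level `a` to level `n`
    have step2 : (∫ y, EE n g y ^ 2 / (A ^ 2 + EE n (sg b (insert a s)) y)) ≤
        ∫ y, EE a g y ^ 2 / (A ^ 2 + EE a (sg b (insert a s)) y) := by
      have han : a ≤ n := hn a (Finset.mem_insert_self _ _)
      obtain ⟨M, hM⟩ := hsgb (insert a s) hb
      have := jensen hA2 hGn (cst_EE a (sg b (insert a s))).measurable ⟨M, EE_bound hM a⟩ hi0 n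
      rwa [EE_EE_of_le han hg, EE_EE_bdd han (hsgm _ hm) ⟨M, hM⟩] at this
    rw [Finset.sum_insert has, mul_add]
    linarith

theorem dce : DCE := by
  intro A F b hA hm hb hC g hg
  rcases hA.eq_or_lt with h | h
  · have : ∀ k ∈ F, ∫ y, (b k y * EE k g y) ^ 2 = 0 := by
      intro k hk
      have h0 : ∀ y, b k y = 0 := by
        intro y
        have := hb k hk y
        rw [← h, mul_zero] at this
        exact abs_nonpos_iff.1 this
      simp [h0]
    rw [Finset.sum_eq_zero this, ← h]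
    simp
  · obtain ⟨n, hn⟩ : ∃ n : ℤ, ∀ k ∈ F, k ≤ n := by
      obtain ⟨n, hn⟩ := F.bddAbove
      exact ⟨n, fun k hk => hn hk⟩
    have key := bellman h b hg F hm hb hC n hn
    have hA2 : 0 < A ^ 2 := by positivity
    have h0 : 0 ≤ ∫ y, EE n g y ^ 2 / (A ^ 2 + EE n (sg b F) y) := by
      refine integral_nonneg fun y => ?_
      have : 0 ≤ EE n (sg b F) y := EE_nonneg (fun y => Finset.sum_nonneg fun k _ => sq_nonneg _) y
      positivity
    have h1 : (4 * A ^ 4)⁻¹ * ∑ k ∈ F, ∫ y, (b k y * EE k g y) ^ 2 ≤ (A ^ 2)⁻¹ * ∫ y, g y ^ 2 := by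
      linarith
    rw [inv_mul_le_iff₀ (by positivity)] at h1
    refine h1.trans (le_of_eq ?_)
    field_simp

theorem sqt1 : SQT1 := Crest.Agent.R087.SQT1x90.sqt1_of_dce dce

end Crest.Agent.R087.DCEx90
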