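import Crest.Agent.R087.E2leaf_542
import Crest.Agent.R087.E2s_542

-- ▼ part R087/STOP_630
section

/-!
# Row 87, leaf STOP (helper630)
-/

set_option autoImplicit false

noncomputable section

open MeasureTheory

namespace Crest.Agent.R087.STOPx630

open Crest.Agent.R087.E2x542


lemma mem_dyI {k : ℕ} {j : ℤ} {t : ℝ} : t ∈ dyI k j ↔ dyx k t = j := by
  have hp : (0 : ℝ) < 2 ^ k := by positivity
  have e : ((1 : ℝ) / 2) ^ k = (2 ^ k)⁻¹ := by rw [one_div, inv_pow]
  rw [dyI, dyx, Int.floor_eq_iff, Set.mem_Ico, e, ← div_eq_mul_inv, ← div_eq_mul_inv,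
    div_le_iff₀ hp, lt_div_iff₀ hp]

/-- parent -/
lemma dyx_succ (k : ℕ) (t : ℝ) : dyx (k + 1) t = 2 * dyx k t ∨ dyx (k + 1) t = 2 * dyx k t + 1 := by
  have h1 : ((dyx k t : ℤ) : ℝ) ≤ t * 2 ^ k := Int.floor_le _
  have h2 : t * 2 ^ k < dyx k t + 1 := Int.lt_floor_add_one _
  have h3 : 2 * dyx k t ≤ dyx (k + 1) t := by
    rw [dyx, dyx, Int.le_floor]
    push_cast
    rw [pow_succ]
    have : ((⌊t * 2 ^ k⌋ : ℤ) : ℝ) ≤ t * 2 ^ k := Int.floor_le _
    linarith
  have h4 : dyx (k + 1) t < 2 * dyx k t + 2 := by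
    rw [dyx, Int.floor_lt]
    push_cast
    rw [pow_succ]
    linarith
  omega

lemma dyx_parent {k : ℕ} {t s : ℝ} (h : dyx (k + 1) t = dyx (k + 1) s) : dyx k t = dyx k s := by
  rcases dyx_succ k t with h1 | h1 <;> rcases dyx_succ k s with h2 | h2 <;> omega

lemma dyx_mono {m k : ℕ} (hmk : m ≤ k) {t s : ℝ} (h : dyx k t = dyx k s) : dyx m t = dyx m s := by
  induction k, hmk using Nat.le_induction with
  | base => exact h
  | succ k _ ih => exact ih (dyx_parent h)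

/-- `f` is constant on the dyadic intervals of generation `k` -/
def Ad (k : ℕ) (f : ℝ → ℝ) : Prop := ∀ t s, dyx k t = dyx k s → f t = f s

lemma Ad.mono {m k : ℕ} {f : ℝ → ℝ} (hf : Ad m f) (hmk : m ≤ k) : Ad k f :=
  fun _ _ h => hf _ _ (dyx_mono hmk h)


lemma dyI_split (k : ℕ) (j : ℤ) : dyI k j = dyI (k + 1) (2 * j) ∪ dyI (k + 1) (2 * j + 1) := by
  ext t
  simp only [Set.mem_union, mem_dyI]
  rcases dyx_succ k t with h | h <;> omega

lemma dyI_disj (k : ℕ) (j : ℤ) : Disjoint (dyI (k + 1) (2 * j)) (dyI (k + 1) (2 * j + 1)) := by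
  rw [Set.disjoint_left]
  intro t h1 h2
  rw [mem_dyI] at h1 h2
  omega

lemma measurableSet_dyI (k : ℕ) (j : ℤ) : MeasurableSet (dyI k j) := measurableSet_Ico

lemma volume_dyI (k : ℕ) (j : ℤ) : volume (dyI k j) = ENNReal.ofReal ((1 / 2) ^ k) := by
  rw [dyI, Real.volume_Ico]; congr 1; ring

lemma volume_real_dyI (k : ℕ) (j : ℤ) : volume.real (dyI k j) = (1 / 2) ^ k := by
  rw [measureReal_def, volume_dyI, ENNReal.toReal_ofReal (by positivity)]

lemma intOn {f : ℝ → ℝ} (n : ℕ) : ∀ (k0 : ℕ) (j0 : ℤ), Ad (k0 + n) f →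
    IntegrableOn f (dyI k0 j0) := by
  induction n with
  | zero =>
    intro k0 j0 hf
    have hne : (j0 : ℝ) * (1 / 2) ^ k0 ∈ dyI k0 j0 := by
      rw [dyI, Set.mem_Ico]
      have : (0 : ℝ) < (1 / 2) ^ k0 := by positivity
      constructor
      · exact le_refl _
      · nlinarith
    have hc : Set.EqOn (fun _ => f ((j0 : ℝ) * (1 / 2) ^ k0)) f (dyI k0 j0) := by
      intro t ht
      exact hf _ _ (by rw [Nat.add_zero, mem_dyI.1 ht, mem_dyI.1 hne])
    have hi : IntegrableOn (fun _ : ℝ => f ((j0 : ℝ) * (1 / 2) ^ k0)) (dyI k0 j0) :=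
      integrableOn_const (by rw [volume_dyI]; exact ENNReal.ofReal_ne_top)
    exact hi.congr_fun hc (measurableSet_dyI _ _)
  | succ n ih =>
    intro k0 j0 hf
    rw [dyI_split]
    have hf' : Ad (k0 + 1 + n) f := by
      have : k0 + 1 + n = k0 + (n + 1) := by ring
      rwa [this]
    exact (ih _ _ hf').union (ih _ _ hf')

lemma int_le {f : ℝ → ℝ} {k0 k : ℕ} (hk : k0 ≤ k) (j0 : ℤ) (hf : Ad k f) :
    IntegrableOn f (dyI k0 j0) := by
  obtain ⟨n, rfl⟩ := Nat.exists_eq_add_of_le hk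
  exact intOn n k0 j0 hf






end Crest.Agent.R087.STOPx630
end
end

-- ▼ part R087/STOPs_819
section

/-!
# Row 87, leaf STOPs (helper819): nearly lossless stopping lemma, by induction on the interval
-/

set_option autoImplicit false

noncomputable section

open MeasureTheory

namespace Crest.Agent.R087.STOPsx819

open Crest.Agent.R087.E2x542 Crest.Agent.R087.STOPx630

/-- `x² ≤ (1+x) log (1+x) + (1-x) log (1-x)` on `[0,1]` -/
theorem ent_aux {x : ℝ} (hx0 : 0 ≤ x) (hx1 : x ≤ 1) :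
    x ^ 2 ≤ (1 + x) * Real.log (1 + x) + (1 - x) * Real.log (1 - x) := by
  set f : ℝ → ℝ := fun y => (1 + y) * Real.log (1 + y) + (1 - y) * Real.log (1 - y) - y ^ 2 with hf
  have hcont : ContinuousOn f (Set.Icc 0 1) := by
    apply Continuous.continuousOn
    have h1 : Continuous fun y : ℝ => (1 + y) * Real.log (1 + y) :=
      Real.continuous_mul_log.comp (continuous_const.add continuous_id)
    have h2 : Continuous fun y : ℝ => (1 - y) * Real.log (1 - y) :=
      Real.continuous_mul_log.comp (continuous_const.sub continuous_id)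
    exact (h1.add h2).sub (continuous_pow 2)
  have hder : ∀ y ∈ Set.Ioo (0 : ℝ) 1, HasDerivAt f (Real.log (1 + y) - Real.log (1 - y) - 2 * y) y := by
    intro y hy
    have hy1 : (1 + y) ≠ 0 := by linarith [hy.1]
    have hy2 : (1 - y) ≠ 0 := by linarith [hy.2]
    have d1 : HasDerivAt (fun z : ℝ => 1 + z) 1 y := by
      simpa using (hasDerivAt_id y).const_add 1
    have d2 : HasDerivAt (fun z : ℝ => 1 - z) (-1) y := by
      simpa using (hasDerivAt_id y).const_sub 1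
    have e1 := (Real.hasDerivAt_mul_log hy1).comp y d1
    have e2 := (Real.hasDerivAt_mul_log hy2).comp y d2
    have e3 := ((e1.add e2).sub (hasDerivAt_pow 2 y))
    refine e3.congr_deriv ?_
    simp
    ring
  have hmono : MonotoneOn f (Set.Icc 0 1) := by
    refine monotoneOn_of_hasDerivWithinAt_nonneg (convex_Icc 0 1) hcont
      (f' := fun y => Real.log (1 + y) - Real.log (1 - y) - 2 * y) ?_ ?_
    · intro y hy
      rw [interior_Icc] at hy
      exact (hder y hy).hasDerivWithinAt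
    · intro y hy
      rw [interior_Icc] at hy
      have habs : |y| < 1 := by rw [abs_of_pos hy.1]; exact hy.2
      have hs := Real.hasSum_log_sub_log_of_abs_lt_one habs
      have h1 := le_hasSum hs 0 (fun k _ => by
        have : 0 ≤ y := hy.1.le
        positivity)
      simp at h1
      linarith
  have h0 : f 0 ≤ f x := hmono ⟨le_rfl, zero_le_one⟩ ⟨hx0, hx1⟩ hx0
  simp only [hf] at h0
  norm_num at h0
  linarith

theorem ent {x : ℝ} (hx0 : -1 ≤ x) (hx1 : x ≤ 1) :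
    x ^ 2 ≤ (1 + x) * Real.log (1 + x) + (1 - x) * Real.log (1 - x) := by
  rcases le_total 0 x with h | h
  · exact ent_aux h hx1
  · have := ent_aux (x := -x) (by linarith) (by linarith)
    simp only [sub_neg_eq_add, ← sub_eq_add_neg, neg_sq] at this
    linarith

/-- the entropy functional of a mass `W` on an interval of generation `k` -/
def Lam (k : ℕ) (W : ℝ) : ℝ := W + 2 * (W * Real.log ((1 / 2) ^ k) - W * Real.log W)

theorem mul_log_aux {W y : ℝ} (hW : 0 < W) (hy : 0 ≤ y) :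
    W * y / 2 * Real.log (W * y / 2) = W / 2 * (y * Real.log y) + W * y / 2 * Real.log (W / 2) := by
  rcases hy.eq_or_lt with rfl | hy
  · simp
  · have : W * y / 2 = (W / 2) * y := by ring
    rw [this, Real.log_mul (by positivity) hy.ne']
    ring

theorem lam_step (k : ℕ) {W1 W2 : ℝ} (h1 : 0 ≤ W1) (h2 : 0 ≤ W2) (h : 0 < W1 + W2) :
    Lam (k + 1) W1 + Lam (k + 1) W2 + (W1 - W2) ^ 2 / (W1 + W2) ≤ Lam k (W1 + W2) := by
  set W := W1 + W2 with hW
  set x := (W1 - W2) / W with hx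
  have e1 : W1 = W * (1 + x) / 2 := by rw [hx]; field_simp; rw [hW]; ring
  have e2 : W2 = W * (1 - x) / 2 := by rw [hx]; field_simp; rw [hW]; ring
  have hx1 : -1 ≤ x := by
    rw [hx, le_div_iff₀ h]; rw [hW]; linarith
  have hx2 : x ≤ 1 := by
    rw [hx, div_le_iff₀ h]; rw [hW]; linarith
  have hent := ent hx1 hx2
  have e3 : (W1 - W2) ^ 2 / W = W * x ^ 2 := by
    rw [hx]; field_simp
  have e4 : Real.log ((1 / 2 : ℝ) ^ (k + 1)) = Real.log ((1 / 2 : ℝ) ^ k) - Real.log 2 := by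
    rw [pow_succ, Real.log_mul (by positivity) (by norm_num), one_div, Real.log_inv]
    ring
  have e5 : Real.log (W / 2) = Real.log W - Real.log 2 :=
    Real.log_div h.ne' (by norm_num)
  have m1 := mul_log_aux h (y := 1 + x) (by linarith)
  have m2 := mul_log_aux h (y := 1 - x) (by linarith)
  rw [← e1, e5] at m1
  rw [← e2, e5] at m2
  rw [e3]
  unfold Lam
  rw [e4, m1, m2]
  have hsum : W1 + W2 = W := rfl
  have hk : W / 2 * ((1 + x) * Real.log (1 + x)) + W / 2 * ((1 - x) * Real.log (1 - x)) ≥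
      W / 2 * x ^ 2 := by
    have := mul_le_mul_of_nonneg_left hent (by positivity : 0 ≤ W / 2)
    linarith
  have e6 : W1 * (Real.log W - Real.log 2) + W2 * (Real.log W - Real.log 2) =
      W * (Real.log W - Real.log 2) := by rw [← add_mul]
  have e7 : W1 * (Real.log ((1 / 2 : ℝ) ^ k) - Real.log 2) +
      W2 * (Real.log ((1 / 2 : ℝ) ^ k) - Real.log 2) =
      W * (Real.log ((1 / 2 : ℝ) ^ k) - Real.log 2) := by rw [← add_mul]
  nlinarith [hk, e6, e7, hsum]

theorem lam_nonneg (k : ℕ) {W : ℝ} (h0 : 0 ≤ W) (h1 : W ≤ (1 / 2) ^ k) : W ≤ Lam k W := by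
  unfold Lam
  rcases h0.eq_or_lt with rfl | h0
  · simp
  · have : Real.log W ≤ Real.log ((1 / 2) ^ k) := Real.log_le_log h0 h1
    nlinarith [mul_le_mul_of_nonneg_left this h0.le]

/-- three-term Cauchy-Schwarz -/
theorem cs3 {p q r L1 L2 L3 X1 X2 X3 : ℝ} (hp : 0 ≤ p) (hq : 0 ≤ q) (hr : 0 ≤ r)
    (hL1 : 0 ≤ L1) (hL2 : 0 ≤ L2) (hL3 : 0 ≤ L3) (hX1 : 0 ≤ X1) (hX2 : 0 ≤ X2) (hX3 : 0 ≤ X3)
    (h1 : p ^ 2 ≤ L1 * X1) (h2 : q ^ 2 ≤ L2 * X2) (h3 : r ^ 2 ≤ L3 * X3) :
    (p + q + r) ^ 2 ≤ (L1 + L2 + L3) * (X1 + X2 + X3) := by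
  have k : ∀ {a b A B U V : ℝ}, 0 ≤ a → 0 ≤ b → 0 ≤ A → 0 ≤ B → 0 ≤ U → 0 ≤ V →
      a ^ 2 ≤ A * U → b ^ 2 ≤ B * V → 2 * (a * b) ≤ A * V + B * U := by
    intro a b A B U V ha hb hA hB hU hV h1 h2
    have h3 : (a * b) ^ 2 ≤ (A * V) * (B * U) := by
      have := mul_le_mul h1 h2 (sq_nonneg b) (by positivity)
      calc (a * b) ^ 2 = a ^ 2 * b ^ 2 := by ring
        _ ≤ A * U * (B * V) := this
        _ = (A * V) * (B * U) := by ring
    have h4 : (2 * (a * b)) ^ 2 ≤ (A * V + B * U) ^ 2 := by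
      nlinarith [sq_nonneg (A * V - B * U)]
    exact le_of_sq_le_sq h4 (by positivity)
  have k12 := k hp hq hL1 hL2 hX1 hX2 h1 h2
  have k13 := k hp hr hL1 hL3 hX1 hX3 h1 h3
  have k23 := k hq hr hL2 hL3 hX2 hX3 h2 h3
  nlinarith

/-! ### the induction -/

theorem left_mem (k : ℕ) (j : ℤ) : (j : ℝ) * (1 / 2) ^ k ∈ dyI k j := by
  rw [dyI, Set.mem_Ico]
  have : (0 : ℝ) < (1 / 2) ^ k := by positivity
  constructor
  · exact le_refl _
  · nlinarith

theorem int_w {w : ℝ → ℝ} (hwm : Measurable w) (hw0 : ∀ t, 0 ≤ w t) (hw1 : ∀ t, w t ≤ 1)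
    (k : ℕ) (j : ℤ) : IntegrableOn w (dyI k j) := by
  refine IntegrableOn.of_bound (C := 1) (by rw [volume_dyI]; exact ENNReal.ofReal_lt_top)
    hwm.aestronglyMeasurable ?_
  exact Filter.Eventually.of_forall fun t => by
    rw [Real.norm_eq_abs, abs_of_nonneg (hw0 t)]; exact hw1 t

theorem int_wX {w : ℝ → ℝ} (hwm : Measurable w) (hw0 : ∀ t, 0 ≤ w t) (hw1 : ∀ t, w t ≤ 1)
    {k K : ℕ} (hk : k ≤ K) (j : ℤ) {X : ℝ → ℝ} (hX : Ad K X) :
    IntegrableOn (fun t => w t * X t) (dyI k j) := by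
  refine Integrable.bdd_mul (c := 1) (int_le hk j hX) hwm.aestronglyMeasurable ?_
  exact Filter.Eventually.of_forall fun t => by
    rw [Real.norm_eq_abs, abs_of_nonneg (hw0 t)]; exact hw1 t

theorem mass_le {w : ℝ → ℝ} (hwm : Measurable w) (hw0 : ∀ t, 0 ≤ w t) (hw1 : ∀ t, w t ≤ 1)
    (k : ℕ) (j : ℤ) : ∫ t in dyI k j, w t ≤ (1 / 2) ^ k := by
  have ic : IntegrableOn (fun _ : ℝ => (1 : ℝ)) (dyI k j) :=
    integrableOn_const (by rw [volume_dyI]; exact ENNReal.ofReal_ne_top)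
  have h1 := setIntegral_mono (int_w hwm hw0 hw1 k j) ic hw1
  rw [setIntegral_const, volume_real_dyI, smul_eq_mul, mul_one] at h1
  exact h1

theorem key (G D : ℕ → ℤ → ℝ) (w : ℝ → ℝ) (hG : ∀ k j, 0 ≤ G k j)
    (hwm : Measurable w) (hw0 : ∀ t, 0 ≤ w t) (hw1 : ∀ t, w t ≤ 1) (n : ℕ) :
    ∀ (k0 : ℕ) (j0 : ℤ),
      (∀ k, k0 ≤ k → k < k0 + n → ∀ t ∈ dyI k0 j0,
        G k (dyx k t) + sg k t * D k (dyx k t) ≤ G (k + 1) (dyx (k + 1) t)) →
      ((∫ t in dyI k0 j0, w t) * G k0 j0) ^ 2 ≤ Lam k0 (∫ t in dyI k0 j0, w t) *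
        ∫ t in dyI k0 j0, w t * ((G (k0 + n) (dyx (k0 + n) t)) ^ 2 +
          ∑ k ∈ Finset.Ico k0 (k0 + n), (D k (dyx k t)) ^ 2) := by
  induction n with
  | zero =>
    intro k0 j0 _
    have hW0 : 0 ≤ ∫ t in dyI k0 j0, w t := integral_nonneg hw0
    have hW1 := mass_le hwm hw0 hw1 k0 j0
    have e : ∫ t in dyI k0 j0, w t * ((G (k0 + 0) (dyx (k0 + 0) t)) ^ 2 +
        ∑ k ∈ Finset.Ico k0 (k0 + 0), (D k (dyx k t)) ^ 2) =
        (∫ t in dyI k0 j0, w t) * (G k0 j0) ^ 2 := by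
      rw [← integral_mul_const]
      refine setIntegral_congr_fun (measurableSet_dyI _ _) ?_
      intro t ht
      simp only [Nat.add_zero, Finset.Ico_self, Finset.sum_empty, add_zero]
      rw [mem_dyI.1 ht]
    rw [e]
    set W := ∫ t in dyI k0 j0, w t
    have h1 := lam_nonneg k0 hW0 hW1
    have h2 : (W * G k0 j0) ^ 2 = W * (W * (G k0 j0) ^ 2) := by ring
    rw [h2]
    exact mul_le_mul_of_nonneg_right h1 (by positivity)
  | succ n ih =>
    intro k0 j0 hinc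
    set K := k0 + (n + 1) with hK
    have eK : k0 + 1 + n = K := by omega
    set X : ℝ → ℝ := fun t => (G K (dyx K t)) ^ 2 +
      ∑ k ∈ Finset.Ico k0 K, (D k (dyx k t)) ^ 2 with hX
    set X' : ℝ → ℝ := fun t => (G K (dyx K t)) ^ 2 +
      ∑ k ∈ Finset.Ico (k0 + 1) K, (D k (dyx k t)) ^ 2 with hX'
    have hX'ad : Ad K X' := by
      intro t s h
      show (G K (dyx K t)) ^ 2 + ∑ k ∈ Finset.Ico (k0 + 1) K, (D k (dyx k t)) ^ 2 =
        (G K (dyx K s)) ^ 2 + ∑ k ∈ Finset.Ico (k0 + 1) K, (D k (dyx k s)) ^ 2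
      rw [h]
      congr 1
      refine Finset.sum_congr rfl fun m hm => ?_
      rw [Finset.mem_Ico] at hm
      rw [dyx_mono (by omega) h]
    have hX'0 : ∀ t, 0 ≤ w t * X' t := fun t => mul_nonneg (hw0 t) (by positivity)
    -- the two halves
    set J1 := dyI (k0 + 1) (2 * j0) with hJ1
    set J2 := dyI (k0 + 1) (2 * j0 + 1) with hJ2
    have hsplit : dyI k0 j0 = J1 ∪ J2 := dyI_split k0 j0
    have hdisj : Disjoint J1 J2 := dyI_disj k0 j0
    have hm2 : MeasurableSet J2 := measurableSet_dyI _ _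
    have iw1 : IntegrableOn w J1 := int_w hwm hw0 hw1 _ _
    have iw2 : IntegrableOn w J2 := int_w hwm hw0 hw1 _ _
    have iX1 : IntegrableOn (fun t => w t * X' t) J1 :=
      int_wX hwm hw0 hw1 (by omega) _ hX'ad
    have iX2 : IntegrableOn (fun t => w t * X' t) J2 :=
      int_wX hwm hw0 hw1 (by omega) _ hX'ad
    have hWs : ∫ t in dyI k0 j0, w t = (∫ t in J1, w t) + ∫ t in J2, w t := by
      rw [hsplit, setIntegral_union hdisj hm2 iw1 iw2]
    have hXs : ∫ t in dyI k0 j0, w t * X t = (∫ t in J1, w t * X' t) + (∫ t in J2, w t * X' t) +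
        ((∫ t in J1, w t) + ∫ t in J2, w t) * (D k0 j0) ^ 2 := by
      have e1 : ∫ t in dyI k0 j0, w t * X t =
          ∫ t in dyI k0 j0, (w t * X' t + w t * (D k0 j0) ^ 2) := by
        refine setIntegral_congr_fun (measurableSet_dyI _ _) ?_
        intro t ht
        simp only [hX, hX']
        rw [Finset.sum_eq_sum_Ico_succ_bot (by omega : k0 < K), mem_dyI.1 ht]
        ring
      rw [e1, integral_add (int_wX hwm hw0 hw1 (by omega) _ hX'ad)
        ((int_w hwm hw0 hw1 _ _).mul_const _), integral_mul_const, hWs, hsplit,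
        setIntegral_union hdisj hm2 iX1 iX2]
    have ih1 := ih (k0 + 1) (2 * j0) (by
      intro k hk1 hk2 t ht
      exact hinc k (by omega) (by omega) t (by rw [hsplit]; exact Or.inl ht))
    have ih2 := ih (k0 + 1) (2 * j0 + 1) (by
      intro k hk1 hk2 t ht
      exact hinc k (by omega) (by omega) t (by rw [hsplit]; exact Or.inr ht))
    rw [eK] at ih1 ih2
    change ((∫ t in J1, w t) * G (k0 + 1) (2 * j0)) ^ 2 ≤
      Lam (k0 + 1) (∫ t in J1, w t) * ∫ t in J1, w t * X' t at ih1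
    change ((∫ t in J2, w t) * G (k0 + 1) (2 * j0 + 1)) ^ 2 ≤
      Lam (k0 + 1) (∫ t in J2, w t) * ∫ t in J2, w t * X' t at ih2
    change ((∫ t in dyI k0 j0, w t) * G k0 j0) ^ 2 ≤ Lam k0 (∫ t in dyI k0 j0, w t) *
      ∫ t in dyI k0 j0, w t * X t
    -- growth
    have hg1 : G k0 j0 + D k0 j0 ≤ G (k0 + 1) (2 * j0) := by
      have hmem := left_mem (k0 + 1) (2 * j0)
      have h1 : dyx (k0 + 1) (((2 * j0 : ℤ) : ℝ) * (1 / 2) ^ (k0 + 1)) = 2 * j0 := mem_dyI.1 hmem
      have hmem0 : ((2 * j0 : ℤ) : ℝ) * (1 / 2) ^ (k0 + 1) ∈ dyI k0 j0 := by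
        rw [hsplit]; exact Or.inl hmem
      have h2 : dyx k0 (((2 * j0 : ℤ) : ℝ) * (1 / 2) ^ (k0 + 1)) = j0 := mem_dyI.1 hmem0
      have h3 := hinc k0 le_rfl (by omega) _ hmem0
      rw [sg, h1, h2, if_pos rfl, one_mul] at h3
      exact h3
    have hg2 : G k0 j0 - D k0 j0 ≤ G (k0 + 1) (2 * j0 + 1) := by
      have hmem := left_mem (k0 + 1) (2 * j0 + 1)
      have h1 : dyx (k0 + 1) (((2 * j0 + 1 : ℤ) : ℝ) * (1 / 2) ^ (k0 + 1)) = 2 * j0 + 1 :=
        mem_dyI.1 hmem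
      have hmem0 : ((2 * j0 + 1 : ℤ) : ℝ) * (1 / 2) ^ (k0 + 1) ∈ dyI k0 j0 := by
        rw [hsplit]; exact Or.inr hmem
      have h2 : dyx k0 (((2 * j0 + 1 : ℤ) : ℝ) * (1 / 2) ^ (k0 + 1)) = j0 := mem_dyI.1 hmem0
      have h3 := hinc k0 le_rfl (by omega) _ hmem0
      rw [sg, h1, h2, if_neg (by omega)] at h3
      linarith
    rw [hWs, hXs]
    have hW1 : 0 ≤ ∫ t in J1, w t := integral_nonneg hw0
    have hW2 : 0 ≤ ∫ t in J2, w t := integral_nonneg hw0
    have hb1 := mass_le hwm hw0 hw1 (k0 + 1) (2 * j0)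
    have hb2 := mass_le hwm hw0 hw1 (k0 + 1) (2 * j0 + 1)
    change ∫ t in J1, w t ≤ _ at hb1
    change ∫ t in J2, w t ≤ _ at hb2
    have hXX1 : 0 ≤ ∫ t in J1, w t * X' t := integral_nonneg hX'0
    have hXX2 : 0 ≤ ∫ t in J2, w t * X' t := integral_nonneg hX'0
    generalize (∫ t in J1, w t) = W1 at *
    generalize (∫ t in J2, w t) = W2 at *
    generalize (∫ t in J1, w t * X' t) = Y1 at *
    generalize (∫ t in J2, w t * X' t) = Y2 at *
    set g := G k0 j0
    set d := D k0 j0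
    have hg : 0 ≤ g := hG _ _
    have hG1 : 0 ≤ G (k0 + 1) (2 * j0) := hG _ _
    have hG2 : 0 ≤ G (k0 + 1) (2 * j0 + 1) := hG _ _
    rcases (add_nonneg hW1 hW2).eq_or_lt with h0 | hpos
    · rw [← h0]
      simp [Lam]
    · have hL := lam_step k0 hW1 hW2 hpos
      have hL1 : 0 ≤ Lam (k0 + 1) W1 := hW1.trans (lam_nonneg _ hW1 hb1)
      have hL2 : 0 ≤ Lam (k0 + 1) W2 := hW2.trans (lam_nonneg _ hW2 hb2)
      have hL3 : 0 ≤ (W1 - W2) ^ 2 / (W1 + W2) := by positivity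
      have hcs := cs3 (p := W1 * G (k0 + 1) (2 * j0)) (q := W2 * G (k0 + 1) (2 * j0 + 1))
        (r := |W1 - W2| * |d|) (by positivity) (by positivity) (by positivity) hL1 hL2 hL3
        hXX1 hXX2 (X3 := (W1 + W2) * d ^ 2) (by positivity) ih1 ih2 (by
          rw [mul_pow, sq_abs, sq_abs]
          apply le_of_eq
          field_simp)
      have hlow : (W1 + W2) * g ≤ W1 * G (k0 + 1) (2 * j0) + W2 * G (k0 + 1) (2 * j0 + 1) +
          |W1 - W2| * |d| := by
        have h1 := mul_le_mul_of_nonneg_left hg1 hW1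
        have h2 := mul_le_mul_of_nonneg_left hg2 hW2
        have h3 : -(|W1 - W2| * |d|) ≤ (W1 - W2) * d := by
          rw [← abs_mul]; exact neg_abs_le _
        nlinarith
      have hsq : ((W1 + W2) * g) ^ 2 ≤ (W1 * G (k0 + 1) (2 * j0) +
          W2 * G (k0 + 1) (2 * j0 + 1) + |W1 - W2| * |d|) ^ 2 :=
        pow_le_pow_left₀ (by positivity) hlow 2
      refine hsq.trans (hcs.trans ?_)
      exact mul_le_mul_of_nonneg_right hL (by positivity)

theorem stops : STOPs := by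
  intro k0 K j0 G D w δ hK hG hinc hwm hw0 hw1 hδ hwI
  obtain ⟨n, rfl⟩ := Nat.exists_eq_add_of_le hK
  have h := key G D w hG hwm hw0 hw1 n k0 j0 hinc
  rw [hwI] at h
  set Y := ∫ t in dyI k0 j0, w t * ((G (k0 + n) (dyx (k0 + n) t)) ^ 2 +
          ∑ k ∈ Finset.Ico k0 (k0 + n), (D k (dyx k t)) ^ 2)
  set p : ℝ := (1 / 2 : ℝ) ^ k0 with hp
  have hp0 : 0 < p := by positivity
  have hLam : Lam k0 (δ * p) = δ * p * (1 + 2 * Real.log (1 / δ)) := by
    unfold Lam
    rw [← hp, Real.log_mul hδ.ne' hp0.ne', one_div, Real.log_inv]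
    ring
  rw [hLam] at h
  have hdp : 0 < δ * p := by positivity
  have h1 : δ * p * ((G k0 j0) ^ 2 * (δ * p)) ≤ δ * p * ((1 + 2 * Real.log (1 / δ)) * Y) := by
    calc δ * p * ((G k0 j0) ^ 2 * (δ * p)) = (δ * p * G k0 j0) ^ 2 := by ring
      _ ≤ _ := h
      _ = _ := by ring
  have h2 := le_of_mul_le_mul_left h1 hdp
  have h3 : (1 + 2 * Real.log (1 / δ)) / δ * Y = ((1 + 2 * Real.log (1 / δ)) * Y) / δ := by ring
  rw [h3, le_div_iff₀ hδ]
  linarith

end Crest.Agent.R087.STOPsx819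
end
end

-- ▼ part R087/ExTool_297
section

/-!
# Row 87, E2: toolkit for the dyadic expectations `Ex l` and the operators `Tt θ μ`
-/

set_option autoImplicit false

noncomputable section

open MeasureTheory Set

namespace Crest.Agent.R087.ExToolx297

open Crest.Agent.R087.E2x542

/-! ### integrability -/

/-- measurable, bounded, bounded support on the plane gives integrable -/
theorem integrable2 {F : ℝ × ℝ → ℝ} (hm : Measurable F) {M R : ℝ} (hb : ∀ z, |F z| ≤ M)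
    (hs : ∀ z, R < ‖z‖ → F z = 0) : Integrable F (volume.prod volume) := by
  have h1 : IntegrableOn F (Metric.closedBall 0 R) (volume.prod volume) := by
    refine Measure.integrableOn_of_bounded (M := M) ?_ hm.aestronglyMeasurable ?_
    · exact (isCompact_closedBall (0 : ℝ × ℝ) R).measure_lt_top.ne
    · exact Filter.Eventually.of_forall fun z => by simpa using hb z
  rw [← integrableOn_univ]
  refine h1.of_forall_sdiff_eq_zero MeasurableSet.univ ?_
  intro z hz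
  apply hs
  simpa using hz.2

theorem Nice1.integrable {f : ℝ → ℝ} (hf : Nice1 f) : Integrable f := by
  obtain ⟨hm, ⟨M, hM⟩, R, hR⟩ := hf
  have h1 : IntegrableOn f (Metric.closedBall 0 R) volume := by
    refine Measure.integrableOn_of_bounded (M := M) ?_ hm.aestronglyMeasurable ?_
    · exact (isCompact_closedBall (0 : ℝ) R).measure_lt_top.ne
    · exact Filter.Eventually.of_forall fun z => by simpa using hM z
  rw [← integrableOn_univ]
  refine h1.of_forall_sdiff_eq_zero MeasurableSet.univ ?_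
  intro z hz
  apply hR
  simpa using hz.2

/-- a convenient form of `Nice1` with nonnegative bounds -/
theorem Nice1.bounds {f : ℝ → ℝ} (hf : Nice1 f) :
    ∃ M R : ℝ, 0 ≤ M ∧ 0 ≤ R ∧ (∀ y, |f y| ≤ M) ∧ ∀ y, R < |y| → f y = 0 := by
  obtain ⟨-, ⟨M, hM⟩, R, hR⟩ := hf
  exact ⟨max M 0, max R 0, le_max_right _ _, le_max_right _ _, fun y => (hM y).trans (le_max_left _ _),
    fun y hy => hR y ((le_max_left _ _).trans_lt hy)⟩

theorem Nice1.mul {f g : ℝ → ℝ} (hf : Nice1 f) (hg : Nice1 g) : Nice1 (fun y => f y * g y) := by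
  obtain ⟨M, R, hM0, hR0, hM, hR⟩ := Nice1.bounds hf
  obtain ⟨M', R', hM0', hR0', hM', hR'⟩ := Nice1.bounds hg
  refine ⟨hf.1.mul hg.1, ⟨M * M', fun y => ?_⟩, R, fun y hy => ?_⟩
  · rw [abs_mul]; exact mul_le_mul (hM y) (hM' y) (abs_nonneg _) hM0
  · simp [hR y hy]

theorem Nice1.add {f g : ℝ → ℝ} (hf : Nice1 f) (hg : Nice1 g) : Nice1 (fun y => f y + g y) := by
  obtain ⟨M, R, hM0, hR0, hM, hR⟩ := Nice1.bounds hf
  obtain ⟨M', R', hM0', hR0', hM', hR'⟩ := Nice1.bounds hg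
  refine ⟨hf.1.add hg.1, ⟨M + M', fun y => (abs_add_le _ _).trans (add_le_add (hM y) (hM' y))⟩,
    max R R', fun y hy => ?_⟩
  simp [hR y ((le_max_left _ _).trans_lt hy), hR' y ((le_max_right _ _).trans_lt hy)]

theorem Nice1.smul {f : ℝ → ℝ} (hf : Nice1 f) (c : ℝ) : Nice1 (fun y => c * f y) := by
  obtain ⟨M, R, hM0, hR0, hM, hR⟩ := Nice1.bounds hf
  refine ⟨hf.1.const_mul c, ⟨|c| * M, fun y => ?_⟩, R, fun y hy => ?_⟩
  · rw [abs_mul]; exact mul_le_mul_of_nonneg_left (hM y) (abs_nonneg _)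
  · simp [hR y hy]

theorem Nice1.sub {f g : ℝ → ℝ} (hf : Nice1 f) (hg : Nice1 g) : Nice1 (fun y => f y - g y) := by
  have h := Nice1.add hf (Nice1.smul hg (-1))
  have e : (fun y => f y - g y) = fun y => f y + (-1) * g y := by funext y; ring
  rw [e]; exact h

theorem Nice1.sq {f : ℝ → ℝ} (hf : Nice1 f) : Nice1 (fun y => (f y) ^ 2) := by
  have h := Nice1.mul hf hf
  have e : (fun y => (f y) ^ 2) = fun y => f y * f y := by funext y; ring
  rw [e]; exact h

theorem Nice1.shift {f : ℝ → ℝ} (hf : Nice1 f) (v : ℝ) : Nice1 (fun y => f (y + v)) := by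
  obtain ⟨M, R, hM0, hR0, hM, hR⟩ := Nice1.bounds hf
  refine ⟨hf.1.comp (measurable_id.add_const v), ⟨M, fun y => hM _⟩, R + |v|, fun y hy => ?_⟩
  apply hR
  have := abs_sub_abs_le_abs_sub (y) (-v)
  rw [abs_neg, sub_neg_eq_add] at this
  linarith

theorem integral_shift (f : ℝ → ℝ) (v : ℝ) : ∫ y, f (y + v) = ∫ y, f y :=
  integral_add_right_eq_self f v

theorem Nice1.indicator {f : ℝ → ℝ} (hf : Nice1 f) {S : Set ℝ} (hS : MeasurableSet S) :
    Nice1 (S.indicator f) := by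
  obtain ⟨M, R, hM0, hR0, hM, hR⟩ := Nice1.bounds hf
  refine ⟨hf.1.indicator hS, ⟨M, fun y => ?_⟩, R, fun y hy => ?_⟩
  · by_cases h : y ∈ S
    · simpa [h] using hM y
    · simpa [h] using hM0
  · by_cases h : y ∈ S
    · simpa [h] using hR y hy
    · simp [h]

/-! ### cells -/

/-- index of the cell of length `2^l` containing `y` -/
def ix (l : ℤ) (y : ℝ) : ℤ := ⌊y / 2 ^ l⌋

theorem two_zpow_pos (l : ℤ) : (0 : ℝ) < 2 ^ l := by positivity

theorem mem_cell (l : ℤ) (n : ℤ) (x : ℝ) :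
    x ∈ Set.Ico (n * (2 : ℝ) ^ l) ((n + 1) * (2 : ℝ) ^ l) ↔ ix l x = n := by
  unfold ix
  rw [Int.floor_eq_iff, Set.mem_Ico, le_div_iff₀ (two_zpow_pos l), div_lt_iff₀ (two_zpow_pos l)]

theorem measurable_ix (l : ℤ) : Measurable (ix l) :=
  Int.measurable_floor.comp (measurable_id.div_const _)

theorem Ex_def (l : ℤ) (f : ℝ → ℝ) (y : ℝ) :
    Ex l f y = ((2 : ℝ) ^ l)⁻¹ * ∫ x in {x | ix l x = ix l y}, f x := by
  have h : Set.Ico ((ix l y : ℝ) * (2 : ℝ) ^ l) ((ix l y + 1) * (2 : ℝ) ^ l)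
      = {x | ix l x = ix l y} := by
    ext x; exact mem_cell l _ x
  unfold Ex
  rw [← h]; rfl

theorem Ex_def' (l : ℤ) (f : ℝ → ℝ) (y : ℝ) :
    Ex l f y = ((2 : ℝ) ^ l)⁻¹ * ∫ x, if ix l x = ix l y then f x else 0 := by
  rw [Ex_def]
  have hm : MeasurableSet {x | ix l x = ix l y} := measurable_ix l (measurableSet_singleton _)
  rw [← integral_indicator hm]
  congr 2 with x
  by_cases h : ix l x = ix l y
  · simp [Set.indicator, h]
  · simp [Set.indicator, h]

/-- functions constant on cells -/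
def CC (l : ℤ) (g : ℝ → ℝ) : Prop := ∀ x y, ix l x = ix l y → g x = g y

theorem CC_Ex (l : ℤ) (f : ℝ → ℝ) : CC l (Ex l f) := by
  intro x y h
  rw [Ex_def, Ex_def, h]

theorem ix_succ (l : ℤ) (x : ℝ) : ix (l + 1) x = ix l x / 2 := by
  unfold ix
  have h := Int.floor_div_natCast (x / 2 ^ l) 2
  rw [← show x / 2 ^ l / ((2 : ℕ) : ℝ) = x / 2 ^ (l + 1) by
    rw [zpow_add_one₀ (two_ne_zero), div_div]; norm_num]
  rw [h]; norm_num

theorem CC_mono {l : ℤ} {g : ℝ → ℝ} (h : CC (l + 1) g) : CC l g := by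
  intro x y hxy
  apply h
  rw [ix_succ, ix_succ, hxy]

theorem CC_sub {l : ℤ} {f g : ℝ → ℝ} (hf : CC l f) (hg : CC l g) : CC l (fun y => f y - g y) := by
  intro x y h
  simp only [hf x y h, hg x y h]

theorem CC_Dl (l : ℤ) (f : ℝ → ℝ) : CC l (Dl l f) :=
  CC_sub (CC_Ex l f) (CC_mono (CC_Ex (l + 1) f))

theorem vol_cell (l n : ℤ) : (volume {x | ix l x = n}).toReal = (2 : ℝ) ^ l := by
  have h : {x | ix l x = n} = Set.Ico ((n : ℝ) * (2 : ℝ) ^ l) ((n + 1) * (2 : ℝ) ^ l) := by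
    ext x; exact (mem_cell l _ x).symm
  rw [h, Real.volume_Ico, ENNReal.toReal_ofReal]
  · ring
  · have := two_zpow_pos l
    nlinarith

theorem Ex_of_CC {l : ℤ} {g : ℝ → ℝ} (hg : CC l g) : Ex l g = g := by
  funext y
  rw [Ex_def]
  have hm : MeasurableSet {x | ix l x = ix l y} := measurable_ix l (measurableSet_singleton _)
  have h1 : ∫ x in {x | ix l x = ix l y}, g x = ∫ x in {x | ix l x = ix l y}, g y :=
    setIntegral_congr_fun hm fun x hx => hg x y hx
  rw [h1, setIntegral_const, Measure.real, vol_cell, smul_eq_mul, ← mul_assoc,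
    inv_mul_cancel₀ (two_zpow_pos l).ne', one_mul]

theorem measurable_of_CC {l : ℤ} {g : ℝ → ℝ} (hg : CC l g) : Measurable g := by
  have h : g = (fun n : ℤ => g ((n : ℝ) * 2 ^ l)) ∘ ix l := by
    funext y
    apply hg
    rw [eq_comm]
    apply (mem_cell l _ _).1
    constructor
    · exact le_rfl
    · have := two_zpow_pos l
      nlinarith
  rw [h]
  exact (measurable_of_countable _).comp (measurable_ix l)

/-- two points of the same cell are at distance less than `2^l` -/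
theorem dist_of_ix {l : ℤ} {x y : ℝ} (h : ix l x = ix l y) : |x - y| < 2 ^ l := by
  have h1 := (mem_cell l (ix l y) x).2 h
  have h2 := (mem_cell l (ix l y) y).2 rfl
  rw [abs_sub_lt_iff]
  constructor <;> nlinarith [h1.1, h1.2, h2.1, h2.2]

theorem Nice1.Ex {f : ℝ → ℝ} (hf : Nice1 f) (l : ℤ) : Nice1 (Ex l f) := by
  obtain ⟨M, R, hM0, hR0, hM, hR⟩ := Nice1.bounds hf
  refine ⟨measurable_of_CC (CC_Ex l f), ⟨M, fun y => ?_⟩, R + 2 ^ l, fun y hy => ?_⟩
  · rw [Ex_def, abs_mul, abs_of_pos (inv_pos.2 (two_zpow_pos l))]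
    have h1 : |∫ x in {x | ix l x = ix l y}, f x| ≤ M * 2 ^ l := by
      rw [← Real.norm_eq_abs]
      have h2 := norm_setIntegral_le_of_norm_le_const (μ := volume) (f := f)
        (s := {x | ix l x = ix l y}) (C := M) ?_ (fun x _ => by simpa using hM x)
      · rw [Measure.real, vol_cell] at h2
        exact h2
      · have h3 : {x | ix l x = ix l y} = Set.Ico ((ix l y : ℝ) * (2 : ℝ) ^ l)
            ((ix l y + 1) * (2 : ℝ) ^ l) := by
          ext x; exact (mem_cell l _ x).symm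
        rw [h3]; exact measure_Ico_lt_top
    calc ((2 : ℝ) ^ l)⁻¹ * |∫ x in {x | ix l x = ix l y}, f x|
        ≤ ((2 : ℝ) ^ l)⁻¹ * (M * 2 ^ l) :=
          mul_le_mul_of_nonneg_left h1 (inv_pos.2 (two_zpow_pos l)).le
      _ = M := by field_simp
  · rw [Ex_def']
    have h1 : ∀ x, (if ix l x = ix l y then f x else 0) = 0 := by
      intro x
      split_ifs with h
      · apply hR
        have h2 := dist_of_ix h
        rw [abs_sub_comm] at h2
        have := abs_sub_abs_le_abs_sub y x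
        linarith
      · rfl
    simp [h1]

theorem Nice1.Dl {f : ℝ → ℝ} (hf : Nice1 f) (l : ℤ) : Nice1 (Dl l f) :=
  Nice1.sub (Nice1.Ex hf l) (Nice1.Ex hf (l + 1))

/-! ### self-adjointness -/

theorem Ex_symm {f g : ℝ → ℝ} (hf : Nice1 f) (hg : Nice1 g) (l : ℤ) :
    ∫ y, E2x542.Ex l f y * g y = ∫ y, f y * E2x542.Ex l g y := by
  obtain ⟨M, R, hM0, hR0, hM, hR⟩ := Nice1.bounds hf
  obtain ⟨M', R', hM0', hR0', hM', hR'⟩ := Nice1.bounds hg
  have hset : MeasurableSet {z : ℝ × ℝ | ix l z.1 = ix l z.2} :=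
    measurableSet_eq_fun ((measurable_ix l).comp measurable_fst)
      ((measurable_ix l).comp measurable_snd)
  have hint : Integrable (fun z : ℝ × ℝ => if ix l z.1 = ix l z.2 then f z.1 * g z.2 else 0)
      (volume.prod volume) := by
    refine integrable2 (M := M * M') (R := max R R') ?_ ?_ ?_
    · exact Measurable.ite hset ((hf.1.comp measurable_fst).mul (hg.1.comp measurable_snd))
        measurable_const
    · intro z
      split_ifs
      · rw [abs_mul]; exact mul_le_mul (hM _) (hM' _) (abs_nonneg _) hM0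
      · simpa using mul_nonneg hM0 hM0'
    · intro z hz
      rw [Prod.norm_def, Real.norm_eq_abs, Real.norm_eq_abs] at hz
      rcases lt_max_iff.1 hz with h | h
      · simp [hR z.1 ((le_max_left _ _).trans_lt h)]
      · simp [hR' z.2 ((le_max_right _ _).trans_lt h)]
  have hsw := integral_integral_swap (f := fun x y : ℝ =>
    if ix l x = ix l y then f x * g y else 0) (μ := volume) (ν := volume) hint
  have h1 : ∀ y, E2x542.Ex l f y * g y
      = ((2 : ℝ) ^ l)⁻¹ * ∫ x, if ix l x = ix l y then f x * g y else 0 := by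
    intro y
    rw [Ex_def', mul_assoc, ← integral_mul_const]
    congr 2
    funext x
    split_ifs <;> simp
  have h2 : ∀ x, f x * E2x542.Ex l g x
      = ((2 : ℝ) ^ l)⁻¹ * ∫ y, if ix l x = ix l y then f x * g y else 0 := by
    intro x
    rw [Ex_def', mul_left_comm, ← integral_const_mul]
    congr 2
    funext y
    by_cases h : ix l x = ix l y
    · simp [h]
    · simp [h, Ne.symm h]
  simp only [h1, h2]
  rw [integral_const_mul, integral_const_mul, hsw]

theorem Dl_symm {f g : ℝ → ℝ} (hf : Nice1 f) (hg : Nice1 g) (l : ℤ) :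
    ∫ y, E2x542.Dl l f y * g y = ∫ y, f y * E2x542.Dl l g y := by
  unfold E2x542.Dl
  have h1 : ∀ y, (E2x542.Ex l f y - E2x542.Ex (l + 1) f y) * g y
      = E2x542.Ex l f y * g y - E2x542.Ex (l + 1) f y * g y := fun y => by ring
  have h2 : ∀ y, f y * (E2x542.Ex l g y - E2x542.Ex (l + 1) g y)
      = f y * E2x542.Ex l g y - f y * E2x542.Ex (l + 1) g y := fun y => by ring
  simp only [h1, h2]
  rw [integral_sub (Nice1.integrable (Nice1.mul (Nice1.Ex hf l) hg))
    (Nice1.integrable (Nice1.mul (Nice1.Ex hf (l + 1)) hg)),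
    integral_sub (Nice1.integrable (Nice1.mul hf (Nice1.Ex hg l)))
    (Nice1.integrable (Nice1.mul hf (Nice1.Ex hg (l + 1)))), Ex_symm hf hg, Ex_symm hf hg]

theorem Ex_Ex (l : ℤ) (f : ℝ → ℝ) : Ex l (Ex l f) = Ex l f := Ex_of_CC (CC_Ex l f)

/-- the contraction property -/
theorem Ex_contr {f : ℝ → ℝ} (hf : Nice1 f) (l : ℤ) :
    ∫ y, (E2x542.Ex l f y) ^ 2 ≤ ∫ y, (f y) ^ 2 := by
  have h1 : ∫ y, (E2x542.Ex l f y) ^ 2 = ∫ y, f y * E2x542.Ex l f y := by
    have h2 := Ex_symm hf (Nice1.Ex hf l) l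
    rw [Ex_Ex] at h2
    rw [← h2]
    congr 1; funext y; ring
  have h3 : ∫ y, f y * E2x542.Ex l f y ≤ ∫ y, ((f y) ^ 2 / 2 + (E2x542.Ex l f y) ^ 2 / 2) := by
    refine integral_mono (Nice1.integrable (Nice1.mul hf (Nice1.Ex hf l))) ?_ ?_
    · exact ((Nice1.integrable (Nice1.sq hf)).div_const 2).add
        ((Nice1.integrable (Nice1.sq (Nice1.Ex hf l))).div_const 2)
    · intro y
      nlinarith [sq_nonneg (f y - E2x542.Ex l f y)]
  rw [integral_add ((Nice1.integrable (Nice1.sq hf)).div_const 2)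
    ((Nice1.integrable (Nice1.sq (Nice1.Ex hf l))).div_const 2), integral_div, integral_div] at h3
  linarith


theorem int_sub_sq {f g : ℝ → ℝ} (hf : Nice1 f) (hg : Nice1 g) :
    ∫ y, (f y - g y) ^ 2 ≤ 2 * (∫ y, (f y) ^ 2) + 2 * ∫ y, (g y) ^ 2 := by
  rw [← integral_const_mul, ← integral_const_mul, ← integral_add
    ((Nice1.integrable (Nice1.sq hf)).const_mul 2) ((Nice1.integrable (Nice1.sq hg)).const_mul 2)]
  refine integral_mono (Nice1.integrable (Nice1.sq (Nice1.sub hf hg)))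
    (((Nice1.integrable (Nice1.sq hf)).const_mul 2).add
      ((Nice1.integrable (Nice1.sq hg)).const_mul 2)) ?_
  intro y
  simp only
  nlinarith [sq_nonneg (f y + g y)]

theorem Dl_bdd {f : ℝ → ℝ} (hf : Nice1 f) (l : ℤ) :
    ∫ y, (E2x542.Dl l f y) ^ 2 ≤ 4 * ∫ y, (f y) ^ 2 := by
  have h := int_sub_sq (Nice1.Ex hf l) (Nice1.Ex hf (l + 1))
  have h1 := Ex_contr hf l
  have h2 := Ex_contr hf (l + 1)
  unfold E2x542.Dl
  linarith

/-- Cauchy-Schwarz -/
theorem cs_int {f g : ℝ → ℝ} (hf : Nice1 f) (hg : Nice1 g) :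
    (∫ y, f y * g y) ^ 2 ≤ (∫ y, (f y) ^ 2) * ∫ y, (g y) ^ 2 := by
  have hF := Nice1.integrable (Nice1.sq hf)
  have hG := Nice1.integrable (Nice1.sq hg)
  have hFG := Nice1.integrable (Nice1.mul hf hg)
  have key : ∀ t : ℝ, 0 ≤ (∫ y, (f y) ^ 2) * (t * t) + (2 * ∫ y, f y * g y) * t
      + ∫ y, (g y) ^ 2 := by
    intro t
    have h0 : 0 ≤ ∫ y, (t * f y + g y) ^ 2 := integral_nonneg fun y => sq_nonneg _
    have h1 : ∫ y, (t * f y + g y) ^ 2
        = ∫ y, ((t * t) * (f y) ^ 2 + (2 * t) * (f y * g y)) + (g y) ^ 2 := by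
      congr 1; funext y; ring
    have h3 : ∫ y, ((t * t) * (f y) ^ 2 + (2 * t) * (f y * g y)) + (g y) ^ 2
        = (∫ y, ((t * t) * (f y) ^ 2 + (2 * t) * (f y * g y))) + ∫ y, (g y) ^ 2 :=
      integral_add ((hF.const_mul _).add (hFG.const_mul _)) hG
    have h4 : ∫ y, ((t * t) * (f y) ^ 2 + (2 * t) * (f y * g y))
        = (∫ y, (t * t) * (f y) ^ 2) + ∫ y, (2 * t) * (f y * g y) :=
      integral_add (hF.const_mul _) (hFG.const_mul _)
    rw [h1, h3, h4, integral_const_mul, integral_const_mul] at h0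
    linarith
  have h2 := discrim_le_zero key
  unfold discrim at h2
  nlinarith [h2]

end Crest.Agent.R087.ExToolx297
end
end

-- ▼ part R087/TB_297
section

/-!
# Row 87, E2: the leaf `TB` (operator bounds for differences of averages)
-/

set_option autoImplicit false

noncomputable section

open MeasureTheory Set

namespace Crest.Agent.R087.TB2x297

open Crest.Agent.R087.E2x542 Crest.Agent.R087.ExToolx297

/-! ### mass of `Ex`, proportions -/

theorem int_Ex {H : ℝ → ℝ} (hH : Nice1 H) (l : ℤ) : ∫ y, Ex l H y = ∫ y, H y := by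
  obtain ⟨M, R, hM0, hR0, hM, hR⟩ := Nice1.bounds hH
  obtain ⟨N, hN⟩ := exists_nat_gt (R / 2 ^ l + 1)
  set S : Set ℝ := {y | |ix l y| ≤ (N : ℤ)} with hS
  have hSm : MeasurableSet S := measurable_ix l
    (Set.to_countable {n : ℤ | |n| ≤ (N : ℤ)}).measurableSet
  set g : ℝ → ℝ := S.indicator (fun _ => 1) with hg
  have hgc : CC l g := by
    intro x y h
    have hiff : (x ∈ S) ↔ (y ∈ S) := by simp only [hS, Set.mem_ofPred_eq, h]
    by_cases hx : x ∈ S
    · simp [hg, hx, hiff.1 hx]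
    · have hy : y ∉ S := fun hy => hx (hiff.2 hy)
      simp [hg, hx, hy]
  have hpos := two_zpow_pos l
  have hgN : Nice1 g := by
    refine ⟨measurable_const.indicator hSm, ⟨1, fun y => ?_⟩, (N + 1) * 2 ^ l, fun y hy => ?_⟩
    · simp only [hg, Set.indicator]; split_ifs <;> simp
    · have : y ∉ S := by
        intro hyS
        have h1 : |ix l y| ≤ (N : ℤ) := hyS
        have h2 := (mem_cell l (ix l y) y).2 rfl
        have h3 : (-(N : ℝ)) ≤ ix l y ∧ (ix l y : ℝ) ≤ N := by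
          have := abs_le.1 h1
          exact ⟨by exact_mod_cast this.1, by exact_mod_cast this.2⟩
        have h4 : |y| ≤ (N + 1) * 2 ^ l := by
          rw [abs_le]
          constructor <;> nlinarith [h2.1, h2.2]
        linarith
      simp [hg, this]
  have hfin : ∀ x, H x ≠ 0 → |ix l x| ≤ (N : ℤ) := by
    intro x hx
    have h1 : |x| ≤ R := by
      by_contra h
      exact hx (hR x (not_le.1 h))
    have h2 := (mem_cell l (ix l x) x).2 rfl
    have h3 : R / 2 ^ l < N - 1 := by linarith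
    rw [div_lt_iff₀ hpos] at h3
    have h4 := abs_le.1 h1
    rw [abs_le]
    constructor
    · have : (-(N : ℝ)) < ix l x + 1 := by
        by_contra hcon
        push Not at hcon
        nlinarith [h2.1, h2.2]
      have : (-(N : ℤ)) < ix l x + 1 := by exact_mod_cast this
      omega
    · have : (ix l x : ℝ) < N := by
        by_contra hcon
        push Not at hcon
        nlinarith [h2.1, h2.2]
      have : (ix l x) < (N : ℤ) := by exact_mod_cast this
      omega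
  have h1 := Ex_symm hH hgN l
  rw [Ex_of_CC hgc] at h1
  have h2 : (fun y => H y * g y) = H := by
    funext y
    by_cases h : H y = 0
    · simp [h]
    · have : y ∈ S := hfin y h
      simp [hg, this]
  have h3 : (fun y => Ex l H y * g y) = Ex l H := by
    funext y
    by_cases h : y ∈ S
    · simp [hg, h]
    · have h5 : Ex l H y = 0 := by
        rw [Ex_def']
        have h6 : ∀ x, (if ix l x = ix l y then H x else 0) = 0 := by
          intro x
          split_ifs with h7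
          · by_contra h8
            apply h
            have := hfin x h8
            simpa [hS, ← h7] using this
          · rfl
        simp [h6]
      simp [h5]
  rw [h2, h3] at h1
  exact h1

theorem frac_int {G : ℝ → ℝ} (hG : Nice1 G) {l : ℤ} (hc : CC l G) {α β : ℝ} (h0 : 0 ≤ α)
    (hab : α ≤ β) (h1 : β ≤ 1) :
    ∫ y, (if α ≤ Int.fract (y / 2 ^ l) ∧ Int.fract (y / 2 ^ l) < β then G y else 0)
      = (β - α) * ∫ y, G y := by
  have hpos := two_zpow_pos l
  have hmf : Measurable fun y : ℝ => Int.fract (y / 2 ^ l) :=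
    measurable_fract.comp (measurable_id.div_const _)
  set S : Set ℝ := {y | α ≤ Int.fract (y / 2 ^ l) ∧ Int.fract (y / 2 ^ l) < β} with hS
  have hSm : MeasurableSet S :=
    (measurableSet_le measurable_const hmf).inter (measurableSet_lt hmf measurable_const)
  have hN : Nice1 (S.indicator G) := Nice1.indicator hG hSm
  have h2 : ∀ y, (if α ≤ Int.fract (y / 2 ^ l) ∧ Int.fract (y / 2 ^ l) < β then G y else 0)
      = S.indicator G y := by
    intro y
    simp [Set.indicator, hS]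
  simp only [h2]
  rw [← int_Ex hN l, ← integral_const_mul]
  congr 1
  funext y
  rw [Ex_def]
  have hm : MeasurableSet {x | ix l x = ix l y} := measurable_ix l (measurableSet_singleton _)
  have h3 : ∫ x in {x | ix l x = ix l y}, S.indicator G x
      = ∫ x in {x | ix l x = ix l y}, S.indicator (fun _ => G y) x := by
    refine setIntegral_congr_fun hm fun x hx => ?_
    by_cases h : x ∈ S
    · simp [h, hc x y hx]
    · simp [h]
  have h4 : {x | ix l x = ix l y} ∩ S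
      = Set.Ico ((ix l y + α) * (2 : ℝ) ^ l) ((ix l y + β) * (2 : ℝ) ^ l) := by
    ext x
    simp only [Set.mem_inter_iff, Set.mem_ofPred_eq, hS, Set.mem_Ico]
    have h5 : Int.fract (x / 2 ^ l) = x / 2 ^ l - ix l x := rfl
    rw [← le_div_iff₀ hpos, ← div_lt_iff₀ hpos]
    constructor
    · rintro ⟨h6, h7, h8⟩
      rw [h5, h6] at h7 h8
      constructor <;> linarith
    · rintro ⟨h6, h7⟩
      have h8 : ix l x = ix l y := by
        unfold ix at h6 h7 ⊢
        rw [Int.floor_eq_iff]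
        constructor <;> linarith
      refine ⟨h8, ?_⟩
      rw [h5, h8]
      constructor <;> linarith
  rw [h3, setIntegral_indicator hSm, setIntegral_const, h4, Measure.real, Real.volume_Ico,
    ENNReal.toReal_ofReal (by nlinarith), smul_eq_mul]
  field_simp
  ring

/-! ### the shift lemma -/

theorem shift_sq_nonneg {g : ℝ → ℝ} (hg : Nice1 g) {l : ℤ} (hc : CC l g) {v : ℝ} (hv : 0 ≤ v) :
    ∫ y, (g (y + v) - g y) ^ 2 ≤ 4 * (v / 2 ^ l) * ∫ y, (g y) ^ 2 := by
  have hpos := two_zpow_pos l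
  have hI : 0 ≤ ∫ y, (g y) ^ 2 := integral_nonneg fun y => sq_nonneg _
  rcases le_or_gt (2 ^ l) v with h | h
  · have h1 := int_sub_sq (Nice1.shift hg v) hg
    have h2 : ∫ y, (g (y + v)) ^ 2 = ∫ y, (g y) ^ 2 := integral_shift (fun y => (g y) ^ 2) v
    have h3 : 1 ≤ v / 2 ^ l := by rwa [le_div_iff₀ hpos, one_mul]
    rw [h2] at h1
    nlinarith
  · have hq0 : 0 ≤ v / 2 ^ l := by positivity
    have hq1 : v / 2 ^ l < 1 := by rwa [div_lt_one hpos]
    have hcs : CC l (fun y => (g y) ^ 2) := fun x y hxy => by simp only [hc x y hxy]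
    set A : ℝ → ℝ := fun y => if 1 - v / 2 ^ l ≤ Int.fract (y / 2 ^ l) ∧ Int.fract (y / 2 ^ l) < 1
      then (g y) ^ 2 else 0 with hA
    set B : ℝ → ℝ := fun y => if 0 ≤ Int.fract (y / 2 ^ l) ∧ Int.fract (y / 2 ^ l) < v / 2 ^ l
      then (g y) ^ 2 else 0 with hB
    have hmf : Measurable fun y : ℝ => Int.fract (y / 2 ^ l) :=
      measurable_fract.comp (measurable_id.div_const _)
    have hAN : Nice1 A := by
      have := Nice1.indicator (Nice1.sq hg) (S := {y | 1 - v / 2 ^ l ≤ Int.fract (y / 2 ^ l)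
        ∧ Int.fract (y / 2 ^ l) < 1})
        ((measurableSet_le measurable_const hmf).inter (measurableSet_lt hmf measurable_const))
      convert this using 1
      funext y
      simp [hA, Set.indicator]
    have hBN : Nice1 B := by
      have := Nice1.indicator (Nice1.sq hg) (S := {y | 0 ≤ Int.fract (y / 2 ^ l)
        ∧ Int.fract (y / 2 ^ l) < v / 2 ^ l})
        ((measurableSet_le measurable_const hmf).inter (measurableSet_lt hmf measurable_const))
      convert this using 1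
      funext y
      simp [hB, Set.indicator]
    have iA : ∫ y, A y = (v / 2 ^ l) * ∫ y, (g y) ^ 2 := by
      have := frac_int (Nice1.sq hg) hcs (α := 1 - v / 2 ^ l) (β := 1) (by linarith) (by linarith)
        le_rfl
      rw [hA, this]; ring
    have iB : ∫ y, B y = (v / 2 ^ l) * ∫ y, (g y) ^ 2 := by
      have := frac_int (Nice1.sq hg) hcs (α := 0) (β := v / 2 ^ l) le_rfl hq0 hq1.le
      rw [hB, this]; ring
    have hA0 : ∀ y, 0 ≤ A y := fun y => by
      simp only [hA]; split_ifs <;> positivity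
    have hB0 : ∀ y, 0 ≤ B y := fun y => by
      simp only [hB]; split_ifs <;> positivity
    have hpt : ∀ y, (g (y + v) - g y) ^ 2 ≤ 2 * B (y + v) + 2 * A y := by
      intro y
      have e1 : (y + v) / 2 ^ l = y / 2 ^ l + v / 2 ^ l := by ring
      have f0 := Int.fract_nonneg (y / 2 ^ l)
      have f1 := Int.fract_lt_one (y / 2 ^ l)
      have fe : Int.fract (y / 2 ^ l) = y / 2 ^ l - ix l y := rfl
      by_cases hfr : Int.fract (y / 2 ^ l) + v / 2 ^ l < 1
      · have h3 : ix l (y + v) = ix l y := by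
          have : ⌊(y + v) / 2 ^ l⌋ = ix l y := by
            rw [Int.floor_eq_iff, e1]
            constructor <;> linarith
          exact this
        rw [hc _ _ h3]
        have := hA0 y; have := hB0 (y + v)
        nlinarith
      · push Not at hfr
        have h3 : ix l (y + v) = ix l y + 1 := by
          have : ⌊(y + v) / 2 ^ l⌋ = ix l y + 1 := by
            rw [Int.floor_eq_iff, e1]
            push_cast
            constructor <;> linarith
          exact this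
        have h4 : Int.fract ((y + v) / 2 ^ l) = (y + v) / 2 ^ l - ix l (y + v) := rfl
        have hAy : A y = (g y) ^ 2 := by
          simp only [hA]
          rw [if_pos ⟨by linarith, f1⟩]
        have h5 : Int.fract ((y + v) / 2 ^ l) < v / 2 ^ l := by
          rw [h4, h3, e1]
          push_cast
          linarith
        have hBy : B (y + v) = (g (y + v)) ^ 2 := by
          simp only [hB]
          exact if_pos ⟨Int.fract_nonneg _, h5⟩
        rw [hAy, hBy]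
        nlinarith [sq_nonneg (g (y + v) + g y)]
    have hBs : Nice1 (fun y => B (y + v)) := Nice1.shift hBN v
    calc ∫ y, (g (y + v) - g y) ^ 2 ≤ ∫ y, (2 * B (y + v) + 2 * A y) :=
          integral_mono (Nice1.integrable (Nice1.sq (Nice1.sub (Nice1.shift hg v) hg)))
            (((Nice1.integrable hBs).const_mul 2).add ((Nice1.integrable hAN).const_mul 2)) hpt
      _ = 2 * (∫ y, B (y + v)) + 2 * ∫ y, A y := by
          rw [integral_add ((Nice1.integrable hBs).const_mul 2)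
            ((Nice1.integrable hAN).const_mul 2), integral_const_mul, integral_const_mul]
      _ = 4 * (v / 2 ^ l) * ∫ y, (g y) ^ 2 := by
          rw [integral_shift, iA, iB]; ring

theorem shift_sq {g : ℝ → ℝ} (hg : Nice1 g) {l : ℤ} (hc : CC l g) (v : ℝ) :
    ∫ y, (g (y + v) - g y) ^ 2 ≤ 4 * (|v| / 2 ^ l) * ∫ y, (g y) ^ 2 := by
  rcases le_or_gt 0 v with h | h
  · rw [abs_of_nonneg h]; exact shift_sq_nonneg hg hc h
  · rw [abs_of_neg h]
    have h1 := shift_sq_nonneg hg hc (v := -v) (by linarith)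
    have h2 : ∫ y, (g (y + v) - g y) ^ 2 = ∫ y, (g (y + -v) - g y) ^ 2 := by
      rw [← integral_shift (fun y => (g (y + v) - g y) ^ 2) (-v)]
      congr 1
      funext y
      simp only [neg_add_cancel_right]
      ring
    rw [h2]; exact h1

/-! ### Minkowski -/

/-- Cauchy-Schwarz on an interval -/
theorem cs_Ioc {φ : ℝ → ℝ} {a b : ℝ} (hab : a ≤ b) (h1 : IntegrableOn φ (Ioc a b))
    (h2 : IntegrableOn (fun x => (φ x) ^ 2) (Ioc a b)) :
    (∫ x in Ioc a b, φ x) ^ 2 ≤ (b - a) * ∫ x in Ioc a b, (φ x) ^ 2 := by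
  rcases hab.eq_or_lt with h | h
  · simp [h]
  · set m : ℝ := (∫ x in Ioc a b, φ x) / (b - a) with hm
    have hba : 0 < b - a := by linarith
    have h3 : 0 ≤ ∫ x in Ioc a b, (φ x - m) ^ 2 := integral_nonneg fun x => sq_nonneg _
    have hc : IntegrableOn (fun _ : ℝ => m ^ 2) (Ioc a b) := by
      simp
    have h4 : ∫ x in Ioc a b, (φ x - m) ^ 2
        = (∫ x in Ioc a b, (φ x) ^ 2) - 2 * m * (∫ x in Ioc a b, φ x) + m ^ 2 * (b - a) := by
      have e1 : ∀ x, (φ x - m) ^ 2 = ((φ x) ^ 2 - 2 * m * φ x) + m ^ 2 := fun x => by ring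
      simp only [e1]
      have i1 : ∫ x in Ioc a b, (((φ x) ^ 2 - 2 * m * φ x) + m ^ 2)
          = (∫ x in Ioc a b, ((φ x) ^ 2 - 2 * m * φ x)) + ∫ x in Ioc a b, m ^ 2 :=
        integral_add (h2.sub (h1.const_mul _)) hc
      have i2 : ∫ x in Ioc a b, ((φ x) ^ 2 - 2 * m * φ x)
          = (∫ x in Ioc a b, (φ x) ^ 2) - ∫ x in Ioc a b, 2 * m * φ x :=
        integral_sub h2 (h1.const_mul _)
      rw [i1, i2, integral_const_mul, setIntegral_const, Measure.real, Real.volume_Ioc,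
        ENNReal.toReal_ofReal hba.le, smul_eq_mul]
      ring
    rw [h4, hm] at h3
    have h5 : 0 ≤ (b - a) * ((∫ x in Ioc a b, (φ x) ^ 2)
        - 2 * ((∫ x in Ioc a b, φ x) / (b - a)) * (∫ x in Ioc a b, φ x)
        + ((∫ x in Ioc a b, φ x) / (b - a)) ^ 2 * (b - a)) := mul_nonneg hba.le h3
    have h6 : (b - a) * ((∫ x in Ioc a b, (φ x) ^ 2)
        - 2 * ((∫ x in Ioc a b, φ x) / (b - a)) * (∫ x in Ioc a b, φ x)
        + ((∫ x in Ioc a b, φ x) / (b - a)) ^ 2 * (b - a))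
        = (b - a) * (∫ x in Ioc a b, (φ x) ^ 2) - (∫ x in Ioc a b, φ x) ^ 2 := by
      field_simp
      ring
    linarith

/-- data of a superposition `∫_a^b h x y dx` -/
structure Fam (h : ℝ → ℝ → ℝ) (a b : ℝ) : Prop where
  meas : Measurable (Function.uncurry h)
  bdd : ∃ M : ℝ, 0 ≤ M ∧ ∀ x y, |h x y| ≤ M
  supp : ∃ R : ℝ, 0 ≤ R ∧ ∀ x, a ≤ x → x ≤ b → ∀ y, R < |y| → h x y = 0

theorem Fam.slice {h : ℝ → ℝ → ℝ} {a b : ℝ} (H : Fam h a b) (y : ℝ) :
    IntegrableOn (fun x => h x y) (Ioc a b) := by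
  obtain ⟨M, hM0, hM⟩ := H.bdd
  refine Measure.integrableOn_of_bounded (M := M) measure_Ioc_lt_top.ne
    (H.meas.comp (measurable_id.prodMk measurable_const)).aestronglyMeasurable ?_
  exact Filter.Eventually.of_forall fun x => by simpa using hM x y

theorem Fam.sq {h : ℝ → ℝ → ℝ} {a b : ℝ} (H : Fam h a b) : Fam (fun x y => (h x y) ^ 2) a b := by
  obtain ⟨M, hM0, hM⟩ := H.bdd
  obtain ⟨R, hR0, hR⟩ := H.supp
  refine ⟨H.meas.pow_const 2, ⟨M ^ 2, by positivity, fun x y => ?_⟩, R, hR0,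
    fun x h1 h2 y hy => by simp [hR x h1 h2 y hy]⟩
  rw [abs_pow]
  exact pow_le_pow_left₀ (abs_nonneg _) (hM x y) 2

theorem Fam.integrable {h : ℝ → ℝ → ℝ} {a b : ℝ} (H : Fam h a b) :
    Integrable (Function.uncurry h) ((volume.restrict (Ioc a b)).prod volume) := by
  obtain ⟨M, hM0, hM⟩ := H.bdd
  obtain ⟨R, hR0, hR⟩ := H.supp
  have h1 : Integrable ((Ioc a b ×ˢ (univ : Set ℝ)).indicator (Function.uncurry h))
      (volume.prod volume) := by
    refine integrable2 (M := M) (R := max R (max |a| |b|))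
      (H.meas.indicator (measurableSet_Ioc.prod MeasurableSet.univ)) ?_ ?_
    · rintro ⟨x, y⟩
      by_cases h2 : (x, y) ∈ Ioc a b ×ˢ (univ : Set ℝ)
      · rw [Set.indicator_of_mem h2]; exact hM x y
      · rw [Set.indicator_of_notMem h2]; simpa using hM0
    · rintro ⟨x, y⟩ hz
      by_cases h2 : (x, y) ∈ Ioc a b ×ˢ (univ : Set ℝ)
      · rw [Set.indicator_of_mem h2]
        have h3 : x ∈ Ioc a b := h2.1
        rw [Prod.norm_def, Real.norm_eq_abs, Real.norm_eq_abs] at hz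
        have h4 : |x| ≤ max |a| |b| := by
          rw [abs_le]
          have := abs_le_max_abs_abs (le_of_lt h3.1) h3.2
          exact abs_le.1 this
        rcases lt_max_iff.1 hz with h | h
        · exact absurd (lt_of_le_of_lt (le_max_right _ _) h) (not_lt.2 h4)
        · exact hR x h3.1.le h3.2 y ((le_max_left _ _).trans_lt h)
      · rw [Set.indicator_of_notMem h2]
  rw [integrable_indicator_iff (measurableSet_Ioc.prod MeasurableSet.univ)] at h1
  unfold IntegrableOn at h1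
  rwa [← Measure.prod_restrict, Measure.restrict_univ] at h1

theorem Fam.nice {h : ℝ → ℝ → ℝ} {a b : ℝ} (H : Fam h a b) :
    Nice1 (fun y => ∫ x in Ioc a b, h x y) := by
  obtain ⟨M, hM0, hM⟩ := H.bdd
  obtain ⟨R, hR0, hR⟩ := H.supp
  refine ⟨?_, ⟨M * max (b - a) 0, fun y => ?_⟩, R, fun y hy => ?_⟩
  · have h1 : StronglyMeasurable (fun z : ℝ × ℝ => h z.2 z.1) :=
      (H.meas.comp measurable_swap).stronglyMeasurable
    exact (h1.integral_prod_right' (ν := volume.restrict (Ioc a b))).measurable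
  · have h2 := norm_setIntegral_le_of_norm_le_const (μ := volume) (f := fun x => h x y)
      (s := Ioc a b) (C := M) measure_Ioc_lt_top (fun x _ => by simpa using hM x y)
    simpa using h2
  · have h3 : ∫ x in Ioc a b, h x y = ∫ x in Ioc a b, (0 : ℝ) :=
      setIntegral_congr_fun measurableSet_Ioc fun x hx => hR x hx.1.le hx.2 y hy
    change ∫ x in Ioc a b, h x y = 0
    rw [h3]; simp

theorem mink {h : ℝ → ℝ → ℝ} {a b : ℝ} (hab : a ≤ b) (H : Fam h a b) {B : ℝ}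
    (hB : ∀ x, a ≤ x → x ≤ b → ∫ y, (h x y) ^ 2 ≤ B) :
    ∫ y, (∫ x in Ioc a b, h x y) ^ 2 ≤ (b - a) ^ 2 * B := by
  have hsq := H.sq
  have h1 : ∀ y, (∫ x in Ioc a b, h x y) ^ 2 ≤ (b - a) * ∫ x in Ioc a b, (h x y) ^ 2 :=
    fun y => cs_Ioc hab (H.slice y) (hsq.slice y)
  have h2 : ∫ y, (∫ x in Ioc a b, h x y) ^ 2 ≤ ∫ y, (b - a) * ∫ x in Ioc a b, (h x y) ^ 2 :=
    integral_mono (Nice1.integrable (Nice1.sq H.nice)) ((Nice1.integrable hsq.nice).const_mul _) h1
  rw [integral_const_mul] at h2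
  have h3 : ∫ y, ∫ x in Ioc a b, (h x y) ^ 2 = ∫ x in Ioc a b, ∫ y, (h x y) ^ 2 :=
    (integral_integral_swap (f := fun x y => (h x y) ^ 2) hsq.integrable).symm
  have h4 : ∫ x in Ioc a b, ∫ y, (h x y) ^ 2 ≤ ∫ x in Ioc a b, B := by
    refine setIntegral_mono_on ?_ (by simp) measurableSet_Ioc
      fun x hx => hB x hx.1.le hx.2
    exact hsq.integrable.integral_prod_left
  have h5 : ∫ x in Ioc a b, B = (b - a) * B := by
    rw [setIntegral_const, Measure.real, Real.volume_Ioc, ENNReal.toReal_ofReal (by linarith),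
      smul_eq_mul]
  rw [h3] at h2
  rw [h5] at h4
  calc ∫ y, (∫ x in Ioc a b, h x y) ^ 2 ≤ (b - a) * ∫ x in Ioc a b, ∫ y, (h x y) ^ 2 := h2
    _ ≤ (b - a) * ((b - a) * B) := mul_le_mul_of_nonneg_left h4 (by linarith)
    _ = (b - a) ^ 2 * B := by ring

/-! ### superpositions of translates -/

theorem fam_shift {f : ℝ → ℝ} (hf : Nice1 f) (μ a b : ℝ) : Fam (fun x y => f (y + x * μ)) a b := by
  obtain ⟨M, R, hM0, hR0, hM, hR⟩ := Nice1.bounds hf
  refine ⟨?_, ⟨M, hM0, fun x y => hM _⟩, R + max |a| |b| * |μ|, by positivity,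
    fun x h1 h2 y hy => ?_⟩
  · exact hf.1.comp (measurable_snd.add (measurable_fst.mul_const μ))
  · apply hR
    have h3 : |x| ≤ max |a| |b| := abs_le_max_abs_abs h1 h2
    have h4 : |x * μ| ≤ max |a| |b| * |μ| := by
      rw [abs_mul]; exact mul_le_mul_of_nonneg_right h3 (abs_nonneg _)
    have := abs_sub_abs_le_abs_sub y (-(x * μ))
    rw [abs_neg, sub_neg_eq_add] at this
    linarith

theorem fam_diff {f : ℝ → ℝ} (hf : Nice1 f) (μ a b : ℝ) :
    Fam (fun x y => f (y + x * μ) - f y) a b := by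
  have H := fam_shift hf μ a b
  obtain ⟨M, R, hM0, hR0, hM, hR⟩ := Nice1.bounds hf
  obtain ⟨M', hM0', hM'⟩ := H.bdd
  obtain ⟨R', hR0', hR'⟩ := H.supp
  refine ⟨H.meas.sub (hf.1.comp measurable_snd), ⟨M' + M, by positivity, fun x y => ?_⟩,
    max R' R, by positivity, fun x h1 h2 y hy => ?_⟩
  · exact (abs_sub _ _).trans (add_le_add (hM' x y) (hM y))
  · rw [hR' x h1 h2 y ((le_max_left _ _).trans_lt hy), hR y ((le_max_right _ _).trans_lt hy)]
    simp

theorem ioc_eq (φ : ℝ → ℝ) {a b : ℝ} (hab : a ≤ b) : ∫ x in a..b, φ x = ∫ x in Ioc a b, φ x :=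
  intervalIntegral.integral_of_le hab

/-- the two halves of `Tt` -/
theorem Tt_eq (θ μ : ℝ) (f : ℝ → ℝ) (y : ℝ) :
    Tt θ μ f y = (∫ x in Ioc (-θ) (1 / 2 - θ), f (y + x * μ))
      - ∫ x in Ioc (1 / 2 - θ) (1 - θ), f (y + x * μ) := by
  unfold Tt
  rw [ioc_eq _ (by linarith), ioc_eq _ (by linarith)]

theorem Nice1.Tt {f : ℝ → ℝ} (hf : Nice1 f) (θ μ : ℝ) : Nice1 (Tt θ μ f) := by
  have e : E2x542.Tt θ μ f = fun y => (∫ x in Ioc (-θ) (1 / 2 - θ), f (y + x * μ))
      - ∫ x in Ioc (1 / 2 - θ) (1 - θ), f (y + x * μ) := by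
    funext y; exact Tt_eq θ μ f y
  rw [e]
  exact Nice1.sub (fam_shift hf μ _ _).nice (fam_shift hf μ _ _).nice

/-- subtracting the value at the centre -/
theorem Tt_eq' {f : ℝ → ℝ} (hf : Nice1 f) (θ μ y : ℝ) :
    E2x542.Tt θ μ f y = (∫ x in Ioc (-θ) (1 / 2 - θ), (f (y + x * μ) - f y))
      - ∫ x in Ioc (1 / 2 - θ) (1 - θ), (f (y + x * μ) - f y) := by
  rw [Tt_eq]
  have h1 : ∀ a b : ℝ, a ≤ b → ∫ x in Ioc a b, (f (y + x * μ) - f y)
      = (∫ x in Ioc a b, f (y + x * μ)) - (b - a) * f y := by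
    intro a b hab
    rw [integral_sub ((fam_shift hf μ a b).slice y) (by simp), setIntegral_const, Measure.real,
      Real.volume_Ioc, ENNReal.toReal_ofReal (by linarith), smul_eq_mul]
  rw [h1 _ _ (by linarith), h1 _ _ (by linarith)]
  ring

/-- trivial bound -/
theorem Tt_triv {f : ℝ → ℝ} (hf : Nice1 f) (θ μ : ℝ) :
    ∫ y, (E2x542.Tt θ μ f y) ^ 2 ≤ ∫ y, (f y) ^ 2 := by
  have hB : ∀ x : ℝ, ∫ y, (f (y + x * μ)) ^ 2 ≤ ∫ y, (f y) ^ 2 := fun x =>
    (integral_shift (fun y => (f y) ^ 2) (x * μ)).le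
  have h1 := mink (a := -θ) (b := 1 / 2 - θ) (by linarith) (fam_shift hf μ _ _)
    (fun x _ _ => hB x)
  have h2 := mink (a := 1 / 2 - θ) (b := 1 - θ) (by linarith) (fam_shift hf μ _ _)
    (fun x _ _ => hB x)
  have h3 := int_sub_sq (fam_shift hf μ (-θ) (1 / 2 - θ)).nice
    (fam_shift hf μ (1 / 2 - θ) (1 - θ)).nice
  simp only [Tt_eq]
  nlinarith

/-- coarse input, for cell-constant functions -/
theorem Tt_coarse {g : ℝ → ℝ} (hg : Nice1 g) {l : ℤ} (hc : CC l g) {θ : ℝ} (h0 : 0 ≤ θ)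
    (h1 : θ < 1) (μ : ℝ) :
    ∫ y, (E2x542.Tt θ μ g y) ^ 2 ≤ 4 * (|μ| / 2 ^ l) * ∫ y, (g y) ^ 2 := by
  have hpos := two_zpow_pos l
  have hI : 0 ≤ ∫ y, (g y) ^ 2 := integral_nonneg fun y => sq_nonneg _
  have hB : ∀ x : ℝ, |x| ≤ 1 → ∫ y, (g (y + x * μ) - g y) ^ 2
      ≤ 4 * (|μ| / 2 ^ l) * ∫ y, (g y) ^ 2 := by
    intro x hx
    refine (shift_sq hg hc (x * μ)).trans ?_
    refine mul_le_mul_of_nonneg_right (mul_le_mul_of_nonneg_left
      (div_le_div_of_nonneg_right ?_ hpos.le) (by norm_num)) hI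
    rw [abs_mul]
    nlinarith [abs_nonneg μ]
  have h2 := mink (a := -θ) (b := 1 / 2 - θ) (by linarith) (fam_diff hg μ _ _)
    (fun x hx hx' => hB x (abs_le.2 ⟨by linarith, by linarith⟩))
  have h3 := mink (a := 1 / 2 - θ) (b := 1 - θ) (by linarith) (fam_diff hg μ _ _)
    (fun x hx hx' => hB x (abs_le.2 ⟨by linarith, by linarith⟩))
  have h4 := int_sub_sq (fam_diff hg μ (-θ) (1 / 2 - θ)).nice
    (fam_diff hg μ (1 / 2 - θ) (1 - θ)).nice
  simp only [Tt_eq' hg]
  have h5 : 0 ≤ (|μ| / 2 ^ l) * ∫ y, (g y) ^ 2 := by positivity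
  nlinarith

/-! ### adjoint -/

theorem adj_half {f h : ℝ → ℝ} (hf : Nice1 f) (hh : Nice1 h) (μ a b : ℝ) :
    ∫ y, (∫ x in Ioc a b, f (y + x * μ)) * h y = ∫ y, f y * ∫ x in Ioc a b, h (y + x * (-μ)) := by
  have F1 : Fam (fun x y => f (y + x * μ) * h y) a b := by
    have H := fam_shift hf μ a b
    obtain ⟨M, R, hM0, hR0, hM, hR⟩ := Nice1.bounds hh
    obtain ⟨M', hM0', hM'⟩ := H.bdd
    refine ⟨H.meas.mul (hh.1.comp measurable_snd), ⟨M' * M, by positivity, fun x y => ?_⟩,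
      R, hR0, fun x _ _ y hy => by simp [hR y hy]⟩
    rw [abs_mul]; exact mul_le_mul (hM' x y) (hM y) (abs_nonneg _) hM0'
  have F2 : Fam (fun x y => f y * h (y + x * (-μ))) a b := by
    have H := fam_shift hh (-μ) a b
    obtain ⟨M, R, hM0, hR0, hM, hR⟩ := Nice1.bounds hf
    obtain ⟨M', hM0', hM'⟩ := H.bdd
    refine ⟨(hf.1.comp measurable_snd).mul H.meas, ⟨M * M', by positivity, fun x y => ?_⟩,
      R, hR0, fun x _ _ y hy => by simp [hR y hy]⟩
    rw [abs_mul]; exact mul_le_mul (hM y) (hM' x y) (abs_nonneg _) hM0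
  have s1 := integral_integral_swap (f := fun x y => f (y + x * μ) * h y) F1.integrable
  have s2 := integral_integral_swap (f := fun x y => f y * h (y + x * (-μ))) F2.integrable
  have e1 : ∀ y, (∫ x in Ioc a b, f (y + x * μ)) * h y = ∫ x in Ioc a b, f (y + x * μ) * h y :=
    fun y => (integral_mul_const _ _).symm
  have e2 : ∀ y, f y * (∫ x in Ioc a b, h (y + x * (-μ)))
      = ∫ x in Ioc a b, f y * h (y + x * (-μ)) :=
    fun y => (integral_const_mul _ _).symm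
  simp only [e1, e2]
  rw [← s1, ← s2]
  congr 1
  funext x
  rw [← integral_shift (fun y => f y * h (y + x * (-μ))) (x * μ)]
  congr 1
  funext y
  congr 2
  ring

theorem Tt_adj {f h : ℝ → ℝ} (hf : Nice1 f) (hh : Nice1 h) (θ μ : ℝ) :
    ∫ y, E2x542.Tt θ μ f y * h y = ∫ y, f y * E2x542.Tt θ (-μ) h y := by
  simp only [Tt_eq, sub_mul, mul_sub]
  rw [integral_sub (Nice1.integrable (Nice1.mul (fam_shift hf μ _ _).nice hh))
    (Nice1.integrable (Nice1.mul (fam_shift hf μ _ _).nice hh)),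
    integral_sub (Nice1.integrable (Nice1.mul hf (fam_shift hh (-μ) _ _).nice))
    (Nice1.integrable (Nice1.mul hf (fam_shift hh (-μ) _ _).nice)),
    adj_half hf hh, adj_half hf hh]

/-! ### duality: output bounds from input bounds -/

theorem dual {T T' : (ℝ → ℝ) → ℝ → ℝ} {l : ℤ} {K : ℝ} (hK : 0 ≤ K)
    (hT : ∀ f, Nice1 f → Nice1 (T f)) (hT' : ∀ f, Nice1 f → Nice1 (T' f))
    (hadj : ∀ f h, Nice1 f → Nice1 h → ∫ y, T f y * h y = ∫ y, f y * T' h y)
    (hin : ∀ h, Nice1 h → ∫ y, (T' (E2x542.Dl l h) y) ^ 2 ≤ K * ∫ y, (E2x542.Dl l h y) ^ 2)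
    {f : ℝ → ℝ} (hf : Nice1 f) :
    ∫ y, (E2x542.Dl l (T f) y) ^ 2 ≤ 4 * K * ∫ y, (f y) ^ 2 := by
  set u := E2x542.Dl l (T f) with hu
  have huN : Nice1 u := Nice1.Dl (hT f hf) l
  have hN0 : 0 ≤ ∫ y, (u y) ^ 2 := integral_nonneg fun y => sq_nonneg _
  have hF0 : 0 ≤ ∫ y, (f y) ^ 2 := integral_nonneg fun y => sq_nonneg _
  have e1 : ∫ y, (u y) ^ 2 = ∫ y, f y * T' (E2x542.Dl l u) y := by
    rw [← hadj f _ hf (Nice1.Dl huN l), ← Dl_symm (hT f hf) huN l]
    congr 1; funext y; ring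
  have h1 := cs_int hf (hT' _ (Nice1.Dl huN l))
  rw [← e1] at h1
  have h2 := hin u huN
  have h3 := Dl_bdd huN l
  have h4 : (∫ y, (u y) ^ 2) ^ 2 ≤ (4 * K * ∫ y, (f y) ^ 2) * ∫ y, (u y) ^ 2 := by
    calc (∫ y, (u y) ^ 2) ^ 2 ≤ (∫ y, (f y) ^ 2) * ∫ y, (T' (E2x542.Dl l u) y) ^ 2 := h1
      _ ≤ (∫ y, (f y) ^ 2) * (K * (4 * ∫ y, (u y) ^ 2)) := by
          refine mul_le_mul_of_nonneg_left (h2.trans ?_) hF0
          exact mul_le_mul_of_nonneg_left h3 hK
      _ = _ := by ring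
  rcases hN0.eq_or_lt with h | h
  · rw [← h]; positivity
  · have := h4
    rw [sq] at this
    exact le_of_mul_le_mul_right this h

/-! ### fine input -/

theorem int_cell_Ex {f : ℝ → ℝ} (hf : Nice1 f) {l m : ℤ} (hml : ∀ g, CC m g → CC l g) (n : ℤ) :
    ∫ x in {x | ix m x = n}, E2x542.Ex l f x = ∫ x in {x | ix m x = n}, f x := by
  have hm : MeasurableSet {x | ix m x = n} := measurable_ix m (measurableSet_singleton _)
  set g : ℝ → ℝ := {x | ix m x = n}.indicator (fun _ => 1) with hg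
  have hgc : CC m g := by
    intro x y h
    by_cases hx : ix m x = n
    · have hy : ix m y = n := h ▸ hx
      simp [hg, hx, hy]
    · have hy : ¬ ix m y = n := fun hy => hx (h.trans hy)
      simp [hg, hx, hy]
  have hgN : Nice1 g := by
    refine ⟨measurable_const.indicator hm, ⟨1, fun y => ?_⟩, (|(n : ℝ)| + 1) * 2 ^ m,
      fun y hy => ?_⟩
    · simp only [hg, Set.indicator]; split_ifs <;> simp
    · have hpos := two_zpow_pos m
      have : ¬ ix m y = n := by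
        intro h
        have h2 := (mem_cell m n y).2 h
        have h3 := abs_le.1 (le_refl |(n : ℝ)|)
        have h4 : |y| ≤ (|(n : ℝ)| + 1) * 2 ^ m := by
          rw [abs_le]
          constructor <;> nlinarith [h2.1, h2.2]
        linarith
      simp [hg, this]
  have h1 := Ex_symm hf hgN l
  rw [Ex_of_CC (hml g hgc)] at h1
  rw [← integral_indicator hm, ← integral_indicator hm]
  have e : ∀ φ : ℝ → ℝ, (fun y => φ y * g y) = {x | ix m x = n}.indicator φ := by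
    intro φ
    funext y
    by_cases h : ix m y = n
    · simp [hg, h]
    · simp [hg, h]
  rw [← e, ← e]
  exact h1

theorem cell_zero {f : ℝ → ℝ} (hf : Nice1 f) (l n : ℤ) :
    ∫ x in {x | ix (l + 1) x = n}, E2x542.Dl l f x = 0 := by
  unfold E2x542.Dl
  rw [integral_sub (Nice1.integrable (Nice1.Ex hf l)).integrableOn
    (Nice1.integrable (Nice1.Ex hf (l + 1))).integrableOn,
    int_cell_Ex hf (fun g hg => CC_mono hg) n, int_cell_Ex hf (fun g hg => hg) n, sub_self]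

theorem cell_zero' {f : ℝ → ℝ} (hf : Nice1 f) (l n : ℤ) :
    ∫ x in ((n : ℝ) * 2 ^ (l + 1))..((n + 1) * 2 ^ (l + 1)), E2x542.Dl l f x = 0 := by
  have hpos := two_zpow_pos (l + 1)
  rw [intervalIntegral.integral_of_le (by nlinarith), integral_Ioc_eq_integral_Ioo,
    ← integral_Ico_eq_integral_Ioo]
  have h : Set.Ico ((n : ℝ) * (2 : ℝ) ^ (l + 1)) ((n + 1) * (2 : ℝ) ^ (l + 1))
      = {x | ix (l + 1) x = n} := by
    ext x; exact mem_cell (l + 1) _ x
  rw [h]; exact cell_zero hf l n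

theorem prim_zero {f : ℝ → ℝ} (hf : Nice1 f) (l n : ℤ) :
    ∫ x in (0 : ℝ)..((n : ℝ) * 2 ^ (l + 1)), E2x542.Dl l f x = 0 := by
  have hii : ∀ a b : ℝ, IntervalIntegrable (E2x542.Dl l f) volume a b := fun a b =>
    (Nice1.integrable (Nice1.Dl hf l)).intervalIntegrable
  induction n using Int.induction_on with
  | zero => simp
  | succ k ih =>
    have h1 := cell_zero' hf l k
    have h2 := intervalIntegral.integral_add_adjacent_intervals
      (hii 0 (((k : ℤ) : ℝ) * 2 ^ (l + 1))) (hii _ ((((k : ℤ) : ℝ) + 1) * 2 ^ (l + 1)))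
    rw [ih, h1] at h2
    push_cast at h2 ⊢
    rw [← h2]; ring
  | pred k ih =>
    have h1 := cell_zero' hf l (-(k : ℤ) - 1)
    have h2 := intervalIntegral.integral_add_adjacent_intervals
      (hii 0 (((-(k : ℤ) - 1 : ℤ) : ℝ) * 2 ^ (l + 1)))
      (hii _ ((((-(k : ℤ) - 1 : ℤ) : ℝ) + 1) * 2 ^ (l + 1)))
    have e : ((((-(k : ℤ) - 1 : ℤ) : ℝ) + 1) * 2 ^ (l + 1)) = ((-(k : ℤ) : ℤ) : ℝ) * 2 ^ (l + 1) := by
      push_cast; ring
    rw [h1, e, ih] at h2
    linarith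

theorem prim_sq {f : ℝ → ℝ} (hf : Nice1 f) (l : ℤ) (a : ℝ) :
    (∫ x in (0 : ℝ)..a, E2x542.Dl l f x) ^ 2
      ≤ ((2 : ℝ) ^ (l + 1)) ^ 2 * E2x542.Ex (l + 1) (fun x => (E2x542.Dl l f x) ^ 2) a := by
  have hpos := two_zpow_pos (l + 1)
  have hD := Nice1.Dl hf l
  have hii : ∀ a b : ℝ, IntervalIntegrable (E2x542.Dl l f) volume a b := fun a b =>
    (Nice1.integrable hD).intervalIntegrable
  set n := ix (l + 1) a with hn
  have hna := (mem_cell (l + 1) n a).2 hn.symm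
  have h2 := intervalIntegral.integral_add_adjacent_intervals
    (hii 0 ((n : ℝ) * 2 ^ (l + 1))) (hii _ a)
  rw [prim_zero hf l n, zero_add] at h2
  rw [← h2, intervalIntegral.integral_of_le hna.1]
  have h3 := cs_Ioc hna.1 (Nice1.integrable hD).integrableOn
    (Nice1.integrable (Nice1.sq hD)).integrableOn
  refine h3.trans ?_
  have h4 : ∫ x in Ioc ((n : ℝ) * 2 ^ (l + 1)) a, (E2x542.Dl l f x) ^ 2
      ≤ ∫ x in {x | ix (l + 1) x = n}, (E2x542.Dl l f x) ^ 2 := by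
    have h5 : ∫ x in {x | ix (l + 1) x = n}, (E2x542.Dl l f x) ^ 2
        = ∫ x in Ioc ((n : ℝ) * 2 ^ (l + 1)) ((n + 1) * 2 ^ (l + 1)), (E2x542.Dl l f x) ^ 2 := by
      have h : {x | ix (l + 1) x = n}
          = Set.Ico ((n : ℝ) * (2 : ℝ) ^ (l + 1)) ((n + 1) * (2 : ℝ) ^ (l + 1)) := by
        ext x; exact (mem_cell (l + 1) _ x).symm
      rw [h, integral_Ico_eq_integral_Ioo, ← integral_Ioc_eq_integral_Ioo]
    rw [h5]
    refine setIntegral_mono_set (Nice1.integrable (Nice1.sq hD)).integrableOn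
      (Filter.Eventually.of_forall fun x => sq_nonneg _) ?_
    exact (Set.Ioc_subset_Ioc_right hna.2.le).eventuallyLE
  have h6 : 0 ≤ ∫ x in {x | ix (l + 1) x = n}, (E2x542.Dl l f x) ^ 2 :=
    integral_nonneg fun x => sq_nonneg _
  have h7 : 0 ≤ ∫ x in Ioc ((n : ℝ) * 2 ^ (l + 1)) a, (E2x542.Dl l f x) ^ 2 :=
    integral_nonneg fun x => sq_nonneg _
  rw [Ex_def, ← hn]
  calc (a - n * 2 ^ (l + 1)) * ∫ x in Ioc ((n : ℝ) * 2 ^ (l + 1)) a, (E2x542.Dl l f x) ^ 2
      ≤ (2 : ℝ) ^ (l + 1) * ∫ x in {x | ix (l + 1) x = n}, (E2x542.Dl l f x) ^ 2 := by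
        refine mul_le_mul ?_ h4 h7 hpos.le
        nlinarith [hna.2]
    _ = _ := by field_simp

theorem Tt_prim (θ : ℝ) {μ : ℝ} (hμ : μ ≠ 0) {g : ℝ → ℝ} (hg : Nice1 g) (y : ℝ) :
    E2x542.Tt θ μ g y = μ⁻¹ * (2 * (∫ x in (0 : ℝ)..(y + (1 / 2 - θ) * μ), g x)
      - (∫ x in (0 : ℝ)..(y + (-θ) * μ), g x) - ∫ x in (0 : ℝ)..(y + (1 - θ) * μ), g x) := by
  have hii : ∀ a b : ℝ, IntervalIntegrable g volume a b := fun a b =>
    (Nice1.integrable hg).intervalIntegrable
  have h1 : ∀ a b : ℝ, ∫ x in a..b, g (y + x * μ)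
      = μ⁻¹ * ((∫ x in (0 : ℝ)..(y + b * μ), g x) - ∫ x in (0 : ℝ)..(y + a * μ), g x) := by
    intro a b
    have h2 := intervalIntegral.integral_comp_add_mul (a := a) (b := b) g hμ y
    have h3 : ∀ x, g (y + x * μ) = g (y + μ * x) := fun x => by rw [mul_comm]
    simp only [h3]
    rw [h2, smul_eq_mul, intervalIntegral.integral_interval_sub_left (hii _ _) (hii _ _)]
    congr 2 <;> ring
  unfold E2x542.Tt
  rw [h1, h1]
  ring

theorem Tt_fine {f : ℝ → ℝ} (hf : Nice1 f) (l : ℤ) (θ : ℝ) {μ : ℝ} (hμ : μ ≠ 0) :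
    ∫ y, (E2x542.Tt θ μ (E2x542.Dl l f) y) ^ 2
      ≤ 64 * ((2 : ℝ) ^ l / |μ|) ^ 2 * ∫ y, (E2x542.Dl l f y) ^ 2 := by
  have hD := Nice1.Dl hf l
  set L : ℝ := (2 : ℝ) ^ (l + 1) with hL
  set E : ℝ → ℝ := E2x542.Ex (l + 1) (fun x => (E2x542.Dl l f x) ^ 2) with hE
  have hEN : Nice1 E := Nice1.Ex (Nice1.sq hD) (l + 1)
  have hEi : ∫ y, E y = ∫ y, (E2x542.Dl l f y) ^ 2 := int_Ex (Nice1.sq hD) (l + 1)
  have hpt : ∀ y, (E2x542.Tt θ μ (E2x542.Dl l f) y) ^ 2
      ≤ (μ⁻¹) ^ 2 * L ^ 2 * (8 * E (y + (1 / 2 - θ) * μ) + 4 * E (y + (-θ) * μ)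
        + 4 * E (y + (1 - θ) * μ)) := by
    intro y
    rw [Tt_prim θ hμ hD, mul_pow, mul_assoc]
    refine mul_le_mul_of_nonneg_left ?_ (sq_nonneg _)
    have p1 := prim_sq hf l (y + (1 / 2 - θ) * μ)
    have p2 := prim_sq hf l (y + (-θ) * μ)
    have p3 := prim_sq hf l (y + (1 - θ) * μ)
    rw [← hL, ← hE] at p1 p2 p3
    set P1 := ∫ x in (0 : ℝ)..(y + (1 / 2 - θ) * μ), E2x542.Dl l f x
    set P2 := ∫ x in (0 : ℝ)..(y + (-θ) * μ), E2x542.Dl l f x
    set P3 := ∫ x in (0 : ℝ)..(y + (1 - θ) * μ), E2x542.Dl l f x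
    have : (2 * P1 - P2 - P3) ^ 2 ≤ 8 * P1 ^ 2 + 4 * P2 ^ 2 + 4 * P3 ^ 2 := by
      nlinarith [sq_nonneg (2 * P1 + P2 + P3), sq_nonneg (P2 - P3)]
    nlinarith
  have i1 : Integrable fun y => E (y + (1 / 2 - θ) * μ) := Nice1.integrable (Nice1.shift hEN _)
  have i2 : Integrable fun y => E (y + (-θ) * μ) := Nice1.integrable (Nice1.shift hEN _)
  have i3 : Integrable fun y => E (y + (1 - θ) * μ) := Nice1.integrable (Nice1.shift hEN _)
  have hint : ∫ y, (μ⁻¹) ^ 2 * L ^ 2 * (8 * E (y + (1 / 2 - θ) * μ) + 4 * E (y + (-θ) * μ)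
        + 4 * E (y + (1 - θ) * μ)) = (μ⁻¹) ^ 2 * L ^ 2 * (16 * ∫ y, E y) := by
    rw [integral_const_mul]
    have j1 : ∫ y, (8 * E (y + (1 / 2 - θ) * μ) + 4 * E (y + (-θ) * μ)
        + 4 * E (y + (1 - θ) * μ)) = (∫ y, (8 * E (y + (1 / 2 - θ) * μ) + 4 * E (y + (-θ) * μ)))
        + ∫ y, 4 * E (y + (1 - θ) * μ) :=
      integral_add ((i1.const_mul 8).add (i2.const_mul 4)) (i3.const_mul 4)
    have j2 : ∫ y, (8 * E (y + (1 / 2 - θ) * μ) + 4 * E (y + (-θ) * μ))
        = (∫ y, 8 * E (y + (1 / 2 - θ) * μ)) + ∫ y, 4 * E (y + (-θ) * μ) :=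
      integral_add (i1.const_mul 8) (i2.const_mul 4)
    rw [j1, j2, integral_const_mul, integral_const_mul, integral_const_mul,
      integral_shift E, integral_shift E, integral_shift E]
    ring
  have hmono := integral_mono (Nice1.integrable (Nice1.sq (Nice1.Tt hD θ μ)))
    ((((i1.const_mul 8).add (i2.const_mul 4)).add (i3.const_mul 4)).const_mul
      ((μ⁻¹) ^ 2 * L ^ 2)) hpt
  refine hmono.trans ?_
  have e : ∫ y, (fun y => (μ⁻¹) ^ 2 * L ^ 2 * (8 * E (y + (1 / 2 - θ) * μ) + 4 * E (y + (-θ) * μ)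
        + 4 * E (y + (1 - θ) * μ))) y = (μ⁻¹) ^ 2 * L ^ 2 * (16 * ∫ y, E y) := hint
  refine (le_of_eq e).trans ?_
  rw [hEi, hL, zpow_add_one₀ two_ne_zero]
  apply le_of_eq
  have hμ2 : |μ| ^ 2 = μ ^ 2 := sq_abs μ
  rw [div_pow, hμ2]
  field_simp
  ring

/-! ### differences in the parameter -/

/-- the two parameter operator on a one-variable profile -/
theorem prof (φ : ℝ → ℝ) (hφ : ∀ a b : ℝ, IntervalIntegrable φ volume a b) (θ : ℝ) {μ μ' : ℝ}
    (hμ : μ ≠ 0) (hμ' : μ' ≠ 0) :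
    ((∫ x in (-θ)..(1 / 2 - θ), φ (x * μ)) - ∫ x in (1 / 2 - θ)..(1 - θ), φ (x * μ))
      - ((∫ x in (-θ)..(1 / 2 - θ), φ (x * μ')) - ∫ x in (1 / 2 - θ)..(1 - θ), φ (x * μ'))
      = (1 - μ / μ') * ((∫ x in (-θ)..(1 / 2 - θ), φ (x * μ))
          - ∫ x in (1 / 2 - θ)..(1 - θ), φ (x * μ))
        + μ'⁻¹ * (2 * (∫ v in ((1 / 2 - θ) * μ')..((1 / 2 - θ) * μ), φ v)
          - (∫ v in ((-θ) * μ')..((-θ) * μ), φ v)
          - ∫ v in ((1 - θ) * μ')..((1 - θ) * μ), φ v) := by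
  have h1 : ∀ (a b : ℝ) {ν : ℝ}, ν ≠ 0 → ∫ x in a..b, φ (x * ν)
      = ν⁻¹ * ((∫ x in (0 : ℝ)..(b * ν), φ x) - ∫ x in (0 : ℝ)..(a * ν), φ x) := by
    intro a b ν hν
    rw [intervalIntegral.integral_comp_mul_right φ hν, smul_eq_mul,
      intervalIntegral.integral_interval_sub_left (hφ _ _) (hφ _ _)]
  have h2 : ∀ a b : ℝ, ∫ x in a..b, φ x
      = (∫ x in (0 : ℝ)..b, φ x) - ∫ x in (0 : ℝ)..a, φ x := fun a b =>
    (intervalIntegral.integral_interval_sub_left (hφ _ _) (hφ _ _)).symm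
  rw [h1 _ _ hμ, h1 _ _ hμ, h1 _ _ hμ', h1 _ _ hμ', h2 ((1 / 2 - θ) * μ'), h2 ((-θ) * μ'),
    h2 ((1 - θ) * μ')]
  field_simp
  ring

/-- superposition over an unordered interval -/
theorem mink' {h : ℝ → ℝ → ℝ} {a b : ℝ} (H : Fam h (min a b) (max a b)) {B : ℝ}
    (hB : ∀ x, min a b ≤ x → x ≤ max a b → ∫ y, (h x y) ^ 2 ≤ B) :
    Nice1 (fun y => ∫ x in a..b, h x y) ∧
      ∫ y, (∫ x in a..b, h x y) ^ 2 ≤ (b - a) ^ 2 * B := by
  have h1 := mink min_le_max H hB
  have h2 := H.nice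
  rcases le_total a b with hab | hab
  · rw [min_eq_left hab, max_eq_right hab] at h1 h2
    have e : ∀ y, ∫ x in a..b, h x y = ∫ x in Ioc a b, h x y := fun y => ioc_eq _ hab
    simp only [e]
    exact ⟨h2, h1⟩
  · rw [min_eq_right hab, max_eq_left hab] at h1 h2
    have e : ∀ y, ∫ x in a..b, h x y = (-1) * ∫ x in Ioc b a, h x y := fun y => by
      rw [intervalIntegral.integral_symm, ioc_eq _ hab]; ring
    simp only [e]
    refine ⟨Nice1.smul h2 (-1), ?_⟩
    have e2 : ∀ y, ((-1) * ∫ x in Ioc b a, h x y) ^ 2 = (∫ x in Ioc b a, h x y) ^ 2 :=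
      fun y => by ring
    simp only [e2]
    calc _ ≤ (a - b) ^ 2 * B := h1
      _ = (b - a) ^ 2 * B := by ring

/-- four terms -/
theorem four {A B C D : ℝ → ℝ} (hA : Nice1 A) (hB : Nice1 B) (hC : Nice1 C) (hD : Nice1 D) :
    ∫ y, (A y + (B y - C y - D y)) ^ 2
      ≤ 4 * ((∫ y, (A y) ^ 2) + (∫ y, (B y) ^ 2) + (∫ y, (C y) ^ 2) + ∫ y, (D y) ^ 2) := by
  have iA := Nice1.integrable (Nice1.sq hA)
  have iB := Nice1.integrable (Nice1.sq hB)
  have iC := Nice1.integrable (Nice1.sq hC)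
  have iD := Nice1.integrable (Nice1.sq hD)
  have h1 : ∫ y, (A y + (B y - C y - D y)) ^ 2
      ≤ ∫ y, 4 * ((A y) ^ 2 + (B y) ^ 2 + (C y) ^ 2 + (D y) ^ 2) := by
    refine integral_mono (Nice1.integrable (Nice1.sq (Nice1.add hA (Nice1.sub (Nice1.sub hB hC) hD))))
      ((((iA.add iB).add iC).add iD).const_mul 4) ?_
    intro y
    simp only
    nlinarith [sq_nonneg (A y - B y), sq_nonneg (A y + C y), sq_nonneg (A y + D y),
      sq_nonneg (B y + C y), sq_nonneg (B y + D y), sq_nonneg (C y - D y)]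
  refine h1.trans (le_of_eq ?_)
  have j1 : ∫ y, ((A y) ^ 2 + (B y) ^ 2 + (C y) ^ 2 + (D y) ^ 2)
      = (∫ y, ((A y) ^ 2 + (B y) ^ 2 + (C y) ^ 2)) + ∫ y, (D y) ^ 2 :=
    integral_add ((iA.add iB).add iC) iD
  have j2 : ∫ y, ((A y) ^ 2 + (B y) ^ 2 + (C y) ^ 2)
      = (∫ y, ((A y) ^ 2 + (B y) ^ 2)) + ∫ y, (C y) ^ 2 :=
    integral_add (iA.add iB) iC
  have j3 : ∫ y, ((A y) ^ 2 + (B y) ^ 2) = (∫ y, (A y) ^ 2) + ∫ y, (B y) ^ 2 :=
    integral_add iA iB
  rw [integral_const_mul, j1, j2, j3]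

/-- abstract difference bound: `h v y` is either `f (y + v)` or `f (y + v) - f y` -/
theorem diff_core {h : ℝ → ℝ → ℝ} (hF : ∀ a b, Fam h a b) {θ μ μ' : ℝ} (h0 : 0 ≤ θ) (h1 : θ < 1)
    (hμ : μ ≠ 0) (hd : |μ' - μ| ≤ |μ| / 2) {X X0 : ℝ}
    (hX : ∀ v, |v| ≤ 3 / 2 * |μ| → ∫ y, (h v y) ^ 2 ≤ X) {T T' : ℝ → ℝ}
    (hT : Nice1 T)
    (eT : ∀ y, T y = (∫ x in (-θ)..(1 / 2 - θ), h (x * μ) y)
      - ∫ x in (1 / 2 - θ)..(1 - θ), h (x * μ) y)
    (eT' : ∀ y, T' y = (∫ x in (-θ)..(1 / 2 - θ), h (x * μ') y)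
      - ∫ x in (1 / 2 - θ)..(1 - θ), h (x * μ') y)
    (hX0 : ∫ y, (T y) ^ 2 ≤ X0) :
    ∫ y, (T y - T' y) ^ 2 ≤ 16 * (|μ' - μ| / |μ|) ^ 2 * (X0 + 2 * X) := by
  have hμa : 0 < |μ| := abs_pos.2 hμ
  have hμ'2 : |μ| / 2 ≤ |μ'| := by
    have := abs_sub_abs_le_abs_sub μ μ'
    rw [abs_sub_comm] at this
    linarith
  have hμ'u : |μ'| ≤ 3 / 2 * |μ| := by
    have := abs_sub_abs_le_abs_sub μ' μ
    linarith
  have hμ'0 : 0 < |μ'| := by linarith
  have hμ' : μ' ≠ 0 := abs_pos.1 hμ'0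
  have hX00 : 0 ≤ X0 := (integral_nonneg fun y => sq_nonneg _).trans hX0
  have hXn : 0 ≤ X := (integral_nonneg fun y => sq_nonneg _).trans
    (hX 0 (by simp))
  -- the three small averages
  have hS : ∀ c : ℝ, |c| ≤ 1 → Nice1 (fun y => ∫ v in (c * μ')..(c * μ), h v y) ∧
      ∫ y, (∫ v in (c * μ')..(c * μ), h v y) ^ 2 ≤ (c * μ - c * μ') ^ 2 * X := by
    intro c hc
    refine mink' (hF _ _) fun v hv1 hv2 => hX v ?_
    have a1 : |c * μ'| ≤ 3 / 2 * |μ| := by
      rw [abs_mul]; nlinarith [abs_nonneg c, abs_nonneg μ']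
    have a2 : |c * μ| ≤ 3 / 2 * |μ| := by
      rw [abs_mul]; nlinarith [abs_nonneg c, abs_nonneg μ]
    have b1 := abs_le.1 a1
    have b2 := abs_le.1 a2
    rw [abs_le]
    constructor
    · exact (le_min b1.1 b2.1).trans hv1
    · exact hv2.trans (max_le b1.2 b2.2)
  obtain ⟨n1, s1⟩ := hS (1 / 2 - θ) (abs_le.2 ⟨by linarith, by linarith⟩)
  obtain ⟨n2, s2⟩ := hS (-θ) (abs_le.2 ⟨by linarith, by linarith⟩)
  obtain ⟨n3, s3⟩ := hS (1 - θ) (abs_le.2 ⟨by linarith, by linarith⟩)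
  have hslice : ∀ y a b, IntervalIntegrable (fun v => h v y) volume a b := by
    intro y a b
    rw [intervalIntegrable_iff]
    exact (hF (min a b) (max a b)).slice y
  have e : ∀ y, T y - T' y = (1 - μ / μ') * T y
      + (μ'⁻¹ * 2 * (∫ v in ((1 / 2 - θ) * μ')..((1 / 2 - θ) * μ), h v y)
        - μ'⁻¹ * (∫ v in ((-θ) * μ')..((-θ) * μ), h v y)
        - μ'⁻¹ * ∫ v in ((1 - θ) * μ')..((1 - θ) * μ), h v y) := by
    intro y
    have := prof (fun v => h v y) (hslice y) θ hμ hμ'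
    rw [eT, eT', this]
    ring
  simp only [e]
  refine (four (Nice1.smul hT _) (Nice1.smul n1 _) (Nice1.smul n2 _) (Nice1.smul n3 _)).trans ?_
  simp only [mul_pow]
  rw [integral_const_mul, integral_const_mul, integral_const_mul, integral_const_mul]
  set r := |μ' - μ| with hr
  have hr2 : (μ - μ') ^ 2 = r ^ 2 := by rw [hr, sq_abs]; ring
  have hμ's : |μ'| ^ 2 = μ' ^ 2 := sq_abs μ'
  have k1 : (1 - μ / μ') ^ 2 = (r / |μ'|) ^ 2 := by
    rw [div_pow, hμ's, ← hr2]; field_simp; ring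
  have k2 : (μ'⁻¹) ^ 2 * r ^ 2 = (r / |μ'|) ^ 2 := by
    rw [div_pow, hμ's, ← hr2]; field_simp
  have k3 : (r / |μ'|) ^ 2 ≤ 4 * (r / |μ|) ^ 2 := by
    have hr0 : 0 ≤ r := abs_nonneg _
    have : r / |μ'| ≤ 2 * (r / |μ|) := by
      rw [div_le_iff₀ hμ'0]
      have e3 : 2 * (r / |μ|) * |μ'| = r * (2 * |μ'| / |μ|) := by ring
      rw [e3]
      have : 1 ≤ 2 * |μ'| / |μ| := by rw [le_div_iff₀ hμa]; linarith
      nlinarith
    calc (r / |μ'|) ^ 2 ≤ (2 * (r / |μ|)) ^ 2 := pow_le_pow_left₀ (by positivity) this 2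
      _ = _ := by ring
  have t1 : ((1 / 2 - θ) * μ - (1 / 2 - θ) * μ') ^ 2 * X ≤ (1 / 4) * (r ^ 2 * X) := by
    have : ((1 / 2 - θ) * μ - (1 / 2 - θ) * μ') ^ 2 = (1 / 2 - θ) ^ 2 * r ^ 2 := by
      rw [← hr2]; ring
    rw [this, mul_assoc]
    exact mul_le_mul_of_nonneg_right (by nlinarith) (by positivity)
  have t2 : ((-θ) * μ - (-θ) * μ') ^ 2 * X = θ ^ 2 * (r ^ 2 * X) := by
    rw [← hr2]; ring
  have t3 : ((1 - θ) * μ - (1 - θ) * μ') ^ 2 * X = (1 - θ) ^ 2 * (r ^ 2 * X) := by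
    rw [← hr2]; ring
  rw [t2] at s2
  rw [t3] at s3
  have s1' := s1.trans t1
  have hrX : 0 ≤ r ^ 2 * X := by positivity
  have hθ2 : θ ^ 2 + (1 - θ) ^ 2 ≤ 1 := by nlinarith
  have hsum : (1 - μ / μ') ^ 2 * (∫ y, (T y) ^ 2)
      + (μ'⁻¹) ^ 2 * 2 ^ 2 * (∫ y, (∫ v in ((1 / 2 - θ) * μ')..((1 / 2 - θ) * μ), h v y) ^ 2)
      + (μ'⁻¹) ^ 2 * (∫ y, (∫ v in ((-θ) * μ')..((-θ) * μ), h v y) ^ 2)
      + (μ'⁻¹) ^ 2 * (∫ y, (∫ v in ((1 - θ) * μ')..((1 - θ) * μ), h v y) ^ 2)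
      ≤ (r / |μ'|) ^ 2 * (X0 + 2 * X) := by
    have q0 : 0 ≤ (μ'⁻¹) ^ 2 := sq_nonneg _
    have u1 : (1 - μ / μ') ^ 2 * (∫ y, (T y) ^ 2) ≤ (r / |μ'|) ^ 2 * X0 := by
      rw [k1]; exact mul_le_mul_of_nonneg_left hX0 (sq_nonneg _)
    have u2 := mul_le_mul_of_nonneg_left s1' q0
    have u3 := mul_le_mul_of_nonneg_left s2 q0
    have u4 := mul_le_mul_of_nonneg_left s3 q0
    set Z : ℝ := (r / |μ'|) ^ 2 * X with hZ
    have u6 : 0 ≤ Z := by positivity
    have v2 : (μ'⁻¹) ^ 2 * (1 / 4 * (r ^ 2 * X)) = 1 / 4 * Z := by rw [hZ, ← k2]; ring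
    have v3 : (μ'⁻¹) ^ 2 * (θ ^ 2 * (r ^ 2 * X)) = θ ^ 2 * Z := by rw [hZ, ← k2]; ring
    have v4 : (μ'⁻¹) ^ 2 * ((1 - θ) ^ 2 * (r ^ 2 * X)) = (1 - θ) ^ 2 * Z := by
      rw [hZ, ← k2]; ring
    rw [v2] at u2
    rw [v3] at u3
    rw [v4] at u4
    have v5 : θ ^ 2 * Z + (1 - θ) ^ 2 * Z ≤ Z := by
      have := mul_le_mul_of_nonneg_right hθ2 u6
      linarith
    have v6 : (r / |μ'|) ^ 2 * (X0 + 2 * X) = (r / |μ'|) ^ 2 * X0 + 2 * Z := by
      rw [hZ]; ring
    rw [v6]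
    linarith
  have hfin : (r / |μ'|) ^ 2 * (X0 + 2 * X) ≤ 4 * (r / |μ|) ^ 2 * (X0 + 2 * X) :=
    mul_le_mul_of_nonneg_right k3 (by positivity)
  linarith

theorem fam1 {f : ℝ → ℝ} (hf : Nice1 f) (a b : ℝ) : Fam (fun v y => f (y + v)) a b := by
  have := fam_shift hf 1 a b
  simpa using this

theorem fam2 {f : ℝ → ℝ} (hf : Nice1 f) (a b : ℝ) : Fam (fun v y => f (y + v) - f y) a b := by
  have := fam_diff hf 1 a b
  simpa using this

theorem Tt_diff {f : ℝ → ℝ} (hf : Nice1 f) {θ μ μ' : ℝ} (h0 : 0 ≤ θ) (h1 : θ < 1)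
    (hμ : μ ≠ 0) (hd : |μ' - μ| ≤ |μ| / 2) :
    ∫ y, (E2x542.Tt θ μ f y - E2x542.Tt θ μ' f y) ^ 2
      ≤ 48 * (|μ' - μ| / |μ|) ^ 2 * ∫ y, (f y) ^ 2 := by
  have h := diff_core (h := fun v y => f (y + v)) (fam1 hf) h0 h1 hμ hd
    (X := ∫ y, (f y) ^ 2) (X0 := ∫ y, (f y) ^ 2)
    (fun v _ => (integral_shift (fun y => (f y) ^ 2) v).le) (Nice1.Tt hf θ μ)
    (T' := E2x542.Tt θ μ' f) (fun y => rfl) (fun y => rfl) (Tt_triv hf θ μ)
  refine h.trans (le_of_eq ?_)
  ring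

theorem Tt_diff_coarse {g : ℝ → ℝ} (hg : Nice1 g) {l : ℤ} (hc : CC l g) {θ μ μ' : ℝ}
    (h0 : 0 ≤ θ) (h1 : θ < 1) (hμ : μ ≠ 0) (hd : |μ' - μ| ≤ |μ| / 2) :
    ∫ y, (E2x542.Tt θ μ g y - E2x542.Tt θ μ' g y) ^ 2
      ≤ 256 * (|μ' - μ| / |μ|) ^ 2 * (|μ| / 2 ^ l) * ∫ y, (g y) ^ 2 := by
  have hpos := two_zpow_pos l
  have hI : 0 ≤ ∫ y, (g y) ^ 2 := integral_nonneg fun y => sq_nonneg _
  have eT : ∀ ν y, E2x542.Tt θ ν g y = (∫ x in (-θ)..(1 / 2 - θ), (g (y + x * ν) - g y))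
      - ∫ x in (1 / 2 - θ)..(1 - θ), (g (y + x * ν) - g y) := by
    intro ν y
    rw [Tt_eq' hg, ioc_eq _ (by linarith), ioc_eq _ (by linarith)]
  have h := diff_core (h := fun v y => g (y + v) - g y) (fam2 hg) h0 h1 hμ hd
    (X := 6 * (|μ| / 2 ^ l) * ∫ y, (g y) ^ 2) (X0 := 4 * (|μ| / 2 ^ l) * ∫ y, (g y) ^ 2)
    (fun v hv => ?_) (Nice1.Tt hg θ μ)
    (T' := E2x542.Tt θ μ' g) (eT μ) (eT μ') (Tt_coarse hg hc h0 h1 μ)
  · refine h.trans (le_of_eq ?_)
    ring
  · refine (shift_sq hg hc v).trans ?_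
    refine mul_le_mul_of_nonneg_right ?_ hI
    have : |v| / 2 ^ l ≤ (3 / 2 * |μ|) / 2 ^ l := div_le_div_of_nonneg_right hv hpos.le
    calc 4 * (|v| / 2 ^ l) ≤ 4 * ((3 / 2 * |μ|) / 2 ^ l) := by linarith
      _ = 6 * (|μ| / 2 ^ l) := by ring

/-! ### the leaf -/

theorem tb : TB := by
  refine ⟨1024, ?_⟩
  intro θ μ l f h0 h1 hμ hf
  have hpos := two_zpow_pos l
  have hD := Nice1.Dl hf l
  have hI : 0 ≤ ∫ y, (f y) ^ 2 := integral_nonneg fun y => sq_nonneg _
  have hJ : 0 ≤ ∫ y, (E2x542.Dl l f y) ^ 2 := integral_nonneg fun y => sq_nonneg _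
  have hq : 0 ≤ |μ| / 2 ^ l := by positivity
  have hq2 : 0 ≤ ((2 : ℝ) ^ l / |μ|) ^ 2 := by positivity
  have hμn : -μ ≠ 0 := neg_ne_zero.2 hμ
  have hadj : ∀ ν : ℝ, ∀ f h, Nice1 f → Nice1 h →
      ∫ y, E2x542.Tt θ ν f y * h y = ∫ y, f y * E2x542.Tt θ (-ν) h y :=
    fun ν f h hf hh => Tt_adj hf hh θ ν
  refine ⟨Nice1.Tt hf θ μ, ?_, ?_, ?_, ?_, ?_⟩
  · refine (Tt_coarse hD (CC_Dl l f) h0 h1 μ).trans ?_
    have : 0 ≤ (|μ| / 2 ^ l) * ∫ y, (E2x542.Dl l f y) ^ 2 := by positivity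
    nlinarith
  · refine (Tt_fine hf l θ hμ).trans ?_
    have : 0 ≤ ((2 : ℝ) ^ l / |μ|) ^ 2 * ∫ y, (E2x542.Dl l f y) ^ 2 := by positivity
    nlinarith
  · have h := dual (T := E2x542.Tt θ μ) (T' := E2x542.Tt θ (-μ)) (l := l)
      (K := 4 * (|μ| / 2 ^ l)) (by positivity) (fun f hf => Nice1.Tt hf θ μ)
      (fun f hf => Nice1.Tt hf θ (-μ)) (hadj μ)
      (fun h hh => by
        have := Tt_coarse (Nice1.Dl hh l) (CC_Dl l h) h0 h1 (-μ)
        rwa [abs_neg] at this) hf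
    refine h.trans ?_
    have : 0 ≤ (|μ| / 2 ^ l) * ∫ y, (f y) ^ 2 := by positivity
    nlinarith
  · have h := dual (T := E2x542.Tt θ μ) (T' := E2x542.Tt θ (-μ)) (l := l)
      (K := 64 * ((2 : ℝ) ^ l / |μ|) ^ 2) (by positivity) (fun f hf => Nice1.Tt hf θ μ)
      (fun f hf => Nice1.Tt hf θ (-μ)) (hadj μ)
      (fun h hh => by
        have := Tt_fine hh l θ hμn
        rwa [abs_neg] at this) hf
    refine h.trans ?_
    have : 0 ≤ ((2 : ℝ) ^ l / |μ|) ^ 2 * ∫ y, (f y) ^ 2 := by positivity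
    nlinarith
  · intro μ' hd
    have hr : 0 ≤ (|μ' - μ| / |μ|) ^ 2 := sq_nonneg _
    refine ⟨?_, fun _ => ?_, fun _ => ?_⟩
    · refine (Tt_diff hf h0 h1 hμ hd).trans ?_
      have : 0 ≤ (|μ' - μ| / |μ|) ^ 2 * ∫ y, (f y) ^ 2 := by positivity
      nlinarith
    · refine (Tt_diff_coarse hD (CC_Dl l f) h0 h1 hμ hd).trans ?_
      have : 0 ≤ (|μ' - μ| / |μ|) ^ 2 * (|μ| / 2 ^ l) * ∫ y, (E2x542.Dl l f y) ^ 2 := by
        positivity
      nlinarith
    · have h := dual (T := fun f x => E2x542.Tt θ μ f x - E2x542.Tt θ μ' f x)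
        (T' := fun f x => E2x542.Tt θ (-μ) f x - E2x542.Tt θ (-μ') f x) (l := l)
        (K := 256 * (|μ' - μ| / |μ|) ^ 2 * (|μ| / 2 ^ l)) (by positivity)
        (fun f hf => Nice1.sub (Nice1.Tt hf θ μ) (Nice1.Tt hf θ μ'))
        (fun f hf => Nice1.sub (Nice1.Tt hf θ (-μ)) (Nice1.Tt hf θ (-μ')))
        (fun f h hf hh => by
          simp only [sub_mul, mul_sub]
          rw [integral_sub (Nice1.integrable (Nice1.mul (Nice1.Tt hf θ μ) hh))
            (Nice1.integrable (Nice1.mul (Nice1.Tt hf θ μ') hh)),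
            integral_sub (Nice1.integrable (Nice1.mul hf (Nice1.Tt hh θ (-μ))))
            (Nice1.integrable (Nice1.mul hf (Nice1.Tt hh θ (-μ')))), hadj μ f h hf hh,
            hadj μ' f h hf hh])
        (fun h hh => by
          have hd' : |-μ' - -μ| ≤ |-μ| / 2 := by
            rw [abs_neg, show -μ' - -μ = -(μ' - μ) by ring, abs_neg]; exact hd
          have := Tt_diff_coarse (Nice1.Dl hh l) (CC_Dl l h) h0 h1 hμn hd'
          rwa [abs_neg, show -μ' - -μ = -(μ' - μ) by ring, abs_neg] at this) hf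
      refine h.trans (le_of_eq ?_)
      ring

end Crest.Agent.R087.TB2x297
end
end

-- ▼ part R087/EDGE_621

/-!
# Row 87, heart (E2): leaves EDGE and FLAT

Pair sums: `P = ∑ a_i a_i' 1[|b_i - b_i'| ≤ 2] ≤ 7 ∫ N^2`, `N = ∑ a_i win (y - b_i)`.
EDGE: group by `q = ⌊M_i / 2^k⌋`, Cauchy-Schwarz with weights `|q|^{-3/2}`, then sum over `k` pairwise.
FLAT: a window of length `L` is a sum of `~ L` unit windows, Cauchy-Schwarz with weights `|e|^{-3/2}`.
-/

set_option autoImplicit false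

noncomputable section

open MeasureTheory

namespace Crest.Agent.R087.EDGEx621

open Crest.Agent.R087.E2x542

/-! ### windows -/

theorem win_add_eq (c : ℝ) : (fun y : ℝ => win (y + c)) =
    Set.indicator (Set.Icc (-(1 / 2) - c) (1 / 2 - c)) (fun _ => (1 : ℝ)) := by
  funext y
  unfold win
  by_cases h : |y + c| ≤ 1 / 2
  · rw [if_pos h, Set.indicator_of_mem]
    obtain ⟨h1, h2⟩ := abs_le.1 h
    constructor <;> linarith
  · rw [if_neg h, Set.indicator_of_notMem]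
    rintro ⟨h1, h2⟩
    exact h (abs_le.2 ⟨by linarith, by linarith⟩)

theorem win_nonneg (u : ℝ) : 0 ≤ win u := by
  unfold win; split_ifs <;> norm_num

theorem win_le_one (u : ℝ) : win u ≤ 1 := by
  unfold win; split_ifs <;> norm_num

theorem memLp_win (c : ℝ) : MemLp (fun y : ℝ => win (y + c)) 2 volume := by
  rw [win_add_eq]
  exact memLp_indicator_const 2 measurableSet_Icc 1 (Or.inr (by rw [Real.volume_Icc]; simp))

theorem integrable_win (c : ℝ) : Integrable (fun y : ℝ => win (y + c)) := by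
  rw [win_add_eq]
  exact (integrable_indicator_iff measurableSet_Icc).2
    (integrableOn_const (by rw [Real.volume_Icc]; simp))

theorem integral_win (c : ℝ) : ∫ y : ℝ, win (y + c) = 1 := by
  have : ∫ y : ℝ, win (y + c) = ∫ y : ℝ, win y := by
    exact MeasureTheory.integral_add_right_eq_self (fun y => win y) c
  rw [this]
  have h0 := win_add_eq 0
  simp only [add_zero] at h0
  have : (fun y : ℝ => win y) = Set.indicator (Set.Icc (-(1 / 2) - 0) (1 / 2 - 0)) (fun _ => (1 : ℝ)) := h0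
  rw [this, integral_indicator measurableSet_Icc, setIntegral_const]
  simp [Real.volume_real_Icc]
  norm_num

theorem integrable_win_mul (c c' : ℝ) : Integrable (fun y : ℝ => win (y + c) * win (y + c')) :=
  (memLp_win c).integrable_mul (memLp_win c')

/-- overlap of two unit windows -/
theorem ov_le (c c' : ℝ) : ∫ y : ℝ, win (y + c) * win (y + c') ≤ if |c - c'| ≤ 1 then 1 else 0 := by
  have h : ∀ y : ℝ, win (y + c) * win (y + c') ≤ (if |c - c'| ≤ 1 then 1 else 0) * win (y + c) := by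
    intro y
    by_cases hc : |c - c'| ≤ 1
    · rw [if_pos hc, one_mul]
      exact mul_le_of_le_one_right (win_nonneg _) (win_le_one _)
    · rw [if_neg hc, zero_mul]
      unfold win
      by_cases h1 : |y + c| ≤ 1 / 2
      · by_cases h2 : |y + c'| ≤ 1 / 2
        · exfalso
          apply hc
          rw [abs_le] at h1 h2 ⊢
          constructor <;> linarith [h1.1, h1.2, h2.1, h2.2]
        · rw [if_neg h2, mul_zero]
      · rw [if_neg h1, zero_mul]
  calc ∫ y : ℝ, win (y + c) * win (y + c')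
      ≤ ∫ y : ℝ, (if |c - c'| ≤ 1 then 1 else 0) * win (y + c) :=
        integral_mono (integrable_win_mul c c') ((integrable_win c).const_mul _) h
    _ = if |c - c'| ≤ 1 then 1 else 0 := by
        rw [integral_const_mul, integral_win, mul_one]

/-- every point is covered by one of the integer translates of the window -/
theorem one_le_sum_win (v : ℝ) (E : ℤ) (h : |v| + 1 / 2 ≤ E) :
    1 ≤ ∑ e ∈ Finset.Icc (-E) E, win (v + e) := by
  have h1 : |v - round v| ≤ 1 / 2 := abs_sub_round v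
  have h2 : (-(round v : ℤ)) ∈ Finset.Icc (-E) E := by
    have h3 : |(round v : ℝ)| ≤ |v| + 1 / 2 := by
      have : |(round v : ℝ)| ≤ |v| + |v - round v| := by
        have := abs_sub_abs_le_abs_sub (round v : ℝ) v
        rw [abs_sub_comm] at this
        linarith
      linarith
    have h4 : |(round v : ℝ)| ≤ (E : ℝ) := h3.trans h
    have h5 : |round v| ≤ E := by exact_mod_cast h4
    rw [Finset.mem_Icc]
    rw [abs_le] at h5
    constructor <;> linarith [h5.1, h5.2]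
  have h3 : win (v + ((-(round v : ℤ) : ℤ) : ℝ)) = 1 := by
    unfold win
    rw [if_pos]
    push_cast
    rwa [← sub_eq_add_neg]
  rw [← h3]
  exact Finset.single_le_sum (f := fun e : ℤ => win (v + e)) (fun e _ => win_nonneg _) h2

/-! ### the density `N` -/

/-- sum of windows -/
def NN {n : ℕ} (b a : Fin n → ℝ) (y : ℝ) : ℝ := ∑ i, a i * win (y - b i)


theorem memLp_NN {n : ℕ} (b a : Fin n → ℝ) (e : ℝ) : MemLp (fun y => NN b a (y + e)) 2 volume := by
  unfold NN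
  refine memLp_finsetSum _ fun i _ => ?_
  have : (fun y : ℝ => a i * win (y + e - b i)) = fun y => a i * win (y + (e - b i)) := by
    funext y; congr 2; ring
  rw [this]
  exact (memLp_win _).const_mul _

theorem integral_NN_shift {n : ℕ} (b a : Fin n → ℝ) (e : ℝ) :
    ∫ y, (NN b a (y + e)) ^ 2 = ∫ y, (NN b a y) ^ 2 :=
  MeasureTheory.integral_add_right_eq_self (fun y => (NN b a y) ^ 2) e

theorem integrable_NN_sq {n : ℕ} (b a : Fin n → ℝ) (e : ℝ) :
    Integrable (fun y => (NN b a (y + e)) ^ 2) := (memLp_NN b a e).integrable_sq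

theorem integrable_NN_mul {n : ℕ} (b a : Fin n → ℝ) (e e' : ℝ) :
    Integrable (fun y => NN b a (y + e) * NN b a (y + e')) :=
  (memLp_NN b a e).integrable_mul (memLp_NN b a e')

/-- neighbours -/
def BB {n : ℕ} (b a : Fin n → ℝ) (i : Fin n) : ℝ := ∑ i', a i' * (if |b i - b i'| ≤ 2 then 1 else 0)

theorem BB_nonneg {n : ℕ} (b a : Fin n → ℝ) (ha : ∀ i, 0 ≤ a i) (i : Fin n) : 0 ≤ BB b a i :=
  Finset.sum_nonneg fun i' _ => mul_nonneg (ha i') (by split_ifs <;> norm_num)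

/-- pair sums are controlled by `∫ N^2` -/
theorem pair_le {n : ℕ} (b a : Fin n → ℝ) (ha : ∀ i, 0 ≤ a i) :
    ∑ i, a i * BB b a i ≤ 7 * ∫ y, (NN b a y) ^ 2 := by
  have h1 : ∑ i, a i * BB b a i = ∫ y, ∑ i, a i * BB b a i * win (y - b i) := by
    rw [integral_finsetSum]
    · refine Finset.sum_congr rfl fun i _ => ?_
      rw [integral_const_mul]
      have : (fun y : ℝ => win (y - b i)) = fun y => win (y + (-b i)) := by
        funext y; rw [sub_eq_add_neg]
      rw [this, integral_win, mul_one]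
    · intro i _
      refine Integrable.const_mul ?_ _
      have : (fun y : ℝ => win (y - b i)) = fun y => win (y + (-b i)) := by
        funext y; rw [sub_eq_add_neg]
      rw [this]; exact integrable_win _
  have h2 : ∀ y : ℝ, ∑ i, a i * BB b a i * win (y - b i) ≤
      ∑ e ∈ Finset.Icc (-3 : ℤ) 3, NN b a y * NN b a (y + e) := by
    intro y
    rw [← Finset.mul_sum]
    have h3 : ∀ i, win (y - b i) * BB b a i ≤
        win (y - b i) * ∑ e ∈ Finset.Icc (-3 : ℤ) 3, NN b a (y + e) := by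
      intro i
      by_cases hy : |y - b i| ≤ 1 / 2
      · have hw : win (y - b i) = 1 := by unfold win; rw [if_pos hy]
        rw [hw, one_mul, one_mul]
        unfold BB NN
        rw [Finset.sum_comm]
        refine Finset.sum_le_sum fun i' _ => ?_
        rw [← Finset.mul_sum]
        refine mul_le_mul_of_nonneg_left ?_ (ha i')
        by_cases hb : |b i - b i'| ≤ 2
        · rw [if_pos hb]
          have h4 : |y - b i'| + 1 / 2 ≤ ((3 : ℤ) : ℝ) := by
            have : |y - b i'| ≤ |y - b i| + |b i - b i'| := by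
              have := abs_add_le (y - b i) (b i - b i')
              rwa [sub_add_sub_cancel] at this
            push_cast; linarith
          refine (one_le_sum_win (y - b i') 3 h4).trans (le_of_eq ?_)
          refine Finset.sum_congr (by norm_num) fun e _ => ?_
          congr 1; ring
        · rw [if_neg hb]
          exact Finset.sum_nonneg fun e _ => win_nonneg _
      · have hw : win (y - b i) = 0 := by unfold win; rw [if_neg hy]
        rw [hw, zero_mul, zero_mul]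
    calc ∑ i, a i * BB b a i * win (y - b i) = ∑ i, a i * (win (y - b i) * BB b a i) := by
          refine Finset.sum_congr rfl fun i _ => ?_; ring
      _ ≤ ∑ i, a i * (win (y - b i) * ∑ e ∈ Finset.Icc (-3 : ℤ) 3, NN b a (y + e)) :=
          Finset.sum_le_sum fun i _ => mul_le_mul_of_nonneg_left (h3 i) (ha i)
      _ = NN b a y * ∑ e ∈ Finset.Icc (-3 : ℤ) 3, NN b a (y + e) := by
          rw [show NN b a y = ∑ i, a i * win (y - b i) from rfl, Finset.sum_mul]
          refine Finset.sum_congr rfl fun i _ => ?_; ring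
  have hi0 : ∀ i : Fin n, Integrable (fun y => a i * BB b a i * win (y - b i)) := by
    intro i
    refine Integrable.const_mul ?_ _
    have : (fun y : ℝ => win (y - b i)) = fun y => win (y + (-b i)) := by
      funext y; rw [sub_eq_add_neg]
    rw [this]; exact integrable_win _
  have hi1 : ∀ e : ℤ, Integrable (fun y => NN b a y * NN b a (y + e)) := by
    intro e
    have := integrable_NN_mul b a 0 e
    simpa using this
  rw [h1]
  calc ∫ y, ∑ i, a i * BB b a i * win (y - b i)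
      ≤ ∫ y, ∑ e ∈ Finset.Icc (-3 : ℤ) 3, NN b a y * NN b a (y + e) :=
        integral_mono (integrable_finsetSum _ fun i _ => hi0 i)
          (integrable_finsetSum _ fun e _ => hi1 e) h2
    _ = ∑ e ∈ Finset.Icc (-3 : ℤ) 3, ∫ y, NN b a y * NN b a (y + e) :=
        integral_finsetSum _ fun e _ => hi1 e
    _ ≤ ∑ e ∈ Finset.Icc (-3 : ℤ) 3, ∫ y, (NN b a y) ^ 2 := by
        refine Finset.sum_le_sum fun e _ => ?_
        have h5 : ∀ y, NN b a y * NN b a (y + e) ≤
            (1 / 2) * (NN b a (y + (0 : ℝ))) ^ 2 + (1 / 2) * (NN b a (y + e)) ^ 2 := by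
          intro y
          rw [add_zero]
          nlinarith [sq_nonneg (NN b a y - NN b a (y + e))]
        calc ∫ y, NN b a y * NN b a (y + e)
            ≤ ∫ y, ((1 / 2) * (NN b a (y + (0 : ℝ))) ^ 2 + (1 / 2) * (NN b a (y + e)) ^ 2) :=
              integral_mono (hi1 e)
                (((integrable_NN_sq b a 0).const_mul _).add ((integrable_NN_sq b a e).const_mul _)) h5
          _ = (1 / 2) * (∫ y, (NN b a (y + (0 : ℝ))) ^ 2) + (1 / 2) * ∫ y, (NN b a (y + e)) ^ 2 := by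
              rw [integral_add ((integrable_NN_sq b a 0).const_mul _)
                ((integrable_NN_sq b a e).const_mul _), integral_const_mul, integral_const_mul]
          _ = ∫ y, (NN b a y) ^ 2 := by
              rw [integral_NN_shift, integral_NN_shift]; ring
    _ = 7 * ∫ y, (NN b a y) ^ 2 := by
        rw [Finset.sum_const]
        simp

/-! ### numerical sums -/

theorem rpow_eq_sqrt {t : ℝ} (ht : 0 ≤ t) : t ^ (-(3 / 2 : ℝ)) = (Real.sqrt t ^ 3)⁻¹ := by
  rw [Real.rpow_neg ht, Real.sqrt_eq_rpow, ← Real.rpow_natCast, ← Real.rpow_mul ht]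
  norm_num

/-- weights `|e|^{-3/2}`, with the value `1` at `0` -/
def ww (e : ℤ) : ℝ := (Real.sqrt |(e : ℝ)| ^ 3)⁻¹ + if e = 0 then 1 else 0

theorem ww_nonneg (e : ℤ) : 0 ≤ ww e := by
  unfold ww; split_ifs <;> positivity

theorem summable_ww : Summable ww := by
  unfold ww
  refine Summable.add ?_ ?_
  · have h := Real.summable_abs_int_rpow (b := 3 / 2) (by norm_num)
    refine h.congr fun e => ?_
    exact rpow_eq_sqrt (abs_nonneg _)
  · exact (hasSum_ite_eq (0 : ℤ) (1 : ℝ)).summable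

theorem sum_ww_le (s : Finset ℤ) : ∑ e ∈ s, ww e ≤ ∑' e, ww e :=
  summable_ww.sum_le_tsum s fun e _ => ww_nonneg e

/-- geometric sum -/
theorem geo_le (m : ℝ) (K : ℕ) :
    ∑ k ∈ Finset.range K, (if 4 * 2 ^ k ≤ m then Real.sqrt (2 ^ k / m) else 0) ≤ 3 := by
  by_cases hm : m ≤ 0
  · have : ∀ k ∈ Finset.range K, (if 4 * 2 ^ k ≤ m then Real.sqrt (2 ^ k / m) else 0) = 0 := by
      intro k _
      rw [if_neg]
      have : (0 : ℝ) < 2 ^ k := by positivity
      linarith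
    rw [Finset.sum_congr rfl this]; simp
  · push Not at hm
    have key : ∑ k ∈ Finset.range K, (if 4 * 2 ^ k ≤ m then Real.sqrt (2 ^ k / m) else 0) ≤
        3 * Real.sqrt (min (2 ^ K / m) 1) := by
      induction K with
      | zero => simp
      | succ K ih =>
        rw [Finset.sum_range_succ]
        by_cases hK : 4 * 2 ^ K ≤ m
        · rw [if_pos hK]
          have h1 : (2 : ℝ) ^ K / m ≤ 1 / 4 := by
            rw [div_le_iff₀ hm]; linarith
          have h2 : (2 : ℝ) ^ (K + 1) / m = 2 * (2 ^ K / m) := by ring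
          rw [min_eq_left (by linarith)] at ih
          rw [h2, min_eq_left (by linarith), Real.sqrt_mul (by norm_num)]
          have h3 : (4 : ℝ) / 3 ≤ Real.sqrt 2 := by
            apply Real.le_sqrt_of_sq_le; norm_num
          have h4 := Real.sqrt_nonneg ((2 : ℝ) ^ K / m)
          nlinarith
        · rw [if_neg hK, add_zero]
          refine ih.trans ?_
          refine mul_le_mul_of_nonneg_left ?_ (by norm_num)
          refine Real.sqrt_le_sqrt ?_
          refine min_le_min_right _ ?_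
          refine div_le_div_of_nonneg_right ?_ hm.le
          exact pow_le_pow_right₀ (by norm_num) (Nat.le_succ K)
    refine key.trans ?_
    have : Real.sqrt (min (2 ^ K / m) 1) ≤ 1 := by
      calc Real.sqrt (min (2 ^ K / m) 1) ≤ Real.sqrt 1 := Real.sqrt_le_sqrt (min_le_right _ _)
        _ = 1 := Real.sqrt_one
    linarith

/-- the sum over the scales of pair sums -/
theorem scales_le {n : ℕ} (b M a : Fin n → ℝ) (ha : ∀ i, 0 ≤ a i) (K : ℕ) :
    ∑ k ∈ Finset.range K, ∑ i with 4 * 2 ^ k ≤ |M i|, Real.sqrt (2 ^ k / |M i|) * (a i * BB b a i) ≤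
      21 * ∫ y, (NN b a y) ^ 2 := by
  have h1 : ∑ k ∈ Finset.range K, ∑ i with 4 * 2 ^ k ≤ |M i|,
      Real.sqrt (2 ^ k / |M i|) * (a i * BB b a i) =
      ∑ i, (∑ k ∈ Finset.range K, (if 4 * 2 ^ k ≤ |M i| then Real.sqrt (2 ^ k / |M i|) else 0)) *
        (a i * BB b a i) := by
    simp only [Finset.sum_filter, Finset.sum_mul]
    rw [Finset.sum_comm]
    refine Finset.sum_congr rfl fun i _ => Finset.sum_congr rfl fun k _ => ?_
    split_ifs <;> simp
  rw [h1]
  calc ∑ i, (∑ k ∈ Finset.range K, (if 4 * 2 ^ k ≤ |M i| then Real.sqrt (2 ^ k / |M i|) else 0)) *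
        (a i * BB b a i) ≤ ∑ i, 3 * (a i * BB b a i) := by
        refine Finset.sum_le_sum fun i _ => ?_
        exact mul_le_mul_of_nonneg_right (geo_le _ K) (mul_nonneg (ha i) (BB_nonneg b a ha i))
    _ = 3 * ∑ i, a i * BB b a i := by rw [Finset.mul_sum]
    _ ≤ 21 * ∫ y, (NN b a y) ^ 2 := by
        have := pair_le b a ha
        linarith

/-! ### squares of sums of moved windows -/

theorem memLp_sum_win {n : ℕ} (S : Finset (Fin n)) (c a : Fin n → ℝ) :
    MemLp (fun y => ∑ i ∈ S, a i * win (y + c i)) 2 volume :=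
  memLp_finsetSum _ fun i _ => (memLp_win (c i)).const_mul (a i)

theorem integral_sum_win_sq_le {n : ℕ} (S : Finset (Fin n)) (c a : Fin n → ℝ) (ha : ∀ i, 0 ≤ a i) :
    ∫ y, (∑ i ∈ S, a i * win (y + c i)) ^ 2 ≤
      ∑ i ∈ S, a i * ∑ i' ∈ S, a i' * (if |c i - c i'| ≤ 1 then 1 else 0) := by
  have h1 : ∀ y : ℝ, (∑ i ∈ S, a i * win (y + c i)) ^ 2 =
      ∑ i ∈ S, ∑ i' ∈ S, (a i * a i') * (win (y + c i) * win (y + c i')) := by
    intro y
    rw [sq, Finset.sum_mul_sum]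
    refine Finset.sum_congr rfl fun i _ => Finset.sum_congr rfl fun i' _ => ?_
    ring
  have hi : ∀ i i' : Fin n, Integrable fun y : ℝ => (a i * a i') * (win (y + c i) * win (y + c i')) :=
    fun i i' => (integrable_win_mul _ _).const_mul _
  simp only [h1]
  rw [integral_finsetSum _ fun i _ => integrable_finsetSum _ fun i' _ => hi i i']
  refine Finset.sum_le_sum fun i _ => ?_
  rw [integral_finsetSum _ fun i' _ => hi i i', Finset.mul_sum]
  refine Finset.sum_le_sum fun i' _ => ?_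
  rw [integral_const_mul, mul_assoc]
  exact mul_le_mul_of_nonneg_left (mul_le_mul_of_nonneg_left (ov_le _ _) (ha i')) (ha i)

/-! ### EDGE -/

theorem edge_k {n : ℕ} (b M a : Fin n → ℝ) (x : ℝ) (hx : |x| ≤ 1) (ha : ∀ i, 0 ≤ a i) (k : ℕ) :
    ∫ y, (∑ i with 4 * 2 ^ k ≤ |M i|,
      a i * (2 ^ k / |M i|) * win (y - b i + x * (M i / 2 ^ k))) ^ 2 ≤
      (∑' e, ww e) * (25 / 8) *
        ∑ i with 4 * 2 ^ k ≤ |M i|, Real.sqrt (2 ^ k / |M i|) * (a i * BB b a i) := by
  classical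
  have h2k : (0 : ℝ) < 2 ^ k := by positivity
  set S : Finset (Fin n) := Finset.univ.filter (fun i => 4 * 2 ^ k ≤ |M i|) with hS
  set q : Fin n → ℤ := fun i => ⌊M i / 2 ^ k⌋ with hq
  set c : Fin n → ℝ := fun i => - b i + x * (M i / 2 ^ k) with hc
  have hmem : ∀ i ∈ S, 4 ≤ |M i / 2 ^ k| := by
    intro i hi
    have := (Finset.mem_filter.1 hi).2
    rw [abs_div, abs_of_pos h2k, le_div_iff₀ h2k]
    exact this
  have hr : ∀ i, (2 : ℝ) ^ k / |M i| = |M i / 2 ^ k|⁻¹ := by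
    intro i
    rw [abs_div, abs_of_pos h2k, inv_div]
  have hq1 : ∀ i, |(q i : ℝ) - M i / 2 ^ k| ≤ 1 := by
    intro i
    have h1 := Int.floor_le (M i / 2 ^ k)
    have h2 := Int.lt_floor_add_one (M i / 2 ^ k)
    rw [abs_le]; constructor <;> simp only [hq] <;> linarith
  have hq2 : ∀ i ∈ S, 3 / 4 * |M i / 2 ^ k| ≤ |(q i : ℝ)| ∧ |(q i : ℝ)| ≤ 5 / 4 * |M i / 2 ^ k| := by
    intro i hi
    have h1 := hmem i hi
    have h2 := hq1 i
    have h3 := abs_sub_abs_le_abs_sub (q i : ℝ) (M i / 2 ^ k)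
    have h4 := abs_sub_abs_le_abs_sub (M i / 2 ^ k) (q i : ℝ)
    rw [abs_sub_comm] at h4
    constructor <;> linarith
  set g : ℤ → ℝ → ℝ := fun p y => ∑ i ∈ S with q i = p, a i * win (y + c i) with hg
  have hg0 : ∀ p y, 0 ≤ g p y := fun p y =>
    Finset.sum_nonneg fun i _ => mul_nonneg (ha i) (win_nonneg _)
  have hgm : ∀ p, MemLp (g p) 2 volume := fun p => memLp_sum_win _ _ _
  set Q : Finset ℤ := S.image q with hQ
  -- pointwise bound
  have hpt : ∀ y : ℝ, (∑ i ∈ S, a i * (2 ^ k / |M i|) * win (y - b i + x * (M i / 2 ^ k))) ≤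
      ∑ p ∈ Q, 5 / 4 * |(p : ℝ)|⁻¹ * g p y := by
    intro y
    rw [← Finset.sum_fiberwise_of_maps_to (s := S) (t := Q) (g := q)
      (fun i hi => Finset.mem_image_of_mem q hi)]
    refine Finset.sum_le_sum fun p _ => ?_
    rw [hg, Finset.mul_sum]
    refine Finset.sum_le_sum fun i hi => ?_
    obtain ⟨hiS, hip⟩ := Finset.mem_filter.1 hi
    have h1 : y - b i + x * (M i / 2 ^ k) = y + c i := by simp only [hc]; ring
    rw [h1, hr, ← hip]
    have h2 : |M i / 2 ^ k|⁻¹ ≤ 5 / 4 * |(q i : ℝ)|⁻¹ := by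
      have h3 := hq2 i hiS
      have h4 := hmem i hiS
      have h5 : 0 < |(q i : ℝ)| := by linarith
      rw [inv_le_comm₀ (by linarith) (by positivity), mul_inv, inv_inv]
      linarith
    have h3 := mul_nonneg (ha i) (win_nonneg (y + c i))
    calc a i * |M i / 2 ^ k|⁻¹ * win (y + c i) = |M i / 2 ^ k|⁻¹ * (a i * win (y + c i)) := by ring
      _ ≤ 5 / 4 * |(q i : ℝ)|⁻¹ * (a i * win (y + c i)) := mul_le_mul_of_nonneg_right h2 h3
  have hpt0 : ∀ y : ℝ, 0 ≤ (∑ i ∈ S, a i * (2 ^ k / |M i|) * win (y - b i + x * (M i / 2 ^ k))) := by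
    intro y
    exact Finset.sum_nonneg fun i _ => mul_nonneg (mul_nonneg (ha i) (by positivity)) (win_nonneg _)
  have hW0 : 0 ≤ ∑' e, ww e := tsum_nonneg ww_nonneg
  have hpt2 : ∀ y : ℝ, (∑ i ∈ S, a i * (2 ^ k / |M i|) * win (y - b i + x * (M i / 2 ^ k))) ^ 2 ≤
      (∑' e, ww e) * ∑ p ∈ Q, 25 / 16 * (Real.sqrt |(p : ℝ)|)⁻¹ * (g p y) ^ 2 := by
    intro y
    have h1 : (∑ p ∈ Q, 5 / 4 * |(p : ℝ)|⁻¹ * g p y) ^ 2 ≤
        (∑ p ∈ Q, ww p) * ∑ p ∈ Q, 25 / 16 * (Real.sqrt |(p : ℝ)|)⁻¹ * (g p y) ^ 2 := by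
      refine Finset.sum_sq_le_sum_mul_sum_of_sq_le_mul Q (fun p _ => ww_nonneg p)
        (fun p _ => by positivity) fun p hp => ?_
      have h2 : (Real.sqrt |(p : ℝ)| ^ 3)⁻¹ ≤ ww p := by
        unfold ww; split_ifs <;> linarith
      have h3 : (Real.sqrt |(p : ℝ)| ^ 3)⁻¹ * (Real.sqrt |(p : ℝ)|)⁻¹ = (|(p : ℝ)|⁻¹) ^ 2 := by
        rw [← mul_inv, ← pow_succ, inv_pow]
        congr 1
        calc Real.sqrt |(p : ℝ)| ^ (3 + 1) = (Real.sqrt |(p : ℝ)| ^ 2) ^ 2 := by ring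
          _ = |(p : ℝ)| ^ 2 := by rw [Real.sq_sqrt (abs_nonneg _)]
      calc (5 / 4 * |(p : ℝ)|⁻¹ * g p y) ^ 2 = (|(p : ℝ)|⁻¹) ^ 2 * (25 / 16 * (g p y) ^ 2) := by ring
        _ = (Real.sqrt |(p : ℝ)| ^ 3)⁻¹ * (25 / 16 * (Real.sqrt |(p : ℝ)|)⁻¹ * (g p y) ^ 2) := by
            rw [← h3]; ring
        _ ≤ ww p * (25 / 16 * (Real.sqrt |(p : ℝ)|)⁻¹ * (g p y) ^ 2) :=
            mul_le_mul_of_nonneg_right h2 (by positivity)
    calc (∑ i ∈ S, a i * (2 ^ k / |M i|) * win (y - b i + x * (M i / 2 ^ k))) ^ 2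
        ≤ (∑ p ∈ Q, 5 / 4 * |(p : ℝ)|⁻¹ * g p y) ^ 2 := pow_le_pow_left₀ (hpt0 y) (hpt y) 2
      _ ≤ (∑ p ∈ Q, ww p) * ∑ p ∈ Q, 25 / 16 * (Real.sqrt |(p : ℝ)|)⁻¹ * (g p y) ^ 2 := h1
      _ ≤ (∑' e, ww e) * ∑ p ∈ Q, 25 / 16 * (Real.sqrt |(p : ℝ)|)⁻¹ * (g p y) ^ 2 :=
          mul_le_mul_of_nonneg_right (sum_ww_le Q) (Finset.sum_nonneg fun p _ => by positivity)
  have hint : ∀ p : ℤ, Integrable fun y => 25 / 16 * (Real.sqrt |(p : ℝ)|)⁻¹ * (g p y) ^ 2 :=
    fun p => (hgm p).integrable_sq.const_mul _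
  -- integral of the squares
  have hgi : ∀ p, (Real.sqrt |((p : ℤ) : ℝ)|)⁻¹ * ∫ y, (g p y) ^ 2 ≤
      2 * ∑ i ∈ S with q i = p, Real.sqrt (2 ^ k / |M i|) * (a i * BB b a i) := by
    intro p
    have h1 : ∫ y, (g p y) ^ 2 ≤ ∑ i ∈ S with q i = p, a i * BB b a i := by
      refine (integral_sum_win_sq_le _ c a ha).trans ?_
      refine Finset.sum_le_sum fun i hi => mul_le_mul_of_nonneg_left ?_ (ha i)
      unfold BB
      calc ∑ i' ∈ S with q i' = p, a i' * (if |c i - c i'| ≤ 1 then 1 else 0)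
          ≤ ∑ i' ∈ S with q i' = p, a i' * (if |b i - b i'| ≤ 2 then 1 else 0) := by
            refine Finset.sum_le_sum fun i' hi' => mul_le_mul_of_nonneg_left ?_ (ha i')
            by_cases h : |c i - c i'| ≤ 1
            · rw [if_pos h, if_pos]
              have e1 : (q i : ℝ) = p := by rw [(Finset.mem_filter.1 hi).2]
              have e2 : (q i' : ℝ) = p := by rw [(Finset.mem_filter.1 hi').2]
              have h3 : |M i / 2 ^ k - M i' / 2 ^ k| ≤ 1 := by
                have f1 := Int.floor_le (M i / 2 ^ k)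
                have f2 := Int.lt_floor_add_one (M i / 2 ^ k)
                have f3 := Int.floor_le (M i' / 2 ^ k)
                have f4 := Int.lt_floor_add_one (M i' / 2 ^ k)
                simp only [hq] at e1 e2
                rw [e1] at f1 f2
                rw [e2] at f3 f4
                rw [abs_le]; constructor <;> linarith
              have h4 : |x * (M i / 2 ^ k - M i' / 2 ^ k)| ≤ 1 := by
                rw [abs_mul]
                exact mul_le_one₀ hx (abs_nonneg _) h3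
              have h5 : b i - b i' = x * (M i / 2 ^ k - M i' / 2 ^ k) - (c i - c i') := by
                simp only [hc]; ring
              rw [h5]
              have := abs_sub (x * (M i / 2 ^ k - M i' / 2 ^ k)) (c i - c i')
              linarith
            · rw [if_neg h]; split_ifs <;> norm_num
        _ ≤ ∑ i', a i' * (if |b i - b i'| ≤ 2 then 1 else 0) :=
            Finset.sum_le_sum_of_subset_of_nonneg (Finset.subset_univ _)
              fun i' _ _ => mul_nonneg (ha i') (by split_ifs <;> norm_num)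
    calc (Real.sqrt |((p : ℤ) : ℝ)|)⁻¹ * ∫ y, (g p y) ^ 2
        ≤ (Real.sqrt |((p : ℤ) : ℝ)|)⁻¹ * ∑ i ∈ S with q i = p, a i * BB b a i :=
          mul_le_mul_of_nonneg_left h1 (by positivity)
      _ ≤ 2 * ∑ i ∈ S with q i = p, Real.sqrt (2 ^ k / |M i|) * (a i * BB b a i) := by
          rw [Finset.mul_sum, Finset.mul_sum]
          refine Finset.sum_le_sum fun i hi => ?_
          obtain ⟨hiS, hip⟩ := Finset.mem_filter.1 hi
          rw [← mul_assoc (2 : ℝ)]
          refine mul_le_mul_of_nonneg_right ?_ (mul_nonneg (ha i) (BB_nonneg b a ha i))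
          rw [hr, ← hip, ← Real.sqrt_inv]
          have h3 := hq2 i hiS
          have h4 := hmem i hiS
          have h5 : 0 < |(q i : ℝ)| := by linarith
          have h6 : |(q i : ℝ)|⁻¹ ≤ 2 ^ 2 * |M i / 2 ^ k|⁻¹ := by
            rw [inv_le_comm₀ h5 (by positivity), mul_inv, inv_inv]
            linarith
          calc Real.sqrt (|(q i : ℝ)|⁻¹) ≤ Real.sqrt (2 ^ 2 * |M i / 2 ^ k|⁻¹) :=
                Real.sqrt_le_sqrt h6
            _ = 2 * Real.sqrt (|M i / 2 ^ k|⁻¹) := by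
                rw [Real.sqrt_mul (by norm_num), Real.sqrt_sq (by norm_num)]
  calc ∫ y, (∑ i ∈ S, a i * (2 ^ k / |M i|) * win (y - b i + x * (M i / 2 ^ k))) ^ 2
      ≤ ∫ y, (∑' e, ww e) * ∑ p ∈ Q, 25 / 16 * (Real.sqrt |(p : ℝ)|)⁻¹ * (g p y) ^ 2 := by
        refine integral_mono_of_nonneg (Filter.Eventually.of_forall fun y => sq_nonneg _)
          ((integrable_finsetSum _ fun p _ => hint p).const_mul _)
          (Filter.Eventually.of_forall hpt2)
    _ = (∑' e, ww e) * ∑ p ∈ Q, 25 / 16 * ((Real.sqrt |(p : ℝ)|)⁻¹ * ∫ y, (g p y) ^ 2) := by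
        rw [integral_const_mul, integral_finsetSum _ fun p _ => hint p]
        congr 1
        refine Finset.sum_congr rfl fun p _ => ?_
        rw [integral_const_mul, mul_assoc]
    _ ≤ (∑' e, ww e) * ∑ p ∈ Q, 25 / 16 *
          (2 * ∑ i ∈ S with q i = p, Real.sqrt (2 ^ k / |M i|) * (a i * BB b a i)) := by
        refine mul_le_mul_of_nonneg_left ?_ hW0
        refine Finset.sum_le_sum fun p _ => mul_le_mul_of_nonneg_left (hgi p) (by norm_num)
    _ = (∑' e, ww e) * (25 / 8) *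
          ∑ i ∈ S, Real.sqrt (2 ^ k / |M i|) * (a i * BB b a i) := by
        rw [← Finset.sum_fiberwise_of_maps_to (s := S) (t := Q) (g := q)
          (fun i hi => Finset.mem_image_of_mem q hi), ← Finset.mul_sum, ← Finset.mul_sum]
        ring

theorem edge : EDGE := by
  refine ⟨(∑' e, ww e) * (25 / 8) * 21, ?_⟩
  intro K n b M a x ha hx
  have hW0 : 0 ≤ ∑' e, ww e := tsum_nonneg ww_nonneg
  calc ∑ k ∈ Finset.range K,
      ∫ y, (∑ i with 4 * 2 ^ k ≤ |M i|,
        a i * (2 ^ k / |M i|) * win (y - b i + x k * (M i / 2 ^ k))) ^ 2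
      ≤ ∑ k ∈ Finset.range K, (∑' e, ww e) * (25 / 8) *
        ∑ i with 4 * 2 ^ k ≤ |M i|, Real.sqrt (2 ^ k / |M i|) * (a i * BB b a i) :=
        Finset.sum_le_sum fun k _ => edge_k b M a (x k) (hx k) ha k
    _ = (∑' e, ww e) * (25 / 8) * ∑ k ∈ Finset.range K,
        ∑ i with 4 * 2 ^ k ≤ |M i|, Real.sqrt (2 ^ k / |M i|) * (a i * BB b a i) := by
        rw [← Finset.mul_sum]
    _ ≤ (∑' e, ww e) * (25 / 8) * (21 * ∫ y, (NN b a y) ^ 2) :=
        mul_le_mul_of_nonneg_left (scales_le b M a ha K) (by positivity)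
    _ = (∑' e, ww e) * (25 / 8) * 21 * ∫ y, (∑ i, a i * win (y - b i)) ^ 2 := by
        unfold NN; ring

/-! ### FLAT -/

theorem flat_k {n : ℕ} (b M a : Fin n → ℝ) (ha : ∀ i, 0 ≤ a i) (k : ℕ) :
    ∫ y, (∑ i with 4 * 2 ^ k ≤ |M i|,
      a i * (2 ^ k / |M i|) ^ 2 * (if |y - b i| ≤ 2 * (|M i| / 2 ^ k) then 1 else 0)) ^ 2 ≤
      16 * (∑' e, ww e) ^ 2 *
        ∑ i with 4 * 2 ^ k ≤ |M i|, Real.sqrt (2 ^ k / |M i|) * (a i * BB b a i) := by
  classical
  have h2k : (0 : ℝ) < 2 ^ k := by positivity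
  set S : Finset (Fin n) := Finset.univ.filter (fun i => 4 * 2 ^ k ≤ |M i|) with hS
  set r : Fin n → ℝ := fun i => |M i| / 2 ^ k with hrdef
  have hmem : ∀ i ∈ S, 4 ≤ r i := by
    intro i hi
    have := (Finset.mem_filter.1 hi).2
    simp only [hrdef]
    rw [le_div_iff₀ h2k]
    exact this
  have hr0 : ∀ i, 0 ≤ r i := fun i => by simp only [hrdef]; positivity
  have hr : ∀ i, (2 : ℝ) ^ k / |M i| = (r i)⁻¹ := by
    intro i
    simp only [hrdef]
    rw [inv_div]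
  set G : ℝ → ℝ := fun y => ∑ i ∈ S, (a i * Real.sqrt (r i)⁻¹) * win (y + -b i) with hG
  have hG0 : ∀ y, 0 ≤ G y := fun y =>
    Finset.sum_nonneg fun i _ => mul_nonneg (mul_nonneg (ha i) (Real.sqrt_nonneg _)) (win_nonneg _)
  have hGm : ∀ e : ℝ, MemLp (fun y => G (y + e)) 2 volume := by
    intro e
    have h1 : (fun y => G (y + e)) = fun y => ∑ i ∈ S, (a i * Real.sqrt (r i)⁻¹) * win (y + (e - b i)) := by
      funext y
      simp only [hG]
      refine Finset.sum_congr rfl fun i _ => ?_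
      congr 2; ring
    rw [h1]
    exact memLp_sum_win _ _ _
  obtain ⟨E, hE⟩ : ∃ E : ℤ, ∀ i, 2 * r i + 1 ≤ (E : ℝ) := by
    refine ⟨⌈∑ i, 2 * r i⌉ + 1, fun i => ?_⟩
    have h1 : 2 * r i ≤ ∑ i, 2 * r i :=
      Finset.single_le_sum (f := fun i => 2 * r i) (fun j _ => by have := hr0 j; positivity)
        (Finset.mem_univ i)
    have h2 := Int.le_ceil (∑ i, 2 * r i)
    push_cast; linarith
  have hpt : ∀ y : ℝ, (∑ i ∈ S, a i * (2 ^ k / |M i|) ^ 2 * (if |y - b i| ≤ 2 * r i then 1 else 0)) ≤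
      ∑ e ∈ Finset.Icc (-E) E, 4 * (ww e * G (y + e)) := by
    intro y
    have h1 : ∑ e ∈ Finset.Icc (-E) E, 4 * (ww e * G (y + e)) =
        ∑ i ∈ S, a i * ∑ e ∈ Finset.Icc (-E) E,
          4 * ww e * Real.sqrt (r i)⁻¹ * win (y + e + -b i) := by
      simp only [hG, Finset.mul_sum]
      rw [Finset.sum_comm]
      refine Finset.sum_congr rfl fun i _ => Finset.sum_congr rfl fun e _ => ?_
      ring
    rw [h1]
    refine Finset.sum_le_sum fun i hi => ?_
    rw [mul_assoc]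
    refine mul_le_mul_of_nonneg_left ?_ (ha i)
    by_cases hy : |y - b i| ≤ 2 * r i
    · rw [if_pos hy, mul_one, hr]
      have hi4 := hmem i hi
      set e0 : ℤ := -round (y - b i) with he0
      have hw : win (y + e0 + -b i) = 1 := by
        unfold win
        rw [if_pos]
        have h2 := abs_sub_round (y - b i)
        have h3 : y + (e0 : ℝ) + -b i = y - b i - round (y - b i) := by
          simp only [he0]; push_cast; ring
        rw [h3]; exact h2
      have he1 : |(e0 : ℝ)| ≤ 2 * r i + 1 / 2 := by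
        have h2 := abs_sub_round (y - b i)
        rw [abs_sub_comm] at h2
        have h3 := abs_sub_abs_le_abs_sub (round (y - b i) : ℝ) (y - b i)
        have h4 : |(e0 : ℝ)| = |(round (y - b i) : ℝ)| := by
          simp only [he0]; push_cast; rw [abs_neg]
        rw [h4]; linarith
      have he2 : e0 ∈ Finset.Icc (-E) E := by
        have h4 : |(e0 : ℝ)| ≤ (E : ℝ) := by
          have := hE i
          linarith
        have h5 : |e0| ≤ E := by exact_mod_cast h4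
        rw [Finset.mem_Icc]
        rw [abs_le] at h5
        exact h5
      have hmain : ((r i)⁻¹) ^ 2 ≤ 4 * ww e0 * Real.sqrt (r i)⁻¹ * win (y + e0 + -b i) := by
        rw [hw, mul_one]
        set s := Real.sqrt (r i) with hs
        have hs2 : s ^ 2 = r i := Real.sq_sqrt (hr0 i)
        have hs0 : 0 ≤ s := Real.sqrt_nonneg _
        have hs4 : 2 ≤ s := by
          apply Real.le_sqrt_of_sq_le; linarith
        have hspos : 0 < s := by linarith
        rw [Real.sqrt_inv, ← hs, ← hs2]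
        have hkey : (s ^ 3)⁻¹ ≤ 4 * ww e0 := by
          by_cases h0 : e0 = 0
          · have : ww e0 = 1 := by unfold ww; rw [h0]; simp
            rw [this]
            have h5 : (1 : ℝ) ≤ s ^ 3 := one_le_pow₀ (by linarith)
            have h6 : (s ^ 3)⁻¹ ≤ 1 := inv_le_one_of_one_le₀ h5
            linarith
          · have h5 : ww e0 = (Real.sqrt |(e0 : ℝ)| ^ 3)⁻¹ := by
              unfold ww; rw [if_neg h0, add_zero]
            rw [h5]
            have h6 : 0 < |(e0 : ℝ)| := by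
              rw [abs_pos]; exact_mod_cast h0
            have h7 : Real.sqrt |(e0 : ℝ)| ≤ 3 / 2 * s := by
              apply Real.sqrt_le_iff.2
              constructor
              · positivity
              · have : (3 / 2 * s) ^ 2 = 9 / 4 * r i := by rw [← hs2]; ring
                rw [this]; linarith
            have h8 : 0 < Real.sqrt |(e0 : ℝ)| := Real.sqrt_pos.2 h6
            have h9 : Real.sqrt |(e0 : ℝ)| ^ 3 ≤ 4 * s ^ 3 := by
              calc Real.sqrt |(e0 : ℝ)| ^ 3 ≤ (3 / 2 * s) ^ 3 := pow_le_pow_left₀ h8.le h7 3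
                _ = 27 / 8 * s ^ 3 := by ring
                _ ≤ 4 * s ^ 3 := by
                    have : 0 < s ^ 3 := by positivity
                    linarith
            rw [inv_le_comm₀ (by positivity) (by positivity), mul_inv, inv_inv]
            linarith
        calc ((s ^ 2)⁻¹) ^ 2 = (s ^ 3)⁻¹ * s⁻¹ := by
              rw [← mul_inv, ← pow_succ, inv_pow, ← pow_mul]
          _ ≤ 4 * ww e0 * s⁻¹ := mul_le_mul_of_nonneg_right hkey (by positivity)
      exact hmain.trans (Finset.single_le_sum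
        (f := fun e : ℤ => 4 * ww e * Real.sqrt (r i)⁻¹ * win (y + e + -b i))
        (fun e _ => mul_nonneg (mul_nonneg (mul_nonneg (by norm_num) (ww_nonneg e))
          (Real.sqrt_nonneg _)) (win_nonneg _)) he2)
    · rw [if_neg hy, mul_zero]
      exact Finset.sum_nonneg fun e _ => mul_nonneg (mul_nonneg (mul_nonneg (by norm_num)
        (ww_nonneg e)) (Real.sqrt_nonneg _)) (win_nonneg _)
  have hpt0 : ∀ y : ℝ, 0 ≤
      (∑ i ∈ S, a i * (2 ^ k / |M i|) ^ 2 * (if |y - b i| ≤ 2 * r i then 1 else 0)) := by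
    intro y
    exact Finset.sum_nonneg fun i _ => mul_nonneg (mul_nonneg (ha i) (by positivity))
      (by split_ifs <;> norm_num)
  have hW0 : 0 ≤ ∑' e, ww e := tsum_nonneg ww_nonneg
  have hpt2 : ∀ y : ℝ,
      (∑ i ∈ S, a i * (2 ^ k / |M i|) ^ 2 * (if |y - b i| ≤ 2 * r i then 1 else 0)) ^ 2 ≤
      16 * (∑' e, ww e) * ∑ e ∈ Finset.Icc (-E) E, ww e * (G (y + e)) ^ 2 := by
    intro y
    have h1 : (∑ e ∈ Finset.Icc (-E) E, ww e * G (y + e)) ^ 2 ≤
        (∑ e ∈ Finset.Icc (-E) E, ww e) * ∑ e ∈ Finset.Icc (-E) E, ww e * (G (y + e)) ^ 2 := by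
      refine Finset.sum_sq_le_sum_mul_sum_of_sq_le_mul _ (fun p _ => ww_nonneg p)
        (fun p _ => mul_nonneg (ww_nonneg p) (sq_nonneg _)) fun p hp => ?_
      exact le_of_eq (by ring)
    calc (∑ i ∈ S, a i * (2 ^ k / |M i|) ^ 2 * (if |y - b i| ≤ 2 * r i then 1 else 0)) ^ 2
        ≤ (∑ e ∈ Finset.Icc (-E) E, 4 * (ww e * G (y + e))) ^ 2 :=
          pow_le_pow_left₀ (hpt0 y) (hpt y) 2
      _ = 16 * (∑ e ∈ Finset.Icc (-E) E, ww e * G (y + e)) ^ 2 := by
          rw [← Finset.mul_sum]; ring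
      _ ≤ 16 * ((∑ e ∈ Finset.Icc (-E) E, ww e) *
            ∑ e ∈ Finset.Icc (-E) E, ww e * (G (y + e)) ^ 2) :=
          mul_le_mul_of_nonneg_left h1 (by norm_num)
      _ ≤ 16 * ((∑' e, ww e) * ∑ e ∈ Finset.Icc (-E) E, ww e * (G (y + e)) ^ 2) := by
          refine mul_le_mul_of_nonneg_left ?_ (by norm_num)
          exact mul_le_mul_of_nonneg_right (sum_ww_le _)
            (Finset.sum_nonneg fun p _ => mul_nonneg (ww_nonneg p) (sq_nonneg _))
      _ = 16 * (∑' e, ww e) * ∑ e ∈ Finset.Icc (-E) E, ww e * (G (y + e)) ^ 2 := by ring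
  have hint : ∀ e : ℤ, Integrable fun y => ww e * (G (y + e)) ^ 2 :=
    fun e => (hGm e).integrable_sq.const_mul _
  have hGint : ∫ y, (G y) ^ 2 ≤ ∑ i ∈ S, Real.sqrt (2 ^ k / |M i|) * (a i * BB b a i) := by
    have h1 := integral_sum_win_sq_le S (fun i => -b i) (fun i => a i * Real.sqrt (r i)⁻¹)
      (fun i => mul_nonneg (ha i) (Real.sqrt_nonneg _))
    refine h1.trans ?_
    refine Finset.sum_le_sum fun i hi => ?_
    rw [hr]
    have h2 : ∑ i' ∈ S, a i' * Real.sqrt (r i')⁻¹ * (if |-b i - -b i'| ≤ 1 then 1 else 0) ≤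
        BB b a i := by
      unfold BB
      calc ∑ i' ∈ S, a i' * Real.sqrt (r i')⁻¹ * (if |-b i - -b i'| ≤ 1 then 1 else 0)
          ≤ ∑ i' ∈ S, a i' * (if |b i - b i'| ≤ 2 then 1 else 0) := by
            refine Finset.sum_le_sum fun i' hi' => ?_
            rw [mul_assoc]
            refine mul_le_mul_of_nonneg_left ?_ (ha i')
            have h3 : Real.sqrt (r i')⁻¹ ≤ 1 := by
              calc Real.sqrt (r i')⁻¹ ≤ Real.sqrt 1 := by
                    refine Real.sqrt_le_sqrt (inv_le_one_of_one_le₀ ?_)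
                    have := hmem i' hi'
                    linarith
                _ = 1 := Real.sqrt_one
            have h4 : |-b i - -b i'| = |b i - b i'| := by
              rw [← abs_neg]; congr 1; ring
            rw [h4]
            by_cases h5 : |b i - b i'| ≤ 1
            · rw [if_pos h5, if_pos (by linarith), mul_one]; exact h3
            · rw [if_neg h5, mul_zero]; split_ifs <;> norm_num
        _ ≤ ∑ i', a i' * (if |b i - b i'| ≤ 2 then 1 else 0) :=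
            Finset.sum_le_sum_of_subset_of_nonneg (Finset.subset_univ _)
              fun i' _ _ => mul_nonneg (ha i') (by split_ifs <;> norm_num)
    calc a i * Real.sqrt (r i)⁻¹ *
          ∑ i' ∈ S, a i' * Real.sqrt (r i')⁻¹ * (if |-b i - -b i'| ≤ 1 then 1 else 0)
        ≤ a i * Real.sqrt (r i)⁻¹ * BB b a i :=
          mul_le_mul_of_nonneg_left h2 (mul_nonneg (ha i) (Real.sqrt_nonneg _))
      _ = Real.sqrt (r i)⁻¹ * (a i * BB b a i) := by ring
  have hGshift : ∀ e : ℤ, ∫ y, (G (y + e)) ^ 2 = ∫ y, (G y) ^ 2 := fun e =>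
    MeasureTheory.integral_add_right_eq_self (fun y => (G y) ^ 2) (e : ℝ)
  calc ∫ y, (∑ i ∈ S, a i * (2 ^ k / |M i|) ^ 2 * (if |y - b i| ≤ 2 * r i then 1 else 0)) ^ 2
      ≤ ∫ y, 16 * (∑' e, ww e) * ∑ e ∈ Finset.Icc (-E) E, ww e * (G (y + e)) ^ 2 := by
        refine integral_mono_of_nonneg (Filter.Eventually.of_forall fun y => sq_nonneg _)
          ((integrable_finsetSum _ fun p _ => hint p).const_mul _)
          (Filter.Eventually.of_forall hpt2)
    _ = 16 * (∑' e, ww e) * ((∑ e ∈ Finset.Icc (-E) E, ww e) * ∫ y, (G y) ^ 2) := by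
        rw [integral_const_mul, integral_finsetSum _ fun p _ => hint p, Finset.sum_mul]
        congr 1
        refine Finset.sum_congr rfl fun p _ => ?_
        rw [integral_const_mul, hGshift]
    _ ≤ 16 * (∑' e, ww e) * ((∑' e, ww e) *
          ∑ i ∈ S, Real.sqrt (2 ^ k / |M i|) * (a i * BB b a i)) := by
        refine mul_le_mul_of_nonneg_left ?_ (by positivity)
        refine mul_le_mul (sum_ww_le _) hGint (integral_nonneg fun y => sq_nonneg _) hW0
    _ = 16 * (∑' e, ww e) ^ 2 * ∑ i ∈ S, Real.sqrt (2 ^ k / |M i|) * (a i * BB b a i) := by ring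

theorem flat : FLAT := by
  refine ⟨16 * (∑' e, ww e) ^ 2 * 21, ?_⟩
  intro K n b M a ha
  have hW0 : 0 ≤ ∑' e, ww e := tsum_nonneg ww_nonneg
  calc ∑ k ∈ Finset.range K,
      ∫ y, (∑ i with 4 * 2 ^ k ≤ |M i|,
        a i * (2 ^ k / |M i|) ^ 2 * (if |y - b i| ≤ 2 * (|M i| / 2 ^ k) then 1 else 0)) ^ 2
      ≤ ∑ k ∈ Finset.range K, 16 * (∑' e, ww e) ^ 2 *
        ∑ i with 4 * 2 ^ k ≤ |M i|, Real.sqrt (2 ^ k / |M i|) * (a i * BB b a i) :=
        Finset.sum_le_sum fun k _ => flat_k b M a ha k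
    _ = 16 * (∑' e, ww e) ^ 2 * ∑ k ∈ Finset.range K,
        ∑ i with 4 * 2 ^ k ≤ |M i|, Real.sqrt (2 ^ k / |M i|) * (a i * BB b a i) := by
        rw [← Finset.mul_sum]
    _ ≤ 16 * (∑' e, ww e) ^ 2 * (21 * ∫ y, (NN b a y) ^ 2) :=
        mul_le_mul_of_nonneg_left (scales_le b M a ha K) (by positivity)
    _ = 16 * (∑' e, ww e) ^ 2 * 21 * ∫ y, (∑ i, a i * win (y - b i)) ^ 2 := by
        unfold NN; ring

end Crest.Agent.R087.EDGEx621
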