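import Crest.Agent.R087.TopS_929_Mg
import Crest.Agent.R087.ClassN_233_Mg
import Crest.Agent.R087.SqL_282
import Crest.Agent.R087.RemSum_435
import Crest.Agent.R087.T1def_90
import Crest.Agent.R087.TreeIf_153
import Crest.Agent.R087.E2Kf_752
import Crest.Agent.R087.Geo_752
import Crest.Agent.R087.OP0_270

-- ▼ part R087/Plug_542
section

/-!
Row 87 (S0115), plug (helper542): everything landed up to 12:35 is inserted; the remaining
hypotheses are `L_TREELOW`, `L_HNORM`, `L_LOWN`.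
-/

set_option autoImplicit false

namespace Crest.Agent.R087.Plugx542

open Crest.Agent.R087.Sh0x283 Crest.Agent.R087.Sh1x283 Crest.Agent.R087.GateDefx273
open Crest.Agent.R087.S11x168 Crest.Agent.R087.E2Kx752 Crest.Agent.R087.OP0x270
open Crest.Agent.R087.Endx542

/-- the leaf TOPN -/
theorem l_topn : L_TOPN := fun _ hζ hSQ hM hO hH hR =>
  TopNx52.main (TopPx339.pairb hζ) (TopSx929.topstop hM hR) hSQ hO hH

/-- S0115 from the three last leaves. -/
theorem fin3 (hn : L_HNORM) (tl : L_TREELOW) (lw : L_LOWN) : TGT := by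
  obtain ⟨ζ, hζ, hc⟩ := GateBx273.exists_zet
  refine fin (ζ := ζ) (N := 2 * qq + 2) (M := 2 * qq + 8) (by omega) ?_ ?_
  · exact fun η hη hG => GateDx273.gate hζ (by rw [hc]; norm_num) (by omega) hG hη
  · exact fun e2k => operator_part e2k SqLx282.l_sq Clsx70.cls Topsx565.tops
      MassLeafx546.mass3 MassLeafx546.massom OmegaCx627.omega hn RemSumx435.remsum tl lw l_topn
      ClassNx233.l_classn OPclsx799.l_boot ζ hζ

end Crest.Agent.R087.Plugx542
end

-- ▼ part R087/Carp_929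
section

/-!
Row 87, operator part, leaf T2c (helper929): positive Carleson sums along a tree.

`eb b s m = 2^s ∫⁻_{z : cel s z.1 = m} b z`,  `ES b s0 s x = ∑_{s0 ≤ i < s} eb (b i) i (cel i x)`.

If `∑_{i ≥ s} ∫⁻_{cell (s,m)} b i ≤ Θ 2^-s` for all cells, then
`∫⁻_{cell (s0,m0)} (ES b s0 S x)² ≤ 2 Θ² 2^-s0`.
-/

set_option autoImplicit false

noncomputable section

open MeasureTheory Crest.Agent.R087.Sh0x283 Crest.Agent.R087.GateDefx273 Crest.Agent.R087.T1x90
open scoped ENNReal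

namespace Crest.Agent.R087.Carpx929

theorem measurable_cel (s : ℕ) : Measurable (cel s) :=
  Int.measurable_floor.comp (measurable_const.mul measurable_id)

theorem measurableSet_cel (s : ℕ) (m : ℤ) : MeasurableSet {x : ℝ | cel s x = m} :=
  measurable_cel s (measurableSet_singleton m)

theorem measurableSet_cel2 (s : ℕ) (m : ℤ) : MeasurableSet {z : ℝ × ℝ | cel s z.1 = m} :=
  (measurable_cel s).comp measurable_fst (measurableSet_singleton m)

/-- equality of two cell indices is a measurable condition -/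
theorem measurableSet_celeq {α : Type*} [MeasurableSpace α] (s : ℕ) {f g : α → ℝ}
    (hf : Measurable f) (hg : Measurable g) : MeasurableSet {a | cel s (f a) = cel s (g a)} :=
  measurableSet_eq_fun ((measurable_cel s).comp hf) ((measurable_cel s).comp hg)

/-- the cell of index `c` at scale `s` as an interval -/
theorem cel_eq_iff (s : ℕ) (m : ℤ) (x : ℝ) :
    cel s x = m ↔ (m : ℝ) * (1 / 2) ^ s ≤ x ∧ x < ((m : ℝ) + 1) * (1 / 2) ^ s := by
  have h2 : (0 : ℝ) < 2 ^ s := by positivity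
  rw [cel, Int.floor_eq_iff, one_div, inv_pow, ← div_eq_mul_inv, ← div_eq_mul_inv,
    div_le_iff₀ h2, lt_div_iff₀ h2, mul_comm x]

theorem cel_set (s : ℕ) (m : ℤ) :
    {x : ℝ | cel s x = m} = Set.Ico ((m : ℝ) * (1 / 2) ^ s) (((m : ℝ) + 1) * (1 / 2) ^ s) := by
  ext x
  exact cel_eq_iff s m x

theorem volume_cel (s : ℕ) (m : ℤ) :
    volume {x : ℝ | cel s x = m} = ENNReal.ofReal ((1 / 2) ^ s) := by
  rw [cel_set, Real.volume_Ico]
  congr 1
  ring

/-- `2^s` times the volume of a cell is one -/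
theorem two_pow_mul_volume (s : ℕ) (m : ℤ) :
    (2 : ℝ≥0∞) ^ s * volume {x : ℝ | cel s x = m} = 1 := by
  rw [volume_cel, ENNReal.ofReal_pow (by norm_num), ← mul_pow]
  have : (2 : ℝ≥0∞) * ENNReal.ofReal (1 / 2) = 1 := by
    have h2 : (2 : ℝ≥0∞) = ENNReal.ofReal 2 := by simp
    rw [h2, ← ENNReal.ofReal_mul (by norm_num)]
    norm_num
  rw [this, one_pow]

/-- finer cells determine coarser cells -/
theorem cel_mono {s i : ℕ} (h : s ≤ i) {x y : ℝ} (hxy : cel i x = cel i y) : cel s x = cel s y := by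
  have key : ∀ t : ℝ, cel s t = cel i t / 2 ^ (i - s) := by
    intro t
    have h1 : (2 : ℝ) ^ s * t = (2 : ℝ) ^ i * t / ((2 ^ (i - s) : ℕ) : ℝ) := by
      have h3 : (2 : ℝ) ^ i = 2 ^ s * 2 ^ (i - s) := by rw [← pow_add]; congr 1; omega
      rw [h3]
      push_cast
      field_simp
    rw [cel, cel, h1, Int.floor_div_natCast]
    push_cast
    rfl
  rw [key, key, hxy]

/-- cell coefficient of a nonnegative function -/
def eb (b : ℝ × ℝ → ℝ≥0∞) (s : ℕ) (m : ℤ) : ℝ≥0∞ := 2 ^ s * ∫⁻ z in {z : ℝ × ℝ | cel s z.1 = m}, b z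

/-- positive Carleson sum -/
def ES (b : ℕ → ℝ × ℝ → ℝ≥0∞) (s0 s : ℕ) (x : ℝ) : ℝ≥0∞ :=
  ∑ i ∈ Finset.Ico s0 s, eb (b i) i (cel i x)

theorem measurable_eb (b : ℝ × ℝ → ℝ≥0∞) (s : ℕ) : Measurable fun x => eb b s (cel s x) :=
  (measurable_of_countable (eb b s)).comp (measurable_cel s)


/-- Tonelli: integral over `x` of a cell coefficient against a weight -/
theorem lint_eb_mul {b : ℝ × ℝ → ℝ≥0∞} (hb : Measurable b) (s : ℕ) {f : ℝ → ℝ≥0∞}
    (hf : Measurable f) :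
    ∫⁻ x, eb b s (cel s x) * f x =
      ∫⁻ z, b z * (2 ^ s * ∫⁻ x in {x : ℝ | cel s x = cel s z.1}, f x) := by
  have hA : MeasurableSet {p : ℝ × (ℝ × ℝ) | cel s p.2.1 = cel s p.1} :=
    measurableSet_celeq s (measurable_fst.comp measurable_snd) measurable_fst
  have e1 : ∀ x : ℝ, eb b s (cel s x) * f x =
      ∫⁻ z : ℝ × ℝ, {p : ℝ × (ℝ × ℝ) | cel s p.2.1 = cel s p.1}.indicator
        (fun p => 2 ^ s * (b p.2 * f p.1)) (x, z) := by
    intro x
    have h1 : ∀ z : ℝ × ℝ, {p : ℝ × (ℝ × ℝ) | cel s p.2.1 = cel s p.1}.indicator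
        (fun p => 2 ^ s * (b p.2 * f p.1)) (x, z) =
        2 ^ s * f x * ({z : ℝ × ℝ | cel s z.1 = cel s x}.indicator b z) := by
      intro z
      by_cases hz : cel s z.1 = cel s x
      · rw [Set.indicator_of_mem (by exact hz), Set.indicator_of_mem (by exact hz)]
        ring
      · rw [Set.indicator_of_notMem (by exact hz), Set.indicator_of_notMem (by exact hz), mul_zero]
    simp_rw [h1]
    rw [lintegral_const_mul _ (hb.indicator (measurableSet_cel2 s _)),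
      lintegral_indicator (measurableSet_cel2 s _), eb]
    ring
  simp_rw [e1]
  rw [lintegral_lintegral_swap]
  · refine lintegral_congr fun z => ?_
    have h1 : ∀ x : ℝ, {p : ℝ × (ℝ × ℝ) | cel s p.2.1 = cel s p.1}.indicator
        (fun p => 2 ^ s * (b p.2 * f p.1)) (x, z) =
        2 ^ s * b z * ({x : ℝ | cel s x = cel s z.1}.indicator f x) := by
      intro x
      by_cases hz : cel s z.1 = cel s x
      · rw [Set.indicator_of_mem (by exact hz), Set.indicator_of_mem (by exact hz.symm)]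
        ring
      · rw [Set.indicator_of_notMem (by exact hz),
          Set.indicator_of_notMem (by exact fun h => hz h.symm), mul_zero]
    simp_rw [h1]
    rw [lintegral_const_mul _ (hf.indicator (measurableSet_cel s _)),
      lintegral_indicator (measurableSet_cel s _)]
    ring
  · apply Measurable.aemeasurable
    exact (measurable_const.mul ((hb.comp measurable_snd).mul (hf.comp measurable_fst))).indicator hA

/-- integral of a cell coefficient over a coarser cell -/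
theorem lint_eb_cell {b : ℝ × ℝ → ℝ≥0∞} (hb : Measurable b) {s i : ℕ} (h : s ≤ i) (m : ℤ) :
    ∫⁻ x in {x : ℝ | cel s x = m}, eb b i (cel i x) = ∫⁻ z in {z : ℝ × ℝ | cel s z.1 = m}, b z := by
  have e1 : ∫⁻ x in {x : ℝ | cel s x = m}, eb b i (cel i x) =
      ∫⁻ x, eb b i (cel i x) * {x : ℝ | cel s x = m}.indicator 1 x := by
    rw [← lintegral_indicator (measurableSet_cel s m)]
    refine lintegral_congr fun x => ?_
    by_cases hx : cel s x = m
    · rw [Set.indicator_of_mem (by exact hx), Set.indicator_of_mem (by exact hx)]; simp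
    · rw [Set.indicator_of_notMem (by exact hx), Set.indicator_of_notMem (by exact hx)]; simp
  rw [e1, lint_eb_mul hb i (measurable_one.indicator (measurableSet_cel s m)),
    ← lintegral_indicator (measurableSet_cel2 s m)]
  refine lintegral_congr fun z => ?_
  by_cases hz : cel s z.1 = m
  · rw [Set.indicator_of_mem (by exact hz)]
    have : ∫⁻ x in {x : ℝ | cel i x = cel i z.1}, {x : ℝ | cel s x = m}.indicator (1 : ℝ → ℝ≥0∞) x =
        volume {x : ℝ | cel i x = cel i z.1} := by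
      rw [setLIntegral_congr_fun (measurableSet_cel i _) (g := fun _ => 1)]
      · simp
      · intro x hx
        rw [Set.indicator_of_mem]
        · simp
        · show cel s x = m
          rw [cel_mono h hx, hz]
    rw [this, two_pow_mul_volume, mul_one]
  · rw [Set.indicator_of_notMem (by exact hz)]
    have : ∫⁻ x in {x : ℝ | cel i x = cel i z.1}, {x : ℝ | cel s x = m}.indicator (1 : ℝ → ℝ≥0∞) x =
        0 := by
      rw [setLIntegral_congr_fun (measurableSet_cel i _) (g := fun _ => 0)]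
      · simp
      · intro x hx
        rw [Set.indicator_of_notMem]
        show ¬ cel s x = m
        rw [cel_mono h hx]
        exact hz
    rw [this]
    simp

/-- square of a finite nonnegative sum -/
theorem sq_sum_le (c : ℕ → ℝ≥0∞) (s0 S : ℕ) :
    (∑ i ∈ Finset.Ico s0 S, c i) ^ 2 ≤
      2 * ∑ s ∈ Finset.Ico s0 S, c s * ∑ i ∈ Finset.Ico s S, c i := by
  induction S with
  | zero => simp
  | succ S ih =>
    rcases Nat.lt_or_ge S s0 with h | h
    · have : Finset.Ico s0 (S + 1) = ∅ := by ext; simp; omega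
      rw [this]; simp
    · rw [Finset.sum_Ico_succ_top h, Finset.sum_Ico_succ_top h]
      have h1 : ∀ s ∈ Finset.Ico s0 S, c s * ∑ i ∈ Finset.Ico s (S + 1), c i =
          c s * (∑ i ∈ Finset.Ico s S, c i) + c s * c S := by
        intro s hs
        rw [Finset.mem_Ico] at hs
        rw [Finset.sum_Ico_succ_top hs.2.le, mul_add]
      rw [Finset.sum_congr rfl h1, Finset.sum_add_distrib, ← Finset.sum_mul]
      have h2 : ∑ i ∈ Finset.Ico S (S + 1), c i = c S := by simp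
      rw [h2]
      calc (∑ i ∈ Finset.Ico s0 S, c i + c S) ^ 2
          = (∑ i ∈ Finset.Ico s0 S, c i) ^ 2 + 2 * ((∑ i ∈ Finset.Ico s0 S, c i) * c S)
            + c S * c S := by ring
        _ ≤ 2 * (∑ s ∈ Finset.Ico s0 S, c s * ∑ i ∈ Finset.Ico s S, c i)
            + 2 * ((∑ i ∈ Finset.Ico s0 S, c i) * c S) + 2 * (c S * c S) := by
            have h5 : c S * c S ≤ 2 * (c S * c S) := by
              calc c S * c S = 1 * (c S * c S) := (one_mul _).symm
                _ ≤ 2 * (c S * c S) := by gcongr; norm_num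
            exact add_le_add (add_le_add ih le_rfl) h5
        _ = _ := by ring

/-- **positive Carleson embedding** -/
theorem carl {b : ℕ → ℝ × ℝ → ℝ≥0∞} (hb : ∀ i, Measurable (b i)) (s0 S : ℕ) (m0 : ℤ) (Θ : ℝ≥0∞)
    (hpack : ∀ s m, s0 ≤ s → s < S →
      ∑ i ∈ Finset.Ico s S, ∫⁻ z in {z : ℝ × ℝ | cel s z.1 = m}, b i z ≤
        Θ * ENNReal.ofReal ((1 / 2) ^ s)) :
    ∫⁻ x in {x : ℝ | cel s0 x = m0}, (ES b s0 S x) ^ 2 ≤
      2 * Θ ^ 2 * ENNReal.ofReal ((1 / 2) ^ s0) := by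
  rcases Nat.lt_or_ge s0 S with hlt | hge
  swap
  · have : ∀ x, ES b s0 S x = 0 := by
      intro x
      rw [ES, Finset.Ico_eq_empty (by omega), Finset.sum_empty]
    simp [this]
  -- the tail sums
  set T : ℕ → ℝ → ℝ≥0∞ := fun s x => ∑ i ∈ Finset.Ico s S, eb (b i) i (cel i x) with hT
  have hTm : ∀ s, Measurable (T s) := fun s => Finset.measurable_sum _ fun i _ => measurable_eb (b i) i
  have hTcell : ∀ s m, s0 ≤ s → s < S →
      ∫⁻ x in {x : ℝ | cel s x = m}, T s x ≤ Θ * ENNReal.ofReal ((1 / 2) ^ s) := by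
    intro s m h0 h1
    rw [lintegral_finsetSum _ fun i _ => measurable_eb (b i) i]
    refine le_trans (le_of_eq (Finset.sum_congr rfl fun i hi => ?_)) (hpack s m h0 h1)
    rw [Finset.mem_Ico] at hi
    exact lint_eb_cell (hb i) hi.1 m
  set X : Set ℝ := {x : ℝ | cel s0 x = m0} with hX
  have hXm : MeasurableSet X := measurableSet_cel s0 m0
  -- one scale
  have h1 : ∀ s, s0 ≤ s → s < S → ∫⁻ x in X, eb (b s) s (cel s x) * T s x ≤
      Θ * ∫⁻ x in X, eb (b s) s (cel s x) := by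
    intro s hs0 hsS
    have e1 : ∫⁻ x in X, eb (b s) s (cel s x) * T s x =
        ∫⁻ x, eb (b s) s (cel s x) * X.indicator (T s) x := by
      rw [← lintegral_indicator hXm]
      refine lintegral_congr fun x => ?_
      by_cases hx : x ∈ X
      · rw [Set.indicator_of_mem hx, Set.indicator_of_mem hx]
      · rw [Set.indicator_of_notMem hx, Set.indicator_of_notMem hx, mul_zero]
    rw [e1, lint_eb_mul (hb s) s ((hTm s).indicator hXm), hX, lint_eb_cell (hb s) hs0 m0,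
      ← lintegral_indicator (measurableSet_cel2 s0 m0),
      ← lintegral_const_mul _ ((hb s).indicator (measurableSet_cel2 s0 m0))]
    refine lintegral_mono fun z => ?_
    by_cases hz : cel s0 z.1 = m0
    · rw [Set.indicator_of_mem (by exact hz), mul_comm Θ]
      have h2 : ∫⁻ x in {x : ℝ | cel s x = cel s z.1}, X.indicator (T s) x ≤
          Θ * ENNReal.ofReal ((1 / 2) ^ s) :=
        (lintegral_mono fun x => Set.indicator_le_self _ _ _).trans (hTcell s _ hs0 hsS)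
      have h3 : 2 ^ s * ∫⁻ x in {x : ℝ | cel s x = cel s z.1}, X.indicator (T s) x ≤ Θ := by
        calc 2 ^ s * ∫⁻ x in {x : ℝ | cel s x = cel s z.1}, X.indicator (T s) x
            ≤ 2 ^ s * (Θ * ENNReal.ofReal ((1 / 2) ^ s)) := by gcongr
          _ = Θ * (2 ^ s * volume {x : ℝ | cel s x = 0}) := by rw [volume_cel]; ring
          _ = Θ := by rw [two_pow_mul_volume, mul_one]
      gcongr
    · have h2 : ∫⁻ x in {x : ℝ | cel s x = cel s z.1}, X.indicator (T s) x = 0 := by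
        rw [setLIntegral_congr_fun (measurableSet_cel s _) (g := fun _ => 0)]
        · simp
        · intro x hx
          rw [Set.indicator_of_notMem]
          show ¬ cel s0 x = m0
          rw [cel_mono hs0 hx]
          exact hz
      rw [h2]
      simp
  calc ∫⁻ x in X, (ES b s0 S x) ^ 2
      ≤ ∫⁻ x in X, 2 * ∑ s ∈ Finset.Ico s0 S, eb (b s) s (cel s x) * T s x :=
        lintegral_mono fun x => sq_sum_le (fun i => eb (b i) i (cel i x)) s0 S
    _ = 2 * ∑ s ∈ Finset.Ico s0 S, ∫⁻ x in X, eb (b s) s (cel s x) * T s x := by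
        rw [lintegral_const_mul, lintegral_finsetSum]
        · exact fun s _ => (measurable_eb (b s) s).mul (hTm s)
        · exact Finset.measurable_sum _ fun s _ => (measurable_eb (b s) s).mul (hTm s)
    _ ≤ 2 * ∑ s ∈ Finset.Ico s0 S, Θ * ∫⁻ x in X, eb (b s) s (cel s x) := by
        have h2 : ∀ s ∈ Finset.Ico s0 S, ∫⁻ x in X, eb (b s) s (cel s x) * T s x ≤
            Θ * ∫⁻ x in X, eb (b s) s (cel s x) := by
          intro s hs
          rw [Finset.mem_Ico] at hs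
          exact h1 s hs.1 hs.2
        have h3 := Finset.sum_le_sum h2
        gcongr
    _ = 2 * Θ * ∫⁻ x in X, T s0 x := by
        rw [← Finset.mul_sum, lintegral_finsetSum _ fun i _ => measurable_eb (b i) i, mul_assoc]
    _ ≤ 2 * Θ * (Θ * ENNReal.ofReal ((1 / 2) ^ s0)) := by
        have h2 := hTcell s0 m0 le_rfl hlt
        gcongr
    _ = 2 * Θ ^ 2 * ENNReal.ofReal ((1 / 2) ^ s0) := by ring

/-- real cell coefficient of a nonnegative function -/
def rb (b : ℝ × ℝ → ℝ) (s : ℕ) (m : ℤ) : ℝ := 2 ^ s * ∫ z in {z : ℝ × ℝ | cel s z.1 = m}, b z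

/-- real positive Carleson sum -/
def RS (b : ℕ → ℝ × ℝ → ℝ) (s0 s : ℕ) (x : ℝ) : ℝ :=
  ∑ i ∈ Finset.Ico s0 s, rb (b i) i (cel i x)

theorem measurable_rb (b : ℝ × ℝ → ℝ) (s : ℕ) : Measurable fun x => rb b s (cel s x) :=
  (measurable_of_countable (rb b s)).comp (measurable_cel s)

theorem measurable_RS (b : ℕ → ℝ × ℝ → ℝ) (s0 s : ℕ) : Measurable (RS b s0 s) :=
  Finset.measurable_sum _ fun i _ => measurable_rb (b i) i

theorem rb_nonneg {b : ℝ × ℝ → ℝ} (hb : ∀ z, 0 ≤ b z) (s : ℕ) (m : ℤ) : 0 ≤ rb b s m :=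
  mul_nonneg (by positivity) (integral_nonneg fun z => hb z)

theorem RS_nonneg {b : ℕ → ℝ × ℝ → ℝ} (hb : ∀ i z, 0 ≤ b i z) (s0 s : ℕ) (x : ℝ) : 0 ≤ RS b s0 s x :=
  Finset.sum_nonneg fun i _ => rb_nonneg (hb i) i _

theorem ofReal_rb {b : ℝ × ℝ → ℝ} (hb0 : ∀ z, 0 ≤ b z) (hi : Integrable b) (s : ℕ) (m : ℤ) :
    ENNReal.ofReal (rb b s m) = eb (fun z => ENNReal.ofReal (b z)) s m := by
  rw [rb, eb, ENNReal.ofReal_mul (by positivity), ENNReal.ofReal_pow (by norm_num),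
    ofReal_integral_eq_lintegral_ofReal hi.integrableOn (Filter.Eventually.of_forall fun z => hb0 z)]
  simp

theorem ofReal_RS {b : ℕ → ℝ × ℝ → ℝ} (hb0 : ∀ i z, 0 ≤ b i z) (hi : ∀ i, Integrable (b i))
    (s0 s : ℕ) (x : ℝ) :
    ENNReal.ofReal (RS b s0 s x) = ES (fun i z => ENNReal.ofReal (b i z)) s0 s x := by
  rw [RS, ES, ENNReal.ofReal_sum_of_nonneg fun i _ => rb_nonneg (hb0 i) i _]
  exact Finset.sum_congr rfl fun i _ => ofReal_rb (hb0 i) (hi i) i _

/-- **T2c**: positive Carleson sums along a tree. `b i z` lives on the population `Z` and on the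
active scales, `∑_i b i z ≤ a`; then `∫ (∑ ...)² ≤ 2 (a D)² |I|`. -/
theorem tree_RS {S s0 : ℕ} {m0 : ℤ} {h : ℝ × ℝ → ℝ} {act : ℕ → Set (ℝ × ℝ)} {Z : Set (ℝ × ℝ)}
    {H D : ℝ} (ht : Tree S s0 m0 h act Z H D) {b : ℕ → ℝ × ℝ → ℝ} (hbm : ∀ i, Measurable (b i))
    (hb0 : ∀ i z, 0 ≤ b i z) (hbZ : ∀ i z, b i z ≠ 0 → z ∈ Z ∧ z ∈ act i) {a : ℝ}
    (ha : ∀ z, ∑ i ∈ Finset.Ico s0 S, b i z ≤ a) :
    ∫ x, (RS b s0 S x) ^ 2 ≤ 2 * (a * D) ^ 2 * (1 / 2) ^ s0 := by
  have hD := ht.D0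
  -- `b i` vanishes outside the relevant scales
  have hout : ∀ i z, b i z ≠ 0 → s0 ≤ i ∧ i < S := by
    intro i z hz
    obtain ⟨h1, h2⟩ := hbZ i z hz
    refine ⟨?_, ?_⟩
    · by_contra hc
      exact Set.disjoint_left.1 (ht.lo i (by omega)) h2 h1
    · by_contra hc
      exact Set.disjoint_left.1 (ht.hi i (by omega)) h2 h1
  have hba : ∀ i z, b i z ≤ max a 0 := by
    intro i z
    by_cases hz : b i z = 0
    · rw [hz]; exact le_max_right _ _
    · obtain ⟨h1, h2⟩ := hout i z hz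
      exact ((Finset.single_le_sum (f := fun i => b i z) (fun j _ => hb0 j z)
        (Finset.mem_Ico.2 ⟨h1, h2⟩)).trans (ha z)).trans (le_max_left _ _)
  have hint : ∀ i, Integrable (b i) := by
    intro i
    by_cases hz : ∃ z, b i z ≠ 0
    · obtain ⟨z0, hz0⟩ := hz
      obtain ⟨h1, h2⟩ := hbZ i z0 hz0
      have h3 := ht.dens z0 h1 s0 le_rfl ⟨i, (hout i z0 hz0).1, h2⟩
      have h4 : Z ∩ {w : ℝ × ℝ | cel s0 w.1 = cel s0 z0.1} = Z := by
        rw [Set.inter_eq_left]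
        intro w hw
        show cel s0 w.1 = cel s0 z0.1
        rw [ht.top w hw, ht.top z0 h1]
      rw [h4] at h3
      have h5 : volume Z ≠ ⊤ := ne_top_of_le_ne_top ENNReal.ofReal_ne_top h3
      have h6 : Integrable (Z.indicator fun _ : ℝ × ℝ => max a 0) :=
        (integrable_indicator_iff ht.mZ).2 (integrableOn_const h5)
      refine h6.mono' (hbm i).aestronglyMeasurable (Filter.Eventually.of_forall fun z => ?_)
      rw [Real.norm_of_nonneg (hb0 i z)]
      by_cases hz : b i z = 0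
      · rw [hz]
        exact Set.indicator_nonneg (fun _ _ => le_max_right _ _) z
      · rw [Set.indicator_of_mem (hbZ i z hz).1]
        exact hba i z
    · push Not at hz
      have : b i = fun _ => 0 := funext hz
      rw [this]
      exact integrable_zero _ _ _
  -- the packing condition
  have hpack : ∀ s m, s0 ≤ s → s < S →
      ∑ i ∈ Finset.Ico s S, ∫⁻ z in {z : ℝ × ℝ | cel s z.1 = m}, ENNReal.ofReal (b i z) ≤
        ENNReal.ofReal (a * D) * ENNReal.ofReal ((1 / 2) ^ s) := by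
    intro s m hs0 hsS
    rw [← lintegral_finsetSum _ fun i _ => (hbm i).ennreal_ofReal]
    by_cases hex : ∃ z ∈ Z, cel s z.1 = m ∧ ∃ s', s ≤ s' ∧ z ∈ act s'
    · obtain ⟨z0, hz0, hc0, s', hs', hact⟩ := hex
      have h3 := ht.dens z0 hz0 s hs0 ⟨s', hs', hact⟩
      have ha0 : 0 ≤ a := (Finset.sum_nonneg fun i _ => hb0 i z0).trans (ha z0)
      calc ∫⁻ z in {z : ℝ × ℝ | cel s z.1 = m}, ∑ i ∈ Finset.Ico s S, ENNReal.ofReal (b i z)
          ≤ ∫⁻ z in {z : ℝ × ℝ | cel s z.1 = m}, Z.indicator (fun _ => ENNReal.ofReal a) z := by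
            refine lintegral_mono fun z => ?_
            rw [← ENNReal.ofReal_sum_of_nonneg fun i _ => hb0 i z]
            by_cases hz : z ∈ Z
            · rw [Set.indicator_of_mem hz]
              refine ENNReal.ofReal_le_ofReal (le_trans ?_ (ha z))
              exact Finset.sum_le_sum_of_subset_of_nonneg
                (Finset.Ico_subset_Ico hs0 le_rfl) fun i _ _ => hb0 i z
            · rw [Set.indicator_of_notMem hz]
              have : ∑ i ∈ Finset.Ico s S, b i z = 0 := by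
                refine Finset.sum_eq_zero fun i _ => ?_
                by_contra hne
                exact hz (hbZ i z hne).1
              rw [this]; simp
        _ = ENNReal.ofReal a * volume (Z ∩ {w : ℝ × ℝ | cel s w.1 = cel s z0.1}) := by
            rw [lintegral_indicator ht.mZ, setLIntegral_const,
              Measure.restrict_apply ht.mZ, hc0]
        _ ≤ ENNReal.ofReal a * ENNReal.ofReal (D * (1 / 2) ^ s) := by gcongr
        _ = ENNReal.ofReal (a * D) * ENNReal.ofReal ((1 / 2) ^ s) := by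
            rw [← ENNReal.ofReal_mul ha0, ← ENNReal.ofReal_mul (mul_nonneg ha0 hD)]
            congr 1; ring
    · have : ∫⁻ z in {z : ℝ × ℝ | cel s z.1 = m}, ∑ i ∈ Finset.Ico s S, ENNReal.ofReal (b i z) = 0 := by
        rw [setLIntegral_congr_fun (measurableSet_cel2 s m) (g := fun _ => 0)]
        · simp
        · intro z hz
          refine Finset.sum_eq_zero fun i hi => ?_
          rw [Finset.mem_Ico] at hi
          by_contra hne
          have hne' : b i z ≠ 0 := by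
            intro h0
            rw [h0] at hne
            simp at hne
          obtain ⟨h1, h2⟩ := hbZ i z hne'
          exact hex ⟨z, h1, hz, i, hi.1, h2⟩
      rw [this]
      exact bot_le
  have hmain := carl (b := fun i z => ENNReal.ofReal (b i z)) (fun i => (hbm i).ennreal_ofReal)
    s0 S m0 (ENNReal.ofReal (a * D)) hpack
  -- `RS` lives on the top cell
  have hsupp : ∀ x, cel s0 x ≠ m0 → RS b s0 S x = 0 := by
    intro x hx
    refine Finset.sum_eq_zero fun i hi => ?_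
    rw [Finset.mem_Ico] at hi
    rw [rb, setIntegral_congr_fun (measurableSet_cel2 i _) (g := fun _ => 0)]
    · simp
    · intro z hz
      by_contra hne
      obtain ⟨h1, h2⟩ := hbZ i z hne
      apply hx
      rw [← ht.top z h1]
      exact (cel_mono hi.1 hz).symm
  have hle : ∫⁻ x, ENNReal.ofReal ((RS b s0 S x) ^ 2) ≤
      2 * ENNReal.ofReal (a * D) ^ 2 * ENNReal.ofReal ((1 / 2) ^ s0) := by
    refine le_trans (le_of_eq ?_) hmain
    rw [← lintegral_indicator (measurableSet_cel s0 m0)]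
    refine lintegral_congr fun x => ?_
    by_cases hx : cel s0 x = m0
    · rw [Set.indicator_of_mem (by exact hx), ← ofReal_RS hb0 hint,
        ENNReal.ofReal_pow (RS_nonneg hb0 _ _ _)]
    · rw [Set.indicator_of_notMem (by exact hx), hsupp x hx]
      simp
  rcases le_or_gt 0 a with ha0 | ha0
  · have h1 : (2 : ℝ≥0∞) * ENNReal.ofReal (a * D) ^ 2 * ENNReal.ofReal ((1 / 2) ^ s0) =
        ENNReal.ofReal (2 * (a * D) ^ 2 * (1 / 2) ^ s0) := by
      have h2 : (2 : ℝ≥0∞) = ENNReal.ofReal 2 := by simp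
      rw [h2, ← ENNReal.ofReal_pow (mul_nonneg ha0 hD), ← ENNReal.ofReal_mul (by norm_num),
        ← ENNReal.ofReal_mul (by positivity)]
    rw [h1] at hle
    rw [integral_eq_lintegral_of_nonneg_ae (Filter.Eventually.of_forall fun x => sq_nonneg _)
      ((measurable_RS b s0 S).pow_const 2).aestronglyMeasurable]
    exact ENNReal.toReal_le_of_le_ofReal (by positivity) hle
  · have h0 : ∀ x, RS b s0 S x = 0 := by
      intro x
      exact absurd ((Finset.sum_nonneg fun i _ => hb0 i (0, 0)).trans (ha (0, 0))) (not_le.2 ha0)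
    simp only [h0]
    simp
    positivity

end Crest.Agent.R087.Carpx929
end
end

-- ▼ part R087/T2c_929
section

/-!
Row 87, operator part, leaf T2c (helper929): the positive sums of one tree in the notation of
`TreeIf_153` (`pL`, `eL`).

* `pL_sq`  : `∫ (∑_{s<S} pL w h act s)² ≤ 2 (H c D)² 2^-s0`, weights with sums over active scales `≤ c`
* `eL_sq`  : the same for `eL` (`c = 2`)
* `pL_cell`, `sum_pL_nonneg`, `measurable_sum_pL`, `sum_pL_bound`, `sum_pL_supp`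
-/

set_option autoImplicit false

noncomputable section

open MeasureTheory Crest.Agent.R087.Sh0x283 Crest.Agent.R087.GateDefx273 Crest.Agent.R087.T1x90
open Crest.Agent.R087.TreeIfx153 Crest.Agent.R087.Carpx929
open scoped ENNReal

namespace Crest.Agent.R087.T2cx929

variable {S s0 : ℕ} {m0 : ℤ} {h : ℝ × ℝ → ℝ} {act : ℕ → Set (ℝ × ℝ)} {Z : Set (ℝ × ℝ)} {H D : ℝ}

/-- the density of `pL` -/
def bb (w : ℕ → ℝ × ℝ → ℝ) (h : ℝ × ℝ → ℝ) (act : ℕ → Set (ℝ × ℝ)) (s : ℕ) : ℝ × ℝ → ℝ :=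
  (act s).indicator fun z => |h z| * w s z

theorem pL_eq (w : ℕ → ℝ × ℝ → ℝ) (h : ℝ × ℝ → ℝ) {act : ℕ → Set (ℝ × ℝ)}
    (hact : ∀ s, MeasurableSet (act s)) (s : ℕ) (x : ℝ) :
    pL w h act s x = rb (bb w h act s) s (cel s x) := by
  rw [pL, rb, bb, setIntegral_indicator (hact s)]

theorem bb_nonneg {w : ℕ → ℝ × ℝ → ℝ} (hw : ∀ s z, 0 ≤ w s z) (h : ℝ × ℝ → ℝ)
    (act : ℕ → Set (ℝ × ℝ)) (s : ℕ) (z : ℝ × ℝ) : 0 ≤ bb w h act s z :=
  Set.indicator_nonneg (fun z _ => mul_nonneg (abs_nonneg _) (hw s z)) z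

theorem measurable_bb {w : ℕ → ℝ × ℝ → ℝ} (hw : ∀ s, Measurable (w s)) {h : ℝ × ℝ → ℝ}
    (hh : Measurable h) {act : ℕ → Set (ℝ × ℝ)} (hact : ∀ s, MeasurableSet (act s)) (s : ℕ) :
    Measurable (bb w h act s) := by
  refine Measurable.indicator ?_ (hact s)
  exact (continuous_abs.measurable.comp hh).mul (hw s)

theorem bb_ne {w : ℕ → ℝ × ℝ → ℝ} (ht : Tree S s0 m0 h act Z H D) (s : ℕ) (z : ℝ × ℝ)
    (hz : bb w h act s z ≠ 0) : z ∈ Z ∧ z ∈ act s := by
  have h1 : z ∈ act s := by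
    by_contra hc
    exact hz (Set.indicator_of_notMem hc _)
  refine ⟨?_, h1⟩
  by_contra hc
  apply hz
  rw [bb, Set.indicator_of_mem h1, ht.off z hc]
  simp

theorem sum_bb_le {w : ℕ → ℝ × ℝ → ℝ} (ht : Tree S s0 m0 h act Z H D) (hH : 0 ≤ H)
    (hw0 : ∀ s z, 0 ≤ w s z) {c : ℝ} (hc : 0 ≤ c)
    (hw : ∀ z ∈ Z, ∀ A : Finset ℕ, (∀ s ∈ A, z ∈ act s) → ∑ s ∈ A, w s z ≤ c) (F : Finset ℕ)
    (z : ℝ × ℝ) : ∑ s ∈ F, bb w h act s z ≤ H * c := by
  classical
  by_cases hz : z ∈ Z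
  · have h1 : ∀ s ∈ F, bb w h act s z = if z ∈ act s then |h z| * w s z else 0 := by
      intro s _
      rw [bb, Set.indicator_apply]
    rw [Finset.sum_congr rfl h1, ← Finset.sum_filter, ← Finset.mul_sum]
    have h2 := hw z hz (F.filter fun s => z ∈ act s) fun s hs => (Finset.mem_filter.1 hs).2
    have h3 : 0 ≤ ∑ s ∈ F.filter (fun s => z ∈ act s), w s z := Finset.sum_nonneg fun s _ => hw0 s z
    exact mul_le_mul (ht.bd z) h2 h3 hH
  · have : ∑ s ∈ F, bb w h act s z = 0 := by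
      refine Finset.sum_eq_zero fun s _ => ?_
      by_contra hne
      exact hz (bb_ne ht s z hne).1
    rw [this]
    exact mul_nonneg hH hc

/-- below the top scale nothing happens -/
theorem pL_lo {w : ℕ → ℝ × ℝ → ℝ} (ht : Tree S s0 m0 h act Z H D) (hact : ∀ s, MeasurableSet (act s))
    {s : ℕ} (hs : s < s0) (x : ℝ) : pL w h act s x = 0 := by
  rw [pL_eq w h hact]
  have : bb w h act s = fun _ => 0 := by
    funext z
    by_contra hne
    obtain ⟨h1, h2⟩ := bb_ne ht s z hne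
    exact Set.disjoint_left.1 (ht.lo s hs) h2 h1
  rw [this, rb]
  simp

theorem sum_pL_eq {w : ℕ → ℝ × ℝ → ℝ} (ht : Tree S s0 m0 h act Z H D) (hs : s0 ≤ S) (x : ℝ) :
    ∑ s ∈ Finset.range S, pL w h act s x = RS (bb w h act) s0 S x := by
  rw [RS, Finset.range_eq_Ico, ← Finset.sum_Ico_consecutive _ (Nat.zero_le s0) hs]
  rw [Finset.sum_eq_zero fun s hs => pL_lo ht ht.mact (Finset.mem_Ico.1 hs).2 x, zero_add]
  exact Finset.sum_congr rfl fun s _ => pL_eq w h ht.mact s x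

/-- **T2c** -/
theorem pL_sq {w : ℕ → ℝ × ℝ → ℝ} (ht : Tree S s0 m0 h act Z H D) (hs : s0 ≤ S) (hH : 0 ≤ H)
    (hwm : ∀ s, Measurable (w s)) (hw0 : ∀ s z, 0 ≤ w s z) {c : ℝ} (hc : 0 ≤ c)
    (hw : ∀ z ∈ Z, ∀ A : Finset ℕ, (∀ s ∈ A, z ∈ act s) → ∑ s ∈ A, w s z ≤ c) :
    ∫ x, (∑ s ∈ Finset.range S, pL w h act s x) ^ 2 ≤ 2 * (H * c * D) ^ 2 * (1 / 2) ^ s0 := by
  simp_rw [sum_pL_eq ht hs]
  exact tree_RS ht (measurable_bb hwm ht.nice.1 ht.mact) (bb_nonneg hw0 h act) (bb_ne ht)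
    fun z => sum_bb_le ht hH hw0 hc hw _ z

theorem pL_nonneg {w : ℕ → ℝ × ℝ → ℝ} (hw0 : ∀ s z, 0 ≤ w s z) (h : ℝ × ℝ → ℝ)
    (act : ℕ → Set (ℝ × ℝ)) (s : ℕ) (x : ℝ) : 0 ≤ pL w h act s x :=
  mul_nonneg (by positivity) (integral_nonneg fun z => mul_nonneg (abs_nonneg _) (hw0 s z))


theorem measurable_pL (w : ℕ → ℝ × ℝ → ℝ) (h : ℝ × ℝ → ℝ) (act : ℕ → Set (ℝ × ℝ)) (s : ℕ) :
    Measurable (pL w h act s) := by
  have h1 : pL w h act s = (fun j : ℤ => (2 : ℝ) ^ s *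
      ∫ z in {z : ℝ × ℝ | cel s z.1 = j} ∩ act s, |h z| * w s z) ∘ cel s := rfl
  rw [h1]
  exact (measurable_of_countable _).comp (measurable_cel s)

/-- `pL` depends on the cell only -/
theorem pL_congr (w : ℕ → ℝ × ℝ → ℝ) (h : ℝ × ℝ → ℝ) (act : ℕ → Set (ℝ × ℝ)) {s : ℕ} {x y : ℝ}
    (hxy : cel s x = cel s y) : pL w h act s x = pL w h act s y := by
  rw [pL, pL, hxy]

/-- `pL` lives over the top cell -/
theorem pL_supp {w : ℕ → ℝ × ℝ → ℝ} (ht : Tree S s0 m0 h act Z H D) (s : ℕ) {x : ℝ}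
    (hx : cel s0 x ≠ m0) : pL w h act s x = 0 := by
  rcases Nat.lt_or_ge s s0 with hs | hs
  · exact pL_lo ht ht.mact hs x
  · rw [pL_eq w h ht.mact, rb, setIntegral_congr_fun (measurableSet_cel2 s _) (g := fun _ => 0)]
    · simp
    · intro z hz
      by_contra hne
      obtain ⟨h1, h2⟩ := bb_ne ht s z hne
      apply hx
      rw [← ht.top z h1]
      exact (cel_mono hs hz).symm

/-- the mass of the population is finite as soon as something is active -/
theorem volume_pop (ht : Tree S s0 m0 h act Z H D) {z : ℝ × ℝ} (hz : z ∈ Z) {s : ℕ}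
    (hs : z ∈ act s) {r : ℕ} (h0 : s0 ≤ r) (hr : r ≤ s) :
    volume (Z ∩ {w : ℝ × ℝ | cel r w.1 = cel r z.1}) ≤ ENNReal.ofReal (D * (1 / 2) ^ r) :=
  ht.dens z hz r h0 ⟨s, hr, hs⟩

/-- one scale is bounded by `H c D` -/
theorem pL_le {w : ℕ → ℝ × ℝ → ℝ} (ht : Tree S s0 m0 h act Z H D) (hH : 0 ≤ H)
    (hwm : ∀ s, Measurable (w s)) (hw0 : ∀ s z, 0 ≤ w s z) {c : ℝ} (hc : 0 ≤ c)
    (hw : ∀ z ∈ Z, ∀ s, z ∈ act s → w s z ≤ c) (s : ℕ) (x : ℝ) :
    pL w h act s x ≤ H * c * D := by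
  have hD := ht.D0
  by_cases hex : ∃ z ∈ Z, z ∈ act s ∧ cel s z.1 = cel s x
  · obtain ⟨z0, hz0, ha0, hc0⟩ := hex
    have hs0 : s0 ≤ s := by
      by_contra hcon
      exact Set.disjoint_left.1 (ht.lo s (by omega)) ha0 hz0
    have h1 := volume_pop ht hz0 ha0 hs0 le_rfl
    have hfin : volume (Z ∩ {w : ℝ × ℝ | cel s w.1 = cel s z0.1}) ≠ ⊤ :=
      ne_top_of_le_ne_top ENNReal.ofReal_ne_top h1
    have h2 : pL w h act s x ≤ 2 ^ s * ∫ z in Z ∩ {w : ℝ × ℝ | cel s w.1 = cel s z0.1}, H * c := by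
      rw [pL, ← hc0]
      gcongr
      have e1 : ∫ z in {z : ℝ × ℝ | cel s z.1 = cel s z0.1} ∩ act s, |h z| * w s z =
          ∫ z in Z ∩ {w : ℝ × ℝ | cel s w.1 = cel s z0.1},
            (act s).indicator (fun z => |h z| * w s z) z := by
        rw [← integral_indicator ((measurableSet_cel2 s _).inter (ht.mact s)),
          ← integral_indicator (ht.mZ.inter (measurableSet_cel2 s _))]
        congr 1
        funext z
        by_cases h3 : cel s z.1 = cel s z0.1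
        · by_cases h4 : z ∈ act s
          · have h34 : z ∈ {z : ℝ × ℝ | cel s z.1 = cel s z0.1} ∩ act s := ⟨h3, h4⟩
            rw [Set.indicator_of_mem h34]
            by_cases h5 : z ∈ Z
            · have h53 : z ∈ Z ∩ {w : ℝ × ℝ | cel s w.1 = cel s z0.1} := ⟨h5, h3⟩
              rw [Set.indicator_of_mem h53, Set.indicator_of_mem h4]
            · rw [Set.indicator_of_notMem (fun h => h5 h.1), ht.off z h5]
              simp
          · rw [Set.indicator_of_notMem (fun h => h4 h.2)]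
            by_cases h5 : z ∈ Z
            · have h53 : z ∈ Z ∩ {w : ℝ × ℝ | cel s w.1 = cel s z0.1} := ⟨h5, h3⟩
              rw [Set.indicator_of_mem h53, Set.indicator_of_notMem h4]
            · rw [Set.indicator_of_notMem (fun h => h5 h.1)]
        · rw [Set.indicator_of_notMem (fun h => h3 h.1), Set.indicator_of_notMem (fun h => h3 h.2)]
      rw [e1]
      refine setIntegral_mono_on ?_ (integrableOn_const hfin)
        (ht.mZ.inter (measurableSet_cel2 s _)) (fun z hz => ?_)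
      · refine Integrable.mono' (g := fun _ => H * c) (integrableOn_const hfin) ?_ ?_
        · exact (measurable_bb hwm ht.nice.1 ht.mact s).aestronglyMeasurable
        · rw [ae_restrict_iff' (ht.mZ.inter (measurableSet_cel2 s _))]
          refine Filter.Eventually.of_forall fun z hz => ?_
          have hnn : 0 ≤ (act s).indicator (fun z => |h z| * w s z) z := bb_nonneg hw0 h act s z
          rw [Real.norm_of_nonneg hnn]
          by_cases h4 : z ∈ act s
          · rw [Set.indicator_of_mem h4]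
            exact mul_le_mul (ht.bd z) (hw z hz.1 s h4) (hw0 s z) hH
          · rw [Set.indicator_of_notMem h4]
            positivity
      · by_cases h4 : z ∈ act s
        · rw [Set.indicator_of_mem h4]
          exact mul_le_mul (ht.bd z) (hw z hz.1 s h4) (hw0 s z) hH
        · rw [Set.indicator_of_notMem h4]
          positivity
    refine h2.trans ?_
    rw [setIntegral_const, smul_eq_mul]
    have h3 : (volume (Z ∩ {w : ℝ × ℝ | cel s w.1 = cel s z0.1})).toReal ≤ D * (1 / 2) ^ s :=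
      ENNReal.toReal_le_of_le_ofReal (by positivity) h1
    have h4 : volume.real (Z ∩ {w : ℝ × ℝ | cel s w.1 = cel s z0.1}) ≤ D * (1 / 2) ^ s := h3
    calc 2 ^ s * (volume.real (Z ∩ {w : ℝ × ℝ | cel s w.1 = cel s z0.1}) * (H * c))
        ≤ 2 ^ s * (D * (1 / 2) ^ s * (H * c)) := by gcongr
      _ = H * c * D * (2 ^ s * (1 / 2) ^ s) := by ring
      _ = H * c * D := by rw [← mul_pow]; norm_num
  · have : pL w h act s x = 0 := by
      rw [pL_eq w h ht.mact, rb, setIntegral_congr_fun (measurableSet_cel2 s _) (g := fun _ => 0)]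
      · simp
      · intro z hz
        by_contra hne
        obtain ⟨h1, h2⟩ := bb_ne ht s z hne
        exact hex ⟨z, h1, h2, hz⟩
    rw [this]
    positivity

/-! ### the error sums of a LOW tree -/

theorem wU_nonneg (U : ℝ × ℝ → ℝ) (m : ℝ) (s : ℕ) (z : ℝ × ℝ) : 0 ≤ wU U m s z :=
  mul_nonneg (abs_nonneg _) (by positivity)

theorem measurable_wU {U : ℝ × ℝ → ℝ} (hU : Measurable U) (m : ℝ) (s : ℕ) :
    Measurable (wU U m s) :=
  (continuous_abs.measurable.comp (hU.sub_const m)).mul_const _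

/-- the sum of `|U z - m| 2^-s` over active scales is at most two -/
theorem sum_wU_le {U : ℝ × ℝ → ℝ} {b m : ℝ} (ht : LTree S s0 m0 h act Z H D U b m) {z : ℝ × ℝ}
    (hz : z ∈ Z) (A : Finset ℕ) (hA : ∀ s ∈ A, z ∈ act s) : ∑ s ∈ A, wU U m s z ≤ 2 := by
  rcases A.eq_empty_or_nonempty with he | hne
  · rw [he]; simp
  · set r := A.min' hne with hr
    have hrA : r ∈ A := A.min'_mem hne
    have h1 := ht.sl1 z hz r (hA r hrA)
    have h2 : ∑ s ∈ A, wU U m s z = (|U z - m| * (1 / 2) ^ r) * ∑ s ∈ A, (1 / 2 : ℝ) ^ (s - r) := by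
      rw [Finset.mul_sum]
      refine Finset.sum_congr rfl fun s hs => ?_
      have h3 : r ≤ s := A.min'_le s hs
      rw [wU, mul_assoc, ← pow_add, Nat.add_sub_cancel' h3]
    have h4 : ∑ s ∈ A, (1 / 2 : ℝ) ^ (s - r) ≤ 2 := by
      have h5 : ∑ s ∈ A, (1 / 2 : ℝ) ^ (s - r) = ∑ i ∈ A.image (fun s => s - r), (1 / 2 : ℝ) ^ i := by
        rw [Finset.sum_image]
        intro s hs t ht' hst
        have h3 : r ≤ s := A.min'_le s hs
        have h4 : r ≤ t := A.min'_le t ht'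
        simp only at hst
        omega
      rw [h5]
      exact (Summable.sum_le_tsum _ (fun i _ => by positivity) summable_geometric_two).trans
        tsum_geometric_two.le
    rw [h2]
    have h6 : 0 ≤ ∑ s ∈ A, (1 / 2 : ℝ) ^ (s - r) := Finset.sum_nonneg fun _ _ => by positivity
    calc |U z - m| * (1 / 2) ^ r * ∑ s ∈ A, (1 / 2 : ℝ) ^ (s - r)
        ≤ 1 * ∑ s ∈ A, (1 / 2 : ℝ) ^ (s - r) := by gcongr
      _ ≤ 2 := by rw [one_mul]; exact h4

/-- **T2c** for the straightening errors of a LOW tree -/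
theorem eL_sq {U : ℝ × ℝ → ℝ} {b m : ℝ} (ht : LTree S s0 m0 h act Z H D U b m) (hs : s0 ≤ S) :
    ∫ x, (∑ s ∈ Finset.range S, eL U m h act s x) ^ 2 ≤ 8 * (H * D) ^ 2 * (1 / 2) ^ s0 := by
  refine (pL_sq ht.toTree hs ht.H0 (measurable_wU ht.mU m) (wU_nonneg U m) (c := 2) (by norm_num)
    fun z hz A hA => sum_wU_le ht hz A hA).trans (le_of_eq ?_)
  ring

theorem eL_le {U : ℝ × ℝ → ℝ} {b m : ℝ} (ht : LTree S s0 m0 h act Z H D U b m) (s : ℕ) (x : ℝ) :
    eL U m h act s x ≤ H * D := by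
  refine (pL_le ht.toTree ht.H0 (measurable_wU ht.mU m) (wU_nonneg U m) (c := 1) (by norm_num)
    (fun z hz s hs => ht.sl1 z hz s hs) s x).trans (le_of_eq ?_)
  ring

end Crest.Agent.R087.T2cx929
end
end

-- ▼ part R087/SumHc_752
section

/-! Row 87: definition-free core of the leaf SUMH. -/

set_option autoImplicit false

noncomputable section

open MeasureTheory

namespace Crest.Agent.R087.SumHcx752

open Crest.Agent.R087.Sh0x283 Crest.Agent.R087.E2x542 Crest.Agent.R087.E2Kx752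

/-- disjoint sets on which `a_i ≤ |h|` : `∑ a_i² |E_i| ≤ ∫ h²` -/
theorem sum_sq_le {α : Type*} [MeasurableSpace α] {μ : Measure α} {ι : Type*} (s : Finset ι)
    (E : ι → Set α) (a : ι → ℝ) (h : α → ℝ) (hint : Integrable (fun z => h z ^ 2) μ)
    (hm : ∀ i ∈ s, MeasurableSet (E i)) (hf : ∀ i ∈ s, μ (E i) ≠ ⊤)
    (hd : (s : Set ι).PairwiseDisjoint E) (ha : ∀ i ∈ s, 0 ≤ a i)
    (hle : ∀ i ∈ s, ∀ z ∈ E i, a i ≤ |h z|) :
    ∑ i ∈ s, a i ^ 2 * (μ (E i)).toReal ≤ ∫ z, h z ^ 2 ∂μ := by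
  have h1 : ∑ i ∈ s, a i ^ 2 * (μ (E i)).toReal ≤ ∑ i ∈ s, ∫ z in E i, h z ^ 2 ∂μ := by
    apply Finset.sum_le_sum
    intro i hi
    have e1 : a i ^ 2 * (μ (E i)).toReal = ∫ _ in E i, a i ^ 2 ∂μ := by
      rw [setIntegral_const, smul_eq_mul, mul_comm]; rfl
    rw [e1]
    apply setIntegral_mono_on (integrableOn_const (hf i hi) (by simp)) hint.integrableOn (hm i hi)
    intro z hz
    have := hle i hi z hz
    rw [← sq_abs (h z)]
    exact pow_le_pow_left₀ (ha i hi) this 2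
  refine h1.trans ?_
  rw [← integral_biUnion_finset s hm hd (fun i _ => hint.integrableOn)]
  exact setIntegral_le_integral hint (Filter.Eventually.of_forall (fun z => sq_nonneg _))

/-- entropy factor with a density that may exceed `1` -/
def ent (d : ℝ) : ℝ := (1 + Real.log (1 / min d 1)) / (min d 1) ^ 2

theorem ent_nonneg {d : ℝ} (hd : 0 < d) : 0 ≤ ent d := by
  unfold ent
  have h1 : 0 < min d 1 := lt_min hd one_pos
  have h2 : 0 ≤ Real.log (1 / min d 1) :=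
    Real.log_nonneg (by rw [le_div_iff₀ h1]; linarith [min_le_right d 1])
  positivity

/-- `ent (K^A 2^-n) ≤ (1 + n) * max ...` in the form used for the tops -/
theorem ent_two_pow {d : ℝ} (hd : 0 < d) (n : ℕ) (hn : (1 / 2 : ℝ) ^ n ≤ d) :
    ent d ≤ (1 + n) * (min d 1)⁻¹ ^ 2 := by
  unfold ent
  have h1 : 0 < min d 1 := lt_min hd one_pos
  have h3 : (1 / 2 : ℝ) ^ n ≤ min d 1 := le_min hn (pow_le_one₀ (by norm_num) (by norm_num))
  have h4 : 1 / min d 1 ≤ 2 ^ n := by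
    rw [div_le_iff₀ h1]
    have : (2 : ℝ) ^ n * (1 / 2) ^ n = 1 := by rw [← mul_pow]; norm_num
    nlinarith [mul_le_mul_of_nonneg_left h3 (show (0 : ℝ) ≤ 2 ^ n by positivity)]
  have h5 : Real.log (1 / min d 1) ≤ n := by
    calc Real.log (1 / min d 1) ≤ Real.log (2 ^ n) := Real.log_le_log (by positivity) h4
      _ = n * Real.log 2 := by rw [Real.log_pow]
      _ ≤ n * 1 := by
        apply mul_le_mul_of_nonneg_left _ (Nat.cast_nonneg n)
        have := Real.log_two_lt_d9; linarith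
      _ = n := mul_one _
  rw [div_eq_mul_inv, inv_pow]
  apply mul_le_mul_of_nonneg_right _ (by positivity)
  linarith

/-- **core of SUMH**: tops with disjoint alive sets `E i ⊆ {a_i ≤ |h|}` of density `≥ d` -/
theorem sumh_core (h : E2Kf) : ∃ c : ℝ, 0 < c ∧ ∃ C : ℝ, 0 ≤ C ∧ ∀ U : ℝ × ℝ → ℝ, Fld c U →
    ∀ K K₁ K₂ : ℝ, 1 ≤ K → K₁ ≤ K → K₂ ≤ K →
    ∀ (g : ℝ × ℝ → ℝ), Integrable (fun z => g z ^ 2) →
    ∀ (ι : Type) (s : Finset ι) (R : ι → Tube) (E : ι → Set (ℝ × ℝ)) (a : ι → ℝ) (d : ℝ),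
      (∀ i ∈ s, MeasurableSet (E i)) → (∀ i ∈ s, E i ⊆ fatV U K₂ (R i)) →
      ((s : Set ι).PairwiseDisjoint E) → 0 < d →
      (∀ i ∈ s, d * (R i).len ≤ (volume (E i)).toReal) → (∀ i ∈ s, 0 ≤ a i) →
      (∀ i ∈ s, ∀ z ∈ E i, a i ≤ |g z|) →
      ∫ z, (∑ i ∈ s, a i * (fat K₁ (R i)).indicator 1 z) ^ 2 ≤
        C * K ^ 5 * ent d * ∫ z, g z ^ 2 := by
  obtain ⟨c, hc, C, hC, hE⟩ := e2K_unif h
  refine ⟨c, hc, C, hC, ?_⟩
  intro U hU K K₁ K₂ hK hK₁ hK₂ g hg ι s R E a d hEm hEV hd hd0 hdE ha hag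
  have h1 : 0 < min d 1 := lt_min hd0 one_pos
  have key := hE U hU K K₁ K₂ hK hK₁ hK₂ ι s R E a (min d 1) hEm hEV hd h1 (min_le_right _ _)
    (fun i hi => (mul_le_mul_of_nonneg_right (min_le_left d 1) (R i).len_pos.le).trans (hdE i hi)) ha
  refine key.trans ?_
  have hfin : ∀ i ∈ s, volume (E i) ≠ ⊤ := fun i hi =>
    ne_top_of_le_ne_top (fat_ne_top K₂ (R i)) (measure_mono (fun z hz => (hEV i hi hz).1))
  have h2 := sum_sq_le s E a g hg hEm hfin hd ha hag
  have h3 := ent_nonneg hd0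
  unfold ent at h3 ⊢
  exact mul_le_mul_of_nonneg_left h2 (by positivity)

end Crest.Agent.R087.SumHcx752
end
end

-- ▼ part R087/HNorm_752
section

/-! Row 87: the leaf `L_HNORM : E2K → HNORM` of `OP0_270`. -/

set_option autoImplicit false

noncomputable section

open MeasureTheory

namespace Crest.Agent.R087.HNormx752

open Crest.Agent.R087.Sh0x283 Crest.Agent.R087.E2x542 Crest.Agent.R087.E2Kx752
  Crest.Agent.R087.OP0x270 Crest.Agent.R087.SumHcx752

/-- the numerical inequality -/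
theorem num (n i : ℕ) (hi : 999 * i ≤ n + 1) :
    ((n : ℝ) + 2) ^ 3 * 2 ^ (7 * i) ≤ 3 * 10 ^ 6 * (2 : ℝ) ^ ((n : ℝ) / 16) := by
  have hi' : 999 * (i : ℝ) ≤ n + 1 := by exact_mod_cast hi
  have hn0 : (0 : ℝ) ≤ n := Nat.cast_nonneg n
  set L : ℝ := Real.log 2 with hL
  have hL1 : 0.6931 ≤ L := by have := Real.log_two_gt_d9; linarith
  have hL2 : L ≤ 0.6932 := by have := Real.log_two_lt_d9; linarith
  have e1 : (2 : ℝ) ^ (7 * i) = Real.exp (L * (7 * i)) := by
    rw [hL, ← Real.rpow_def_of_pos (by norm_num), ← Real.rpow_natCast]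
    push_cast
    rfl
  have e2 : (2 : ℝ) ^ ((n : ℝ) / 16) = Real.exp (L * (n / 16)) := by
    rw [hL, ← Real.rpow_def_of_pos (by norm_num)]
  have h1 : ((n : ℝ) + 2) / 100 ≤ Real.exp (((n : ℝ) + 2) / 100) := by
    have := Real.add_one_le_exp (((n : ℝ) + 2) / 100)
    linarith
  have h2 : (((n : ℝ) + 2) / 100) ^ 3 ≤ Real.exp (3 * (((n : ℝ) + 2) / 100)) := by
    have h3 := pow_le_pow_left₀ (by positivity) h1 3
    rw [← Real.exp_nat_mul] at h3
    exact_mod_cast h3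
  have h4 : ((n : ℝ) + 2) ^ 3 ≤ 10 ^ 6 * Real.exp (3 * (((n : ℝ) + 2) / 100)) := by
    have : ((n : ℝ) + 2) ^ 3 = 10 ^ 6 * (((n : ℝ) + 2) / 100) ^ 3 := by ring
    rw [this]
    exact mul_le_mul_of_nonneg_left h2 (by norm_num)
  have h5 : 3 * (((n : ℝ) + 2) / 100) + L * (7 * i) ≤ L * (n / 16) + 1 := by
    have a1 : L * (7 * (i : ℝ)) ≤ L * (7 * ((n + 1) / 999)) := by
      apply mul_le_mul_of_nonneg_left _ (by linarith)
      have : (i : ℝ) ≤ (n + 1) / 999 := by rw [le_div_iff₀ (by norm_num)]; linarith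
      linarith
    have a2 : 0 ≤ (L - 0.6931) * n := mul_nonneg (by linarith) hn0
    nlinarith
  rw [e1, e2]
  calc ((n : ℝ) + 2) ^ 3 * Real.exp (L * (7 * i))
      ≤ 10 ^ 6 * Real.exp (3 * (((n : ℝ) + 2) / 100)) * Real.exp (L * (7 * i)) :=
        mul_le_mul_of_nonneg_right h4 (Real.exp_pos _).le
    _ = 10 ^ 6 * Real.exp (3 * (((n : ℝ) + 2) / 100) + L * (7 * i)) := by
        rw [Real.exp_add]; ring
    _ ≤ 10 ^ 6 * Real.exp (L * (n / 16) + 1) := by
        apply mul_le_mul_of_nonneg_left _ (by norm_num)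
        exact Real.exp_le_exp.2 h5
    _ ≤ 3 * 10 ^ 6 * Real.exp (L * (n / 16)) := by
        rw [Real.exp_add]
        have h6 := Real.exp_one_lt_d9
        have h7 := Real.exp_pos (L * ((n : ℝ) / 16))
        nlinarith

/-- density of the tops: `d * max(1,·)` bookkeeping -/
theorem dens (n i : ℕ) (hi : 999 * i ≤ n + 1) (d : ℝ) (hd : d = (1 / 2 : ℝ) ^ n * 2 ^ (AA * i)) :
    0 < d ∧ (1 / 2 : ℝ) ^ n ≤ d ∧ d ^ 2 * ((min d 1)⁻¹ ^ 2) ≤ 4 * 4 ^ i := by
  have hd0 : 0 < d := by rw [hd]; positivity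
  have h1 : (1 : ℝ) ≤ 2 ^ (AA * i) := one_le_pow₀ (by norm_num)
  have h2 : (1 / 2 : ℝ) ^ n ≤ d := by
    rw [hd]
    have : (0 : ℝ) < (1 / 2) ^ n := by positivity
    nlinarith
  have h3 : d ≤ 2 * 2 ^ i := by
    have hle : AA * i ≤ n + (i + 1) := by unfold AA; omega
    rw [hd]
    calc (1 / 2 : ℝ) ^ n * 2 ^ (AA * i) ≤ (1 / 2 : ℝ) ^ n * 2 ^ (n + (i + 1)) := by
          gcongr
          norm_num
      _ = ((1 / 2 : ℝ) ^ n * 2 ^ n) * (2 * 2 ^ i) := by rw [pow_add, pow_succ]; ring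
      _ = 2 * 2 ^ i := by rw [← mul_pow]; norm_num
  refine ⟨hd0, h2, ?_⟩
  rcases le_total d 1 with h | h
  · rw [min_eq_left h]
    have : d ^ 2 * (d⁻¹ ^ 2) = 1 := by
      rw [← mul_pow, mul_inv_cancel₀ hd0.ne']; norm_num
    rw [this]
    have : (1 : ℝ) ≤ 4 ^ i := one_le_pow₀ (by norm_num)
    linarith
  · rw [min_eq_right h]
    have h4 : d ^ 2 ≤ (2 * 2 ^ i) ^ 2 := pow_le_pow_left₀ hd0.le h3 2
    have h5 : ((2 : ℝ) * 2 ^ i) ^ 2 = 4 * 4 ^ i := by
      rw [mul_pow, ← pow_mul, mul_comm i 2, pow_mul]; norm_num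
    rw [h5] at h4
    simpa using h4

theorem l_hnorm : L_HNORM := by
  intro hE
  obtain ⟨c, hc, C, hC, key⟩ := sumh_core (e2Kf hE)
  refine ⟨c, hc, 3 * 10 ^ 6 * (C * 32 ^ 5 * 4), by positivity, ?_⟩
  intro n U h lo hi hU hh N R kk ii E B hT
  have hsq : Integrable (fun z => (h z) ^ 2) := RemSumx435.nice_sq hh
  have hI0 : 0 ≤ ∫ z, (h z) ^ 2 := integral_nonneg (fun z => sq_nonneg _)
  have hii : ∀ m, 999 * ii m ≤ n + 1 := by
    have := (RemSumx435.remsum n U h lo hi hU.1 hh N R kk ii E B hT).1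
    intro m
    have h1 := this m
    unfold AA at h1
    exact h1
  -- the sum for a fixed dilation
  set F : ℕ → ℝ × ℝ → ℝ := fun i w => ∑ m with ii m = i,
    (2 : ℝ) ^ kk m * 2 ^ (AA * ii m) * (1 / 2 : ℝ) ^ n * (fat (32 * 2 ^ ii m) (R m)).indicator 1 w with hF
  have hFi : ∀ i, ∫ w, F i w ^ 2 ≤
      C * 32 ^ 5 * 4 * ((n + 1) * 2 ^ (7 * i)) * (∫ z, (h z) ^ 2) ∧ Integrable (fun w => F i w ^ 2) := by
    intro i
    refine ⟨?_, int_sq_finset _ _ _ (fun m _ => measurableSet_fat _ _) (fun m _ => fat_ne_top _ _)⟩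
    set s : Finset (Fin N) := Finset.univ.filter (fun m => ii m = i) with hs
    rcases s.eq_empty_or_nonempty with hse | ⟨m0, hm0⟩
    · have : ∀ w, F i w = 0 := by
        intro w
        simp only [hF]
        rw [← hs, hse, Finset.sum_empty]
      simp only [this]
      norm_num
      positivity
    · have hi0 : ii m0 = i := (Finset.mem_filter.1 hm0).2
      have hi : 999 * i ≤ n + 1 := by rw [← hi0]; exact hii m0
      set d : ℝ := (1 / 2 : ℝ) ^ n * 2 ^ (AA * i) with hd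
      obtain ⟨hd0, hd1, hd2⟩ := dens n i hi d hd
      have hK1 : (1 : ℝ) ≤ 32 * 2 ^ i := by
        have : (1 : ℝ) ≤ 2 ^ i := one_le_pow₀ (by norm_num)
        linarith
      have hK2 : (2 : ℝ) ^ i ≤ 32 * 2 ^ i := by
        have : (0 : ℝ) ≤ 2 ^ i := by positivity
        linarith
      have h1 := key U hU (32 * 2 ^ i) (32 * 2 ^ i) (2 ^ i) hK1 le_rfl hK2 h hsq (Fin N) s R E
        (fun m => (2 : ℝ) ^ kk m) d (fun m _ => hT.mE m)
        (fun m hm => by
          have := (Finset.mem_filter.1 hm).2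
          intro z hz
          have h2 := (hT.subE m hz).2
          rw [this] at h2
          exact h2)
        (fun m hm m' hm' hne => hT.disE m m' hne
          (by rw [(Finset.mem_filter.1 hm).2, (Finset.mem_filter.1 hm').2]))
        hd0
        (fun m hm => by
          have h2 := hT.mass m
          rw [(Finset.mem_filter.1 hm).2] at h2
          exact h2)
        (fun m _ => by positivity)
        (fun m _ z hz => (hT.subE m hz).1.1)
      have e1 : ∀ w, F i w = d * ∑ m ∈ s, (2 : ℝ) ^ kk m * (fat (32 * 2 ^ i) (R m)).indicator 1 w := by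
        intro w
        simp only [hF]
        rw [Finset.mul_sum]
        apply Finset.sum_congr rfl
        intro m hm
        rw [(Finset.mem_filter.1 hm).2, hd]
        ring
      have e2 : ∫ w, F i w ^ 2 =
          d ^ 2 * ∫ w, (∑ m ∈ s, (2 : ℝ) ^ kk m * (fat (32 * 2 ^ i) (R m)).indicator 1 w) ^ 2 := by
        rw [← integral_const_mul]
        congr 1
        ext w
        rw [e1 w]
        ring
      rw [e2]
      have h3 := ent_two_pow hd0 n hd1
      have h4 : d ^ 2 * ent d ≤ (1 + n) * (4 * 4 ^ i) := by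
        calc d ^ 2 * ent d ≤ d ^ 2 * ((1 + n) * (min d 1)⁻¹ ^ 2) :=
              mul_le_mul_of_nonneg_left h3 (sq_nonneg _)
          _ = (1 + n) * (d ^ 2 * (min d 1)⁻¹ ^ 2) := by ring
          _ ≤ (1 + n) * (4 * 4 ^ i) := mul_le_mul_of_nonneg_left hd2 (by positivity)
      have e3 : ((32 : ℝ) * 2 ^ i) ^ 5 * (4 * 4 ^ i) = 32 ^ 5 * 4 * 2 ^ (7 * i) := by
        have : (4 : ℝ) ^ i = 2 ^ (2 * i) := by rw [pow_mul]; norm_num
        rw [this, mul_pow, ← pow_mul]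
        have : (2 : ℝ) ^ (7 * i) = 2 ^ (i * 5) * 2 ^ (2 * i) := by rw [← pow_add]; congr 1; ring
        rw [this]; ring
      calc d ^ 2 * ∫ w, (∑ m ∈ s, (2 : ℝ) ^ kk m * (fat (32 * 2 ^ i) (R m)).indicator 1 w) ^ 2
          ≤ d ^ 2 * (C * (32 * 2 ^ i) ^ 5 * ent d * ∫ z, (h z) ^ 2) :=
            mul_le_mul_of_nonneg_left h1 (sq_nonneg _)
        _ = C * (32 * 2 ^ i) ^ 5 * (d ^ 2 * ent d) * ∫ z, (h z) ^ 2 := by ring
        _ ≤ C * (32 * 2 ^ i) ^ 5 * ((1 + n) * (4 * 4 ^ i)) * ∫ z, (h z) ^ 2 := by gcongr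
        _ = C * (1 + n) * (((32 : ℝ) * 2 ^ i) ^ 5 * (4 * 4 ^ i)) * ∫ z, (h z) ^ 2 := by ring
        _ = C * 32 ^ 5 * 4 * ((n + 1) * 2 ^ (7 * i)) * ∫ z, (h z) ^ 2 := by rw [e3]; ring
  -- the full sum
  set T : Finset ℕ := (Finset.range (n + 2)).filter (fun i => 999 * i ≤ n + 1) with hTd
  have hTc : (T.card : ℝ) ≤ n + 2 := by
    have : T.card ≤ n + 2 := by
      calc T.card ≤ (Finset.range (n + 2)).card := Finset.card_filter_le _ _
        _ = n + 2 := Finset.card_range _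
    exact_mod_cast this
  have hmaps : ∀ m ∈ (Finset.univ : Finset (Fin N)), ii m ∈ T := by
    intro m _
    rw [hTd, Finset.mem_filter, Finset.mem_range]
    have := hii m
    exact ⟨by omega, this⟩
  have hsum : ∀ w, ∑ m, (2 : ℝ) ^ kk m * 2 ^ (AA * ii m) * (1 / 2 : ℝ) ^ n *
      (fat (32 * 2 ^ ii m) (R m)).indicator 1 w = ∑ i ∈ T, F i w := by
    intro w
    rw [← Finset.sum_fiberwise_of_maps_to hmaps]
  have hpt : ∀ w, (∑ m, (2 : ℝ) ^ kk m * 2 ^ (AA * ii m) * (1 / 2 : ℝ) ^ n *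
      (fat (32 * 2 ^ ii m) (R m)).indicator 1 w) ^ 2 ≤ (n + 2) * ∑ i ∈ T, F i w ^ 2 := by
    intro w
    rw [hsum w]
    calc (∑ i ∈ T, F i w) ^ 2 ≤ T.card * ∑ i ∈ T, F i w ^ 2 := sq_sum_le_card_mul_sum_sq
      _ ≤ (n + 2) * ∑ i ∈ T, F i w ^ 2 :=
        mul_le_mul_of_nonneg_right hTc (Finset.sum_nonneg (fun i _ => sq_nonneg _))
  have hintR : Integrable (fun w => ((n : ℝ) + 2) * ∑ i ∈ T, F i w ^ 2) :=
    (integrable_finsetSum _ (fun i _ => (hFi i).2)).const_mul _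
  calc ∫ w, (∑ m, (2 : ℝ) ^ kk m * 2 ^ (AA * ii m) * (1 / 2 : ℝ) ^ n *
        (fat (32 * 2 ^ ii m) (R m)).indicator 1 w) ^ 2
      ≤ ∫ w, ((n : ℝ) + 2) * ∑ i ∈ T, F i w ^ 2 :=
        integral_mono_of_nonneg (Filter.Eventually.of_forall (fun w => sq_nonneg _)) hintR
          (Filter.Eventually.of_forall hpt)
    _ = ((n : ℝ) + 2) * ∑ i ∈ T, ∫ w, F i w ^ 2 := by
        rw [integral_const_mul, integral_finsetSum _ (fun i _ => (hFi i).2)]
    _ ≤ ((n : ℝ) + 2) * ∑ i ∈ T, ((C * 32 ^ 5 * 4) * (((n : ℝ) + 2) * 2 ^ (7 * i)) * ∫ z, (h z) ^ 2) := by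
        apply mul_le_mul_of_nonneg_left _ (by positivity)
        apply Finset.sum_le_sum
        intro i _
        refine (hFi i).1.trans ?_
        have : (n : ℝ) + 1 ≤ n + 2 := by linarith
        gcongr
    _ ≤ ((n : ℝ) + 2) * ∑ i ∈ T, ((C * 32 ^ 5 * 4) *
          (3 * 10 ^ 6 * (2 : ℝ) ^ ((n : ℝ) / 16) / ((n : ℝ) + 2) ^ 2) * ∫ z, (h z) ^ 2) := by
        apply mul_le_mul_of_nonneg_left _ (by positivity)
        apply Finset.sum_le_sum
        intro i hi
        have h1 := num n i (Finset.mem_filter.1 hi).2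
        have h2 : ((n : ℝ) + 2) * 2 ^ (7 * i) ≤
            3 * 10 ^ 6 * (2 : ℝ) ^ ((n : ℝ) / 16) / ((n : ℝ) + 2) ^ 2 := by
          rw [le_div_iff₀ (by positivity)]
          calc ((n : ℝ) + 2) * 2 ^ (7 * i) * ((n : ℝ) + 2) ^ 2 = ((n : ℝ) + 2) ^ 3 * 2 ^ (7 * i) := by ring
            _ ≤ _ := h1
        gcongr
    _ = ((n : ℝ) + 2) * (T.card * ((C * 32 ^ 5 * 4) *
          (3 * 10 ^ 6 * (2 : ℝ) ^ ((n : ℝ) / 16) / ((n : ℝ) + 2) ^ 2) * ∫ z, (h z) ^ 2)) := by
        rw [Finset.sum_const, nsmul_eq_mul]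
    _ ≤ ((n : ℝ) + 2) * (((n : ℝ) + 2) * ((C * 32 ^ 5 * 4) *
          (3 * 10 ^ 6 * (2 : ℝ) ^ ((n : ℝ) / 16) / ((n : ℝ) + 2) ^ 2) * ∫ z, (h z) ^ 2)) := by
        gcongr
    _ = 3 * 10 ^ 6 * (C * 32 ^ 5 * 4) * (2 : ℝ) ^ ((n : ℝ) / 16) * ∫ z, (h z) ^ 2 := by
        have : ((n : ℝ) + 2) ≠ 0 := by positivity
        field_simp

end Crest.Agent.R087.HNormx752
end
end

-- ▼ part R087/LowN_282

/-!
Row 87 (S0115), operator part: the leaf `L_LOWN` of `OP0_270` (helper282): assembly of the LOW part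
of one class from `SQ`, `TREELOW`, `MASS3`, `OMEGA`, `HNORM`, `REMSUM`.
-/

set_option autoImplicit false

noncomputable section

open MeasureTheory Crest.Agent.R087.Sh0x283 Crest.Agent.R087.GateDefx273
open Crest.Agent.R087.OPdefx799 (ix ln kk T1 TS Ch)
open Crest.Agent.R087.OP0x270 Crest.Agent.R087.Sqx282 Crest.Agent.R087.SqLx282
open Crest.Agent.R087.E2x542 Crest.Agent.R087.E2Kx752

namespace Crest.Agent.R087.LowNx282

/-! ### geometry of the dyadic intervals -/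

theorem mem_I_iff (R : Tube) (x : ℝ) : x ∈ R.I ↔ jx R.k x = R.j := by
  unfold Tube.I jx Tube.len
  rw [Set.mem_Ico, Int.floor_eq_iff]
  have h2 : (0 : ℝ) < 2 ^ R.k := by positivity
  have e1 : (R.j : ℝ) * (1 / 2) ^ R.k = R.j / 2 ^ R.k := by rw [one_div, inv_pow]; rfl
  have e2 : ((R.j : ℝ) + 1) * (1 / 2) ^ R.k = (R.j + 1) / 2 ^ R.k := by rw [one_div, inv_pow]; rfl
  rw [e1, e2, div_le_iff₀ h2, lt_div_iff₀ h2, mul_comm x]

/-- nested: a point in the cell of scale `s ≥ R.k` of a point of `R.I` is in `R.I`. -/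
theorem mem_I_of {R : Tube} {x y : ℝ} {s : ℕ} (hs : R.k ≤ s) (hx : x ∈ R.I)
    (h : jx s x = jx s y) : y ∈ R.I := by
  rw [mem_I_iff] at hx ⊢
  rw [← hx]
  exact (ix_mono (r := R.k) (s := s) hs h).symm

/-- vertical translate of a tube. -/
def shiftT (R : Tube) (j : ℤ) : Tube := ⟨R.k, R.j, R.b + j, R.m⟩

@[simp] theorem shiftT_k (R : Tube) (j : ℤ) : (shiftT R j).k = R.k := rfl
@[simp] theorem shiftT_b (R : Tube) (j : ℤ) : (shiftT R j).b = R.b + j := rfl
@[simp] theorem shiftT_m (R : Tube) (j : ℤ) : (shiftT R j).m = R.m := rfl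
@[simp] theorem shiftT_len (R : Tube) (j : ℤ) : (shiftT R j).len = R.len := rfl
@[simp] theorem shiftT_I (R : Tube) (j : ℤ) : (shiftT R j).I = R.I := rfl

theorem shiftT_line (R : Tube) (j : ℤ) (t : ℝ) : (shiftT R j).line t = R.line t + j := by
  unfold Tube.line shiftT; ring

theorem shiftT_int {R : Tube} (h : IntT R) (j : ℤ) : IntT (shiftT R j) := by
  obtain ⟨⟨q, hq⟩, h2⟩ := h
  refine ⟨⟨q + j, ?_⟩, h2⟩
  rw [shiftT_b, hq]
  push_cast
  ring

/-! ### vanishing of pairings -/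

/-- the pairing vanishes if `z'` is off the top interval or its chain ends above it. -/
theorem Pair_zero {φ ζ : ℝ → ℝ} (P : PZ φ ζ) {U : ℝ × ℝ → ℝ} {B : Set (ℝ × ℝ)}
    {lo hi : ℝ × ℝ → ℕ} {g : ℝ × ℝ → ℝ} {R : Tube}
    (hB : ∀ z ∈ B, lo z < hi z → z.1 ∈ R.I ∧ R.k ≤ lo z) {a b : ℕ} {z' : ℝ × ℝ}
    (h : z'.1 ∉ R.I ∨ b ≤ R.k) : Pair φ ζ U B lo hi g a b z' = 0 := by
  unfold Pair
  refine Finset.sum_eq_zero fun s' hs' => ?_
  rw [← integral_zero (ℝ × ℝ) ℝ (μ := volume)]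
  congr 1
  funext z
  by_cases hz : z ∈ B
  · have : ∑ s ∈ Finset.Ico (lo z) (hi z), cc s s' * pr φ ζ U s s' z z' = 0 := by
      refine Finset.sum_eq_zero fun s hs => ?_
      obtain ⟨h1, h2⟩ := Finset.mem_Ico.1 hs
      obtain ⟨h3, h4⟩ := hB z hz (lt_of_le_of_lt h1 h2)
      by_cases hss : s ≤ s'
      · rcases h with h | h
        · have : pr φ ζ U s s' z z' = 0 := by
            by_contra h0
            apply h
            exact mem_I_of (h4.trans h1) h3 (GG_cell P hss h0)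
          rw [this, mul_zero]
        · exfalso
          have := (Finset.mem_Ico.1 hs').2
          omega
      · unfold cc
        rw [if_neg hss, zero_mul]
    rw [this, mul_zero]
  · rw [Set.indicator_of_notMem hz, zero_mul]

theorem Pair_empty {φ ζ : ℝ → ℝ} {U : ℝ × ℝ → ℝ} {B : Set (ℝ × ℝ)}
    {lo hi : ℝ × ℝ → ℕ} {g : ℝ × ℝ → ℝ} {a b : ℕ} (h : b ≤ a) (z' : ℝ × ℝ) :
    Pair φ ζ U B lo hi g a b z' = 0 := by
  unfold Pair
  rw [Finset.Ico_eq_empty (by omega), Finset.sum_empty]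

/-- integrability of the inner integrand of `Pair`. -/
theorem pair_int {φ ζ : ℝ → ℝ} (P : PZ φ ζ) {U : ℝ × ℝ → ℝ} (hU : Measurable U) {W : ℝ}
    (hW : ∀ z, |U z| ≤ W) {S : ℕ} {lo hi : ℝ × ℝ → ℕ} (hC : Chain S lo hi) {g : ℝ × ℝ → ℝ}
    (hg : Nice g) (s' : ℕ) (z' : ℝ × ℝ) :
    Integrable (fun z => g z * ∑ s ∈ Finset.Ico (lo z) (hi z), cc s s' * pr φ ζ U s s' z z') := by
  obtain ⟨h1, h2, hS⟩ := hC
  have e : ∀ z, g z * ∑ s ∈ Finset.Ico (lo z) (hi z), cc s s' * pr φ ζ U s s' z z' =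
      ∑ s ∈ Finset.range S, cc s s' * (GG φ ζ U s s' z z' * Hc lo hi g s z) := by
    intro z
    rw [mul_comm, sum_chain hS]
    refine Finset.sum_congr rfl fun s _ => ?_
    rw [pr_eq]
    ring
  simp only [e]
  exact integrable_finsetSum _ fun s _ =>
    (nice_int ((GG_ker P hU hW s s').sec (Hc_nice h1 h2 hg s) z')).const_mul _

/-- splitting of the pairing into trees. -/
theorem Pair_split {φ ζ : ℝ → ℝ} (P : PZ φ ζ) {U : ℝ × ℝ → ℝ} (hU : Measurable U) {W : ℝ}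
    (hW : ∀ z, |U z| ≤ W) {S : ℕ} {lo hi : ℝ × ℝ → ℕ} {h : ℝ × ℝ → ℝ} {ι : Type*} (t : Finset ι)
    (B : ι → Set (ℝ × ℝ)) (hp : ι → ℝ × ℝ → ℕ)
    (hC : ∀ p ∈ t, Chain S lo (hp p)) (hn : ∀ p ∈ t, Nice ((B p).indicator h))
    (hB : ∀ z, h z ≠ 0 → lo z < hi z → ∃ p ∈ t, z ∈ B p)
    (hd : ∀ p ∈ t, ∀ p' ∈ t, p ≠ p' → Disjoint (B p) (B p'))
    (hh : ∀ p ∈ t, ∀ z ∈ B p, hi z = hp p z) (a b : ℕ) (z' : ℝ × ℝ) :
    Pair φ ζ U Set.univ lo hi h a b z' =
      ∑ p ∈ t, Pair φ ζ U (B p) lo (hp p) ((B p).indicator h) a b z' := by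
  classical
  unfold Pair
  rw [Finset.sum_comm]
  refine Finset.sum_congr rfl fun s' _ => ?_
  have e : ∀ p, (B p).indicator ((B p).indicator h) = (B p).indicator h := fun p => by
    rw [Set.indicator_indicator, Set.inter_self]
  simp only [e]
  rw [← integral_finsetSum t fun p hp' => pair_int P hU hW (hC p hp') (hn p hp') s' z']
  congr 1
  funext z
  rw [Set.indicator_univ]
  by_cases hz : h z ≠ 0 ∧ lo z < hi z
  · obtain ⟨p, hp1, hp2⟩ := hB z hz.1 hz.2
    rw [Finset.sum_eq_single_of_mem p hp1, Set.indicator_of_mem hp2, hh p hp1 z hp2]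
    intro p' hp' hne
    have : z ∉ B p' := fun h' => (Set.disjoint_left.1 (hd p hp1 p' hp' (Ne.symm hne))) hp2 h'
    rw [Set.indicator_of_notMem this, zero_mul]
  · have h1 : h z * ∑ s ∈ Finset.Ico (lo z) (hi z), cc s s' * pr φ ζ U s s' z z' = 0 := by
      by_cases h0 : h z = 0
      · rw [h0, zero_mul]
      · have : hi z ≤ lo z := by
          by_contra h2
          exact hz ⟨h0, by omega⟩
        rw [Finset.Ico_eq_empty (by omega), Finset.sum_empty, mul_zero]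
    rw [h1]
    symm
    refine Finset.sum_eq_zero fun p hp1 => ?_
    by_cases hp2 : z ∈ B p
    · rw [Set.indicator_of_mem hp2, ← hh p hp1 z hp2]
      exact h1
    · rw [Set.indicator_of_notMem hp2, zero_mul]

/-! ### strips -/

/-- at most three unit strips through a point, all inside the fat tube. -/
theorem strip_count (R : Tube) (M : ℕ) (w : ℝ × ℝ) :
    ∑ j ∈ Finset.Icc (-(M : ℤ)) M, (fat 1 (shiftT R j)).indicator (1 : ℝ × ℝ → ℝ) w ≤
      3 * (fat (M + 1) R).indicator (1 : ℝ × ℝ → ℝ) w := by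
  classical
  by_cases hw : w ∈ fat ((M : ℝ) + 1) R
  · rw [Set.indicator_of_mem hw]
    have h1 : ∀ j ∈ Finset.Icc (-(M : ℤ)) M, (fat 1 (shiftT R j)).indicator (1 : ℝ × ℝ → ℝ) w ≤
        if j ∈ ({⌊w.2 - R.line w.1⌋ - 1, ⌊w.2 - R.line w.1⌋, ⌊w.2 - R.line w.1⌋ + 1} : Finset ℤ)
          then 1 else 0 := by
      intro j _
      by_cases hj : w ∈ fat 1 (shiftT R j)
      · rw [Set.indicator_of_mem hj]
        have h2 := hj.2
        rw [shiftT_line, abs_le] at h2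
        have h3 := Int.floor_le (w.2 - R.line w.1)
        have h4 := Int.lt_floor_add_one (w.2 - R.line w.1)
        have h5 : (j : ℝ) ≤ ((⌊w.2 - R.line w.1⌋ + 1 : ℤ) : ℝ) + 1 := by push_cast; linarith [h2.1]
        have h6 : (j : ℝ) < ((⌊w.2 - R.line w.1⌋ + 2 : ℤ) : ℝ) := by push_cast; linarith [h2.1]
        have h7 : ((⌊w.2 - R.line w.1⌋ - 1 : ℤ) : ℝ) ≤ j := by push_cast; linarith [h2.2]
        have h8 : j < ⌊w.2 - R.line w.1⌋ + 2 := by exact_mod_cast h6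
        have h9 : ⌊w.2 - R.line w.1⌋ - 1 ≤ j := by exact_mod_cast h7
        rw [if_pos]
        · rfl
        · simp only [Finset.mem_insert, Finset.mem_singleton]
          omega
      · rw [Set.indicator_of_notMem hj]
        split_ifs <;> norm_num
    refine (Finset.sum_le_sum h1).trans ?_
    rw [← Finset.sum_filter, Finset.sum_const, nsmul_eq_mul, mul_one]
    have h2 : (Finset.filter (fun j => j ∈ ({⌊w.2 - R.line w.1⌋ - 1, ⌊w.2 - R.line w.1⌋,
        ⌊w.2 - R.line w.1⌋ + 1} : Finset ℤ)) (Finset.Icc (-(M : ℤ)) M)).card ≤ 3 := by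
      refine (Finset.card_le_card ?_).trans (Finset.card_le_three
        (a := ⌊w.2 - R.line w.1⌋ - 1) (b := ⌊w.2 - R.line w.1⌋) (c := ⌊w.2 - R.line w.1⌋ + 1))
      intro j hj
      exact (Finset.mem_filter.1 hj).2
    have h3 : ((Finset.filter (fun j => j ∈ ({⌊w.2 - R.line w.1⌋ - 1, ⌊w.2 - R.line w.1⌋,
        ⌊w.2 - R.line w.1⌋ + 1} : Finset ℤ)) (Finset.Icc (-(M : ℤ)) M)).card : ℝ) ≤ 3 := by
      exact_mod_cast h2
    simpa using h3
  · rw [Set.indicator_of_notMem hw, mul_zero]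
    refine le_of_eq (Finset.sum_eq_zero fun j hj => ?_)
    apply Set.indicator_of_notMem
    intro h1
    apply hw
    refine ⟨h1.1, ?_⟩
    have h2 := h1.2
    rw [shiftT_line, abs_le] at h2
    obtain ⟨h3, h4⟩ := Finset.mem_Icc.1 hj
    have h5 : (-(M : ℝ)) ≤ j := by exact_mod_cast h3
    have h6 : (j : ℝ) ≤ M := by exact_mod_cast h4
    rw [abs_le]
    constructor <;> linarith [h2.1, h2.2]

/-! ### small analytic lemmas -/

theorem iter_supp {ω : ℝ → ℝ} (h : ∀ r, 1 < |r| → ω r = 0) (n : ℕ) :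
    ∀ r, 1 < |r| → iteratedDeriv n ω r = 0 := by
  intro r hr
  have h1 : ω =ᶠ[nhds r] (fun _ => (0 : ℝ)) := by
    have h2 : IsOpen {r : ℝ | 1 < |r|} := isOpen_lt continuous_const continuous_abs
    filter_upwards [h2.mem_nhds hr] with x hx
    exact h x hx
  rw [h1.iteratedDeriv_eq n]
  cases n with
  | zero => simp
  | succ n => simp

theorem ph_pz {ω : ℝ → ℝ} {M : ℕ} (hω : PW M ω) {ζ : ℝ → ℝ} (hζ : ZetC ζ) : PZ (ph ω) ζ := by
  obtain ⟨h1, h2, _⟩ := hω
  refine ⟨?_, hζ.1.continuous, iter_supp h2 _, hζ.2.1⟩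
  have h3 : ∀ N : ℕ, Continuous (iteratedDeriv N ω) := fun N =>
    h1.continuous_iteratedDeriv N (by exact_mod_cast le_top)
  exact h3 _

/-- comparison of integrals without integrability of the smaller function. -/
theorem int_le_of {f g : ℝ × ℝ → ℝ} (hg : Integrable g) (h0 : ∀ z, 0 ≤ g z) (h : ∀ z, f z ≤ g z) :
    ∫ z, f z ≤ ∫ z, g z := by
  by_cases hf : Integrable f
  · exact integral_mono hf hg h
  · rw [integral_undef hf]
    exact integral_nonneg h0

theorem measurableSet_fat (K : ℝ) (R : Tube) : MeasurableSet (fat K R) := by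
  have h1 : MeasurableSet {z : ℝ × ℝ | z.1 ∈ R.I} := measurable_fst R.measurableSet_I
  have h2 : MeasurableSet {z : ℝ × ℝ | |z.2 - R.line z.1| ≤ K} := by
    apply measurableSet_le _ measurable_const
    have := R.measurable_line
    fun_prop
  exact h1.inter h2

/-- fat tubes are bounded. -/
theorem fat_bdd (K : ℝ) (R : Tube) : ∃ r : ℝ, ∀ z ∈ fat K R, ‖z‖ ≤ r := by
  set a : ℝ := |R.j * R.len| + |(R.j + 1) * R.len| with ha
  refine ⟨max a (|K| + (|R.b| + |R.m| * a)), fun z hz => ?_⟩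
  obtain ⟨⟨h1, h2⟩, h3⟩ := hz
  have h4 : |z.1| ≤ a := by
    rw [abs_le]
    constructor
    · have := neg_abs_le (R.j * R.len)
      have := abs_nonneg ((R.j + 1) * R.len)
      linarith
    · have := le_abs_self ((R.j + 1) * R.len)
      have := abs_nonneg (R.j * R.len)
      linarith
  have h5 : |R.line z.1| ≤ |R.b| + |R.m| * a := by
    unfold Tube.line
    refine (abs_add_le _ _).trans ?_
    rw [abs_mul]
    gcongr
  have h6 : |z.2| ≤ |K| + (|R.b| + |R.m| * a) := by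
    have e : z.2 = (z.2 - R.line z.1) + R.line z.1 := by ring
    rw [e]
    refine (abs_add_le _ _).trans (add_le_add (h3.trans (le_abs_self K)) h5)
  rw [Prod.norm_def]
  exact max_le_max h4 h6

theorem fat_nice (K : ℝ) (R : Tube) : Nice ((fat K R).indicator (1 : ℝ × ℝ → ℝ)) := by
  obtain ⟨r, hr⟩ := fat_bdd K R
  refine ⟨measurable_one.indicator (measurableSet_fat K R), ⟨1, fun z => ?_⟩, r, fun z hz => ?_⟩
  · by_cases h : z ∈ fat K R
    · rw [Set.indicator_of_mem h]; simp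
    · rw [Set.indicator_of_notMem h]; simp
  · apply Set.indicator_of_notMem
    intro h
    exact absurd (hr z h) (not_le.2 hz)

/-- `W` is integrable against indicators of fat tubes. -/
theorem W_fat {W : ℝ × ℝ → ℝ} (hm : Measurable W) (h0 : ∀ w, 0 ≤ W w)
    (hi : Integrable (fun w => (W w) ^ 2)) (K : ℝ) (R : Tube) :
    Integrable (fun w => W w * (fat K R).indicator (1 : ℝ × ℝ → ℝ) w) := by
  have hn := fat_nice K R
  have h1 : Integrable (fun w => (W w) ^ 2 + (fat K R).indicator (1 : ℝ × ℝ → ℝ) w) :=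
    hi.add (nice_int hn)
  refine h1.mono' (hm.mul hn.1).aestronglyMeasurable (Filter.Eventually.of_forall fun w => ?_)
  rw [Real.norm_eq_abs, abs_mul, abs_of_nonneg (h0 w)]
  by_cases h : w ∈ fat K R
  · rw [Set.indicator_of_mem h]
    simp only [Pi.one_apply, abs_one, mul_one]
    nlinarith [sq_nonneg (W w - 1), h0 w]
  · rw [Set.indicator_of_notMem h]
    simp only [abs_zero, mul_zero, add_zero]
    exact sq_nonneg _

theorem int_fat {W : ℝ × ℝ → ℝ} (K : ℝ) (R : Tube) :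
    ∫ w in fat K R, W w = ∫ w, W w * (fat K R).indicator (1 : ℝ × ℝ → ℝ) w := by
  rw [← integral_indicator (measurableSet_fat K R)]
  congr 1
  funext w
  by_cases h : w ∈ fat K R
  · rw [Set.indicator_of_mem h, Set.indicator_of_mem h]; simp
  · rw [Set.indicator_of_notMem h, Set.indicator_of_notMem h]; simp

theorem fat_mono {K K' : ℝ} (h : K ≤ K') (R : Tube) (w : ℝ × ℝ) :
    (fat K R).indicator (1 : ℝ × ℝ → ℝ) w ≤ (fat K' R).indicator (1 : ℝ × ℝ → ℝ) w := by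
  refine Set.indicator_le_indicator_of_subset ?_ (fun _ => zero_le_one) w
  intro z hz
  exact ⟨hz.1, hz.2.trans h⟩

/-- sum over the strips of one top. -/
theorem strip_int {W : ℝ × ℝ → ℝ} (hm : Measurable W) (h0 : ∀ w, 0 ≤ W w)
    (hi : Integrable (fun w => (W w) ^ 2)) (R : Tube) (M : ℕ) {K : ℝ} (hK : (M : ℝ) + 1 ≤ K) :
    ∑ j ∈ Finset.Icc (-(M : ℤ)) M, ∫ w in fat 1 (shiftT R j), W w ≤
      3 * ∫ w, W w * (fat K R).indicator (1 : ℝ × ℝ → ℝ) w := by
  simp only [int_fat]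
  rw [← integral_finsetSum _ fun j _ => W_fat hm h0 hi 1 (shiftT R j), ← integral_const_mul]
  refine integral_mono (integrable_finsetSum _ fun j _ => W_fat hm h0 hi 1 (shiftT R j))
    ((W_fat hm h0 hi K R).const_mul 3) fun w => ?_
  show ∑ j ∈ Finset.Icc (-(M : ℤ)) M, W w * (fat 1 (shiftT R j)).indicator (1 : ℝ × ℝ → ℝ) w ≤
    3 * (W w * (fat K R).indicator (1 : ℝ × ℝ → ℝ) w)
  rw [← Finset.mul_sum]
  calc W w * ∑ j ∈ Finset.Icc (-(M : ℤ)) M, (fat 1 (shiftT R j)).indicator (1 : ℝ × ℝ → ℝ) w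
      ≤ W w * (3 * (fat (M + 1) R).indicator (1 : ℝ × ℝ → ℝ) w) :=
        mul_le_mul_of_nonneg_left (strip_count R M w) (h0 w)
    _ ≤ W w * (3 * (fat K R).indicator (1 : ℝ × ℝ → ℝ) w) := by
        refine mul_le_mul_of_nonneg_left ?_ (h0 w)
        exact mul_le_mul_of_nonneg_left (fat_mono hK R w) (by norm_num)
    _ = _ := by ring

/-- the final Cauchy-Schwarz step: `∫ W H ≤ (Co + Ch)/2 · 2^{-n/4} Q`. -/
theorem final_cs {W H : ℝ × ℝ → ℝ} {Q Co Ch : ℝ} {n : ℕ} (hQ : 0 ≤ Q) (hCo : 0 ≤ Co) (hCh : 0 ≤ Ch)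
    (hWi : Integrable (fun w => (W w) ^ 2)) (hHi : Integrable (fun w => (H w) ^ 2))
    (hWH : Integrable (fun w => W w * H w))
    (h1 : ∫ w, (W w) ^ 2 ≤ Co * (1 / 2 : ℝ) ^ n * Q)
    (h2 : ∫ w, (H w) ^ 2 ≤ Ch * (2 : ℝ) ^ ((n : ℝ) / 16) * Q) :
    ∫ w, W w * H w ≤ (Co + Ch) / 2 * (2 : ℝ) ^ (-(n : ℝ) / 4) * Q := by
  set t : ℝ := (2 : ℝ) ^ ((n : ℝ) / 2) with ht
  have ht0 : 0 < t := Real.rpow_pos_of_pos (by norm_num) _
  have key : ∀ w, W w * H w ≤ t / 2 * (W w) ^ 2 + t⁻¹ / 2 * (H w) ^ 2 := by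
    intro w
    have h3 : 0 ≤ t⁻¹ / 2 * (t * W w - H w) ^ 2 := by positivity
    have h4 : t⁻¹ / 2 * (t * W w - H w) ^ 2 = t / 2 * (W w) ^ 2 - W w * H w +
        t⁻¹ / 2 * (H w) ^ 2 := by
      field_simp
      ring
    linarith
  have e1 : t * (1 / 2 : ℝ) ^ n ≤ (2 : ℝ) ^ (-(n : ℝ) / 4) := by
    have : (1 / 2 : ℝ) ^ n = (2 : ℝ) ^ (-(n : ℝ)) := by
      rw [Real.rpow_neg (by norm_num), Real.rpow_natCast, one_div, inv_pow]
    rw [this, ht, ← Real.rpow_add (by norm_num)]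
    apply Real.rpow_le_rpow_of_exponent_le (by norm_num)
    have : (0 : ℝ) ≤ n := Nat.cast_nonneg n
    linarith
  have e2 : t⁻¹ * (2 : ℝ) ^ ((n : ℝ) / 16) ≤ (2 : ℝ) ^ (-(n : ℝ) / 4) := by
    rw [ht, ← Real.rpow_neg (by norm_num), ← Real.rpow_add (by norm_num)]
    apply Real.rpow_le_rpow_of_exponent_le (by norm_num)
    have : (0 : ℝ) ≤ n := Nat.cast_nonneg n
    linarith
  calc ∫ w, W w * H w ≤ ∫ w, (t / 2 * (W w) ^ 2 + t⁻¹ / 2 * (H w) ^ 2) :=
        integral_mono hWH ((hWi.const_mul _).add (hHi.const_mul _)) key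
    _ = t / 2 * (∫ w, (W w) ^ 2) + t⁻¹ / 2 * (∫ w, (H w) ^ 2) := by
        rw [integral_add (hWi.const_mul _) (hHi.const_mul _), integral_const_mul,
          integral_const_mul]
    _ ≤ t / 2 * (Co * (1 / 2 : ℝ) ^ n * Q) + t⁻¹ / 2 * (Ch * (2 : ℝ) ^ ((n : ℝ) / 16) * Q) := by
        gcongr
    _ = Co * Q / 2 * (t * (1 / 2 : ℝ) ^ n) + Ch * Q / 2 * (t⁻¹ * (2 : ℝ) ^ ((n : ℝ) / 16)) := by
        ring
    _ ≤ Co * Q / 2 * (2 : ℝ) ^ (-(n : ℝ) / 4) + Ch * Q / 2 * (2 : ℝ) ^ (-(n : ℝ) / 4) := by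
        gcongr
    _ = _ := by ring

/-! ### the pieces of the attached sets -/

/-- attached points of the top `m` in the unit strip `j`. -/
def Bp {N : ℕ} (R : Fin N → Tube) (B : Fin N → Set (ℝ × ℝ)) (lo hi : ℝ × ℝ → ℕ)
    (p : Σ _ : Fin N, ℤ) : Set (ℝ × ℝ) :=
  {z | z ∈ B p.1 ∧ lo z < hi z ∧ ⌊z.2 - (R p.1).line z.1⌋ = p.2}

theorem Bp_meas {N : ℕ} (R : Fin N → Tube) {B : Fin N → Set (ℝ × ℝ)} {lo hi : ℝ × ℝ → ℕ}
    (hB : ∀ m, MeasurableSet (B m)) (h1 : Measurable lo) (h2 : Measurable hi)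
    (p : Σ _ : Fin N, ℤ) : MeasurableSet (Bp R B lo hi p) := by
  have e : Bp R B lo hi p = B p.1 ∩ ({z | lo z < hi z} ∩
      (fun z : ℝ × ℝ => ⌊z.2 - (R p.1).line z.1⌋) ⁻¹' {p.2}) := by
    ext z; rfl
  rw [e]
  refine (hB p.1).inter ((measurableSet_lt h1 h2).inter ?_)
  have h3 : Measurable (fun z : ℝ × ℝ => z.2 - (R p.1).line z.1) := by
    have := (R p.1).measurable_line
    fun_prop
  exact (Int.measurable_floor.comp h3) (MeasurableSet.singleton _)

theorem Bp_disj {N : ℕ} (R : Fin N → Tube) {B : Fin N → Set (ℝ × ℝ)} (lo hi : ℝ × ℝ → ℕ)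
    (hd : Pairwise (Function.onFun Disjoint B)) (p p' : Σ _ : Fin N, ℤ) (h : p ≠ p') :
    Disjoint (Bp R B lo hi p) (Bp R B lo hi p') := by
  rw [Set.disjoint_left]
  intro z hz hz'
  by_cases h1 : p.1 = p'.1
  · apply h
    obtain ⟨m, j⟩ := p
    obtain ⟨m', j'⟩ := p'
    simp only at h1
    subst h1
    have h2 : j = j' := by
      have a := hz.2.2
      have b := hz'.2.2
      simp only at a b
      rw [← a, ← b]
    rw [h2]
  · exact (Set.disjoint_left.1 (hd h1)) hz.1 hz'.1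

/-- the half width of the strips, as a natural number. -/
def Mw {N : ℕ} (ii : Fin N → ℕ) (m : Fin N) : ℕ := 5 * 2 ^ ii m

/-- the finite index set. -/
def Ix {N : ℕ} (ii : Fin N → ℕ) : Finset (Σ _ : Fin N, ℤ) :=
  Finset.univ.sigma fun m => Finset.Icc (-(Mw ii m : ℤ)) (Mw ii m)

theorem sum_Ix {N : ℕ} (ii : Fin N → ℕ) (f : Fin N → ℤ → ℝ) :
    ∑ p ∈ Ix ii, f p.1 p.2 = ∑ m, ∑ j ∈ Finset.Icc (-(Mw ii m : ℤ)) (Mw ii m), f m j := by
  unfold Ix
  rw [Finset.sum_sigma]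

theorem card_strips {N : ℕ} (ii : Fin N → ℕ) (m : Fin N) :
    ((Finset.Icc (-(Mw ii m : ℤ)) (Mw ii m)).card : ℝ) ≤ 11 * 2 ^ (AA * ii m) := by
  rw [Int.card_Icc]
  have h1 : ((Mw ii m : ℤ) + 1 - -(Mw ii m : ℤ)).toNat = 2 * Mw ii m + 1 := by omega
  rw [h1]
  unfold Mw
  push_cast
  have h2 : (2 : ℝ) ^ ii m ≤ 2 ^ (AA * ii m) := by
    apply pow_le_pow_right₀ (by norm_num)
    unfold AA
    omega
  have h3 : (1 : ℝ) ≤ 2 ^ ii m := one_le_pow₀ (by norm_num)
  linarith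

theorem Bp_top {U h : ℝ × ℝ → ℝ} {A n : ℕ} {lo hi : ℝ × ℝ → ℕ} {N : ℕ} {R : Fin N → Tube}
    {kk : Fin N → ℤ} {ii : Fin N → ℕ} {E B : Fin N → Set (ℝ × ℝ)}
    (hT : IsTops U h A n lo hi N R kk ii E B)
    (hlow : ∀ m, ∀ z ∈ B m, lo z < hi z → |U z - (R m).m| * (1 / 2 : ℝ) ^ lo z ≤ 1)
    (p : Σ _ : Fin N, ℤ) (z : ℝ × ℝ) (hz : z ∈ Bp R B lo hi p) :
    z.1 ∈ (shiftT (R p.1) p.2).I ∧ (shiftT (R p.1) p.2).k ≤ lo z ∧
      near U 1 (shiftT (R p.1) p.2).b (shiftT (R p.1) p.2).m (lo z) z := by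
  obtain ⟨h1, h2, h3⟩ := hz
  obtain ⟨h4, h5, h6, h7⟩ := hT.top p.1 z h1 h2
  refine ⟨h4, h5, ?_, hlow p.1 z h1 h2⟩
  have h8 := Int.floor_le (z.2 - (R p.1).line z.1)
  have h9 := Int.lt_floor_add_one (z.2 - (R p.1).line z.1)
  rw [h3] at h8 h9
  unfold Tube.line at h8 h9
  simp only [shiftT_b, shiftT_m]
  rw [abs_le]
  constructor <;> linarith

theorem Bp_cover {U h : ℝ × ℝ → ℝ} {A n : ℕ} {lo hi : ℝ × ℝ → ℕ} {N : ℕ} {R : Fin N → Tube}
    {kk : Fin N → ℤ} {ii : Fin N → ℕ} {E B : Fin N → Set (ℝ × ℝ)}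
    (hT : IsTops U h A n lo hi N R kk ii E B) (z : ℝ × ℝ) (h0 : h z ≠ 0) (h1 : lo z < hi z) :
    ∃ p ∈ Ix ii, z ∈ Bp R B lo hi p := by
  obtain ⟨m, hm⟩ := hT.unB z h0 h1
  obtain ⟨h4, h5, h6, h7⟩ := hT.top m z hm h1
  refine ⟨⟨m, ⌊z.2 - (R m).line z.1⌋⟩, ?_, hm, h1, rfl⟩
  unfold Ix Mw
  simp only [Finset.mem_sigma, Finset.mem_univ, true_and, Finset.mem_Icc]
  have h8 : |z.2 - (R m).line z.1| ≤ 5 * 2 ^ ii m := h6
  rw [abs_le] at h8
  constructor
  · rw [Int.le_floor]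
    push_cast
    exact h8.1
  · have h9 := (Int.floor_le (z.2 - (R m).line z.1)).trans h8.2
    exact_mod_cast h9

/-- bound of `h` on the attached set. -/
theorem col_bd {h : ℝ × ℝ → ℝ} {k : ℤ} {B : Set (ℝ × ℝ)} (hB : B ⊆ col h k) (z : ℝ × ℝ) :
    |B.indicator h z| ≤ (2 : ℝ) ^ (k + 1) := by
  by_cases hz : z ∈ B
  · rw [Set.indicator_of_mem hz]
    exact (hB hz).2.le
  · rw [Set.indicator_of_notMem hz, abs_zero]
    positivity

/-- a coloured set has finite measure. -/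
theorem col_fin {h : ℝ × ℝ → ℝ} (hh : Nice h) {k : ℤ} {B : Set (ℝ × ℝ)} (hB : B ⊆ col h k) :
    volume B ≠ ⊤ := by
  obtain ⟨_, _, r, hr⟩ := hh
  have h1 : B ⊆ Metric.closedBall (0 : ℝ × ℝ) r := by
    intro z hz
    rw [mem_closedBall_zero_iff]
    by_contra h2
    have h3 := (hB hz).1
    rw [hr z (not_le.1 h2), abs_zero] at h3
    have : (0 : ℝ) < 2 ^ k := by positivity
    linarith
  exact ne_top_of_le_ne_top (measure_closedBall_lt_top).ne (measure_mono h1)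

/-- the cut chain. -/
def cut {N : ℕ} (t : Finset (Σ _ : Fin N, ℤ)) (Bs : (Σ _ : Fin N, ℤ) → Set (ℝ × ℝ))
    (st : (Σ _ : Fin N, ℤ) → ℝ → ℕ) (hi : ℝ × ℝ → ℕ) (z : ℝ × ℝ) : ℕ :=
  min (hi z) ((∑ p ∈ t, (Bs p).indicator (fun z => st p z.1) z) +
    (⋃ p ∈ t, Bs p)ᶜ.indicator hi z)

theorem cut_mem {N : ℕ} {t : Finset (Σ _ : Fin N, ℤ)} {Bs : (Σ _ : Fin N, ℤ) → Set (ℝ × ℝ)}
    (hd : ∀ p p', p ≠ p' → Disjoint (Bs p) (Bs p')) (st : (Σ _ : Fin N, ℤ) → ℝ → ℕ)
    (hi : ℝ × ℝ → ℕ) {p : Σ _ : Fin N, ℤ} (hp : p ∈ t) {z : ℝ × ℝ} (hz : z ∈ Bs p) :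
    cut t Bs st hi z = min (hi z) (st p z.1) := by
  unfold cut
  congr 1
  have h1 : z ∉ (⋃ p ∈ t, Bs p)ᶜ := by
    simp only [Set.mem_compl_iff, Set.mem_iUnion, not_not]
    exact ⟨p, hp, hz⟩
  rw [Set.indicator_of_notMem h1, add_zero, Finset.sum_eq_single_of_mem p hp]
  · rw [Set.indicator_of_mem hz]
  · intro p' _ hne
    apply Set.indicator_of_notMem
    intro h2
    exact (Set.disjoint_left.1 (hd p p' (Ne.symm hne))) hz h2

theorem cut_not {N : ℕ} {t : Finset (Σ _ : Fin N, ℤ)} {Bs : (Σ _ : Fin N, ℤ) → Set (ℝ × ℝ)}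
    (st : (Σ _ : Fin N, ℤ) → ℝ → ℕ) (hi : ℝ × ℝ → ℕ) {z : ℝ × ℝ} (hz : ∀ p ∈ t, z ∉ Bs p) :
    cut t Bs st hi z = hi z := by
  unfold cut
  have h1 : z ∈ (⋃ p ∈ t, Bs p)ᶜ := by
    simp only [Set.mem_compl_iff, Set.mem_iUnion, not_exists]
    exact hz
  rw [Set.indicator_of_mem h1, Finset.sum_eq_zero]
  · simp
  · intro p hp
    exact Set.indicator_of_notMem (hz p hp) _

theorem cut_le {N : ℕ} (t : Finset (Σ _ : Fin N, ℤ)) (Bs : (Σ _ : Fin N, ℤ) → Set (ℝ × ℝ))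
    (st : (Σ _ : Fin N, ℤ) → ℝ → ℕ) (hi : ℝ × ℝ → ℕ) (z : ℝ × ℝ) :
    cut t Bs st hi z ≤ hi z := min_le_left _ _

theorem cut_meas {N : ℕ} (t : Finset (Σ _ : Fin N, ℤ)) {Bs : (Σ _ : Fin N, ℤ) → Set (ℝ × ℝ)}
    (hB : ∀ p, MeasurableSet (Bs p)) {st : (Σ _ : Fin N, ℤ) → ℝ → ℕ} (hst : ∀ p, Measurable (st p))
    {hi : ℝ × ℝ → ℕ} (hhi : Measurable hi) : Measurable (cut t Bs st hi) := by
  unfold cut
  refine hhi.min (Measurable.add ?_ ?_)
  · exact Finset.measurable_fun_sum t fun p _ => ((hst p).comp measurable_fst).indicator (hB p)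
  · refine hhi.indicator (MeasurableSet.compl ?_)
    exact t.measurableSet_biUnion fun p _ => hB p

/-- the weight of a short point. -/
def wt (U h : ℝ × ℝ → ℝ) (lo hi : ℝ × ℝ → ℕ) (R0 : Tube) : ℝ × ℝ → ℝ :=
  {z : ℝ × ℝ | z.1 ∈ R0.I ∧ lo z < hi z ∧ R0.k < hi z}.indicator
    (fun z => |h z| / (1 + |U z - R0.m| * (1 / 2 : ℝ) ^ (hi z - 1) + |z.2 - R0.line z.1|) ^ qq)

theorem wt_set_meas {lo hi : ℝ × ℝ → ℕ} (h1 : Measurable lo) (h2 : Measurable hi) (R0 : Tube) :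
    MeasurableSet {z : ℝ × ℝ | z.1 ∈ R0.I ∧ lo z < hi z ∧ R0.k < hi z} :=
  (measurable_fst R0.measurableSet_I).inter ((measurableSet_lt h1 h2).inter
    (measurableSet_lt measurable_const h2))

theorem wt_den (U : ℝ × ℝ → ℝ) (R0 : Tube) (z : ℝ × ℝ) (s : ℕ) :
    1 ≤ (1 + |U z - R0.m| * (1 / 2 : ℝ) ^ s + |z.2 - R0.line z.1|) ^ qq := by
  apply one_le_pow₀
  have h1 : 0 ≤ |U z - R0.m| * (1 / 2 : ℝ) ^ s := by positivity
  have h2 := abs_nonneg (z.2 - R0.line z.1)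
  linarith

theorem wt_nonneg (U h : ℝ × ℝ → ℝ) (lo hi : ℝ × ℝ → ℕ) (R0 : Tube) (z : ℝ × ℝ) :
    0 ≤ wt U h lo hi R0 z := by
  unfold wt
  refine Set.indicator_nonneg (fun z _ => ?_) z
  have := wt_den U R0 z (hi z - 1)
  positivity

theorem wt_nice {U h : ℝ × ℝ → ℝ} {lo hi : ℝ × ℝ → ℕ} (hU : Measurable U) (hh : Nice h)
    (h1 : Measurable lo) (h2 : Measurable hi) (R0 : Tube) : Nice (wt U h lo hi R0) := by
  obtain ⟨hm, ⟨M, hM⟩, r, hr⟩ := hh
  refine nice_ind ⟨?_, ⟨M, fun z => ?_⟩, r, fun z hz => ?_⟩ (wt_set_meas h1 h2 R0)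
  · have h3 : Measurable (fun z : ℝ × ℝ => (1 / 2 : ℝ) ^ (hi z - 1)) :=
      (measurable_from_top (f := fun n : ℕ => (1 / 2 : ℝ) ^ (n - 1))).comp h2
    have h4 : Measurable (fun z : ℝ × ℝ => R0.line z.1) := R0.measurable_line.comp measurable_fst
    have h5 : Measurable (fun z : ℝ × ℝ => |U z - R0.m|) := by fun_prop
    have h6 : Measurable (fun z : ℝ × ℝ => |z.2 - R0.line z.1|) := by fun_prop
    have h7 : Measurable (fun z : ℝ × ℝ => |h z|) := by fun_prop
    exact h7.div (((measurable_const.add (h5.mul h3)).add h6).pow_const _)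
  · have h3 := wt_den U R0 z (hi z - 1)
    have h4 : |(1 + |U z - R0.m| * (1 / 2 : ℝ) ^ (hi z - 1) + |z.2 - R0.line z.1|) ^ qq| =
        (1 + |U z - R0.m| * (1 / 2 : ℝ) ^ (hi z - 1) + |z.2 - R0.line z.1|) ^ qq :=
      abs_of_nonneg (by linarith)
    rw [abs_div, abs_abs, h4]
    exact (div_le_self (abs_nonneg _) h3).trans (hM z)
  · rw [hr z hz]; simp

/-- **the leaf `L_LOWN`**. -/
theorem lown {ζ : ℝ → ℝ} (hζ : ZetC ζ) (hsq : SQ ζ) (htr : TREELOW ζ qq) (hm3 : MASS3)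
    (hom : OMEGA) (hhn : HNORM) (hrs : REMSUM) : LOWN ζ := by
  obtain ⟨Ct, hCt, htr⟩ := htr
  obtain ⟨Co, hCo, hom⟩ := hom
  obtain ⟨c, hc, Ch, hCh, hhn⟩ := hhn
  refine ⟨c, hc, 24 * Ct * (Co + Ch) + 352 * Ct, by positivity, ?_⟩
  intro ω hω U h n S lo hi Λ hU hh hCn hUp hΛ N R kk ii E B hT hlow
  obtain ⟨hUm, ⟨W0, hW0⟩, hUl⟩ := id hU
  obtain ⟨hlm, hhm, hS⟩ := id hCn
  have hPZ : PZ (ph ω) ζ := ph_pz hω hζ
  have hΛ0 : 0 < Λ := lt_of_lt_of_le one_pos hΛ
  set t : Finset (Σ _ : Fin N, ℤ) := Ix ii with ht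
  set Bs : (Σ _ : Fin N, ℤ) → Set (ℝ × ℝ) := Bp R B lo hi with hBs
  set Rs : (Σ _ : Fin N, ℤ) → Tube := fun p => shiftT (R p.1) p.2 with hRs
  set D : ℝ := 4 * (1 / 2 : ℝ) ^ n with hD
  have hD0 : 0 < D := by positivity
  have hBm : ∀ p, MeasurableSet (Bs p) := fun p => Bp_meas R hT.mB hlm hhm p
  have hBc : ∀ p, Bs p ⊆ col h (kk p.1) := fun p z hz => hT.subB p.1 hz.1
  have hBd : ∀ p p', p ≠ p' → Disjoint (Bs p) (Bs p') := Bp_disj R lo hi hT.disB
  have hBt : ∀ p, ∀ z ∈ Bs p, z.1 ∈ (Rs p).I ∧ (Rs p).k ≤ lo z ∧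
      near U 1 (Rs p).b (Rs p).m (lo z) z := fun p z hz => Bp_top hT hlow p z hz
  have hInt : ∀ p, IntT (Rs p) := fun p => shiftT_int (hT.intT p.1) p.2
  -- one tree
  have key : ∀ p, ∃ st : ℝ → ℕ, Measurable st ∧ (∀ x, (Rs p).k ≤ st x) ∧
        (volume {z | z ∈ Bs p ∧ lo z < hi z ∧ st z.1 < hi z}).toReal ≤
          Ct * (1 / Λ) ^ 2 * D * (Rs p).len ∧
        ∀ (z' : ℝ × ℝ) (a b : ℕ), z'.1 ∈ (Rs p).I → a < b → b ≤ S →
          |Pair (ph ω) ζ U (Bs p) lo (fun z => min (hi z) (st z.1)) ((Bs p).indicator h) a b z'| ≤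
            Ct * (2 : ℝ) ^ (kk p.1 + 1) * (Λ * D) / (1 + |U z' - (Rs p).m| *
              (1 / 2 : ℝ) ^ (b - 1) + |z'.2 - (Rs p).line z'.1|) ^ qq := by
    intro p
    refine htr ω hω U ((Bs p).indicator h) S lo hi (Bs p) (Rs p) ((2 : ℝ) ^ (kk p.1 + 1)) D Λ hUm
      (hh.1.indicator (hBm p)) hCn (hBm p) (col_fin hh (hBc p)) (col_bd (hBc p)) hD0 hΛ
      (fun z hz _ => hBt p z hz) ?_
    have h3 := hm3 AA n (by unfold AA; norm_num) U h S lo hi hUm hh hCn hUp (kk p.1) 0 (Rs p)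
      (Bs p) (hInt p) (hBm p) (hBc p) (fun z hz _ => by
        obtain ⟨a1, a2, a3⟩ := hBt p z hz
        refine ⟨a1, a2, ?_⟩
        rw [pow_zero]
        exact a3)
    rw [Nat.mul_zero, pow_zero, mul_one] at h3
    exact h3
  choose st hst1 hst2 hst3 hst4 using key
  set hi' : ℝ × ℝ → ℕ := cut t Bs st hi with hhi'
  have hi'm : Measurable hi' := cut_meas t hBm hst1 hhm
  have hi'le : ∀ z, hi' z ≤ hi z := cut_le t Bs st hi
  have hi'p : ∀ p ∈ t, ∀ z ∈ Bs p, hi' z = min (hi z) (st p z.1) := fun p hp z hz =>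
    cut_mem hBd st hi hp hz
  set Q : ℝ := ∫ z, (h z) ^ 2 with hQ
  have hQ0 : 0 ≤ Q := integral_nonneg fun z => sq_nonneg _
  refine ⟨hi', hi'm, hi'le, ?_, ?_⟩
  · -- kept part
    obtain ⟨W, hWm, hW1, hW2, hW3, hW4⟩ := hom n U h S lo hi hUm hh hCn hUp N R kk ii E B hT
    have hH := hhn n U h lo hi hU hh N R kk ii E B hT
    set Hf : ℝ × ℝ → ℝ := fun w => ∑ m, (2 : ℝ) ^ kk m * 2 ^ (AA * ii m) * (1 / 2 : ℝ) ^ n *
        (fat (32 * 2 ^ ii m) (R m)).indicator 1 w with hHf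
    have hHn : Nice Hf := nice_sum _ fun m _ => nice_smul _ (fat_nice _ _)
    have hWH : Integrable (fun w => W w * Hf w) := by
      have e : (fun w => W w * Hf w) = fun w => ∑ m, (2 : ℝ) ^ kk m * 2 ^ (AA * ii m) *
          (1 / 2 : ℝ) ^ n * (W w * (fat (32 * 2 ^ ii m) (R m)).indicator 1 w) := by
        funext w
        rw [hHf, Finset.mul_sum]
        refine Finset.sum_congr rfl fun m _ => ?_
        ring
      rw [e]
      exact integrable_finsetSum _ fun m _ => (W_fat hWm hW1 hW2 _ _).const_mul _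
    have hcs := final_cs hQ0 hCo hCh hW2 (nice_int (nice_sq hHn)) hWH hW3 hH
    have hC' : ∀ p ∈ t, Chain S lo (fun z => min (hi z) (st p z.1)) := fun p _ =>
      ⟨hlm, hhm.min ((hst1 p).comp measurable_fst), fun z => (min_le_left _ _).trans (hS z)⟩
    have hsplit := fun (a b : ℕ) (z' : ℝ × ℝ) =>
      Pair_split hPZ hUm hW0 (S := S) (lo := lo) (hi := hi') (h := h) t Bs
      (fun p z => min (hi z) (st p z.1)) hC' (fun p _ => nice_ind hh (hBm p))
      (fun z h0 h1 => Bp_cover hT z h0 (lt_of_lt_of_le h1 (hi'le z)))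
      (fun p _ p' _ hne => hBd p p' hne) hi'p a b z'
    -- pointwise bound
    have hpt : ∀ z', h z' * Pair (ph ω) ζ U Set.univ lo hi' h (lo z') (hi' z') z' ≤
        ∑ p ∈ t, Ct * (2 : ℝ) ^ (kk p.1 + 1) * (Λ * D) * wt U h lo hi (Rs p) z' := by
      intro z'
      rw [hsplit, Finset.mul_sum]
      refine Finset.sum_le_sum fun p hp => ?_
      refine (le_abs_self _).trans ?_
      rw [abs_mul]
      by_cases h1 : z'.1 ∈ (Rs p).I ∧ lo z' < hi' z' ∧ (Rs p).k < hi z'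
      · obtain ⟨h2, h3, h4⟩ := h1
        have h5 := hst4 p z' (lo z') (hi' z') h2 h3 ((hi'le z').trans (hS z'))
        have h6 : z' ∈ {z : ℝ × ℝ | z.1 ∈ (Rs p).I ∧ lo z < hi z ∧ (Rs p).k < hi z} :=
          ⟨h2, lt_of_lt_of_le h3 (hi'le z'), h4⟩
        unfold wt
        rw [Set.indicator_of_mem h6]
        have h7 : (1 + |U z' - (Rs p).m| * (1 / 2 : ℝ) ^ (hi z' - 1) +
            |z'.2 - (Rs p).line z'.1|) ^ qq ≤ (1 + |U z' - (Rs p).m| *
              (1 / 2 : ℝ) ^ (hi' z' - 1) + |z'.2 - (Rs p).line z'.1|) ^ qq := by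
          have h8 : (1 / 2 : ℝ) ^ (hi z' - 1) ≤ (1 / 2 : ℝ) ^ (hi' z' - 1) := by
            apply pow_le_pow_of_le_one (by norm_num) (by norm_num)
            have := hi'le z'
            omega
          have h9 : |U z' - (Rs p).m| * (1 / 2 : ℝ) ^ (hi z' - 1) ≤
              |U z' - (Rs p).m| * (1 / 2 : ℝ) ^ (hi' z' - 1) :=
            mul_le_mul_of_nonneg_left h8 (abs_nonneg _)
          have h10 : 0 ≤ |U z' - (Rs p).m| * (1 / 2 : ℝ) ^ (hi z' - 1) := by positivity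
          have h11 := abs_nonneg (z'.2 - (Rs p).line z'.1)
          apply pow_le_pow_left₀ (by linarith)
          linarith
        have h12 := wt_den U (Rs p) z' (hi z' - 1)
        calc |h z'| * |Pair (ph ω) ζ U (Bs p) lo (fun z => min (hi z) (st p z.1))
              ((Bs p).indicator h) (lo z') (hi' z') z'|
            ≤ |h z'| * (Ct * (2 : ℝ) ^ (kk p.1 + 1) * (Λ * D) / (1 + |U z' - (Rs p).m| *
              (1 / 2 : ℝ) ^ (hi' z' - 1) + |z'.2 - (Rs p).line z'.1|) ^ qq) :=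
              mul_le_mul_of_nonneg_left h5 (abs_nonneg _)
          _ ≤ |h z'| * (Ct * (2 : ℝ) ^ (kk p.1 + 1) * (Λ * D) / (1 + |U z' - (Rs p).m| *
              (1 / 2 : ℝ) ^ (hi z' - 1) + |z'.2 - (Rs p).line z'.1|) ^ qq) := by
              refine mul_le_mul_of_nonneg_left ?_ (abs_nonneg _)
              exact div_le_div_of_nonneg_left (by positivity) (by linarith) h7
          _ = _ := by ring
      · have h2 : Pair (ph ω) ζ U (Bs p) lo (fun z => min (hi z) (st p z.1))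
            ((Bs p).indicator h) (lo z') (hi' z') z' = 0 := by
          by_cases h3 : lo z' < hi' z'
          · refine Pair_zero hPZ (R := Rs p) (fun z hz _ => ⟨(hBt p z hz).1, (hBt p z hz).2.1⟩) ?_
            by_cases h4 : z'.1 ∈ (Rs p).I
            · right
              by_contra h5
              exact h1 ⟨h4, h3, lt_of_lt_of_le (by omega) (hi'le z')⟩
            · left; exact h4
          · exact Pair_empty (by omega) z'
        rw [h2, abs_zero, mul_zero]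
        have := wt_nonneg U h lo hi (Rs p) z'
        positivity
    have hwn : ∀ p, Nice (wt U h lo hi (Rs p)) := fun p => wt_nice hUm hh hlm hhm (Rs p)
    have hwi : ∀ p, ∫ z, wt U h lo hi (Rs p) z ≤ ∫ w in fat 1 (Rs p), W w := by
      intro p
      unfold wt
      rw [integral_indicator (wt_set_meas hlm hhm (Rs p))]
      exact (hW4 (Rs p) (hInt p)).2
    have hW10 : ∀ m, 0 ≤ ∫ w, W w * (fat (32 * 2 ^ ii m) (R m)).indicator (1 : ℝ × ℝ → ℝ) w :=
      fun m => integral_nonneg fun w => mul_nonneg (hW1 w)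
        (Set.indicator_nonneg (fun _ _ => zero_le_one) w)
    calc ∫ w, (Tc (ph ω) ζ U lo hi' h w) ^ 2
        ≤ 2 * ∫ z', h z' * Pair (ph ω) ζ U Set.univ lo hi' h (lo z') (hi' z') z' :=
          hsq (ph ω) hPZ.cφ hPZ.sφ U h S lo hi' hUm ⟨W0, hW0⟩ hh
            ⟨hlm, hi'm, fun z => (hi'le z).trans (hS z)⟩
      _ ≤ 2 * ∫ z', ∑ p ∈ t, Ct * (2 : ℝ) ^ (kk p.1 + 1) * (Λ * D) * wt U h lo hi (Rs p) z' := by
          refine mul_le_mul_of_nonneg_left ?_ (by norm_num)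
          refine int_le_of (integrable_finsetSum _ fun p _ => (nice_int (hwn p)).const_mul _)
            (fun z => Finset.sum_nonneg fun p _ => ?_) hpt
          have := wt_nonneg U h lo hi (Rs p) z
          positivity
      _ = 2 * ∑ p ∈ t, Ct * (2 : ℝ) ^ (kk p.1 + 1) * (Λ * D) * ∫ z', wt U h lo hi (Rs p) z' := by
          rw [integral_finsetSum _ fun p _ => (nice_int (hwn p)).const_mul _]
          simp only [integral_const_mul]
      _ ≤ 2 * ∑ p ∈ t, Ct * (2 : ℝ) ^ (kk p.1 + 1) * (Λ * D) * ∫ w in fat 1 (Rs p), W w := by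
          refine mul_le_mul_of_nonneg_left (Finset.sum_le_sum fun p _ => ?_) (by norm_num)
          exact mul_le_mul_of_nonneg_left (hwi p) (by positivity)
      _ = 2 * ∑ m, ∑ j ∈ Finset.Icc (-(Mw ii m : ℤ)) (Mw ii m),
            Ct * (2 : ℝ) ^ (kk m + 1) * (Λ * D) * ∫ w in fat 1 (shiftT (R m) j), W w := by
          rw [ht, ← sum_Ix ii fun m j =>
            Ct * (2 : ℝ) ^ (kk m + 1) * (Λ * D) * ∫ w in fat 1 (shiftT (R m) j), W w]
      _ ≤ 2 * ∑ m, Ct * (2 : ℝ) ^ (kk m + 1) * (Λ * D) *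
            (3 * ∫ w, W w * (fat (32 * 2 ^ ii m) (R m)).indicator (1 : ℝ × ℝ → ℝ) w) := by
          refine mul_le_mul_of_nonneg_left (Finset.sum_le_sum fun m _ => ?_) (by norm_num)
          rw [← Finset.mul_sum]
          refine mul_le_mul_of_nonneg_left ?_ (by positivity)
          refine strip_int hWm hW1 hW2 (R m) (Mw ii m) ?_
          unfold Mw
          push_cast
          have : (1 : ℝ) ≤ 2 ^ ii m := one_le_pow₀ (by norm_num)
          linarith
      _ ≤ 2 * (24 * Ct * Λ * ∫ w, W w * Hf w) := by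
          refine mul_le_mul_of_nonneg_left ?_ (by norm_num)
          have e : ∫ w, W w * Hf w = ∑ m, (2 : ℝ) ^ kk m * 2 ^ (AA * ii m) * (1 / 2 : ℝ) ^ n *
              ∫ w, W w * (fat (32 * 2 ^ ii m) (R m)).indicator (1 : ℝ × ℝ → ℝ) w := by
            simp only [← integral_const_mul]
            rw [← integral_finsetSum _ fun m _ => (W_fat hWm hW1 hW2 _ _).const_mul _]
            congr 1
            funext w
            rw [hHf, Finset.mul_sum]
            refine Finset.sum_congr rfl fun m _ => ?_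
            ring
          rw [e, Finset.mul_sum]
          refine Finset.sum_le_sum fun m _ => ?_
          have h1 : (1 : ℝ) ≤ 2 ^ (AA * ii m) := one_le_pow₀ (by norm_num)
          have h2 : (2 : ℝ) ^ (kk m + 1) = 2 * 2 ^ kk m := by
            rw [zpow_add₀ (by norm_num), zpow_one]; ring
          rw [h2, hD]
          have h3 : 0 ≤ Ct * Λ * (2 : ℝ) ^ kk m * (1 / 2 : ℝ) ^ n *
              ∫ w, W w * (fat (32 * 2 ^ ii m) (R m)).indicator (1 : ℝ × ℝ → ℝ) w :=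
            mul_nonneg (by positivity) (hW10 m)
          nlinarith [mul_le_mul_of_nonneg_left h1 h3]
      _ ≤ 2 * (24 * Ct * Λ * ((Co + Ch) / 2 * (2 : ℝ) ^ (-(n : ℝ) / 4) * Q)) := by
          refine mul_le_mul_of_nonneg_left ?_ (by norm_num)
          exact mul_le_mul_of_nonneg_left hcs (by positivity)
      _ = 24 * Ct * (Co + Ch) * Λ * (2 : ℝ) ^ (-(n : ℝ) / 4) * Q := by ring
      _ ≤ (24 * Ct * (Co + Ch) + 352 * Ct) * Λ * (2 : ℝ) ^ (-(n : ℝ) / 4) * Q := by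
          have h1 : (0 : ℝ) < (2 : ℝ) ^ (-(n : ℝ) / 4) := Real.rpow_pos_of_pos (by norm_num) _
          have h2 : 0 ≤ 352 * Ct * Λ * (2 : ℝ) ^ (-(n : ℝ) / 4) * Q := by positivity
          linarith
  · -- removed part
    set rem : (Σ _ : Fin N, ℤ) → Set (ℝ × ℝ) := fun p =>
      {z | z ∈ Bs p ∧ lo z < hi z ∧ st p z.1 < hi z} with hrem
    have hrm : ∀ p, MeasurableSet (rem p) := fun p =>
      (hBm p).inter ((measurableSet_lt hlm hhm).inter
        (measurableSet_lt ((hst1 p).comp measurable_fst) hhm))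
    have hRm : MeasurableSet {z | lo z < hi z ∧ hi' z < hi z} :=
      (measurableSet_lt hlm hhm).inter (measurableSet_lt hi'm hhm)
    have hrf : ∀ p, volume (rem p) ≠ ⊤ := fun p =>
      ne_top_of_le_ne_top (col_fin hh (hBc p)) (measure_mono fun z hz => hz.1)
    have hpt : ∀ z, {z | lo z < hi z ∧ hi' z < hi z}.indicator (fun z => (h z) ^ 2) z ≤
        ∑ p ∈ t, (rem p).indicator (fun z => (h z) ^ 2) z := by
      intro z
      have h0 : ∀ p ∈ t, 0 ≤ (rem p).indicator (fun z => (h z) ^ 2) z := fun p _ =>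
        Set.indicator_nonneg (fun _ _ => sq_nonneg _) z
      by_cases hz : z ∈ {z | lo z < hi z ∧ hi' z < hi z}
      · by_cases hz2 : ∃ p ∈ t, z ∈ Bs p
        · obtain ⟨p, hp, hzp⟩ := hz2
          have h1 := hz.2
          rw [hi'p p hp z hzp] at h1
          have h2 : z ∈ rem p := ⟨hzp, hz.1, by
            rcases min_lt_iff.1 h1 with h3 | h3
            · exact absurd h3 (lt_irrefl _)
            · exact h3⟩
          rw [Set.indicator_of_mem hz]
          refine le_trans (le_of_eq ?_) (Finset.single_le_sum h0 hp)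
          rw [Set.indicator_of_mem h2]
        · exfalso
          push Not at hz2
          have h1 := hz.2
          rw [hhi', cut_not st hi hz2] at h1
          exact lt_irrefl _ h1
      · rw [Set.indicator_of_notMem hz]
        exact Finset.sum_nonneg h0
    have hbd : ∀ p, ∫ z in rem p, (h z) ^ 2 ≤
        ((2 : ℝ) ^ (kk p.1 + 1)) ^ 2 * (Ct * (1 / Λ) ^ 2 * D * (Rs p).len) := by
      intro p
      have h1 : ‖∫ z in rem p, (h z) ^ 2‖ ≤
          ((2 : ℝ) ^ (kk p.1 + 1)) ^ 2 * (volume (rem p)).toReal := by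
        refine norm_setIntegral_le_of_norm_le_const (lt_top_iff_ne_top.2 (hrf p)) fun z hz => ?_
        rw [Real.norm_eq_abs, abs_of_nonneg (sq_nonneg _), ← sq_abs]
        exact pow_le_pow_left₀ (abs_nonneg _) (hBc p hz.1).2.le 2
      refine (le_abs_self _).trans (h1.trans ?_)
      exact mul_le_mul_of_nonneg_left (hst3 p) (by positivity)
    have hsqi : Integrable (fun z => (h z) ^ 2) := nice_int (nice_sq hh)
    have hrs' := (hrs n U h lo hi hUm hh N R kk ii E B hT).2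
    calc ∫ z in {z | lo z < hi z ∧ hi' z < hi z}, (h z) ^ 2
        = ∫ z, {z | lo z < hi z ∧ hi' z < hi z}.indicator (fun z => (h z) ^ 2) z :=
          (integral_indicator hRm).symm
      _ ≤ ∫ z, ∑ p ∈ t, (rem p).indicator (fun z => (h z) ^ 2) z :=
          integral_mono (hsqi.indicator hRm)
            (integrable_finsetSum _ fun p _ => hsqi.indicator (hrm p)) hpt
      _ = ∑ p ∈ t, ∫ z in rem p, (h z) ^ 2 := by
          rw [integral_finsetSum _ fun p _ => hsqi.indicator (hrm p)]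
          exact Finset.sum_congr rfl fun p _ => integral_indicator (hrm p)
      _ ≤ ∑ p ∈ t, ((2 : ℝ) ^ (kk p.1 + 1)) ^ 2 * (Ct * (1 / Λ) ^ 2 * D * (Rs p).len) :=
          Finset.sum_le_sum fun p _ => hbd p
      _ = ∑ m, ∑ j ∈ Finset.Icc (-(Mw ii m : ℤ)) (Mw ii m),
            ((2 : ℝ) ^ (kk m + 1)) ^ 2 * (Ct * (1 / Λ) ^ 2 * D * (R m).len) := by
          rw [ht, ← sum_Ix ii fun m _ =>
            ((2 : ℝ) ^ (kk m + 1)) ^ 2 * (Ct * (1 / Λ) ^ 2 * D * (R m).len)]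
          rfl
      _ ≤ ∑ m, 176 * Ct * (1 / Λ) ^ 2 *
            ((4 : ℝ) ^ kk m * 2 ^ (AA * ii m) * (1 / 2 : ℝ) ^ n * (R m).len) := by
          refine Finset.sum_le_sum fun m _ => ?_
          rw [Finset.sum_const, nsmul_eq_mul]
          have h1 := card_strips ii m
          have h2 : ((2 : ℝ) ^ (kk m + 1)) ^ 2 = 4 * (4 : ℝ) ^ kk m := by
            have h3 : (4 : ℝ) = 2 ^ (2 : ℤ) := by norm_num
            have h4 : (4 : ℝ) ^ kk m = ((2 : ℝ) ^ kk m) ^ 2 := by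
              rw [h3, ← zpow_mul, ← zpow_natCast, ← zpow_mul]
              congr 1
              push_cast
              ring
            rw [h4, zpow_add₀ (by norm_num), zpow_one]
            ring
          rw [h2, hD]
          have h3 : 0 ≤ 4 * (4 : ℝ) ^ kk m * (Ct * (1 / Λ) ^ 2 * (4 * (1 / 2 : ℝ) ^ n) * (R m).len) := by
            have := (R m).len_pos
            positivity
          calc _ ≤ 11 * 2 ^ (AA * ii m) * (4 * (4 : ℝ) ^ kk m *
                (Ct * (1 / Λ) ^ 2 * (4 * (1 / 2 : ℝ) ^ n) * (R m).len)) :=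
                mul_le_mul_of_nonneg_right h1 h3
            _ = _ := by ring
      _ = 176 * Ct * (1 / Λ) ^ 2 * ∑ m, (4 : ℝ) ^ kk m * 2 ^ (AA * ii m) * (1 / 2 : ℝ) ^ n *
            (R m).len := by rw [Finset.mul_sum]
      _ ≤ 176 * Ct * (1 / Λ) ^ 2 * ((n + 2) * Q) :=
          mul_le_mul_of_nonneg_left hrs' (by positivity)
      _ ≤ (24 * Ct * (Co + Ch) + 352 * Ct) * (n + 1) * (1 / Λ) ^ 2 * Q := by
          have hn : (0 : ℝ) ≤ n := Nat.cast_nonneg n
          have h1 : 0 ≤ Ct * (1 / Λ) ^ 2 * Q := by positivity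
          have h2 : 0 ≤ 24 * Ct * (Co + Ch) * (n + 1) * (1 / Λ) ^ 2 * Q := by positivity
          nlinarith [mul_nonneg hn h1]

theorem l_lown : L_LOWN := fun _ hζ hsq htr hm3 hom hhn hrs => lown hζ hsq htr hm3 hom hhn hrs

end Crest.Agent.R087.LowNx282
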