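import Crest.Agent.R087.GateDef_273
import Crest.Agent.R087.TreeIf_153
import Crest.Agent.R087.T1_90
import Crest.Agent.R087.Mass_546
import Crest.Agent.R087.StopAvg_630

-- ▼ part R087/Dya_738
section

/-!
Row 87, operator part (helper738): one dimensional dyadic tools in the notation of the gates.

* cells `Jc s j = [j 2^-s, (j+1) 2^-s)`, `dx s x = ⌊2^s x⌋`, averages `av s f`;
* `doob` : `∫ (max_{s ≤ n} |av s f|)^2 ≤ 4 ∫ f^2`;
* gate martingale: partial sums of `∑ gt(fract(2^r x)) a_r(x)` are `av (s+2)` of the full sum, `gate_sq`;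
* `ζ`-sums: almost orthogonality, truncations, coefficients `β`.
-/

set_option autoImplicit false

noncomputable section

open MeasureTheory Crest.Agent.R087.Sh0x283 Crest.Agent.R087.Sh1x283 Crest.Agent.R087.GateDefx273

namespace Crest.Agent.R087.Dyax738

/-! ### cells -/

/-- index of the cell of scale `2^-s` containing `x` -/
def dx (s : ℕ) (x : ℝ) : ℤ := ⌊(2 : ℝ) ^ s * x⌋

/-- dyadic cell -/
def Jc (s : ℕ) (j : ℤ) : Set ℝ := Set.Ico ((j : ℝ) / 2 ^ s) (((j : ℝ) + 1) / 2 ^ s)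

theorem pw (s : ℕ) : (0 : ℝ) < 2 ^ s := by positivity

theorem mem_Jc {s : ℕ} {j : ℤ} {x : ℝ} : x ∈ Jc s j ↔ dx s x = j := by
  unfold Jc dx
  rw [Set.mem_Ico, Int.floor_eq_iff, div_le_iff₀ (pw s), lt_div_iff₀ (pw s), mul_comm x]

theorem self_mem (s : ℕ) (x : ℝ) : x ∈ Jc s (dx s x) := mem_Jc.2 rfl

theorem left_mem (s : ℕ) (j : ℤ) : (j : ℝ) / 2 ^ s ∈ Jc s j := by
  refine ⟨le_rfl, ?_⟩
  have := pw s
  gcongr
  linarith

theorem dx_left (s : ℕ) (j : ℤ) : dx s ((j : ℝ) / 2 ^ s) = j := mem_Jc.1 (left_mem s j)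

theorem measurableSet_Jc (s : ℕ) (j : ℤ) : MeasurableSet (Jc s j) := measurableSet_Ico

theorem volume_Jc (s : ℕ) (j : ℤ) : volume (Jc s j) = ENNReal.ofReal (1 / 2 ^ s) := by
  unfold Jc
  rw [Real.volume_Ico]
  congr 1
  ring

theorem volume_Jc_ne (s : ℕ) (j : ℤ) : volume (Jc s j) ≠ ⊤ := by
  rw [volume_Jc]; exact ENNReal.ofReal_ne_top

theorem real_Jc (s : ℕ) (j : ℤ) : volume.real (Jc s j) = 1 / 2 ^ s := by
  rw [Measure.real, volume_Jc, ENNReal.toReal_ofReal (by positivity)]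

theorem disj_Jc (s : ℕ) : Pairwise (Function.onFun Disjoint (Jc s)) := by
  intro i j hij
  rw [Function.onFun, Set.disjoint_left]
  intro x hx hx'
  exact hij ((mem_Jc.1 hx).symm.trans (mem_Jc.1 hx'))

theorem iUnion_Jc (s : ℕ) : ⋃ j, Jc s j = Set.univ :=
  Set.eq_univ_of_forall fun x => Set.mem_iUnion.2 ⟨dx s x, self_mem s x⟩

theorem measurable_dx (s : ℕ) : Measurable (dx s) :=
  Int.measurable_floor.comp (measurable_const_mul _)

theorem dx_succ (s : ℕ) (x : ℝ) : dx (s + 1) x = 2 * dx s x ∨ dx (s + 1) x = 2 * dx s x + 1 := by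
  unfold dx
  have h1 := Int.floor_le ((2 : ℝ) ^ s * x)
  have h2 := Int.lt_floor_add_one ((2 : ℝ) ^ s * x)
  set n := ⌊(2 : ℝ) ^ s * x⌋ with hn
  have h3 : (2 : ℝ) ^ (s + 1) * x = 2 * ((2 : ℝ) ^ s * x) := by ring
  rw [h3]
  by_cases hc : 2 * ((2 : ℝ) ^ s * x) < 2 * n + 1
  · left
    rw [Int.floor_eq_iff]
    push_cast
    constructor <;> linarith
  · right
    rw [Int.floor_eq_iff]
    push_cast
    constructor <;> linarith

theorem dx_parent {s : ℕ} {x y : ℝ} (h : dx (s + 1) x = dx (s + 1) y) : dx s x = dx s y := by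
  rcases dx_succ s x with h1 | h1 <;> rcases dx_succ s y with h2 | h2 <;> omega

theorem dx_mono {r s : ℕ} (hrs : r ≤ s) {x y : ℝ} (h : dx s x = dx s y) : dx r x = dx r y := by
  induction s, hrs using Nat.le_induction with
  | base => exact h
  | succ n _ ih => exact ih (dx_parent h)

/-- adapted to the scale `2^-s` -/
def Ad (s : ℕ) (h : ℝ → ℝ) : Prop := ∀ x y, dx s x = dx s y → h x = h y

theorem Ad.mono {r s : ℕ} (hrs : r ≤ s) {h : ℝ → ℝ} (ha : Ad r h) : Ad s h :=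
  fun _ _ hxy => ha _ _ (dx_mono hrs hxy)

theorem Ad.eq_left {s : ℕ} {h : ℝ → ℝ} (ha : Ad s h) (x : ℝ) :
    h x = h ((dx s x : ℝ) / 2 ^ s) := ha _ _ (dx_left s _).symm

theorem Ad.measurable {s : ℕ} {h : ℝ → ℝ} (ha : Ad s h) : Measurable h := by
  have : h = (fun j : ℤ => h ((j : ℝ) / 2 ^ s)) ∘ dx s := funext fun x => ha.eq_left x
  rw [this]
  exact (measurable_of_countable _).comp (measurable_dx s)

theorem Ad.mul {s : ℕ} {h h' : ℝ → ℝ} (ha : Ad s h) (ha' : Ad s h') : Ad s fun x => h x * h' x :=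
  fun x y hxy => by
    show h x * h' x = h y * h' y
    rw [ha x y hxy, ha' x y hxy]

/-! ### integrals over cells -/

theorem int_cells {F : ℝ → ℝ} (hF : Integrable F) (s : ℕ) :
    HasSum (fun j : ℤ => ∫ x in Jc s j, F x) (∫ x, F x) := by
  have h := hasSum_integral_iUnion (measurableSet_Jc s) (disj_Jc s)
    (hF.integrableOn (s := ⋃ j, Jc s j))
  rwa [iUnion_Jc, setIntegral_univ] at h

theorem le_cells {F G : ℝ → ℝ} (hF : Integrable F) (hG : Integrable G) (s : ℕ)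
    (h : ∀ j : ℤ, ∫ x in Jc s j, F x ≤ ∫ x in Jc s j, G x) : ∫ x, F x ≤ ∫ x, G x :=
  hasSum_le h (int_cells hF s) (int_cells hG s)

theorem eq_cells {F G : ℝ → ℝ} (hF : Integrable F) (hG : Integrable G) (s : ℕ)
    (h : ∀ j : ℤ, ∫ x in Jc s j, F x = ∫ x in Jc s j, G x) : ∫ x, F x = ∫ x, G x :=
  (int_cells hF s).unique (by simpa only [h] using int_cells hG s)

theorem int_ad_mul {s : ℕ} {h : ℝ → ℝ} (ha : Ad s h) (j : ℤ) (f : ℝ → ℝ) :
    ∫ x in Jc s j, h x * f x = h ((j : ℝ) / 2 ^ s) * ∫ x in Jc s j, f x := by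
  rw [← integral_const_mul]
  refine setIntegral_congr_fun (measurableSet_Jc s j) fun x hx => ?_
  show h x * f x = h ((j : ℝ) / 2 ^ s) * f x
  rw [ha.eq_left x, mem_Jc.1 hx]

theorem int_ad {s : ℕ} {h : ℝ → ℝ} (ha : Ad s h) (j : ℤ) :
    ∫ x in Jc s j, h x = h ((j : ℝ) / 2 ^ s) * (1 / 2 ^ s) := by
  have := int_ad_mul ha j (fun _ => 1)
  simp only [mul_one] at this
  rw [this, setIntegral_const, real_Jc, smul_eq_mul, mul_one]

/-! ### averages -/

/-- average over the cell of scale `2^-s` -/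
def av (s : ℕ) (f : ℝ → ℝ) (x : ℝ) : ℝ := 2 ^ s * ∫ u in Jc s (dx s x), f u

theorem av_ad (s : ℕ) (f : ℝ → ℝ) : Ad s (av s f) := fun x y h => by unfold av; rw [h]

theorem int_Jc_av (s : ℕ) (f : ℝ → ℝ) (j : ℤ) : ∫ x in Jc s j, av s f x = ∫ x in Jc s j, f x := by
  rw [int_ad (av_ad s f)]
  unfold av
  rw [dx_left]
  have := pw s
  field_simp

theorem int_mul_av {s : ℕ} {h f : ℝ → ℝ} (ha : Ad s h) (h1 : Integrable fun x => h x * f x)
    (h2 : Integrable fun x => h x * av s f x) : ∫ x, h x * av s f x = ∫ x, h x * f x :=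
  eq_cells h2 h1 s fun j => by rw [int_ad_mul ha, int_ad_mul ha, int_Jc_av]

theorem nice_int {f : ℝ → ℝ} (hf : Nice1 f) : Integrable f := by
  obtain ⟨hm, ⟨M, hM⟩, ⟨R, hR⟩⟩ := hf
  have h1 : IntegrableOn f (Set.Icc (-R) R) :=
    Measure.integrableOn_of_bounded (M := M) (by simp) hm.aestronglyMeasurable
      (Filter.Eventually.of_forall fun x => by simpa using hM x)
  refine h1.integrable_of_forall_notMem_eq_zero fun x hx => hR x ?_
  rw [Set.mem_Icc, ← abs_le, not_le] at hx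
  exact hx

theorem nice_mul {f g : ℝ → ℝ} (hf : Nice1 f) (hg : Nice1 g) : Nice1 fun x => f x * g x := by
  obtain ⟨hm, ⟨M, hM⟩, ⟨R, hR⟩⟩ := hf
  obtain ⟨hm', ⟨M', hM'⟩, _⟩ := hg
  refine ⟨hm.mul hm', ⟨M * M', fun y => ?_⟩, ⟨R, fun y hy => by simp only [hR y hy, zero_mul]⟩⟩
  rw [abs_mul]
  exact mul_le_mul (hM y) (hM' y) (abs_nonneg _) ((abs_nonneg _).trans (hM y))

/-- nice times bounded measurable -/
theorem nice_mul_bdd {f g : ℝ → ℝ} (hf : Nice1 f) (hg : Measurable g) {M' : ℝ}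
    (hM' : ∀ x, |g x| ≤ M') : Nice1 fun x => g x * f x := by
  obtain ⟨hm, ⟨M, hM⟩, ⟨R, hR⟩⟩ := hf
  refine ⟨hg.mul hm, ⟨M' * M, fun y => ?_⟩, ⟨R, fun y hy => by simp only [hR y hy, mul_zero]⟩⟩
  rw [abs_mul]
  exact mul_le_mul (hM' y) (hM y) (abs_nonneg _) ((abs_nonneg _).trans (hM' y))

theorem nice_sq {f : ℝ → ℝ} (hf : Nice1 f) : Nice1 fun x => f x ^ 2 := by
  simpa only [sq] using nice_mul hf hf

theorem nice_abs {f : ℝ → ℝ} (hf : Nice1 f) : Nice1 fun x => |f x| := by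
  obtain ⟨hm, ⟨M, hM⟩, ⟨R, hR⟩⟩ := hf
  exact ⟨hm.abs, ⟨M, fun x => by rw [abs_abs]; exact hM x⟩, ⟨R, fun x hx => by simp [hR x hx]⟩⟩

theorem nice_add {f g : ℝ → ℝ} (hf : Nice1 f) (hg : Nice1 g) : Nice1 fun x => f x + g x := by
  obtain ⟨hm, ⟨M, hM⟩, ⟨R, hR⟩⟩ := hf
  obtain ⟨hm', ⟨M', hM'⟩, ⟨R', hR'⟩⟩ := hg
  refine ⟨hm.add hm', ⟨M + M', fun y => (abs_add_le _ _).trans (add_le_add (hM y) (hM' y))⟩,
    ⟨max R R', fun y hy => ?_⟩⟩
  show f y + g y = 0
  rw [hR y ((le_max_left _ _).trans_lt hy), hR' y ((le_max_right _ _).trans_lt hy), add_zero]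

theorem nice_const_mul {f : ℝ → ℝ} (c : ℝ) (hf : Nice1 f) : Nice1 fun x => c * f x :=
  nice_mul_bdd hf measurable_const (M' := |c|) fun _ => le_rfl

theorem nice_zero : Nice1 fun _ => 0 := ⟨measurable_const, ⟨0, by simp⟩, ⟨0, fun _ _ => rfl⟩⟩

theorem nice_sum {ι : Type*} (s : Finset ι) (f : ι → ℝ → ℝ) (h : ∀ i ∈ s, Nice1 (f i)) :
    Nice1 fun x => ∑ i ∈ s, f i x := by
  classical
  induction s using Finset.induction_on with
  | empty => simpa using nice_zero
  | insert i s hi ih =>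
    simp only [Finset.sum_insert hi]
    exact nice_add (h i (Finset.mem_insert_self i s))
      (ih fun j hj => h j (Finset.mem_insert_of_mem hj))

theorem nice_max {f g : ℝ → ℝ} (hf : Nice1 f) (hg : Nice1 g) : Nice1 fun x => max (f x) (g x) := by
  obtain ⟨hm, ⟨M, hM⟩, ⟨R, hR⟩⟩ := hf
  obtain ⟨hm', ⟨M', hM'⟩, ⟨R', hR'⟩⟩ := hg
  refine ⟨hm.max hm', ⟨max M M', fun y => ?_⟩, ⟨max R R', fun y hy => ?_⟩⟩
  · exact abs_max_le_max_abs_abs.trans (max_le_max (hM y) (hM' y))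
  · show max (f y) (g y) = 0
    rw [hR y ((le_max_left _ _).trans_lt hy), hR' y ((le_max_right _ _).trans_lt hy), max_self]

theorem cell_dist {s : ℕ} {x y : ℝ} (h : dx s x = dx s y) : |x - y| ≤ 1 / 2 ^ s := by
  have h1 := self_mem s x
  have h2 := self_mem s y
  rw [← h] at h2
  unfold Jc at h1 h2
  rw [Set.mem_Ico, add_div] at h1 h2
  rw [abs_le]
  constructor <;> linarith [h1.1, h1.2, h2.1, h2.2]

theorem pw_le_one (s : ℕ) : 1 / (2 : ℝ) ^ s ≤ 1 := by
  rw [div_le_one (pw s)]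
  exact one_le_pow₀ (by norm_num)

theorem abs_av_le {f : ℝ → ℝ} {M : ℝ} (hM : ∀ x, |f x| ≤ M) (s : ℕ) (x : ℝ) : |av s f x| ≤ M := by
  unfold av
  have h1 : ‖∫ u in Jc s (dx s x), f u‖ ≤ M * volume.real (Jc s (dx s x)) :=
    norm_setIntegral_le_of_norm_le_const (volume_Jc_ne s _).lt_top fun u _ => hM u
  rw [real_Jc, Real.norm_eq_abs] at h1
  rw [abs_mul, abs_of_pos (pw s)]
  calc (2 : ℝ) ^ s * |∫ u in Jc s (dx s x), f u| ≤ 2 ^ s * (M * (1 / 2 ^ s)) := by gcongr
    _ = M := by have := pw s; field_simp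

theorem nice_av {f : ℝ → ℝ} (hf : Nice1 f) (s : ℕ) : Nice1 (av s f) := by
  obtain ⟨hm, ⟨M, hM⟩, ⟨R, hR⟩⟩ := hf
  refine ⟨(av_ad s f).measurable, ⟨M, abs_av_le hM s⟩, ⟨R + 1, fun x hx => ?_⟩⟩
  unfold av
  rw [setIntegral_eq_zero_of_forall_eq_zero, mul_zero]
  intro u hu
  apply hR
  have h1 := (cell_dist (mem_Jc.1 hu)).trans (pw_le_one s)
  have h2 := abs_sub_abs_le_abs_sub x u
  rw [abs_sub_comm] at h2
  linarith

theorem av_of_ad {s : ℕ} {h : ℝ → ℝ} (ha : Ad s h) (x : ℝ) : av s h x = h x := by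
  unfold av
  rw [int_ad ha, ← ha.eq_left]
  have := pw s
  field_simp

/-- the integral of `f` over a coarse cell is the integral of its finer average -/
theorem int_coarse {f : ℝ → ℝ} (hf : Nice1 f) {r s : ℕ} (hrs : r ≤ s) (j : ℤ) :
    ∫ x in Jc r j, av s f x = ∫ x in Jc r j, f x := by
  classical
  set h : ℝ → ℝ := (Jc r j).indicator fun _ => 1 with hh
  have ha : Ad s h := by
    intro x y hxy
    have e := dx_mono hrs hxy
    simp only [hh, Set.indicator_apply, mem_Jc, e]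
  have hb : ∀ x, |h x| ≤ 1 := by
    intro x
    simp only [hh, Set.indicator_apply]
    split_ifs <;> norm_num
  have e : ∀ F : ℝ → ℝ, ∫ x in Jc r j, F x = ∫ x, h x * F x := by
    intro F
    rw [← integral_indicator (measurableSet_Jc r j)]
    refine integral_congr_ae (Filter.Eventually.of_forall fun x => ?_)
    simp only [hh, Set.indicator_apply]
    split_ifs <;> simp
  rw [e, e]
  exact int_mul_av ha (nice_int (nice_mul_bdd hf ha.measurable hb))
    (nice_int (nice_mul_bdd (nice_av hf s) ha.measurable hb))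

theorem av_av {f : ℝ → ℝ} (hf : Nice1 f) {r s : ℕ} (hrs : r ≤ s) (x : ℝ) :
    av r (av s f) x = av r f x := by
  unfold av
  rw [show (fun u => (2 : ℝ) ^ s * ∫ v in Jc s (dx s u), f v) = av s f from rfl]
  rw [int_coarse hf hrs]

theorem int_av_sq_le {f : ℝ → ℝ} (hf : Nice1 f) (s : ℕ) :
    ∫ x, (av s f x) ^ 2 ≤ ∫ x, (f x) ^ 2 := by
  have h1 : ∫ x, av s f x * av s f x = ∫ x, av s f x * f x :=
    int_mul_av (av_ad s f) (nice_int (nice_mul (nice_av hf s) hf))
      (nice_int (nice_mul (nice_av hf s) (nice_av hf s)))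
  have h2 : 0 ≤ ∫ x, (f x - av s f x) ^ 2 := integral_nonneg fun x => sq_nonneg _
  have h3 : ∫ x, (f x - av s f x) ^ 2 = (∫ x, (f x) ^ 2) - 2 * (∫ x, av s f x * f x) +
      ∫ x, av s f x * av s f x := by
    have i1 := nice_int (nice_sq hf)
    have i2 := nice_int (nice_mul (nice_av hf s) hf)
    have i3 := nice_int (nice_mul (nice_av hf s) (nice_av hf s))
    have i4 : Integrable fun x => f x ^ 2 - 2 * (av s f x * f x) := i1.sub (i2.const_mul 2)
    rw [← integral_const_mul, ← integral_sub i1 (i2.const_mul 2), ← integral_add i4 i3]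
    refine integral_congr_ae (Filter.Eventually.of_forall fun x => ?_)
    simp only
    ring
  have h4 : ∫ x, (av s f x) ^ 2 = ∫ x, av s f x * av s f x := by
    simp only [sq]
  linarith

/-! ### Doob -/

/-- dyadic maximal function, scales `0..n` -/
def Mx (f : ℝ → ℝ) : ℕ → ℝ → ℝ
  | 0, x => |av 0 f x|
  | n + 1, x => max (Mx f n x) |av (n + 1) f x|

theorem Mx_nonneg (f : ℝ → ℝ) (n : ℕ) (x : ℝ) : 0 ≤ Mx f n x := by
  cases n with
  | zero => exact abs_nonneg _
  | succ n => exact (abs_nonneg _).trans (le_max_right _ _)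

theorem Mx_mono (f : ℝ → ℝ) {m n : ℕ} (h : m ≤ n) (x : ℝ) : Mx f m x ≤ Mx f n x := by
  induction n, h using Nat.le_induction with
  | base => exact le_rfl
  | succ n _ ih => exact ih.trans (le_max_left _ _)

theorem av_le_Mx' (f : ℝ → ℝ) (n : ℕ) (x : ℝ) : |av n f x| ≤ Mx f n x := by
  cases n with
  | zero => exact le_rfl
  | succ n => exact le_max_right _ _

theorem av_le_Mx (f : ℝ → ℝ) {s n : ℕ} (h : s ≤ n) (x : ℝ) : |av s f x| ≤ Mx f n x :=
  (av_le_Mx' f s x).trans (Mx_mono f h x)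

theorem Mx_ad (f : ℝ → ℝ) (n : ℕ) : Ad n (Mx f n) := by
  induction n with
  | zero => intro x y h; show |av 0 f x| = |av 0 f y|; rw [av_ad 0 f x y h]
  | succ n ih =>
    intro x y h
    show max (Mx f n x) |av (n + 1) f x| = max (Mx f n y) |av (n + 1) f y|
    rw [ih x y (dx_parent h), av_ad (n + 1) f x y h]

theorem nice_Mx {f : ℝ → ℝ} (hf : Nice1 f) (n : ℕ) : Nice1 (Mx f n) := by
  induction n with
  | zero => exact nice_abs (nice_av hf 0)
  | succ n ih => exact nice_max ih (nice_abs (nice_av hf (n + 1)))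

/-- pathwise form of Doob's inequality -/
theorem path (f : ℝ → ℝ) (n : ℕ) (x : ℝ) :
    ∑ k ∈ Finset.range n, Mx f k x * (|av (k + 1) f x| - |av k f x|) ≤
      Mx f n x * |av n f x| - (Mx f n x) ^ 2 / 2 := by
  induction n with
  | zero =>
    simp only [Finset.range_zero, Finset.sum_empty]
    show 0 ≤ |av 0 f x| * |av 0 f x| - |av 0 f x| ^ 2 / 2
    nlinarith [abs_nonneg (av 0 f x)]
  | succ n ih =>
    rw [Finset.sum_range_succ]
    have h0 : Mx f (n + 1) x = max (Mx f n x) |av (n + 1) f x| := rfl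
    rcases le_total (Mx f n x) |av (n + 1) f x| with h | h
    · rw [h0, max_eq_right h]
      nlinarith [sq_nonneg (|av (n + 1) f x| - Mx f n x)]
    · rw [h0, max_eq_left h]
      nlinarith

theorem step_nonneg {f : ℝ → ℝ} (hf : Nice1 f) (k : ℕ) :
    0 ≤ ∫ x, Mx f k x * (|av (k + 1) f x| - |av k f x|) := by
  have n1 : Nice1 fun x => Mx f k x * |av k f x| := nice_mul (nice_Mx hf k) (nice_abs (nice_av hf k))
  have n2 : Nice1 fun x => Mx f k x * |av (k + 1) f x| :=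
    nice_mul (nice_Mx hf k) (nice_abs (nice_av hf (k + 1)))
  have h : ∫ x, Mx f k x * |av k f x| ≤ ∫ x, Mx f k x * |av (k + 1) f x| := by
    refine le_cells (nice_int n1) (nice_int n2) k fun j => ?_
    rw [int_ad_mul (Mx_ad f k), int_ad_mul (Mx_ad f k)]
    refine mul_le_mul_of_nonneg_left ?_ (Mx_nonneg _ _ _)
    have a1 : Ad k fun x => |av k f x| := fun x y h => by simp only [av_ad k f x y h]
    rw [int_ad a1]
    have e1 : |av k f ((j : ℝ) / 2 ^ k)| * (1 / 2 ^ k) = |∫ x in Jc k j, f x| := by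
      unfold av
      rw [dx_left, abs_mul, abs_of_pos (pw k)]
      have := pw k
      field_simp
    rw [e1, ← int_coarse hf (Nat.le_succ k) j]
    exact abs_integral_le_integral_abs
  have e : ∫ x, Mx f k x * (|av (k + 1) f x| - |av k f x|) =
      (∫ x, Mx f k x * |av (k + 1) f x|) - ∫ x, Mx f k x * |av k f x| := by
    rw [← integral_sub (nice_int n2) (nice_int n1)]
    refine integral_congr_ae (Filter.Eventually.of_forall fun x => ?_)
    simp only
    ring
  rw [e]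
  linarith

/-- **Doob's `L²` inequality** for the dyadic maximal function. -/
theorem doob {f : ℝ → ℝ} (hf : Nice1 f) (n : ℕ) :
    ∫ x, (Mx f n x) ^ 2 ≤ 4 * ∫ x, (f x) ^ 2 := by
  have nk : ∀ k, Nice1 fun x => Mx f k x * (|av (k + 1) f x| - |av k f x|) := by
    intro k
    have h := nice_add (nice_mul (nice_Mx hf k) (nice_abs (nice_av hf (k + 1))))
      (nice_const_mul (-1) (nice_mul (nice_Mx hf k) (nice_abs (nice_av hf k))))
    have e : (fun x => Mx f k x * |av (k + 1) f x| + -1 * (Mx f k x * |av k f x|)) =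
        fun x => Mx f k x * (|av (k + 1) f x| - |av k f x|) := by
      funext x; ring
    rwa [e] at h
  have h1 : ∫ x, (Mx f n x) ^ 2 ≤ ∫ x, (4 * (av n f x) ^ 2 -
      4 * ∑ k ∈ Finset.range n, Mx f k x * (|av (k + 1) f x| - |av k f x|)) := by
    refine integral_mono (nice_int (nice_sq (nice_Mx hf n))) ?_ fun x => ?_
    · exact ((nice_int (nice_sq (nice_av hf n))).const_mul 4).sub
        ((nice_int (nice_sum _ _ fun k _ => nk k)).const_mul 4)
    · have h2 := path f n x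
      have h3 : |av n f x| ^ 2 = (av n f x) ^ 2 := sq_abs _
      simp only
      nlinarith [sq_nonneg (Mx f n x / 2 - |av n f x|)]
  refine h1.trans ?_
  rw [integral_sub ((nice_int (nice_sq (nice_av hf n))).const_mul 4)
    ((nice_int (nice_sum _ _ fun k _ => nk k)).const_mul 4), integral_const_mul, integral_const_mul,
    integral_finsetSum _ fun k _ => nice_int (nk k)]
  have h4 : 0 ≤ ∑ k ∈ Finset.range n, ∫ x, Mx f k x * (|av (k + 1) f x| - |av k f x|) :=
    Finset.sum_nonneg fun k _ => step_nonneg hf k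
  have h5 := int_av_sq_le hf n
  linarith


theorem av_sum {ι : Type*} (t : Finset ι) (f : ι → ℝ → ℝ) (h : ∀ i ∈ t, Nice1 (f i)) (s : ℕ) (x : ℝ) :
    av s (fun x => ∑ i ∈ t, f i x) x = ∑ i ∈ t, av s (f i) x := by
  unfold av
  rw [integral_finsetSum _ fun i hi => (nice_int (h i hi)).integrableOn, Finset.mul_sum]

theorem Jc_split (s : ℕ) (j : ℤ) : Jc s j = Jc (s + 1) (2 * j) ∪ Jc (s + 1) (2 * j + 1) := by
  ext x
  rw [Set.mem_union, mem_Jc, mem_Jc, mem_Jc]
  rcases dx_succ s x with h | h <;> omega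

theorem int_split {f : ℝ → ℝ} (s : ℕ) (j : ℤ) (hf : IntegrableOn f (Jc s j)) :
    ∫ x in Jc s j, f x = (∫ x in Jc (s + 1) (2 * j), f x) + ∫ x in Jc (s + 1) (2 * j + 1), f x := by
  rw [Jc_split] at hf
  rw [Jc_split, setIntegral_union (disj_Jc (s + 1) (by omega)) (measurableSet_Jc _ _)
    (hf.mono_set Set.subset_union_left) (hf.mono_set Set.subset_union_right)]

theorem intOn_bdd {f : ℝ → ℝ} (hf : Measurable f) {M : ℝ} (hM : ∀ x, |f x| ≤ M) (s : ℕ) (j : ℤ) :
    IntegrableOn f (Jc s j) :=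
  Measure.integrableOn_of_bounded (M := M) (volume_Jc_ne s j) hf.aestronglyMeasurable
    (Filter.Eventually.of_forall fun x => by simpa using hM x)

/-! ### gates -/

/-- the gate at scale `2^-r` -/
def gr (r : ℕ) (x : ℝ) : ℝ := gt (Int.fract ((2 : ℝ) ^ r * x))

theorem gr_quarter (r : ℕ) (x : ℝ) : gr r x =
    if dx (r + 2) x = 4 * dx r x ∨ dx (r + 2) x = 4 * dx r x + 3 then 1 else -1 := by
  unfold gr
  have h0 := Int.fract_nonneg ((2 : ℝ) ^ r * x)
  have h1 := Int.fract_lt_one ((2 : ℝ) ^ r * x)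
  have h2 : (2 : ℝ) ^ r * x = dx r x + Int.fract ((2 : ℝ) ^ r * x) := (Int.floor_add_fract _).symm
  set t := Int.fract ((2 : ℝ) ^ r * x) with ht
  have h3 : (2 : ℝ) ^ (r + 2) * x = 4 * dx r x + 4 * t := by
    rw [pow_add, mul_assoc, mul_comm ((2 : ℝ) ^ 2) x, ← mul_assoc, h2]; ring
  have h4 : ∀ m : ℤ, (m : ℝ) ≤ 4 * t → 4 * t < m + 1 → dx (r + 2) x = 4 * dx r x + m := by
    intro m hm1 hm2
    unfold dx
    rw [h3, Int.floor_eq_iff]
    push_cast
    constructor
    · unfold dx; linarith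
    · unfold dx; linarith
  rcases lt_or_ge t (1 / 4) with c1 | c1
  · have := h4 0 (by push_cast; linarith) (by push_cast; linarith)
    rw [if_pos (Or.inl (by omega))]
    unfold gt
    rw [if_neg (by linarith), if_pos c1]
  · rcases lt_or_ge t (1 / 2) with c2 | c2
    · have := h4 1 (by push_cast; linarith) (by push_cast; linarith)
      rw [if_neg (by omega)]
      unfold gt
      rw [if_neg (by linarith), if_neg (by linarith), if_pos (by linarith)]
    · rcases lt_or_ge t (3 / 4) with c3 | c3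
      · have := h4 2 (by push_cast; linarith) (by push_cast; linarith)
        rw [if_neg (by omega)]
        unfold gt
        rw [if_neg (by linarith), if_neg (by linarith), if_pos (by linarith)]
      · have := h4 3 (by push_cast; linarith) (by push_cast; linarith)
        rw [if_pos (Or.inr (by omega))]
        unfold gt
        rw [if_neg (by linarith), if_neg (by linarith), if_neg (by linarith), if_pos h1]

theorem gr_sq (r : ℕ) (x : ℝ) : gr r x ^ 2 = 1 := by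
  rw [gr_quarter]; split_ifs <;> norm_num

theorem gr_abs (r : ℕ) (x : ℝ) : |gr r x| = 1 := by
  rw [gr_quarter]; split_ifs <;> norm_num

theorem gr_ad (r : ℕ) : Ad (r + 2) (gr r) := by
  intro x y h
  rw [gr_quarter, gr_quarter, h, dx_mono (by omega : r ≤ r + 2) h]

theorem gr_mean (r : ℕ) (i : ℤ) : ∫ x in Jc (r + 1) i, gr r x = 0 := by
  rw [int_split (r + 1) i (intOn_bdd (gr_ad r).measurable (fun x => (gr_abs r x).le) _ _),
    int_ad (gr_ad r), int_ad (gr_ad r), gr_quarter, gr_quarter]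
  have a1 : dx (r + 1 + 1) (((2 * i : ℤ) : ℝ) / 2 ^ (r + 1 + 1)) = 2 * i := dx_left _ _
  have a2 : dx (r + 1 + 1) (((2 * i + 1 : ℤ) : ℝ) / 2 ^ (r + 1 + 1)) = 2 * i + 1 := dx_left _ _
  set x1 := ((2 * i : ℤ) : ℝ) / 2 ^ (r + 1 + 1) with hx1
  set x2 := ((2 * i + 1 : ℤ) : ℝ) / 2 ^ (r + 1 + 1) with hx2
  have b1 := dx_succ (r + 1) x1
  have b2 := dx_succ (r + 1) x2
  have c1 := dx_succ r x1
  have c2 := dx_succ r x2
  change dx (r + 2) x1 = _ at a1
  change dx (r + 2) x2 = _ at a2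
  change dx (r + 2) x1 = _ ∨ dx (r + 2) x1 = _ at b1
  change dx (r + 2) x2 = _ ∨ dx (r + 2) x2 = _ at b2
  have hp := pw (r + 1 + 1)
  by_cases h : dx (r + 2) x1 = 4 * dx r x1 ∨ dx (r + 2) x1 = 4 * dx r x1 + 3
  · rw [if_pos h, if_neg (by omega)]
    field_simp
    ring
  · rw [if_neg h, if_pos (by omega)]
    field_simp
    ring

/-- a gate has mean zero against functions adapted to the next scale -/
theorem int_gate {r : ℕ} {h : ℝ → ℝ} (hh : Ad (r + 1) h) (nh : Nice1 h) :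
    ∫ x, h x * gr r x = 0 := by
  have n1 : Nice1 fun x => h x * gr r x := by
    have := nice_mul_bdd nh (gr_ad r).measurable (fun x => (gr_abs r x).le)
    simpa only [mul_comm] using this
  have := eq_cells (nice_int n1) (nice_int nice_zero) (r + 1) fun j => by
    rw [int_ad_mul hh, gr_mean, mul_zero]; simp
  simpa using this

section gates

variable {a : ℕ → ℝ → ℝ} (hA : ∀ r, Ad r (a r)) (hN : ∀ r, Nice1 (a r))

/-- gate sum -/
def GS (a : ℕ → ℝ → ℝ) (S : ℕ) (x : ℝ) : ℝ := ∑ r ∈ Finset.range S, gr r x * a r x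

include hA in
theorem gs_ad (S : ℕ) : Ad (S + 1) (GS a S) := by
  intro x y h
  unfold GS
  refine Finset.sum_congr rfl fun r hr => ?_
  have hr' := Finset.mem_range.1 hr
  rw [gr_ad r x y (dx_mono (by omega) h), hA r x y (dx_mono (by omega) h)]

include hN in
theorem nice_ga (r : ℕ) : Nice1 fun x => gr r x * a r x :=
  nice_mul_bdd (hN r) (gr_ad r).measurable (fun x => (gr_abs r x).le)

include hN in
theorem nice_gs (S : ℕ) : Nice1 (GS a S) := nice_sum _ _ fun r _ => nice_ga hN r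

include hA hN in
theorem av_ga_fine {r s : ℕ} (h : s ≤ r + 1) (x : ℝ) : av s (fun x => gr r x * a r x) x = 0 := by
  rw [← av_av (nice_ga hN r) h]
  have : av (r + 1) (fun x => gr r x * a r x) = fun _ => 0 := by
    funext y
    unfold av
    have e : ∀ j, ∫ u in Jc (r + 1) j, gr r u * a r u = 0 := by
      intro j
      have := int_ad_mul ((hA r).mono (Nat.le_succ r)) j (gr r)
      simp only [mul_comm (gr r _)]
      rw [this, gr_mean, mul_zero]
    rw [e, mul_zero]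
  rw [this]
  unfold av
  simp

include hA hN in
/-- partial sums of the gate series are averages of the full sum -/
theorem gate_partial {S s : ℕ} (h : s < S) (x : ℝ) : av (s + 2) (GS a S) x = GS a (s + 1) x := by
  unfold GS
  rw [av_sum _ _ fun r _ => nice_ga hN r]
  rw [← Finset.sum_subset (Finset.range_mono (Nat.succ_le_of_lt h))]
  · refine Finset.sum_congr rfl fun r hr => ?_
    have hr' := Finset.mem_range.1 hr
    refine av_of_ad ?_ x
    exact ((gr_ad r).mono (by omega)).mul ((hA r).mono (by omega))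
  · intro r _ hr
    rw [Finset.mem_range, not_lt] at hr
    exact av_ga_fine hA hN (by omega) x


include hA hN in
/-- orthogonality of the gates -/
theorem gate_sq (S : ℕ) : ∫ x, (GS a S x) ^ 2 = ∑ r ∈ Finset.range S, ∫ x, (a r x) ^ 2 := by
  induction S with
  | zero => simp [GS]
  | succ S ih =>
    rw [Finset.sum_range_succ, ← ih]
    have e : ∀ x, (GS a (S + 1) x) ^ 2 =
        (GS a S x) ^ 2 + (2 * ((GS a S x * a S x) * gr S x) + (a S x) ^ 2) := by
      intro x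
      have h1 : GS a (S + 1) x = GS a S x + gr S x * a S x := by
        unfold GS; rw [Finset.sum_range_succ]
      rw [h1]
      have h2 := gr_sq S x
      linear_combination (a S x) ^ 2 * h2
    have n1 := nice_mul (nice_gs hN S) (hN S)
    have n2 : Nice1 fun x => (GS a S x * a S x) * gr S x := by
      have := nice_mul_bdd n1 (gr_ad S).measurable (fun x => (gr_abs S x).le)
      simpa only [mul_comm (gr S _)] using this
    have i2 : Integrable fun x => 2 * ((GS a S x * a S x) * gr S x) := (nice_int n2).const_mul 2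
    have i3 := nice_int (nice_sq (hN S))
    have i4 : Integrable fun x => 2 * ((GS a S x * a S x) * gr S x) + (a S x) ^ 2 := i2.add i3
    simp only [e]
    rw [integral_add (nice_int (nice_sq (nice_gs hN S))) i4, integral_add i2 i3,
      integral_const_mul, int_gate ((gs_ad hA S).mul ((hA S).mono (Nat.le_succ S))) n1]
    ring

include hA hN in
/-- maximal truncations of the gate series -/
theorem gate_max (S : ℕ) :
    ∫ x, (Mx (GS a S) (S + 1) x) ^ 2 ≤ 4 * ∑ r ∈ Finset.range S, ∫ x, (a r x) ^ 2 := by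
  rw [← gate_sq hA hN S]
  exact doob (nice_gs hN S) (S + 1)

end gates

end Crest.Agent.R087.Dyax738
end
end

-- ▼ part R087/DyaZ_738
section

/-!
Row 87, operator part (helper738): the `ζ`-series `∑ ζ(fract(2^r x)) a_r(x)`, `a_r` adapted to `2^-r`:
almost orthogonality, truncations with an explicit squared majorant `GZ`, the coefficients `β`,
and the positive Carleson sum.
-/

set_option autoImplicit false

noncomputable section

open MeasureTheory Crest.Agent.R087.Sh0x283 Crest.Agent.R087.Sh1x283 Crest.Agent.R087.GateDefx273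
open Crest.Agent.R087.Dyax738

namespace Crest.Agent.R087.DyaZx738

/-- what is needed of `ζ` -/
structure ZB (ζ : ℝ → ℝ) (K : ℝ) : Prop where
  meas : Measurable ζ
  nonneg : 0 ≤ K
  bd : ∀ t, |ζ t| ≤ K
  lip : ∀ t t', |ζ t - ζ t'| ≤ K * |t - t'|
  mean : ∫ t in Set.Ico (0 : ℝ) 1, ζ t = 0

theorem zb_of {ζ : ℝ → ℝ} (h : ZetC ζ) : ∃ K, ZB ζ K := by
  obtain ⟨h1, h2, h3⟩ := h
  have hc : HasCompactSupport ζ := by
    refine HasCompactSupport.intro (isCompact_Icc (a := (1 / 8 : ℝ)) (b := 7 / 8)) fun x hx => ?_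
    by_contra hcon
    exact hx (h2 x hcon)
  obtain ⟨B, hB⟩ := hc.exists_bound_of_continuous h1.continuous
  obtain ⟨C, hC⟩ := ContDiff.lipschitzWith_of_hasCompactSupport hc h1 (by simp)
  refine ⟨max B C, h1.continuous.measurable, le_max_of_le_right C.2, fun t => (hB t).trans
    (le_max_left _ _), fun t t' => ?_, ?_⟩
  · have := hC.dist_le_mul t t'
    rw [Real.dist_eq, Real.dist_eq] at this
    exact this.trans (mul_le_mul_of_nonneg_right (le_max_right _ _) (abs_nonneg _))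
  · rw [integral_Ico_eq_integral_Ioc, ← intervalIntegral.integral_of_le zero_le_one]
    have h4 := intervalIntegral.integral_comp_sub_left (a := 0) (b := 1) ζ 1
    simp only [h3, sub_zero, sub_self] at h4
    rw [intervalIntegral.integral_neg] at h4
    linarith

/-- the bump at scale `2^-r` -/
def zr (ζ : ℝ → ℝ) (r : ℕ) (x : ℝ) : ℝ := ζ (Int.fract ((2 : ℝ) ^ r * x))

theorem zr_eq (ζ : ℝ → ℝ) (r : ℕ) (x : ℝ) : zr ζ r x = ζ ((2 : ℝ) ^ r * x - dx r x) := rfl

theorem geo (s : ℕ) : ∑ r ∈ Finset.range (s + 1), (2 : ℝ) ^ r / 2 ^ s ≤ 2 := by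
  rw [← Finset.sum_div, geom_sum_eq (by norm_num), div_le_iff₀ (pw s)]
  have := pw s
  rw [pow_succ]
  linarith

theorem cs_geo (s : ℕ) (b : ℕ → ℝ) :
    (∑ r ∈ Finset.range (s + 1), (2 : ℝ) ^ r / 2 ^ s * |b r|) ^ 2 ≤
      2 * ∑ r ∈ Finset.range (s + 1), (2 : ℝ) ^ r / 2 ^ s * b r ^ 2 := by
  have h := Finset.sum_sq_le_sum_mul_sum_of_sq_le_mul (Finset.range (s + 1))
    (r := fun r => (2 : ℝ) ^ r / 2 ^ s * |b r|) (f := fun r => (2 : ℝ) ^ r / 2 ^ s)
    (g := fun r => (2 : ℝ) ^ r / 2 ^ s * b r ^ 2) (fun i _ => by positivity)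
    (fun i _ => by positivity) (fun i _ => by rw [mul_pow, sq_abs]; exact le_of_eq (by ring))
  refine h.trans (mul_le_mul_of_nonneg_right (geo s) ?_)
  exact Finset.sum_nonneg fun i _ => by positivity

theorem sum_geo_eq (S : ℕ) (b : ℕ → ℝ) :
    ∑ s ∈ Finset.range S, ∑ r ∈ Finset.range (s + 1), (2 : ℝ) ^ r / 2 ^ s * b r =
      ∑ r ∈ Finset.range S, (2 - 2 * (2 : ℝ) ^ r / 2 ^ S) * b r := by
  induction S with
  | zero => simp
  | succ S ih =>
    rw [Finset.sum_range_succ, ih, Finset.sum_range_succ _ S, Finset.sum_range_succ _ S, ← add_assoc,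
      ← Finset.sum_add_distrib]
    have hp := pw S
    congr 1
    · refine Finset.sum_congr rfl fun r _ => ?_
      rw [pow_succ]
      field_simp
      ring
    · rw [pow_succ]
      field_simp
      ring

theorem sum_geo_le (S : ℕ) (b : ℕ → ℝ) (hb : ∀ r, 0 ≤ b r) :
    ∑ s ∈ Finset.range S, ∑ r ∈ Finset.range (s + 1), (2 : ℝ) ^ r / 2 ^ s * b r ≤
      2 * ∑ r ∈ Finset.range S, b r := by
  rw [sum_geo_eq, Finset.mul_sum]
  refine Finset.sum_le_sum fun r _ => mul_le_mul_of_nonneg_right ?_ (hb r)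
  have : 0 ≤ 2 * (2 : ℝ) ^ r / 2 ^ S := by positivity
  linarith

theorem av_osc {f : ℝ → ℝ} (hf : Nice1 f) (s : ℕ) (x c ε : ℝ)
    (h : ∀ v, dx s v = dx s x → |c - f v| ≤ ε) : |c - av s f x| ≤ ε := by
  have hp := pw s
  have e : c - av s f x = 2 ^ s * ∫ v in Jc s (dx s x), (c - f v) := by
    have i1 : IntegrableOn (fun _ : ℝ => c) (Jc s (dx s x)) := integrableOn_const (volume_Jc_ne s _)
    have i2 : IntegrableOn f (Jc s (dx s x)) := (nice_int hf).integrableOn
    rw [integral_sub i1 i2, setIntegral_const, real_Jc, smul_eq_mul, mul_sub]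
    unfold av
    field_simp
  rw [e, abs_mul, abs_of_pos hp]
  have h1 : ‖∫ v in Jc s (dx s x), (c - f v)‖ ≤ ε * volume.real (Jc s (dx s x)) :=
    norm_setIntegral_le_of_norm_le_const (volume_Jc_ne s _).lt_top fun v hv => h v (mem_Jc.1 hv)
  rw [real_Jc, Real.norm_eq_abs] at h1
  calc (2 : ℝ) ^ s * |∫ v in Jc s (dx s x), (c - f v)| ≤ 2 ^ s * (ε * (1 / 2 ^ s)) := by gcongr
    _ = ε := by field_simp

section zeta

variable {ζ : ℝ → ℝ} {K : ℝ} (hζ : ZB ζ K)

include hζ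

theorem zr_meas (r : ℕ) : Measurable (zr ζ r) :=
  hζ.meas.comp (measurable_fract.comp (measurable_const_mul _))

theorem zr_bd (r : ℕ) (x : ℝ) : |zr ζ r x| ≤ K := hζ.bd _

theorem zr_osc {r s : ℕ} (hrs : r ≤ s) {u v : ℝ} (h : dx s u = dx s v) :
    |zr ζ r u - zr ζ r v| ≤ K * ((2 : ℝ) ^ r / 2 ^ s) := by
  have h1 := hζ.lip ((2 : ℝ) ^ r * u - dx r u) ((2 : ℝ) ^ r * v - dx r v)
  rw [zr_eq, zr_eq]
  refine h1.trans (mul_le_mul_of_nonneg_left ?_ hζ.nonneg)
  rw [dx_mono hrs h]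
  have h2 : (2 : ℝ) ^ r * u - dx r v - ((2 : ℝ) ^ r * v - dx r v) = 2 ^ r * (u - v) := by ring
  rw [h2, abs_mul, abs_of_pos (pw r)]
  calc (2 : ℝ) ^ r * |u - v| ≤ 2 ^ r * (1 / 2 ^ s) := by
        have := cell_dist h
        gcongr
    _ = 2 ^ r / 2 ^ s := by ring

theorem zr_mean (r : ℕ) (j : ℤ) : ∫ x in Jc r j, zr ζ r x = 0 := by
  have hp := pw r
  have e : ∫ x in Jc r j, zr ζ r x = ∫ x in Jc r j, ζ ((2 : ℝ) ^ r * x - j) := by
    refine setIntegral_congr_fun (measurableSet_Jc r j) fun x hx => ?_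
    show zr ζ r x = ζ ((2 : ℝ) ^ r * x - j)
    rw [zr_eq, mem_Jc.1 hx]
  rw [e]
  unfold Jc
  have hle : (j : ℝ) / 2 ^ r ≤ ((j : ℝ) + 1) / 2 ^ r := by gcongr; linarith
  rw [integral_Ico_eq_integral_Ioc, ← intervalIntegral.integral_of_le hle,
    intervalIntegral.integral_comp_mul_sub _ hp.ne']
  have e1 : (2 : ℝ) ^ r * (j / 2 ^ r) - j = 0 := by field_simp; ring
  have e2 : (2 : ℝ) ^ r * ((j + 1) / 2 ^ r) - j = 1 := by field_simp; ring
  rw [e1, e2, intervalIntegral.integral_of_le zero_le_one, ← integral_Ico_eq_integral_Ioc, hζ.mean,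
    smul_zero]

/-- product of bumps over a cell of the finer scale -/
theorem zz_int {r s : ℕ} (hrs : r ≤ s) (j : ℤ) :
    |∫ x in Jc s j, zr ζ r x * zr ζ s x| ≤ K ^ 2 * ((2 : ℝ) ^ r / 2 ^ s) * (1 / 2 ^ s) := by
  have hp := pw s
  rcases hrs.lt_or_eq with h | h
  · set x₀ := (j : ℝ) / 2 ^ s with hx₀
    have hx : dx s x₀ = j := dx_left s j
    have i1 : IntegrableOn (fun x => zr ζ r x * zr ζ s x) (Jc s j) :=
      intOn_bdd ((zr_meas hζ r).mul (zr_meas hζ s)) (M := K * K) (fun x => by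
        rw [Pi.mul_apply, abs_mul]
        exact mul_le_mul (zr_bd hζ r x) (zr_bd hζ s x) (abs_nonneg _) hζ.nonneg) s j
    have i2 : IntegrableOn (fun x => zr ζ r x₀ * zr ζ s x) (Jc s j) :=
      (intOn_bdd (zr_meas hζ s) (zr_bd hζ s) s j).const_mul _
    have e : ∫ x in Jc s j, zr ζ r x * zr ζ s x =
        ∫ x in Jc s j, (zr ζ r x * zr ζ s x - zr ζ r x₀ * zr ζ s x) := by
      rw [integral_sub i1 i2, integral_const_mul, zr_mean hζ, mul_zero, sub_zero]
    rw [e, ← Real.norm_eq_abs]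
    have h1 : ‖∫ x in Jc s j, (zr ζ r x * zr ζ s x - zr ζ r x₀ * zr ζ s x)‖ ≤
        K ^ 2 * ((2 : ℝ) ^ r / 2 ^ s) * volume.real (Jc s j) := by
      refine norm_setIntegral_le_of_norm_le_const (volume_Jc_ne s _).lt_top fun x hx' => ?_
      rw [Real.norm_eq_abs, ← sub_mul, abs_mul]
      have h2 := zr_osc hζ hrs (u := x) (v := x₀) ((mem_Jc.1 hx').trans hx.symm)
      calc |zr ζ r x - zr ζ r x₀| * |zr ζ s x| ≤ (K * ((2 : ℝ) ^ r / 2 ^ s)) * K :=
            mul_le_mul h2 (zr_bd hζ s x) (abs_nonneg _) (mul_nonneg hζ.nonneg (by positivity))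
        _ = _ := by ring
    rwa [real_Jc] at h1
  · subst h
    have h1 : ‖∫ x in Jc r j, zr ζ r x * zr ζ r x‖ ≤ K ^ 2 * volume.real (Jc r j) := by
      refine norm_setIntegral_le_of_norm_le_const (volume_Jc_ne r _).lt_top fun x _ => ?_
      rw [Real.norm_eq_abs, abs_mul, sq]
      exact mul_le_mul (zr_bd hζ r x) (zr_bd hζ r x) (abs_nonneg _) hζ.nonneg
    rw [real_Jc, Real.norm_eq_abs] at h1
    rw [div_self hp.ne', mul_one]
    exact h1

theorem av_zz {r s : ℕ} (hrs : r ≤ s) (x : ℝ) :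
    |av s (fun u => zr ζ r u * zr ζ s u) x| ≤ K ^ 2 * ((2 : ℝ) ^ r / 2 ^ s) := by
  have hp := pw s
  unfold av
  rw [abs_mul, abs_of_pos hp]
  calc (2 : ℝ) ^ s * |∫ u in Jc s (dx s x), zr ζ r u * zr ζ s u| ≤
      2 ^ s * (K ^ 2 * ((2 : ℝ) ^ r / 2 ^ s) * (1 / 2 ^ s)) := by
        have := zz_int hζ hrs (dx s x)
        gcongr
    _ = _ := by field_simp

end zeta

/-- the `ζ`-series -/
def FZ (ζ : ℝ → ℝ) (a : ℕ → ℝ → ℝ) (S : ℕ) (x : ℝ) : ℝ := ∑ r ∈ Finset.range S, zr ζ r x * a r x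

/-- squared majorant of the truncations -/
def GZ (ζ : ℝ → ℝ) (K : ℝ) (a : ℕ → ℝ → ℝ) (S : ℕ) (x : ℝ) : ℝ :=
  2 * (Mx (FZ ζ a S) S x) ^ 2 + 4 * K ^ 2 * ∑ r ∈ Finset.range S, a r x ^ 2

/-- the coefficients `β` -/
def bz (ζ : ℝ → ℝ) (a : ℕ → ℝ → ℝ) (s : ℕ) (x : ℝ) : ℝ :=
  ∑ r ∈ Finset.range (s + 1), a r x * av s (fun u => zr ζ r u * zr ζ s u) x

theorem GZ_nonneg (ζ : ℝ → ℝ) (K : ℝ) (a : ℕ → ℝ → ℝ) (S : ℕ) (x : ℝ) : 0 ≤ GZ ζ K a S x := by
  unfold GZ
  have : 0 ≤ ∑ r ∈ Finset.range S, a r x ^ 2 := Finset.sum_nonneg fun r _ => sq_nonneg _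
  positivity

section series

variable {ζ : ℝ → ℝ} {K : ℝ} (hζ : ZB ζ K) {a : ℕ → ℝ → ℝ} (hA : ∀ r, Ad r (a r))
  (hN : ∀ r, Nice1 (a r))

include hζ hN in
theorem nice_za (r : ℕ) : Nice1 fun x => zr ζ r x * a r x :=
  nice_mul_bdd (hN r) (zr_meas hζ r) (zr_bd hζ r)

include hζ hN in
theorem nice_fz (S : ℕ) : Nice1 (FZ ζ a S) := nice_sum _ _ fun r _ => nice_za hζ hN r

include hζ hA hN in
theorem av_za_fine {r s : ℕ} (h : s ≤ r) (x : ℝ) : av s (fun x => zr ζ r x * a r x) x = 0 := by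
  rw [← av_av (nice_za hζ hN r) h]
  have : av r (fun x => zr ζ r x * a r x) = fun _ => 0 := by
    funext y
    unfold av
    have e : ∀ j, ∫ u in Jc r j, zr ζ r u * a r u = 0 := by
      intro j
      have := int_ad_mul (hA r) j (zr ζ r)
      simp only [mul_comm (zr ζ r _)]
      rw [this, zr_mean hζ, mul_zero]
    rw [e, mul_zero]
  rw [this]
  unfold av
  simp

include hζ hA hN in
/-- truncation at scale `2^-s`, evaluated at any point `u` of the cell of `x` -/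
theorem z_trunc {S s : ℕ} (hs : s < S) {u x : ℝ} (hu : dx s u = dx s x) :
    |∑ r ∈ Finset.range (s + 1), zr ζ r u * a r u - av s (FZ ζ a S) x| ≤
      K * ∑ r ∈ Finset.range (s + 1), (2 : ℝ) ^ r / 2 ^ s * |a r x| := by
  have e : av s (FZ ζ a S) x =
      ∑ r ∈ Finset.range (s + 1), av s (fun x => zr ζ r x * a r x) x := by
    unfold FZ
    rw [av_sum _ _ fun r _ => nice_za hζ hN r]
    rw [← Finset.sum_subset (Finset.range_mono (Nat.succ_le_of_lt hs))]
    intro r _ hr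
    rw [Finset.mem_range, not_lt] at hr
    exact av_za_fine hζ hA hN (by omega) x
  rw [e, ← Finset.sum_sub_distrib, Finset.mul_sum]
  refine (Finset.abs_sum_le_sum_abs _ _).trans (Finset.sum_le_sum fun r hr => ?_)
  have hr' : r ≤ s := Nat.lt_succ_iff.1 (Finset.mem_range.1 hr)
  refine av_osc (nice_za hζ hN r) s x _ _ fun v hv => ?_
  have h1 : a r u = a r x := hA r u x (dx_mono hr' hu)
  have h2 : a r v = a r x := hA r v x (dx_mono hr' hv)
  rw [h1, h2, ← sub_mul, abs_mul, ← mul_assoc]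
  exact mul_le_mul_of_nonneg_right (zr_osc hζ hr' (hu.trans hv.symm)) (abs_nonneg _)

include hζ hA hN in
theorem z_major {S s : ℕ} (hs : s < S) {u x : ℝ} (hu : dx s u = dx s x) :
    (∑ r ∈ Finset.range (s + 1), zr ζ r u * a r u) ^ 2 ≤ GZ ζ K a S x := by
  have h1 := z_trunc hζ hA hN hs hu
  set P := ∑ r ∈ Finset.range (s + 1), zr ζ r u * a r u
  set Q := ∑ r ∈ Finset.range (s + 1), (2 : ℝ) ^ r / 2 ^ s * |a r x| with hQ
  have h2 : |av s (FZ ζ a S) x| ≤ Mx (FZ ζ a S) S x := av_le_Mx _ hs.le x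
  have h3 : Q ^ 2 ≤ 2 * ∑ r ∈ Finset.range S, a r x ^ 2 := by
    refine (cs_geo s fun r => a r x).trans (mul_le_mul_of_nonneg_left ?_ (by norm_num))
    calc ∑ r ∈ Finset.range (s + 1), (2 : ℝ) ^ r / 2 ^ s * a r x ^ 2 ≤
        ∑ r ∈ Finset.range (s + 1), a r x ^ 2 := by
          refine Finset.sum_le_sum fun r hr => ?_
          have hr' : r ≤ s := Nat.lt_succ_iff.1 (Finset.mem_range.1 hr)
          have : (2 : ℝ) ^ r / 2 ^ s ≤ 1 := by
            rw [div_le_one (pw s)]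
            exact pow_le_pow_right₀ (by norm_num) hr'
          have h5 := sq_nonneg (a r x)
          nlinarith
      _ ≤ ∑ r ∈ Finset.range S, a r x ^ 2 :=
          Finset.sum_le_sum_of_subset_of_nonneg (Finset.range_mono (Nat.succ_le_of_lt hs))
            fun _ _ _ => sq_nonneg _
  have h4 : |P| ≤ Mx (FZ ζ a S) S x + K * Q := by
    have h5 := abs_sub_abs_le_abs_sub P (av s (FZ ζ a S) x)
    linarith
  have hQ0 : 0 ≤ Q := Finset.sum_nonneg fun r _ => by positivity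
  have hM0 := Mx_nonneg (FZ ζ a S) S x
  have hK := hζ.nonneg
  have h6 : P ^ 2 ≤ (Mx (FZ ζ a S) S x + K * Q) ^ 2 := by
    rw [← sq_abs P]
    exact pow_le_pow_left₀ (abs_nonneg _) h4 2
  unfold GZ
  have h7 : (Mx (FZ ζ a S) S x + K * Q) ^ 2 ≤ 2 * (Mx (FZ ζ a S) S x) ^ 2 + 2 * (K * Q) ^ 2 := by
    nlinarith [sq_nonneg (Mx (FZ ζ a S) S x - K * Q)]
  have h8 : 2 * (K * Q) ^ 2 ≤ 4 * K ^ 2 * ∑ r ∈ Finset.range S, a r x ^ 2 := by
    have : K ^ 2 * Q ^ 2 ≤ K ^ 2 * (2 * ∑ r ∈ Finset.range S, a r x ^ 2) := by gcongr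
    nlinarith
  linarith

include hζ hA hN in
theorem z_pair {r s : ℕ} (hrs : r ≤ s) :
    ∫ x, (zr ζ r x * a r x) * (zr ζ s x * a s x) ≤
      K ^ 2 * ((2 : ℝ) ^ r / 2 ^ s) * ((∫ x, a r x ^ 2) + ∫ x, a s x ^ 2) / 2 := by
  have n1 := nice_mul (nice_za hζ hN r) (nice_za hζ hN s)
  have n2 : Nice1 fun x => K ^ 2 * ((2 : ℝ) ^ r / 2 ^ s) / 2 * (a r x ^ 2 + a s x ^ 2) :=
    nice_const_mul _ (nice_add (nice_sq (hN r)) (nice_sq (hN s)))
  have key : ∫ x, (zr ζ r x * a r x) * (zr ζ s x * a s x) ≤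
      ∫ x, K ^ 2 * ((2 : ℝ) ^ r / 2 ^ s) / 2 * (a r x ^ 2 + a s x ^ 2) := by
    refine le_cells (nice_int n1) (nice_int n2) s fun j => ?_
    have a1 : Ad s fun x => a r x * a s x := ((hA r).mono hrs).mul (hA s)
    have a2 : Ad s fun x => K ^ 2 * ((2 : ℝ) ^ r / 2 ^ s) / 2 * (a r x ^ 2 + a s x ^ 2) := by
      intro x y h
      simp only [(hA r).mono hrs x y h, hA s x y h]
    have e1 : ∫ x in Jc s j, (zr ζ r x * a r x) * (zr ζ s x * a s x) =
        ∫ x in Jc s j, (a r x * a s x) * (zr ζ r x * zr ζ s x) := by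
      congr 1
      ext x
      ring
    rw [e1, int_ad_mul a1, int_ad a2]
    set x₀ := (j : ℝ) / 2 ^ s
    have h1 := zz_int hζ hrs j
    have h2 : |a r x₀ * a s x₀| ≤ (a r x₀ ^ 2 + a s x₀ ^ 2) / 2 := by
      rw [abs_mul]
      nlinarith [sq_nonneg (|a r x₀| - |a s x₀|), sq_abs (a r x₀), sq_abs (a s x₀)]
    calc a r x₀ * a s x₀ * ∫ x in Jc s j, zr ζ r x * zr ζ s x ≤
        |a r x₀ * a s x₀ * ∫ x in Jc s j, zr ζ r x * zr ζ s x| := le_abs_self _
      _ = |a r x₀ * a s x₀| * |∫ x in Jc s j, zr ζ r x * zr ζ s x| := abs_mul _ _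
      _ ≤ (a r x₀ ^ 2 + a s x₀ ^ 2) / 2 * (K ^ 2 * ((2 : ℝ) ^ r / 2 ^ s) * (1 / 2 ^ s)) := by
          gcongr
      _ = _ := by ring
  refine key.trans (le_of_eq ?_)
  rw [integral_const_mul, integral_add (nice_int (nice_sq (hN r))) (nice_int (nice_sq (hN s)))]
  ring

include hζ hA hN in
/-- almost orthogonality of the `ζ`-series -/
theorem z_sq (S : ℕ) : ∫ x, (FZ ζ a S x) ^ 2 ≤ 3 * K ^ 2 * ∑ r ∈ Finset.range S, ∫ x, a r x ^ 2 := by
  have hA0 : ∀ r, 0 ≤ ∫ x, a r x ^ 2 := fun r => integral_nonneg fun x => sq_nonneg _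
  have key : ∀ S : ℕ, ∫ x, (FZ ζ a S x) ^ 2 ≤
      K ^ 2 * ∑ r ∈ Finset.range S, (3 - 2 * (2 : ℝ) ^ r / 2 ^ S) * ∫ x, a r x ^ 2 := by
    intro S
    induction S with
    | zero => simp [FZ]
    | succ S ih =>
      have e : ∀ x, (FZ ζ a (S + 1) x) ^ 2 = (FZ ζ a S x) ^ 2 +
          (2 * (∑ r ∈ Finset.range S, (zr ζ r x * a r x) * (zr ζ S x * a S x)) +
            (zr ζ S x * a S x) * (zr ζ S x * a S x)) := by
        intro x
        have h1 : FZ ζ a (S + 1) x = FZ ζ a S x + zr ζ S x * a S x := by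
          unfold FZ; rw [Finset.sum_range_succ]
        rw [h1, ← Finset.sum_mul]
        show (FZ ζ a S x + zr ζ S x * a S x) ^ 2 = (FZ ζ a S x) ^ 2 +
          (2 * (FZ ζ a S x * (zr ζ S x * a S x)) + (zr ζ S x * a S x) * (zr ζ S x * a S x))
        ring
      have n1 : ∀ r, Nice1 fun x => (zr ζ r x * a r x) * (zr ζ S x * a S x) :=
        fun r => nice_mul (nice_za hζ hN r) (nice_za hζ hN S)
      have i1 : Integrable fun x => 2 * (∑ r ∈ Finset.range S,
          (zr ζ r x * a r x) * (zr ζ S x * a S x)) :=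
        (nice_int (nice_sum _ _ fun r _ => n1 r)).const_mul 2
      have i2 : Integrable fun x => 2 * (∑ r ∈ Finset.range S,
          (zr ζ r x * a r x) * (zr ζ S x * a S x)) + (zr ζ S x * a S x) * (zr ζ S x * a S x) :=
        i1.add (nice_int (n1 S))
      simp only [e]
      rw [integral_add (nice_int (nice_sq (nice_fz hζ hN S))) i2, integral_add i1 (nice_int (n1 S)),
        integral_const_mul, integral_finsetSum _ fun r _ => nice_int (n1 r)]
      have h2 : ∑ r ∈ Finset.range S, ∫ x, (zr ζ r x * a r x) * (zr ζ S x * a S x) ≤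
          ∑ r ∈ Finset.range S,
            K ^ 2 * ((2 : ℝ) ^ r / 2 ^ S) * ((∫ x, a r x ^ 2) + ∫ x, a S x ^ 2) / 2 :=
        Finset.sum_le_sum fun r hr => z_pair hζ hA hN (Finset.mem_range.1 hr).le
      have h3 := z_pair hζ hA hN (le_refl S)
      have hp := pw S
      rw [div_self hp.ne', mul_one] at h3
      have h4 : ∑ r ∈ Finset.range S, (2 : ℝ) ^ r / 2 ^ S ≤ 1 := by
        have := geo S
        rw [Finset.sum_range_succ, div_self hp.ne'] at this
        linarith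
      have h5 : ∑ r ∈ Finset.range S,
            K ^ 2 * ((2 : ℝ) ^ r / 2 ^ S) * ((∫ x, a r x ^ 2) + ∫ x, a S x ^ 2) / 2 =
          K ^ 2 / 2 * (∑ r ∈ Finset.range S, (2 : ℝ) ^ r / 2 ^ S * ∫ x, a r x ^ 2) +
          K ^ 2 / 2 * ((∑ r ∈ Finset.range S, (2 : ℝ) ^ r / 2 ^ S) * ∫ x, a S x ^ 2) := by
        rw [Finset.sum_mul, Finset.mul_sum, Finset.mul_sum, ← Finset.sum_add_distrib]
        refine Finset.sum_congr rfl fun r _ => ?_
        ring
      have h6 : (∑ r ∈ Finset.range S, (2 : ℝ) ^ r / 2 ^ S) * ∫ x, a S x ^ 2 ≤ ∫ x, a S x ^ 2 := by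
        have := hA0 S
        nlinarith
      have h7 : ∑ r ∈ Finset.range (S + 1), (3 - 2 * (2 : ℝ) ^ r / 2 ^ (S + 1)) * ∫ x, a r x ^ 2 =
          (∑ r ∈ Finset.range S, (3 - 2 * (2 : ℝ) ^ r / 2 ^ S) * ∫ x, a r x ^ 2) +
          (∑ r ∈ Finset.range S, (2 : ℝ) ^ r / 2 ^ S * ∫ x, a r x ^ 2) + 2 * ∫ x, a S x ^ 2 := by
        rw [Finset.sum_range_succ, ← Finset.sum_add_distrib]
        congr 1
        · refine Finset.sum_congr rfl fun r _ => ?_
          rw [pow_succ]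
          field_simp
          ring
        · rw [pow_succ]
          field_simp
          norm_num
      rw [h7]
      have hK : 0 ≤ K ^ 2 := sq_nonneg _
      have h8 := mul_le_mul_of_nonneg_left h6 hK
      nlinarith
  refine (key S).trans ?_
  have e : 3 * K ^ 2 * ∑ r ∈ Finset.range S, ∫ x, a r x ^ 2 =
      K ^ 2 * ∑ r ∈ Finset.range S, 3 * ∫ x, a r x ^ 2 := by
    rw [← Finset.mul_sum]; ring
  rw [e]
  refine mul_le_mul_of_nonneg_left (Finset.sum_le_sum fun r _ => ?_) (sq_nonneg _)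
  refine mul_le_mul_of_nonneg_right ?_ (hA0 r)
  have : 0 ≤ 2 * (2 : ℝ) ^ r / 2 ^ S := by positivity
  linarith

include hζ hN in
theorem nice_GZ (S : ℕ) : Nice1 (GZ ζ K a S) := by
  unfold GZ
  exact nice_add (nice_const_mul 2 (nice_sq (nice_Mx (nice_fz hζ hN S) S)))
    (nice_const_mul _ (nice_sum _ _ fun r _ => nice_sq (hN r)))

include hζ hA hN in
/-- the integral of the squared majorant -/
theorem z_max (S : ℕ) : ∫ x, GZ ζ K a S x ≤ 28 * K ^ 2 * ∑ r ∈ Finset.range S, ∫ x, a r x ^ 2 := by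
  unfold GZ
  rw [integral_add ((nice_int (nice_sq (nice_Mx (nice_fz hζ hN S) S))).const_mul 2)
    ((nice_int (nice_sum _ _ fun r _ => nice_sq (hN r))).const_mul _), integral_const_mul,
    integral_const_mul, integral_finsetSum _ fun r _ => nice_int (nice_sq (hN r))]
  have h1 := doob (nice_fz hζ hN S) S
  have h2 := z_sq hζ hA hN S
  nlinarith

/-! ### the coefficients `β` -/

include hA in
theorem bz_ad (s : ℕ) : Ad s (bz ζ a s) := by
  intro x y h
  unfold bz
  refine Finset.sum_congr rfl fun r hr => ?_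
  have hr' : r ≤ s := Nat.lt_succ_iff.1 (Finset.mem_range.1 hr)
  rw [(hA r).mono hr' x y h, av_ad s _ x y h]

include hζ hN in
theorem nice_bz (s : ℕ) : Nice1 (bz ζ a s) := by
  unfold bz
  refine nice_sum _ _ fun r hr => ?_
  have hr' : r ≤ s := Nat.lt_succ_iff.1 (Finset.mem_range.1 hr)
  have h := nice_mul_bdd (hN r) (av_ad s (fun u => zr ζ r u * zr ζ s u)).measurable
    (M' := K ^ 2 * ((2 : ℝ) ^ r / 2 ^ s)) (av_zz hζ hr')
  simpa only [mul_comm] using h

include hζ in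
theorem bz_sq_le (s : ℕ) (x : ℝ) :
    bz ζ a s x ^ 2 ≤ 2 * K ^ 4 * ∑ r ∈ Finset.range (s + 1), (2 : ℝ) ^ r / 2 ^ s * a r x ^ 2 := by
  have h1 : |bz ζ a s x| ≤ K ^ 2 * ∑ r ∈ Finset.range (s + 1), (2 : ℝ) ^ r / 2 ^ s * |a r x| := by
    unfold bz
    rw [Finset.mul_sum]
    refine (Finset.abs_sum_le_sum_abs _ _).trans (Finset.sum_le_sum fun r hr => ?_)
    have hr' : r ≤ s := Nat.lt_succ_iff.1 (Finset.mem_range.1 hr)
    rw [abs_mul]
    have := av_zz hζ hr' x
    calc |a r x| * |av s (fun u => zr ζ r u * zr ζ s u) x| ≤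
        |a r x| * (K ^ 2 * ((2 : ℝ) ^ r / 2 ^ s)) := by gcongr
      _ = _ := by ring
  have h2 := cs_geo s fun r => a r x
  have h3 : bz ζ a s x ^ 2 ≤
      (K ^ 2 * ∑ r ∈ Finset.range (s + 1), (2 : ℝ) ^ r / 2 ^ s * |a r x|) ^ 2 := by
    rw [← sq_abs (bz ζ a s x)]
    exact pow_le_pow_left₀ (abs_nonneg _) h1 2
  refine h3.trans ?_
  rw [mul_pow]
  have hK : 0 ≤ (K ^ 2) ^ 2 := by positivity
  have h4 := mul_le_mul_of_nonneg_left h2 hK
  refine h4.trans (le_of_eq ?_)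
  ring

include hζ hN in
theorem bz_sum (S : ℕ) : ∑ s ∈ Finset.range S, ∫ x, bz ζ a s x ^ 2 ≤
    4 * K ^ 4 * ∑ r ∈ Finset.range S, ∫ x, a r x ^ 2 := by
  rw [← integral_finsetSum _ fun s _ => nice_int (nice_sq (nice_bz hζ hN s)),
    ← integral_finsetSum _ fun r _ => nice_int (nice_sq (hN r)), ← integral_const_mul]
  refine integral_mono (nice_int (nice_sum _ _ fun s _ => nice_sq (nice_bz hζ hN s)))
    ((nice_int (nice_sum _ _ fun r _ => nice_sq (hN r))).const_mul _) fun x => ?_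
  have h1 := sum_geo_le S (fun r => a r x ^ 2) (fun r => sq_nonneg _)
  calc ∑ s ∈ Finset.range S, bz ζ a s x ^ 2 ≤ ∑ s ∈ Finset.range S,
      2 * K ^ 4 * ∑ r ∈ Finset.range (s + 1), (2 : ℝ) ^ r / 2 ^ s * a r x ^ 2 :=
        Finset.sum_le_sum fun s _ => bz_sq_le hζ s x
    _ = 2 * K ^ 4 * ∑ s ∈ Finset.range S, ∑ r ∈ Finset.range (s + 1),
        (2 : ℝ) ^ r / 2 ^ s * a r x ^ 2 := by rw [Finset.mul_sum]
    _ ≤ 2 * K ^ 4 * (2 * ∑ r ∈ Finset.range S, a r x ^ 2) := by gcongr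
    _ = _ := by ring

include hζ hA in
/-- pairing of the truncated series with the bump `ζ_s` -/
theorem bz_pairing (s : ℕ) (x : ℝ) :
    av s (fun u => zr ζ s u * ∑ r ∈ Finset.range (s + 1), zr ζ r u * a r u) x = bz ζ a s x := by
  unfold bz av
  have e : ∫ u in Jc s (dx s x), zr ζ s u * ∑ r ∈ Finset.range (s + 1), zr ζ r u * a r u =
      ∫ u in Jc s (dx s x), ∑ r ∈ Finset.range (s + 1), a r x * (zr ζ r u * zr ζ s u) := by
    refine setIntegral_congr_fun (measurableSet_Jc s _) fun u hu => ?_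
    show zr ζ s u * ∑ r ∈ Finset.range (s + 1), zr ζ r u * a r u =
      ∑ r ∈ Finset.range (s + 1), a r x * (zr ζ r u * zr ζ s u)
    rw [Finset.mul_sum]
    refine Finset.sum_congr rfl fun r hr => ?_
    have hr' : r ≤ s := Nat.lt_succ_iff.1 (Finset.mem_range.1 hr)
    rw [hA r u x (dx_mono hr' (mem_Jc.1 hu))]
    ring
  rw [e, integral_finsetSum, Finset.mul_sum]
  · refine Finset.sum_congr rfl fun r _ => ?_
    rw [integral_const_mul]
    ring
  · intro r _
    exact (intOn_bdd ((zr_meas hζ r).mul (zr_meas hζ s)) (M := K * K) (fun x => by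
        rw [Pi.mul_apply, abs_mul]
        exact mul_le_mul (zr_bd hζ r x) (zr_bd hζ s x) (abs_nonneg _) hζ.nonneg) s _).const_mul _


theorem beta_max (hζ : ZB ζ K) (hA : ∀ r, Ad r (a r)) (hN : ∀ r, Nice1 (a r)) (S : ℕ) :
    ∫ x, (Mx (GS (bz ζ a) S) (S + 1) x) ^ 2 ≤
      16 * K ^ 4 * ∑ r ∈ Finset.range S, ∫ x, a r x ^ 2 := by
  have h1 := gate_max (a := bz ζ a) (fun r => bz_ad hA r) (fun r => nice_bz hζ hN r) S
  have h2 := bz_sum hζ hN S
  linarith

end series

/-! ### positive Carleson sum -/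


end Crest.Agent.R087.DyaZx738
end
end

-- ▼ part R087/TreeA_153
section

/-!
Row 87 (S0115), OPERATOR PART (helper153): basic facts on the coefficients `aL` of a LOW tree
(adapted, nice, jointly measurable in the vertical parameter, fundamental theorem in `v`).
-/

set_option autoImplicit false

noncomputable section

open MeasureTheory Crest.Agent.R087.Sh0x283 Crest.Agent.R087.Sh1x283 Crest.Agent.R087.GateDefx273
open Crest.Agent.R087.T1x90 Crest.Agent.R087.TreeIfx153 Crest.Agent.R087.Dyax738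
open Crest.Agent.R087.DyaZx738

namespace Crest.Agent.R087.TreeAx153

variable {Ψ : ℝ → ℝ} {b m : ℝ} {h : ℝ × ℝ → ℝ} {act : ℕ → Set (ℝ × ℝ)} {S s0 : ℕ} {m0 : ℤ}
  {Z : Set (ℝ × ℝ)} {H D : ℝ} {U : ℝ × ℝ → ℝ}

/-- population function with the vertical weight -/
def hv (Ψ : ℝ → ℝ) (b m : ℝ) (h : ℝ × ℝ → ℝ) (v : ℝ) (z : ℝ × ℝ) : ℝ := h z * Ψ (v - rv b m z)


theorem aL_ad (Ψ : ℝ → ℝ) (b m : ℝ) (h : ℝ × ℝ → ℝ) (act : ℕ → Set (ℝ × ℝ)) (s : ℕ) (v : ℝ) :
    Ad s (aL Ψ b m h act s v) := by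
  intro x y hxy
  have : cel s x = cel s y := hxy
  unfold aL
  rw [this]

theorem measurable_rv (b m : ℝ) : Measurable (rv b m) := by unfold rv; fun_prop

theorem nice_hv (hh : Nice h) (hc : Continuous Ψ) (hb : ∀ v, |Ψ v| ≤ 1) (v : ℝ) :
    Nice (hv Ψ b m h v) := by
  obtain ⟨hm, ⟨M, hM⟩, R, hR⟩ := hh
  refine ⟨hm.mul (hc.measurable.comp (measurable_const.sub (measurable_rv b m))),
    ⟨M, fun z => ?_⟩, R, fun z hz => ?_⟩
  · unfold hv
    rw [abs_mul]
    calc |h z| * |Ψ (v - rv b m z)| ≤ M * 1 :=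
        mul_le_mul (hM z) (hb _) (abs_nonneg _) ((abs_nonneg _).trans (hM z))
      _ = M := mul_one M
  · unfold hv; rw [hR z hz, zero_mul]

theorem tree_hv (T : Tree S s0 m0 h act Z H D) (hc : Continuous Ψ) (hb : ∀ v, |Ψ v| ≤ 1) (v : ℝ) :
    Tree S s0 m0 (hv Ψ b m h v) act Z H D where
  nice := nice_hv T.nice hc hb v
  bd := fun z => by
    unfold hv
    rw [abs_mul]
    calc |h z| * |Ψ (v - rv b m z)| ≤ |h z| * 1 := by gcongr; exact hb _
      _ ≤ H := by rw [mul_one]; exact T.bd z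
  D0 := T.D0
  mZ := T.mZ
  off := fun z hz => by unfold hv; rw [T.off z hz, zero_mul]
  top := T.top
  mact := T.mact
  lo := T.lo
  hi := T.hi
  conv := T.conv
  dens := T.dens

theorem nice_aL (hh : Nice h) (hc : Continuous Ψ) (hb : ∀ v, |Ψ v| ≤ 1) (s : ℕ) (v : ℝ) :
    Nice1 (aL Ψ b m h act s v) := nice_aa (nice_hv hh hc hb v) s

theorem abs_aL_le (T : Tree S s0 m0 h act Z H D) (hH : 0 ≤ H) (hc : Continuous Ψ)
    (hb : ∀ v, |Ψ v| ≤ 1) (s : ℕ) (v x : ℝ) : |aL Ψ b m h act s v x| ≤ H * D :=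
  abs_aa_le (tree_hv T hc hb v) hH s x

theorem aL_lo (T : Tree S s0 m0 h act Z H D) {s : ℕ}
    (hs : s < s0) (v x : ℝ) : aL Ψ b m h act s v x = 0 := by
  unfold aL al
  rw [setIntegral_eq_zero_of_forall_eq_zero, mul_zero]
  rintro z ⟨-, hz⟩
  have hzZ : z ∉ Z := fun hc => Set.disjoint_left.1 (T.lo s hs) hz hc
  simp only [T.off z hzZ]
  ring

/-- energy for every `v` -/
theorem energy_v (T : Tree S s0 m0 h act Z H D) (hc : Continuous Ψ) (hb : ∀ v, |Ψ v| ≤ 1)
    (hS : s0 ≤ S) (v : ℝ) :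
    ∑ s ∈ Finset.range S, ∫ x, (aL Ψ b m h act s v x) ^ 2 ≤ 72 * (H * D) ^ 2 * (1 / 2) ^ s0 := by
  have hH : 0 ≤ H := (abs_nonneg _).trans (T.bd 0)
  have h1 := energy (tree_hv (Ψ := Ψ) (b := b) (m := m) T hc hb v) hH hS
  rw [← Finset.sum_range_add_sum_Ico _ hS]
  have h2 : ∑ s ∈ Finset.range s0, ∫ x, (aL Ψ b m h act s v x) ^ 2 = 0 := by
    refine Finset.sum_eq_zero fun s hs => ?_
    have : ∀ x, (aL Ψ b m h act s v x) ^ 2 = 0 := fun x => by
      rw [aL_lo T (Finset.mem_range.1 hs)]; ring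
    simp only [this, integral_zero]
  rw [h2, zero_add]
  exact h1

/-! ### joint measurability in `(v, x)` -/

theorem jm_aL (hm : Measurable h) (hΨ : Measurable Ψ) {s : ℕ} (hact : MeasurableSet (act s)) :
    Measurable (Function.uncurry fun v x => aL Ψ b m h act s v x) := by
  classical
  let G : (ℝ × ℝ) × (ℝ × ℝ) → ℝ := fun q =>
    if cel s q.2.1 = cel s q.1.2 ∧ q.2 ∈ act s then ga s q.2.1 * (h q.2 * Ψ (q.1.1 - rv b m q.2))
    else 0
  have hG : Measurable G := by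
    refine Measurable.ite ?_ ?_ measurable_const
    · refine MeasurableSet.inter ?_ (measurable_snd hact)
      exact measurableSet_eq_fun ((measurable_cel s).comp (measurable_fst.comp measurable_snd))
        ((measurable_cel s).comp (measurable_snd.comp measurable_fst))
    · refine Measurable.mul ((measurable_ga s).comp (measurable_fst.comp measurable_snd)) ?_
      refine Measurable.mul (hm.comp measurable_snd) (hΨ.comp ?_)
      exact (measurable_fst.comp measurable_fst).sub ((measurable_rv b m).comp measurable_snd)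
  have e : (Function.uncurry fun v x => aL Ψ b m h act s v x) =
      fun p : ℝ × ℝ => (2 : ℝ) ^ s * ∫ z, G (p, z) := by
    funext p
    simp only [Function.uncurry, aL, al]
    congr 1
    have hms : MeasurableSet ({z : ℝ × ℝ | cel s z.1 = cel s p.2} ∩ act s) :=
      (measurableSet_strip s _).inter hact
    rw [← integral_indicator hms]
    refine integral_congr_ae (Filter.Eventually.of_forall fun z => ?_)
    simp only [G, Set.indicator_apply, Set.mem_inter_iff]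
    rfl
  rw [e]
  exact (hG.stronglyMeasurable.integral_prod_right').measurable.const_mul _

theorem jm_av {g : ℝ → ℝ → ℝ} (hg : Measurable (Function.uncurry g)) (s : ℕ) :
    Measurable (Function.uncurry fun v x => av s (g v) x) := by
  classical
  let G : (ℝ × ℝ) × ℝ → ℝ := fun q => if dx s q.2 = dx s q.1.2 then g q.1.1 q.2 else 0
  have hG : Measurable G := by
    refine Measurable.ite ?_ ?_ measurable_const
    · exact measurableSet_eq_fun ((measurable_dx s).comp measurable_snd)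
        ((measurable_dx s).comp (measurable_snd.comp measurable_fst))
    · exact hg.comp ((measurable_fst.comp measurable_fst).prodMk measurable_snd)
  have e : (Function.uncurry fun v x => av s (g v) x) =
      fun p : ℝ × ℝ => (2 : ℝ) ^ s * ∫ u, G (p, u) := by
    funext p
    simp only [Function.uncurry, av]
    congr 1
    rw [← integral_indicator (measurableSet_Jc s _)]
    refine integral_congr_ae (Filter.Eventually.of_forall fun u => ?_)
    simp only [G, Set.indicator_apply, mem_Jc]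
  rw [e]
  exact (hG.stronglyMeasurable.integral_prod_right').measurable.const_mul _

theorem jm_Mx {g : ℝ → ℝ → ℝ} (hg : Measurable (Function.uncurry g)) (n : ℕ) :
    Measurable (Function.uncurry fun v x => Mx (g v) n x) := by
  induction n with
  | zero => exact (jm_av hg 0).norm
  | succ n ih => exact ih.max (jm_av hg (n + 1)).norm

theorem jm_snd {f : ℝ → ℝ} (hf : Measurable f) :
    Measurable (Function.uncurry fun (_ : ℝ) x => f x) := hf.comp measurable_snd

section series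

variable {a : ℕ → ℝ → ℝ → ℝ} (ha : ∀ r, Measurable (Function.uncurry (a r))) {ζ : ℝ → ℝ} {K : ℝ}

include ha in
theorem jm_FZ (hζ : ZB ζ K) (n : ℕ) :
    Measurable (Function.uncurry fun v x => FZ ζ (fun r => a r v) n x) := by
  unfold FZ
  have : (Function.uncurry fun v x => ∑ r ∈ Finset.range n, zr ζ r x * a r v x) =
      fun p : ℝ × ℝ => ∑ r ∈ Finset.range n, zr ζ r p.2 * a r p.1 p.2 := rfl
  rw [this]
  exact Finset.measurable_fun_sum _ fun r _ => (jm_snd (zr_meas hζ r)).mul (ha r)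

include ha in
theorem jm_bz (s : ℕ) :
    Measurable (Function.uncurry fun v x => bz ζ (fun r => a r v) s x) := by
  unfold bz
  have : (Function.uncurry fun v x => ∑ r ∈ Finset.range (s + 1),
      a r v x * av s (fun u => zr ζ r u * zr ζ s u) x) =
      fun p : ℝ × ℝ => ∑ r ∈ Finset.range (s + 1),
        a r p.1 p.2 * av s (fun u => zr ζ r u * zr ζ s u) p.2 := rfl
  rw [this]
  exact Finset.measurable_fun_sum _ fun r _ => (ha r).mul (jm_snd (av_ad s _).measurable)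

include ha in
theorem jm_GS (n : ℕ) :
    Measurable (Function.uncurry fun v x => GS (bz ζ fun r => a r v) n x) := by
  unfold GS
  have : (Function.uncurry fun v x => ∑ s ∈ Finset.range n, gr s x * bz ζ (fun r => a r v) s x) =
      fun p : ℝ × ℝ => ∑ s ∈ Finset.range n, gr s p.2 * bz ζ (fun r => a r p.1) s p.2 := rfl
  rw [this]
  exact Finset.measurable_fun_sum _ fun s _ => (jm_snd (gr_ad s).measurable).mul (jm_bz ha s)

include ha in
theorem jm_GZ (hζ : ZB ζ K) (n : ℕ) :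
    Measurable (Function.uncurry fun v x => GZ ζ K (fun r => a r v) n x) := by
  unfold GZ
  have : (Function.uncurry fun v x => 2 * (Mx (FZ ζ (fun r => a r v) n) n x) ^ 2 +
      4 * K ^ 2 * ∑ r ∈ Finset.range n, a r v x ^ 2) =
      fun p : ℝ × ℝ => 2 * ((Function.uncurry fun v x => Mx (FZ ζ (fun r => a r v) n) n x) p) ^ 2 +
        4 * K ^ 2 * ∑ r ∈ Finset.range n, (Function.uncurry (a r) p) ^ 2 := rfl
  rw [this]
  exact (((jm_Mx (jm_FZ ha hζ n) n).pow_const 2).const_mul 2).add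
    ((Finset.measurable_fun_sum _ fun r _ => (ha r).pow_const 2).const_mul _)

end series

/-! ### fundamental theorem in `v` -/

/-- outside `[-3,3]` the coefficients vanish -/
theorem aL_far (T : LTree S s0 m0 h act Z H D U b m) (hs : ∀ v, 2 < |v| → Ψ v = 0) (s : ℕ)
    {v : ℝ} (hv : 3 < |v|) (x : ℝ) : aL Ψ b m h act s v x = 0 := by
  unfold aL al
  rw [setIntegral_eq_zero_of_forall_eq_zero, mul_zero]
  rintro z ⟨-, hz⟩
  by_cases hzZ : z ∈ Z
  · have h1 := T.rv1 z hzZ s hz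
    have h2 : 2 < |v - rv b m z| := by
      have := abs_sub_abs_le_abs_sub v (rv b m z)
      linarith
    simp only [hs _ h2]; ring
  · simp only [T.off z hzZ]; ring

theorem aL_ftc (T : LTree S s0 m0 h act Z H D U b m) {Ψ Ψ' : ℝ → ℝ}
    (hd : ∀ v, HasDerivAt Ψ (Ψ' v) v) (hc : Continuous Ψ') (hs : ∀ v, 2 < |v| → Ψ v = 0)
    (hb : ∀ v, |Ψ' v| ≤ 1) (s : ℕ) {v : ℝ} (hv : -4 ≤ v) (x : ℝ) :
    aL Ψ b m h act s v x = ∫ t in (-4)..v, aL Ψ' b m h act s t x := by
  set A : Set (ℝ × ℝ) := {z : ℝ × ℝ | cel s z.1 = cel s x} ∩ act s with hA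
  have hAm : MeasurableSet A := (measurableSet_strip s (cel s x)).inter (T.mact s)
  have hZ : ∀ z ∈ A, ga s z.1 * (h z * Ψ (v - rv b m z)) =
      ∫ t in (-4)..v, ga s z.1 * (h z * Ψ' (t - rv b m z)) := by
    intro z hz
    rw [intervalIntegral.integral_const_mul, intervalIntegral.integral_const_mul]
    by_cases hzZ : z ∈ Z
    · have h1 := T.rv1 z hzZ s hz.2
      have h2 : ∫ t in (-4)..v, Ψ' (t - rv b m z) = Ψ (v - rv b m z) - Ψ (-4 - rv b m z) := by
        refine intervalIntegral.integral_eq_sub_of_hasDerivAt (f := fun t => Ψ (t - rv b m z))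
          (fun t _ => ?_) (Continuous.intervalIntegrable (by fun_prop) _ _)
        exact (hd (t - rv b m z)).comp_sub_const t (rv b m z)
      have h3 : Ψ (-4 - rv b m z) = 0 := by
        refine hs _ ?_
        have := abs_le.1 h1
        rw [lt_abs]; right; linarith
      rw [h2, h3, sub_zero]
    · rw [T.off z hzZ]; ring
  have e1 : aL Ψ b m h act s v x =
      (2 : ℝ) ^ s * ∫ z in A, ∫ t in (-4)..v, ga s z.1 * (h z * Ψ' (t - rv b m z)) := by
    unfold aL al
    rw [← hA, setIntegral_congr_fun hAm hZ]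
  have e2 : ∀ t, aL Ψ' b m h act s t x =
      (2 : ℝ) ^ s * ∫ z in A, ga s z.1 * (h z * Ψ' (t - rv b m z)) := fun t => rfl
  rw [e1]
  simp only [e2]
  rw [intervalIntegral.integral_const_mul]
  congr 1
  simp only [intervalIntegral.integral_of_le hv]
  rw [integral_integral_swap]
  -- integrability
  have i1 : Integrable (fun z : ℝ × ℝ => |h z|) (volume.restrict A) :=
    (nice_integrable T.nice).abs.restrict
  have i2 : Integrable (fun _ : ℝ => (1 : ℝ)) (volume.restrict (Set.Ioc (-4) v)) :=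
    integrable_const _
  have i3 := i1.mul_prod i2
  refine i3.mono' ?_ (Filter.Eventually.of_forall fun q => ?_)
  · refine Measurable.aestronglyMeasurable ?_
    refine Measurable.mul ((measurable_ga s).comp (measurable_fst.comp measurable_fst)) ?_
    refine Measurable.mul (T.nice.1.comp measurable_fst) (hc.measurable.comp ?_)
    exact measurable_snd.sub ((measurable_rv b m).comp measurable_fst)
  · simp only [Function.uncurry, Real.norm_eq_abs, mul_one]
    rw [abs_mul, abs_ga, one_mul, abs_mul]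
    calc |h q.1| * |Ψ' (q.2 - rv b m q.1)| ≤ |h q.1| * 1 := by gcongr; exact hb _
      _ = |h q.1| := mul_one _

/-- sup bound from an `L²` bound of the derivative -/
theorem sup_of_int {f f' : ℝ → ℝ} (hm : Measurable f') {M : ℝ} (hM : ∀ t, |f' t| ≤ M)
    (hf : ∀ v ∈ Set.Icc (-4 : ℝ) 4, f v = ∫ t in (-4)..v, f' t) {T : ℝ} (hT : 0 < T)
    (hI : ∫⁻ t in Set.Icc (-4 : ℝ) 4, ENNReal.ofReal ((f' t) ^ 2) ≤ ENNReal.ofReal (T ^ 2)) :
    ∀ v ∈ Set.Icc (-4 : ℝ) 4, |f v| ≤ 3 * T := by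
  intro v hv
  have iq : IntegrableOn (fun t => (f' t) ^ 2) (Set.Icc (-4 : ℝ) 4) := by
    refine Measure.integrableOn_of_bounded (M := M ^ 2) (by simp)
      (hm.pow_const 2).aestronglyMeasurable (Filter.Eventually.of_forall fun t => ?_)
    rw [Real.norm_eq_abs, abs_pow]
    exact pow_le_pow_left₀ (abs_nonneg _) (hM t) 2
  have ia : IntegrableOn (fun t => |f' t|) (Set.Icc (-4 : ℝ) 4) :=
    Measure.integrableOn_of_bounded (M := M) (by simp) hm.abs.aestronglyMeasurable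
      (Filter.Eventually.of_forall fun t => by simpa using hM t)
  have h2 : ∫ t in Set.Icc (-4 : ℝ) 4, (f' t) ^ 2 ≤ T ^ 2 := by
    rw [← ofReal_integral_eq_lintegral_ofReal iq (Filter.Eventually.of_forall fun t => sq_nonneg _)]
      at hI
    exact (ENNReal.ofReal_le_ofReal_iff (by positivity)).1 hI
  have h3 : ∫ t in Set.Icc (-4 : ℝ) 4, |f' t| ≤ 3 * T := by
    calc ∫ t in Set.Icc (-4 : ℝ) 4, |f' t| ≤
        ∫ t in Set.Icc (-4 : ℝ) 4, ((f' t) ^ 2 / T + T / 4) := by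
          refine setIntegral_mono ia ((iq.div_const T).add (integrableOn_const (by simp))) fun t => ?_
          have h4 : |f' t| * T ≤ (f' t) ^ 2 + T ^ 2 / 4 := by
            rw [← sq_abs (f' t)]; nlinarith [sq_nonneg (|f' t| - T / 2)]
          have h5 : |f' t| = |f' t| * T / T := by field_simp
          rw [h5]
          have h6 : (f' t) ^ 2 / T + T / 4 = ((f' t) ^ 2 + T ^ 2 / 4) / T := by field_simp
          show |f' t| * T / T ≤ (f' t) ^ 2 / T + T / 4
          rw [h6]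
          gcongr
      _ = (∫ t in Set.Icc (-4 : ℝ) 4, (f' t) ^ 2) / T + 2 * T := by
          rw [integral_add (iq.div_const T) (integrableOn_const (by simp)), integral_div,
            setIntegral_const]
          simp only [Measure.real, Real.volume_Icc]
          rw [ENNReal.toReal_ofReal (by norm_num)]
          rw [smul_eq_mul]
          ring
      _ ≤ T ^ 2 / T + 2 * T := by gcongr
      _ = 3 * T := by field_simp; ring
  rw [hf v hv, intervalIntegral.integral_of_le hv.1]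
  calc |∫ t in Set.Ioc (-4) v, f' t| ≤ ∫ t in Set.Ioc (-4) v, |f' t| := abs_integral_le_integral_abs
    _ ≤ ∫ t in Set.Icc (-4 : ℝ) 4, |f' t| := by
        refine setIntegral_mono_set ia (Filter.Eventually.of_forall fun t => abs_nonneg _) ?_
        exact (Set.Ioc_subset_Icc_self.trans (Set.Icc_subset_Icc_right hv.2)).eventuallyLE
    _ ≤ 3 * T := h3

end Crest.Agent.R087.TreeAx153
end
end

-- ▼ part R087/StopG_153
section

/-!
Row 87 (S0115), OPERATOR PART (helper153): general stopping scale by averages of one nonnegative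
function, and the measure of the removed points.
-/

set_option autoImplicit false

noncomputable section

open MeasureTheory Crest.Agent.R087.Sh0x283 Crest.Agent.R087.Sh1x283 Crest.Agent.R087.GateDefx273
open Crest.Agent.R087.T1x90 Crest.Agent.R087.TreeIfx153 Crest.Agent.R087.Dyax738

namespace Crest.Agent.R087.StopGx153

open Classical in
/-- stopping scale: the least `s < S` with `av s Θ x > L`, else `S` -/
def sg (Θ : ℝ → ℝ) (L : ℝ) (S : ℕ) (x : ℝ) : ℕ :=
  if h : ∃ s, s < S ∧ L < av s Θ x then Nat.find h else S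









/-- measure of the removed points -/
theorem rem_vol {S s0 : ℕ} {m0 : ℤ} {h : ℝ × ℝ → ℝ} {act : ℕ → Set (ℝ × ℝ)} {Z : Set (ℝ × ℝ)}
    {H D : ℝ} (hT : Tree S s0 m0 h act Z H D) {σ : ℝ → ℕ} (hσ : StopS S σ) :
    volume (remv act Z σ) ≤ 2 * ENNReal.ofReal D * volume {x | σ x < S} := by
  classical
  set Z' := remv act Z σ with hZ'
  have mZ' : MeasurableSet Z' := by
    have : Z' = Z ∩ ⋃ s, (act s ∩ {z : ℝ × ℝ | σ z.1 ≤ s}) := by
      ext z
      simp only [hZ', remv, Set.mem_ofPred_eq, Set.mem_inter_iff, Set.mem_iUnion]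
    rw [this]
    refine hT.mZ.inter (MeasurableSet.iUnion fun s => (hT.mact s).inter ?_)
    exact measurableSet_le (hσ.meas.comp measurable_fst) measurable_const
  have hex : ∀ z ∈ Z', ∃ s, z ∈ act s ∧ σ z.1 ≤ s := fun z hz => hz.2
  let κ : ℝ × ℝ → ℕ := fun z => if hz : z ∈ Z' then Nat.find (hex z hz) else 0
  have hκ : ∀ z ∈ Z', z ∈ act (κ z) ∧ σ z.1 ≤ κ z := by
    intro z hz
    have : κ z = Nat.find (hex z hz) := by simp only [κ, dif_pos hz]
    rw [this]
    exact Nat.find_spec (hex z hz)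
  have hκS : ∀ z ∈ Z', κ z < S := by
    intro z hz
    by_contra hc
    exact Set.disjoint_left.1 (hT.hi (κ z) (not_lt.1 hc)) (hκ z hz).1 hz.1
  have hκ0 : ∀ z ∈ Z', s0 ≤ κ z := by
    intro z hz
    by_contra hc
    exact Set.disjoint_left.1 (hT.lo (κ z) (not_le.1 hc)) (hκ z hz).1 hz.1
  have key := Massx546.mass (X := ℝ × ℝ) Prod.fst κ Z' volume measurable_fst mZ' S hκS
    (ENNReal.ofReal D) (fun r _ z'' hz'' hr => by
      rcases Nat.lt_or_ge r s0 with h1 | h1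
      · have : {z | z ∈ Z' ∧ κ z ≤ r ∧ Massx546.cel r z.1 = Massx546.cel r z''.1} = ∅ := by
          ext z
          simp only [Set.mem_ofPred_eq, Set.mem_empty_iff_false, iff_false]
          rintro ⟨hz, h2, -⟩
          have := hκ0 z hz
          omega
        rw [this, measure_empty]
        exact zero_le
      · rw [← ENNReal.ofReal_mul hT.D0]
        refine (measure_mono ?_).trans (hT.dens z'' hz''.1 r h1 ⟨κ z'', hr, (hκ z'' hz'').1⟩)
        rintro z ⟨hz, -, h3⟩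
        exact ⟨hz.1, h3⟩) (fun _ => 1) (fun _ => 1) (fun _ _ _ _ => le_rfl)
  rw [setLIntegral_const, one_mul, setLIntegral_const, one_mul] at key
  refine key.trans ?_
  gcongr
  rintro x ⟨z, hz, hx⟩
  have h1 := hσ.cell (κ z) x z.1 hx
  have h2 := (hκ z hz).2
  have h3 := hκS z hz
  show σ x < S
  omega

end Crest.Agent.R087.StopGx153
end
end

-- ▼ part R087/T3a_153

/-!
Row 87 (S0115), OPERATOR PART (helper153), leaf T3, part a: the stopping scale of an `ℝ≥0∞` valued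
function, kept identities for any stopping scale, the function `Θ` of a LOW tree and its integral.
-/

set_option autoImplicit false

noncomputable section

open MeasureTheory Crest.Agent.R087.Sh0x283 Crest.Agent.R087.Sh1x283 Crest.Agent.R087.GateDefx273
open Crest.Agent.R087.T1x90 Crest.Agent.R087.TreeIfx153 Crest.Agent.R087.Dyax738
open Crest.Agent.R087.DyaZx738 Crest.Agent.R087.TreeAx153
open scoped ENNReal

namespace Crest.Agent.R087.T3x153

/-! ### stopping scale -/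

open Classical in
/-- the least `s < S` at which `Θ` is hit, else `S` -/
def sgE (Θ : ℝ → ℝ≥0∞) (lam : ℝ≥0∞) (S : ℕ) (x : ℝ) : ℕ :=
  if h : ∃ s, s < S ∧ StopAvgx630.hit Θ lam s x then Nat.find h else S

theorem lt_sgE {Θ : ℝ → ℝ≥0∞} {lam : ℝ≥0∞} {S s : ℕ} {x : ℝ} :
    s < sgE Θ lam S x ↔ s < S ∧ ∀ r ≤ s, ¬ StopAvgx630.hit Θ lam r x := by
  classical
  unfold sgE
  split_ifs with h
  · rw [Nat.lt_find_iff]
    constructor
    · intro H
      have hsS : s < S := by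
        by_contra hc
        obtain ⟨t, ht, ht'⟩ := h
        exact H t (by omega) ⟨ht, ht'⟩
      exact ⟨hsS, fun r hr hc => H r hr ⟨by omega, hc⟩⟩
    · rintro ⟨h1, h2⟩ r hr ⟨h3, h4⟩
      exact h2 r hr h4
  · constructor
    · intro hs
      exact ⟨hs, fun r hr hc => h ⟨r, by omega, hc⟩⟩
    · exact fun hs => hs.1

theorem sgE_le (Θ : ℝ → ℝ≥0∞) (lam : ℝ≥0∞) (S : ℕ) (x : ℝ) : sgE Θ lam S x ≤ S := by
  by_contra hc
  have h1 := (lt_sgE (s := S)).1 (not_le.1 hc)
  exact lt_irrefl _ h1.1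

theorem sgE_cell (Θ : ℝ → ℝ≥0∞) (lam : ℝ≥0∞) (S : ℕ) (s : ℕ) (x y : ℝ) (h : cel s x = cel s y) :
    s < sgE Θ lam S x ↔ s < sgE Θ lam S y := by
  rw [lt_sgE, lt_sgE]
  refine and_congr Iff.rfl (forall₂_congr fun r hr => ?_)
  rw [StopAvgx630.hit_congr (Massx546.cel_mono hr h)]

theorem sgE_stop (Θ : ℝ → ℝ≥0∞) (lam : ℝ≥0∞) (S : ℕ) : StopS S (sgE Θ lam S) := by
  refine ⟨measurable_of_Ioi fun n => ?_, sgE_le Θ lam S, sgE_cell Θ lam S⟩
  exact StopAvgx630.meas_of_congr n fun x y hxy => sgE_cell Θ lam S n x y hxy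

theorem sgE_vol (Θ : ℝ → ℝ≥0∞) (lam : ℝ≥0∞) (S : ℕ) :
    lam * volume {x | sgE Θ lam S x < S} ≤ ∫⁻ x, Θ x := by
  have hsub : {x | sgE Θ lam S x < S} ⊆ {x | StopAvgx630.stp Θ lam 0 (S - 1) x} := by
    classical
    intro x hx
    have hx' : sgE Θ lam S x < S := hx
    unfold sgE at hx'
    split_ifs at hx' with h
    · obtain ⟨s, hs, hh⟩ := h
      exact ⟨s, Nat.zero_le _, by omega, hh⟩
    · exact absurd hx' (lt_irrefl _)
  calc lam * volume {x | sgE Θ lam S x < S} ≤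
      lam * volume {x | StopAvgx630.stp Θ lam 0 (S - 1) x} := by gcongr
    _ ≤ ∫⁻ x in {x | StopAvgx630.stp Θ lam 0 (S - 1) x}, Θ x := StopAvgx630.weak 0 (S - 1)
    _ ≤ ∫⁻ x, Θ x := setLIntegral_le_lintegral _ _

/-- if a constant is below `Θ` on a cell inside an unstopped cell, it is `≤ 4^d lam`; here `d = 0` -/
theorem const_le {Θ : ℝ → ℝ≥0∞} {lam : ℝ≥0∞} {s : ℕ} {x : ℝ} (h : ¬ StopAvgx630.hit Θ lam s x)
    {c : ℝ≥0∞} (hc : ∀ y, cel s y = cel s x → c ≤ Θ y) : c ≤ lam := by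
  have h1 := StopAvgx630.lint_le_of_not_hit h
  have h2 : c * ENNReal.ofReal ((1 / 2 : ℝ) ^ s) ≤ ∫⁻ y in StopAvgx630.cell s x, Θ y := by
    rw [← StopAvgx630.vol_cell s x, ← setLIntegral_const]
    exact setLIntegral_mono' (StopAvgx630.measurableSet_cell s x) fun y hy => hc y hy
  have h3 := h2.trans h1
  have h4 : ENNReal.ofReal ((1 / 2 : ℝ) ^ s) ≠ 0 := by
    rw [Ne, ENNReal.ofReal_eq_zero, not_le]; positivity
  exact (ENNReal.mul_le_mul_iff_left h4 ENNReal.ofReal_ne_top).1 h3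

theorem const_le4 {Θ : ℝ → ℝ≥0∞} {lam : ℝ≥0∞} {s : ℕ} {x : ℝ} (h : ¬ StopAvgx630.hit Θ lam s x)
    {c : ℝ≥0∞} (hc : ∀ y, cel (s + 2) y = cel (s + 2) x → c ≤ Θ y) : c ≤ 4 * lam := by
  have h1 := StopAvgx630.lint_le_of_not_hit h
  have hsub : StopAvgx630.cell (s + 2) x ⊆ StopAvgx630.cell s x := fun y hy =>
    Massx546.cel_mono (by omega) hy
  have h2 : c * ENNReal.ofReal ((1 / 2 : ℝ) ^ (s + 2)) ≤ ∫⁻ y in StopAvgx630.cell s x, Θ y := by
    rw [← StopAvgx630.vol_cell (s + 2) x, ← setLIntegral_const]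
    refine (setLIntegral_mono' (StopAvgx630.measurableSet_cell (s + 2) x) fun y hy => hc y hy).trans ?_
    exact lintegral_mono_set hsub
  have h3 := h2.trans h1
  have h4 : ENNReal.ofReal ((1 / 2 : ℝ) ^ (s + 2)) ≠ 0 := by
    rw [Ne, ENNReal.ofReal_eq_zero, not_le]; positivity
  have h5 : lam * ENNReal.ofReal ((1 / 2 : ℝ) ^ s) =
      4 * lam * ENNReal.ofReal ((1 / 2 : ℝ) ^ (s + 2)) := by
    have : (1 / 2 : ℝ) ^ s = 4 * (1 / 2 : ℝ) ^ (s + 2) := by rw [pow_add]; ring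
    rw [this, ENNReal.ofReal_mul (by norm_num), mul_comm (4 : ℝ≥0∞) lam, mul_assoc]
    congr 2
    norm_num
  rw [h5] at h3
  exact (ENNReal.mul_le_mul_iff_left h4 ENNReal.ofReal_ne_top).1 h3

/-! ### kept identities -/

section kept

variable {Ψ : ℝ → ℝ} {b m : ℝ} {h : ℝ × ℝ → ℝ} {act : ℕ → Set (ℝ × ℝ)} {S : ℕ} {σ : ℝ → ℕ}
  {ζ : ℝ → ℝ} {K : ℝ}

theorem kset (hσ : StopS S σ) (s : ℕ) (x : ℝ) :
    {z : ℝ × ℝ | cel s z.1 = cel s x} ∩ kact act σ s =
      if s < σ x then {z : ℝ × ℝ | cel s z.1 = cel s x} ∩ act s else ∅ := by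
  ext z
  simp only [kact, Set.mem_inter_iff, Set.mem_ofPred_eq]
  split_ifs with hs
  · simp only [Set.mem_inter_iff, Set.mem_ofPred_eq]
    constructor
    · rintro ⟨h1, h2, -⟩; exact ⟨h1, h2⟩
    · rintro ⟨h1, h2⟩; exact ⟨h1, h2, (hσ.cell s z.1 x h1).2 hs⟩
  · simp only [Set.mem_empty_iff_false, iff_false]
    rintro ⟨h1, -, h3⟩
    exact hs ((hσ.cell s z.1 x h1).1 h3)

theorem kept_aL (hσ : StopS S σ) (s : ℕ) (v x : ℝ) :
    aL Ψ b m h (kact act σ) s v x = if s < σ x then aL Ψ b m h act s v x else 0 := by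
  unfold aL al
  rw [kset hσ]
  split_ifs <;> simp

theorem kept_pL (w : ℕ → ℝ × ℝ → ℝ) (hσ : StopS S σ) (s : ℕ) (x : ℝ) :
    pL w h (kact act σ) s x = if s < σ x then pL w h act s x else 0 := by
  unfold pL
  rw [kset hσ]
  split_ifs <;> simp

/-- sums over the kept range -/
theorem sum_kept (n k : ℕ) (f : ℕ → ℝ) :
    ∑ r ∈ Finset.range n, (if r < k then f r else 0) = ∑ r ∈ Finset.range (min n k), f r := by
  rw [← Finset.sum_filter]
  congr 1
  ext r
  simp only [Finset.mem_filter, Finset.mem_range, lt_min_iff]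

theorem kept_FL (hσ : StopS S σ) (s : ℕ) (v x : ℝ) :
    FL ζ Ψ b m h (kact act σ) s v x =
      ∑ r ∈ Finset.range (min s (σ x)), zr ζ r x * aL Ψ b m h act r v x := by
  unfold FL
  rw [← sum_kept]
  refine Finset.sum_congr rfl fun r _ => ?_
  rw [kept_aL hσ]
  split_ifs
  · rfl
  · rw [mul_zero]

/-- kept coefficients as an adapted family -/
def ak (Ψ : ℝ → ℝ) (b m : ℝ) (h : ℝ × ℝ → ℝ) (act : ℕ → Set (ℝ × ℝ)) (σ : ℝ → ℕ) (v : ℝ) (r : ℕ)
    (x : ℝ) : ℝ := if r < σ x then aL Ψ b m h act r v x else 0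

theorem ak_ad (hσ : StopS S σ) (v : ℝ) (r : ℕ) : Ad r (ak Ψ b m h act σ v r) := by
  intro x y hxy
  unfold ak
  rw [aL_ad Ψ b m h act r v x y hxy]
  have : r < σ x ↔ r < σ y := hσ.cell r x y hxy
  simp only [this]

theorem bL_eq_av (act' : ℕ → Set (ℝ × ℝ)) (s : ℕ) (v x : ℝ) :
    bL ζ Ψ b m h act' s v x = av s (fun u => zr ζ s u * ∑ r ∈ Finset.range (s + 1),
      zr ζ r u * aL Ψ b m h act' r v u) x := by
  unfold bL av
  have : {u : ℝ | cel s u = cel s x} = Jc s (dx s x) := by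
    ext u; rw [mem_Jc]; rfl
  rw [this]
  rfl

theorem kept_bL (hζ : ZB ζ K) (hσ : StopS S σ) (s : ℕ) (v x : ℝ) :
    bL ζ Ψ b m h (kact act σ) s v x = bz ζ (ak Ψ b m h act σ v) s x := by
  rw [bL_eq_av, ← bz_pairing hζ (ak_ad hσ v)]
  congr 1
  funext u
  congr 1
  refine Finset.sum_congr rfl fun r _ => ?_
  rw [kept_aL hσ]
  rfl

/-- unstopped scales: the kept `β` is the full `β` -/
theorem bz_lt {s : ℕ} {v x : ℝ} (hs : s < σ x) :
    bz ζ (ak Ψ b m h act σ v) s x = bz ζ (fun r => aL Ψ b m h act r v) s x := by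
  unfold bz
  refine Finset.sum_congr rfl fun r hr => ?_
  have hr' : r ≤ s := Nat.lt_succ_iff.1 (Finset.mem_range.1 hr)
  unfold ak
  rw [if_pos (lt_of_le_of_lt hr' hs)]

/-- stopped scales: the kept `β` decays -/
theorem bz_ge (hζ : ZB ζ K) {A v : ℝ} (hA : ∀ r x, |aL Ψ b m h act r v x| ≤ A) {s : ℕ} {x : ℝ}
    (hs : σ x ≤ s) : |bz ζ (ak Ψ b m h act σ v) s x| ≤ K ^ 2 * A * ((2 : ℝ) ^ (σ x) / 2 ^ s) := by
  have hA0 : 0 ≤ A := (abs_nonneg _).trans (hA 0 0)
  unfold bz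
  have e : ∑ r ∈ Finset.range (s + 1), ak Ψ b m h act σ v r x * av s (fun u => zr ζ r u * zr ζ s u) x
      = ∑ r ∈ Finset.range (min (s + 1) (σ x)),
        aL Ψ b m h act r v x * av s (fun u => zr ζ r u * zr ζ s u) x := by
    rw [← sum_kept]
    refine Finset.sum_congr rfl fun r _ => ?_
    unfold ak
    split_ifs
    · rfl
    · rw [zero_mul]
  rw [e, min_eq_right (by omega)]
  have h1 : ∀ r ∈ Finset.range (σ x), |aL Ψ b m h act r v x * av s (fun u => zr ζ r u * zr ζ s u) x| ≤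
      K ^ 2 * A / 2 ^ s * (2 : ℝ) ^ r := by
    intro r hr
    have hr' : r ≤ s := (Finset.mem_range.1 hr).le.trans hs
    rw [abs_mul]
    calc |aL Ψ b m h act r v x| * |av s (fun u => zr ζ r u * zr ζ s u) x| ≤
        A * (K ^ 2 * ((2 : ℝ) ^ r / 2 ^ s)) := by
          gcongr
          · exact hA r x
          · exact av_zz hζ hr' x
      _ = _ := by ring
  refine (Finset.abs_sum_le_sum_abs _ _).trans ((Finset.sum_le_sum h1).trans ?_)
  rw [← Finset.mul_sum]
  have h2 : ∑ r ∈ Finset.range (σ x), (2 : ℝ) ^ r ≤ 2 ^ (σ x) := by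
    rw [geom_sum_eq (by norm_num)]
    have : (0 : ℝ) < 2 ^ (σ x) := by positivity
    linarith
  calc K ^ 2 * A / 2 ^ s * ∑ r ∈ Finset.range (σ x), (2 : ℝ) ^ r ≤ K ^ 2 * A / 2 ^ s * 2 ^ (σ x) := by
        gcongr
    _ = _ := by ring

end kept

/-! ### the function `Θ` -/

/-- `ζ`-part -/
def Th1 (ζ : ℝ → ℝ) (K : ℝ) (Ψ : ℝ → ℝ) (b m : ℝ) (h : ℝ × ℝ → ℝ) (act : ℕ → Set (ℝ × ℝ)) (S : ℕ)
    (x : ℝ) : ℝ≥0∞ :=
  ∫⁻ v in Set.Icc (-4 : ℝ) 4, ENNReal.ofReal (GZ ζ K (fun r => aL Ψ b m h act r v) S x)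

/-- gate part -/
def Th2 (ζ : ℝ → ℝ) (Ψ : ℝ → ℝ) (b m : ℝ) (h : ℝ × ℝ → ℝ) (act : ℕ → Set (ℝ × ℝ)) (S : ℕ)
    (x : ℝ) : ℝ≥0∞ :=
  ∫⁻ v in Set.Icc (-4 : ℝ) 4,
    ENNReal.ofReal ((Mx (GS (bz ζ fun r => aL Ψ b m h act r v) S) (S + 1) x) ^ 2)

/-- error part -/
def Th3 (w : ℕ → ℝ × ℝ → ℝ) (h : ℝ × ℝ → ℝ) (act : ℕ → Set (ℝ × ℝ)) (S : ℕ) (x : ℝ) : ℝ≥0∞ :=
  ENNReal.ofReal ((∑ s ∈ Finset.range S, pL w h act s x) ^ 2)

section theta

variable {Ψ : ℝ → ℝ} {b m : ℝ} {h : ℝ × ℝ → ℝ} {act : ℕ → Set (ℝ × ℝ)} {S s0 : ℕ} {m0 : ℤ}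
  {Z : Set (ℝ × ℝ)} {H D : ℝ} {ζ : ℝ → ℝ} {K : ℝ}

theorem swap_bound {g : ℝ → ℝ → ℝ} (hg : Measurable (Function.uncurry g)) (h0 : ∀ v x, 0 ≤ g v x)
    (hn : ∀ v, Nice1 (g v)) {c : ℝ} (hc : 0 ≤ c) (hb : ∀ v, ∫ x, g v x ≤ c) :
    ∫⁻ x, ∫⁻ v in Set.Icc (-4 : ℝ) 4, ENNReal.ofReal (g v x) ≤ ENNReal.ofReal (8 * c) := by
  rw [lintegral_lintegral_swap]
  · calc ∫⁻ v in Set.Icc (-4 : ℝ) 4, ∫⁻ x, ENNReal.ofReal (g v x) ≤
        ∫⁻ _v in Set.Icc (-4 : ℝ) 4, ENNReal.ofReal c := by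
          refine lintegral_mono fun v => ?_
          rw [← ofReal_integral_eq_lintegral_ofReal (nice_int (hn v))
            (Filter.Eventually.of_forall (h0 v))]
          exact ENNReal.ofReal_le_ofReal (hb v)
      _ = ENNReal.ofReal (8 * c) := by
          rw [setLIntegral_const, Real.volume_Icc, ← ENNReal.ofReal_mul hc]
          congr 1
          ring
  · refine Measurable.aemeasurable ?_
    have : (Function.uncurry fun x v => ENNReal.ofReal (g v x)) =
        fun p : ℝ × ℝ => ENNReal.ofReal (Function.uncurry g p.swap) := rfl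
    rw [this]
    exact (hg.comp measurable_swap).ennreal_ofReal

theorem th1_int (hζ : ZB ζ K) (T : Tree S s0 m0 h act Z H D) (hc : Continuous Ψ)
    (hb : ∀ v, |Ψ v| ≤ 1) (hS : s0 ≤ S) :
    ∫⁻ x, Th1 ζ K Ψ b m h act S x ≤
      ENNReal.ofReal (8 * (28 * K ^ 2 * (72 * (H * D) ^ 2 * (1 / 2) ^ s0))) := by
  unfold Th1
  refine swap_bound (g := fun v x => GZ ζ K (fun r => aL Ψ b m h act r v) S x) ?_ ?_ ?_ ?_ ?_
  · exact jm_GZ (a := fun r v x => aL Ψ b m h act r v x)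
      (fun r => jm_aL T.nice.1 hc.measurable (T.mact r)) hζ S
  · exact fun v x => GZ_nonneg _ _ _ _ _
  · exact fun v => nice_GZ hζ (fun r => nice_aL T.nice hc hb r v) S
  · positivity
  · intro v
    refine (z_max hζ (fun r => aL_ad Ψ b m h act r v) (fun r => nice_aL T.nice hc hb r v) S).trans ?_
    exact mul_le_mul_of_nonneg_left (energy_v T hc hb hS v) (by positivity)

theorem th2_int (hζ : ZB ζ K) (T : Tree S s0 m0 h act Z H D) (hc : Continuous Ψ)
    (hb : ∀ v, |Ψ v| ≤ 1) (hS : s0 ≤ S) :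
    ∫⁻ x, Th2 ζ Ψ b m h act S x ≤
      ENNReal.ofReal (8 * (16 * K ^ 4 * (72 * (H * D) ^ 2 * (1 / 2) ^ s0))) := by
  unfold Th2
  refine swap_bound (g := fun v x => (Mx (GS (bz ζ fun r => aL Ψ b m h act r v) S) (S + 1) x) ^ 2)
    ?_ ?_ ?_ ?_ ?_
  · have := (jm_Mx (jm_GS (a := fun r v x => aL Ψ b m h act r v x)
      (fun r => jm_aL (b := b) (m := m) T.nice.1 hc.measurable (T.mact r)) (ζ := ζ) S)
      (S + 1)).pow_const 2
    exact this
  · exact fun v x => sq_nonneg _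
  · intro v
    exact nice_sq (nice_Mx (nice_gs (fun r => nice_bz hζ (fun r => nice_aL T.nice hc hb r v) r) S) _)
  · positivity
  · intro v
    refine (beta_max hζ (fun r => aL_ad Ψ b m h act r v) (fun r => nice_aL T.nice hc hb r v) S).trans ?_
    exact mul_le_mul_of_nonneg_left (energy_v T hc hb hS v) (by positivity)

end theta

end Crest.Agent.R087.T3x153
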