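import Crest.Agent.R087.PLdef_575_Mg
import Crest.Agent.R087.Shal_115
import Crest.Agent.R087.T3a_153
import Crest.Agent.R087.LowN_282_Mg
import Crest.Agent.R087.OP0_270

-- ▼ part R087/PLow_575
section

/-!
Row 87 (S0115), operator part: **PAIR-LOW** (helper575), from 975's deep bound and 115's shallow bound.

`pldeep`, `plshallow`, `plow`, `plowp` : the Props of `PLdef_575`.
-/

set_option autoImplicit false

noncomputable section

open MeasureTheory Crest.Agent.R087.Sh0x283 Crest.Agent.R087.GateDefx273 Crest.Agent.R087.T1x90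
open Crest.Agent.R087.TreeIfx153 Crest.Agent.R087.PLdefx575

namespace Crest.Agent.R087.PLowx575

theorem pf_of {L : ℕ} {X : ℝ → ℝ} (hX : Prf L X) : PF (L + 1) (fun i => iteratedDeriv i X) where
  der i _ v := by
    have h1 : Differentiable ℝ (iteratedDeriv i X) :=
      (Pair1x339.smooth_iter hX.sm i).differentiable (by simp)
    have h2 := (h1 v).hasDerivAt
    show HasDerivAt (iteratedDeriv i X) (iteratedDeriv (i + 1) X v) v
    rw [iteratedDeriv_succ]
    exact h2
  cont i _ := (Pair1x339.smooth_iter hX.sm i).continuous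
  supp i _ v hv := Pair1x339.zero_iter hX.supp i v hv
  bd i hi v := hX.bd i (by omega) v

theorem GG_pp (ζ Φ : ℝ → ℝ) (U : ℝ × ℝ → ℝ) (r s : ℕ) (z w : ℝ × ℝ) :
    PairDeepx975.GG ζ Φ U r s z w = Pair1x339.pp Φ ζ U s r w z := by
  unfold PairDeepx975.GG Pair1x339.pp
  rw [mul_comm ((2 : ℝ) ^ r * ga r z.1)]
  rfl

theorem PS_eq (Φ ζ : ℝ → ℝ) (U h : ℝ × ℝ → ℝ) (act : ℕ → Set (ℝ × ℝ)) (t : ℕ) (w : ℝ × ℝ) :
    PLdefx575.PS Φ ζ U h act t w = PairDeepx975.PS ζ Φ U h act t w := by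
  unfold PLdefx575.PS PairDeepx975.PS
  refine Finset.sum_congr rfl fun s _ => ?_
  congr 1
  ext z
  rw [GG_pp]

theorem pldeep {ζ : ℝ → ℝ} (hζ : ZetC ζ) : PLdeep ζ := by
  intro L
  obtain ⟨C, hC, H⟩ := PairDeepx975.deep' hζ (K₀ := 20) (by norm_num)
  refine ⟨C, hC, ?_⟩
  intro X hX S s0 m0 U h act b m T hK w p q hq hk
  rcases le_or_gt p q with hpq | hpq
  · have key := H (L + 1) (fun i => iteratedDeriv i X) (pf_of hX) L le_rfl S U b m h act T hK.mU
      ⟨1, fun s z hz hz0 => (hK.loc s z hz hz0).2.2.2⟩ hK.nice hK.mact (fun s hs v x => hK.k1 (L + 1) le_rfl s hs v x) hK.k3 hK.k4 w p q hpq hq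
      (fun s hs => hk s (Finset.mem_Ico.1 hs).1 (Finset.mem_Ico.1 hs).2)
    simp only [PS_eq]
    exact key
  · rw [Finset.Ico_eq_empty (by omega), Finset.sum_empty, abs_zero]
    exact mul_nonneg hC hK.T0

theorem plshallow {ζ : ℝ → ℝ} (hζ : ZetC ζ) : PLshallow ζ := by
  intro n L hn
  obtain ⟨C, hC, H⟩ := Shalx115.shallow hζ n
  refine ⟨C, hC, ?_⟩
  intro X hX S s0 m0 U h act b m T hK w t ht hk
  have key := H (L + 1) (fun i => iteratedDeriv i X) (L - n) (pf_of hX) (by omega) U h b m act t w T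
    hK.mU hK.nice hK.mact (fun r z hz hz0 => (hK.loc r z hz hz0).2.2.2)
    (fun v x => hK.k1 (L - n) (by omega) (t + 1) (by omega) v x)
    (fun r _ v x => hK.k2 (L - n) (by omega) r v x)
    (fun x => le_trans (Finset.sum_le_sum_of_subset_of_nonneg
      (Finset.range_subset_range.2 (by omega))
      fun r _ _ => PairDeepx975.eL_nonneg U m h act r x) (hK.k4 x)) (by linarith)
  have e : L - n + n = L := Nat.sub_add_cancel hn
  simp only [e] at key
  rw [PS_eq]
  refine le_trans key (le_of_eq ?_)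
  rw [inv_pow, div_eq_mul_inv]

theorem plow {ζ : ℝ → ℝ} (hζ : ZetC ζ) : PLow ζ := plow_of hζ (pldeep hζ) (plshallow hζ)

theorem plowp {ζ : ℝ → ℝ} (hζ : ZetC ζ) : PLowP ζ := plowp_of (plow hζ)

end Crest.Agent.R087.PLowx575
end
end

-- ▼ part R087/T3_153
section

/-!
Row 87 (S0115), OPERATOR PART (helper153): leaf **T3** (stopping of one LOW tree), literally as in
`TreeIf_153`.
-/

set_option autoImplicit false

noncomputable section

open MeasureTheory Crest.Agent.R087.Sh0x283 Crest.Agent.R087.Sh1x283 Crest.Agent.R087.GateDefx273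
open Crest.Agent.R087.T1x90 Crest.Agent.R087.TreeIfx153 Crest.Agent.R087.Dyax738
open Crest.Agent.R087.DyaZx738 Crest.Agent.R087.TreeAx153
open scoped ENNReal

namespace Crest.Agent.R087.T3x153

section

variable {b m : ℝ} {h : ℝ × ℝ → ℝ} {act : ℕ → Set (ℝ × ℝ)} {S s0 : ℕ} {m0 : ℤ}
  {Z : Set (ℝ × ℝ)} {H D : ℝ} {U : ℝ × ℝ → ℝ} {ζ : ℝ → ℝ} {K : ℝ}

theorem nice_eL (T : LTree S s0 m0 h act Z H D U b m) :
    Nice1 fun x => ∑ s ∈ Finset.range S, eL U m h act s x := by
  refine nice_sum _ _ fun s _ => ⟨T2cx929.measurable_pL _ _ _ _, ⟨H * D, fun x => ?_⟩,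
    ⟨|(m0 : ℝ)| + 1, fun x hx => ?_⟩⟩
  · have h0 : 0 ≤ eL U m h act s x := T2cx929.pL_nonneg (T2cx929.wU_nonneg U m) h act s x
    rw [abs_of_nonneg h0]
    exact T2cx929.eL_le T s x
  · refine T2cx929.pL_supp T.toTree s fun hc => ?_
    have h1 := cell_dist (s := s0) (x := x) (y := (m0 : ℝ) / 2 ^ s0) (by
      rw [dx_left]; exact hc)
    have h2 := pw_le_one s0
    have h3 : |(m0 : ℝ) / 2 ^ s0| ≤ |(m0 : ℝ)| := by
      rw [abs_div, abs_of_pos (pw s0)]
      exact div_le_self (abs_nonneg _) (one_le_pow₀ (by norm_num))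
    have h4 := abs_sub_abs_le_abs_sub x ((m0 : ℝ) / 2 ^ s0)
    linarith

theorem th3_int (T : LTree S s0 m0 h act Z H D U b m) (hS : s0 ≤ S) :
    ∫⁻ x, Th3 (wU U m) h act S x ≤ ENNReal.ofReal (8 * (H * D) ^ 2 * (1 / 2) ^ s0) := by
  unfold Th3
  have h1 := T2cx929.eL_sq T hS
  have h2 := ofReal_integral_eq_lintegral_ofReal (nice_int (nice_sq (nice_eL T)))
    (Filter.Eventually.of_forall fun x => sq_nonneg _)
  have h3 : (∫⁻ x, ENNReal.ofReal ((∑ s ∈ Finset.range S, pL (wU U m) h act s x) ^ 2)) =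
      ENNReal.ofReal (∫ x, (∑ s ∈ Finset.range S, eL U m h act s x) ^ 2) := h2.symm
  rw [h3]
  exact ENNReal.ofReal_le_ofReal h1

/-- the function `Θ` of a LOW tree -/
def Th (ζ : ℝ → ℝ) (K : ℝ) (P : ℕ) (Ψ : ℕ → ℝ → ℝ) (b m : ℝ) (U h : ℝ × ℝ → ℝ)
    (act : ℕ → Set (ℝ × ℝ)) (S : ℕ) (x : ℝ) : ℝ≥0∞ :=
  (∑ i ∈ Finset.range (P + 1), (Th1 ζ K (Ψ (i + 1)) b m h act S x + Th2 ζ (Ψ (i + 1)) b m h act S x))
    + Th3 (wU U m) h act S x

theorem th1_meas (hζ : ZB ζ K) (T : Tree S s0 m0 h act Z H D) {Ψ : ℝ → ℝ} (hc : Continuous Ψ) :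
    Measurable (Th1 ζ K Ψ b m h act S) := by
  have h1 := jm_GZ (a := fun r v x => aL Ψ b m h act r v x)
      (fun r => jm_aL T.nice.1 hc.measurable (T.mact r)) hζ S
  have h2 : Measurable (Function.uncurry fun x v => ENNReal.ofReal
      (GZ ζ K (fun r => aL Ψ b m h act r v) S x)) :=
    (h1.comp measurable_swap).ennreal_ofReal
  exact h2.lintegral_prod_right

theorem th2_meas (T : Tree S s0 m0 h act Z H D) {Ψ : ℝ → ℝ} (hc : Continuous Ψ) :
    Measurable (Th2 ζ Ψ b m h act S) := by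
  have h1 := (jm_Mx (jm_GS (a := fun r v x => aL Ψ b m h act r v x)
      (fun r => jm_aL (b := b) (m := m) T.nice.1 hc.measurable (T.mact r)) (ζ := ζ) S)
      (S + 1)).pow_const 2
  have h2 : Measurable (Function.uncurry fun x v => ENNReal.ofReal
      ((Mx (GS (bz ζ fun r => aL Ψ b m h act r v) S) (S + 1) x) ^ 2)) :=
    (h1.comp measurable_swap).ennreal_ofReal
  exact h2.lintegral_prod_right

theorem th_int (hζ : ZB ζ K) {P : ℕ} {Ψ : ℕ → ℝ → ℝ} (hP : PF P Ψ)
    (T : LTree S s0 m0 h act Z H D U b m) (hS : s0 ≤ S) :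
    ∫⁻ x, Th ζ K P Ψ b m U h act S x ≤ ENNReal.ofReal
      (((P + 1 : ℕ) * (16128 * K ^ 2 + 9216 * K ^ 4) + 8) * (H * D) ^ 2 * (1 / 2) ^ s0) := by
  unfold Th
  have hc : ∀ i ∈ Finset.range (P + 1), Continuous (Ψ (i + 1)) := fun i hi =>
    hP.cont _ (by have := Finset.mem_range.1 hi; omega)
  have hb : ∀ i ∈ Finset.range (P + 1), ∀ v, |Ψ (i + 1) v| ≤ 1 := fun i hi =>
    hP.bd _ (by have := Finset.mem_range.1 hi; omega)
  have hm1 : ∀ i ∈ Finset.range (P + 1), Measurable fun x =>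
      Th1 ζ K (Ψ (i + 1)) b m h act S x + Th2 ζ (Ψ (i + 1)) b m h act S x := fun i hi =>
    (th1_meas hζ T.toTree (hc i hi)).add (th2_meas T.toTree (hc i hi))
  rw [lintegral_add_left (Finset.measurable_fun_sum _ hm1), lintegral_finsetSum' _
    (fun i hi => (hm1 i hi).aemeasurable)]
  have h1 : ∀ i ∈ Finset.range (P + 1), ∫⁻ x, (Th1 ζ K (Ψ (i + 1)) b m h act S x +
      Th2 ζ (Ψ (i + 1)) b m h act S x) ≤
      ENNReal.ofReal ((16128 * K ^ 2 + 9216 * K ^ 4) * (H * D) ^ 2 * (1 / 2) ^ s0) := by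
    intro i hi
    rw [lintegral_add_left (th1_meas hζ T.toTree (hc i hi))]
    refine (add_le_add (th1_int hζ T.toTree (hc i hi) (hb i hi) hS)
      (th2_int hζ T.toTree (hc i hi) (hb i hi) hS)).trans ?_
    rw [← ENNReal.ofReal_add (by positivity) (by positivity)]
    refine ENNReal.ofReal_le_ofReal (le_of_eq ?_)
    ring
  refine (add_le_add (Finset.sum_le_sum h1) (th3_int T hS)).trans ?_
  rw [Finset.sum_const, Finset.card_range, ← ENNReal.ofReal_nsmul,
    ← ENNReal.ofReal_add (by positivity) (by positivity)]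
  refine ENNReal.ofReal_le_ofReal (le_of_eq ?_)
  rw [nsmul_eq_mul]
  ring

/-! ### pointwise bounds below the stopping scale -/

variable {P : ℕ} {Ψ : ℕ → ℝ → ℝ} {T : ℝ}

theorem th1_le_th {i : ℕ} (hi : i ≤ P) (x : ℝ) :
    Th1 ζ K (Ψ (i + 1)) b m h act S x ≤ Th ζ K P Ψ b m U h act S x := by
  unfold Th
  refine le_trans ?_ le_self_add
  have := Finset.single_le_sum (f := fun i => Th1 ζ K (Ψ (i + 1)) b m h act S x +
    Th2 ζ (Ψ (i + 1)) b m h act S x) (fun _ _ => zero_le) (Finset.mem_range.2 (Nat.lt_succ_of_le hi))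
  exact le_self_add.trans this

theorem th2_le_th {i : ℕ} (hi : i ≤ P) (x : ℝ) :
    Th2 ζ (Ψ (i + 1)) b m h act S x ≤ Th ζ K P Ψ b m U h act S x := by
  unfold Th
  refine le_trans ?_ le_self_add
  have := Finset.single_le_sum (f := fun i => Th1 ζ K (Ψ (i + 1)) b m h act S x +
    Th2 ζ (Ψ (i + 1)) b m h act S x) (fun _ _ => zero_le) (Finset.mem_range.2 (Nat.lt_succ_of_le hi))
  exact le_add_self.trans this

theorem th3_le_th (x : ℝ) : Th3 (wU U m) h act S x ≤ Th ζ K P Ψ b m U h act S x := by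
  unfold Th
  exact le_add_self

theorem far_FL (LT : LTree S s0 m0 h act Z H D U b m) (hP : PF P Ψ) {i : ℕ} (hi : i ≤ P)
    {v : ℝ} (hv : v ∉ Set.Icc (-4 : ℝ) 4) (r : ℕ) (x : ℝ) : aL (Ψ i) b m h act r v x = 0 := by
  refine aL_far LT (hP.supp i (by omega)) r ?_ x
  rw [Set.mem_Icc, ← abs_le, not_le] at hv
  linarith

theorem jm1 {s : ℕ} (hm : Measurable h) {Ψ : ℝ → ℝ} (hΨ : Measurable Ψ)
    (hact : MeasurableSet (act s)) (x : ℝ) : Measurable fun v => aL Ψ b m h act s v x :=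
  (jm_aL (b := b) (m := m) hm hΨ hact).comp (measurable_id.prodMk measurable_const)

/-- partial `ζ`-sums below the stopping scale -/
theorem fl_bound (hζ : ZB ζ K) (LT : LTree S s0 m0 h act Z H D U b m) (hP : PF P Ψ) (hT : 0 < T)
    {i : ℕ} (hi : i ≤ P) {q : ℕ} {x : ℝ}
    (hq : q < sgE (Th ζ K P Ψ b m U h act S) (ENNReal.ofReal (T ^ 2)) S x) (v : ℝ) :
    |∑ r ∈ Finset.range (q + 1), zr ζ r x * aL (Ψ i) b m h act r v x| ≤ 3 * T := by
  by_cases hv : v ∈ Set.Icc (-4 : ℝ) 4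
  swap
  · rw [Finset.sum_eq_zero fun r _ => by rw [far_FL LT hP hi hv r x, mul_zero], abs_zero]
    positivity
  have hqS := (lt_sgE.1 hq).1
  have hnh := (lt_sgE.1 hq).2 q le_rfl
  have hH := LT.H0
  have hc' := hP.cont (i + 1) (by omega)
  have hb' := hP.bd (i + 1) (by omega)
  have hm' : ∀ r, Measurable fun t => aL (Ψ (i + 1)) b m h act r t x := fun r =>
    jm1 LT.nice.1 hc'.measurable (LT.mact r) x
  have hbd : ∀ r t, |aL (Ψ (i + 1)) b m h act r t x| ≤ H * D := fun r t =>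
    abs_aL_le LT.toTree hH hc' hb' r t x
  have hHD : 0 ≤ H * D := (abs_nonneg _).trans (hbd 0 0)
  refine sup_of_int (f := fun v => ∑ r ∈ Finset.range (q + 1), zr ζ r x * aL (Ψ i) b m h act r v x)
    (f' := fun t => ∑ r ∈ Finset.range (q + 1), zr ζ r x * aL (Ψ (i + 1)) b m h act r t x)
    (M := ∑ _r ∈ Finset.range (q + 1), K * (H * D)) ?_ ?_ ?_ hT ?_ v hv
  · exact Finset.measurable_fun_sum _ fun r _ => (hm' r).const_mul _
  · intro t
    refine (Finset.abs_sum_le_sum_abs _ _).trans (Finset.sum_le_sum fun r _ => ?_)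
    rw [abs_mul]
    exact mul_le_mul (zr_bd hζ r x) (hbd r t) (abs_nonneg _) hζ.nonneg
  · intro v hv
    rw [intervalIntegral.integral_finsetSum]
    · refine Finset.sum_congr rfl fun r _ => ?_
      rw [intervalIntegral.integral_const_mul,
        aL_ftc LT (hP.der i hi) hc' (hP.supp i (by omega)) hb' r hv.1 x]
    · intro r _
      refine IntervalIntegrable.const_mul ?_ _
      rw [intervalIntegrable_iff]
      exact Measure.integrableOn_of_bounded (M := H * D) (by simp [Set.uIoc])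
        (hm' r).aestronglyMeasurable (Filter.Eventually.of_forall fun t => by
          rw [Real.norm_eq_abs]; exact hbd r t)
  · refine const_le hnh fun y hy => ?_
    refine le_trans ?_ (th1_le_th hi y)
    unfold Th1
    refine lintegral_mono fun t => ENNReal.ofReal_le_ofReal ?_
    exact z_major (a := fun r => aL (Ψ (i + 1)) b m h act r t) hζ
      (fun r => aL_ad _ b m h act r t) (fun r => nice_aL LT.nice hc' hb' r t) hqS
      (u := x) (x := y) hy.symm

/-- partial gate sums of the `β` below the stopping scale -/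
theorem gs_bound (hζ : ZB ζ K) (LT : LTree S s0 m0 h act Z H D U b m) (hP : PF P Ψ) (hT : 0 < T)
    {i : ℕ} (hi : i ≤ P) {q : ℕ} {x : ℝ}
    (hq : q < sgE (Th ζ K P Ψ b m U h act S) (ENNReal.ofReal (T ^ 2)) S x) (v : ℝ) :
    |GS (bz ζ fun r => aL (Ψ i) b m h act r v) (q + 1) x| ≤ 6 * T := by
  by_cases hv : v ∈ Set.Icc (-4 : ℝ) 4
  swap
  · have h0 : GS (bz ζ fun r => aL (Ψ i) b m h act r v) (q + 1) x = 0 := by
      unfold GS bz
      refine Finset.sum_eq_zero fun s _ => ?_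
      rw [Finset.sum_eq_zero fun r _ => by simp only [far_FL LT hP hi hv r x, zero_mul], mul_zero]
    rw [h0, abs_zero]
    positivity
  have hqS := (lt_sgE.1 hq).1
  have hnh := (lt_sgE.1 hq).2 q le_rfl
  have hH := LT.H0
  have hc' := hP.cont (i + 1) (by omega)
  have hb' := hP.bd (i + 1) (by omega)
  have hm' : ∀ r, Measurable fun t => aL (Ψ (i + 1)) b m h act r t x := fun r =>
    jm1 LT.nice.1 hc'.measurable (LT.mact r) x
  have hbd : ∀ r t, |aL (Ψ (i + 1)) b m h act r t x| ≤ H * D := fun r t =>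
    abs_aL_le LT.toTree hH hc' hb' r t x
  have hHD : 0 ≤ H * D := (abs_nonneg _).trans (hbd 0 0)
  have hii : ∀ r (v : ℝ), IntervalIntegrable (fun t => aL (Ψ (i + 1)) b m h act r t x) volume
      (-4) v := by
    intro r v
    rw [intervalIntegrable_iff]
    exact Measure.integrableOn_of_bounded (M := H * D) (by simp [Set.uIoc])
      (hm' r).aestronglyMeasurable (Filter.Eventually.of_forall fun t => by
        rw [Real.norm_eq_abs]; exact hbd r t)
  have key := sup_of_int (f := fun v => GS (bz ζ fun r => aL (Ψ i) b m h act r v) (q + 1) x)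
    (f' := fun t => GS (bz ζ fun r => aL (Ψ (i + 1)) b m h act r t) (q + 1) x)
    (M := ∑ s ∈ Finset.range (q + 1), ∑ r ∈ Finset.range (s + 1),
      (H * D) * |av s (fun u => zr ζ r u * zr ζ s u) x|) (T := 2 * T) ?_ ?_ ?_ (by positivity) ?_ v hv
  · calc _ ≤ 3 * (2 * T) := key
      _ = 6 * T := by ring
  · unfold GS bz
    exact Finset.measurable_fun_sum _ fun s _ => (Finset.measurable_fun_sum _ fun r _ =>
      (hm' r).mul_const _).const_mul _
  · intro t
    unfold GS bz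
    refine (Finset.abs_sum_le_sum_abs _ _).trans (Finset.sum_le_sum fun s _ => ?_)
    rw [abs_mul, gr_abs, one_mul]
    refine (Finset.abs_sum_le_sum_abs _ _).trans (Finset.sum_le_sum fun r _ => ?_)
    rw [abs_mul]
    exact mul_le_mul_of_nonneg_right (hbd r t) (abs_nonneg _)
  · intro v hv
    simp only [GS, bz]
    have i2 : ∀ s, IntervalIntegrable (fun t => ∑ r ∈ Finset.range (s + 1),
        aL (Ψ (i + 1)) b m h act r t x * av s (fun u => zr ζ r u * zr ζ s u) x) volume (-4) v := by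
      intro s
      have h5 := IntervalIntegrable.sum (Finset.range (s + 1))
        (f := fun r t => aL (Ψ (i + 1)) b m h act r t x * av s (fun u => zr ζ r u * zr ζ s u) x)
        (fun r _ => (hii r v).mul_const _)
      refine h5.congr fun t _ => ?_
      simp only [Finset.sum_apply]
    rw [intervalIntegral.integral_finsetSum fun s _ => (i2 s).const_mul _]
    refine Finset.sum_congr rfl fun s _ => ?_
    rw [intervalIntegral.integral_const_mul, intervalIntegral.integral_finsetSum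
      fun r _ => (hii r v).mul_const _]
    congr 1
    refine Finset.sum_congr rfl fun r _ => ?_
    rw [intervalIntegral.integral_mul_const,
      aL_ftc LT (hP.der i hi) hc' (hP.supp i (by omega)) hb' r hv.1 x]
  · have e4 : ENNReal.ofReal ((2 * T) ^ 2) = 4 * ENNReal.ofReal (T ^ 2) := by
      rw [mul_pow, ENNReal.ofReal_mul (by norm_num)]
      norm_num
    rw [e4]
    refine const_le4 hnh fun y hy => ?_
    refine le_trans ?_ (th2_le_th hi y)
    unfold Th2
    refine lintegral_mono fun t => ENNReal.ofReal_le_ofReal ?_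
    have hA : ∀ r, Ad r (bz ζ (fun r => aL (Ψ (i + 1)) b m h act r t) r) := fun r =>
      bz_ad (fun r => aL_ad _ b m h act r t) r
    have hN : ∀ r, Nice1 (bz ζ (fun r => aL (Ψ (i + 1)) b m h act r t) r) := fun r =>
      nice_bz hζ (fun r => nice_aL LT.nice hc' hb' r t) r
    have h1 := gate_partial hA hN hqS x
    have h2 : av (q + 2) (GS (bz ζ fun r => aL (Ψ (i + 1)) b m h act r t) S) x =
        av (q + 2) (GS (bz ζ fun r => aL (Ψ (i + 1)) b m h act r t) S) y :=
      av_ad _ _ x y hy.symm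
    show (GS (bz ζ fun r => aL (Ψ (i + 1)) b m h act r t) (q + 1) x) ^ 2 ≤ _
    rw [← h1, h2, ← sq_abs (av (q + 2) _ y)]
    exact pow_le_pow_left₀ (abs_nonneg _) (av_le_Mx _ (by omega) y) 2

/-- error sums below the stopping scale -/
theorem el_bound (hT : 0 < T) {q : ℕ} {x : ℝ}
    (hq : q < sgE (Th ζ K P Ψ b m U h act S) (ENNReal.ofReal (T ^ 2)) S x) :
    ∑ r ∈ Finset.range (q + 1), eL U m h act r x ≤ T := by
  have hqS := (lt_sgE.1 hq).1
  have hnh := (lt_sgE.1 hq).2 q le_rfl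
  have h0 : ∀ r y, 0 ≤ eL U m h act r y := fun r y =>
    T2cx929.pL_nonneg (T2cx929.wU_nonneg U m) h act r y
  have h1 : ENNReal.ofReal ((∑ r ∈ Finset.range (q + 1), eL U m h act r x) ^ 2) ≤
      ENNReal.ofReal (T ^ 2) := by
    refine const_le hnh fun y hy => ?_
    refine le_trans ?_ (th3_le_th y)
    unfold Th3
    refine ENNReal.ofReal_le_ofReal ?_
    refine pow_le_pow_left₀ (Finset.sum_nonneg fun r _ => h0 r x) ?_ 2
    calc ∑ r ∈ Finset.range (q + 1), eL U m h act r x =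
        ∑ r ∈ Finset.range (q + 1), eL U m h act r y := by
          refine Finset.sum_congr rfl fun r hr => ?_
          have hr' : r ≤ q := Nat.lt_succ_iff.1 (Finset.mem_range.1 hr)
          exact T2cx929.pL_congr _ _ _ (dx_mono hr' hy.symm)
      _ ≤ ∑ r ∈ Finset.range S, eL U m h act r y :=
          Finset.sum_le_sum_of_subset_of_nonneg (Finset.range_mono (Nat.succ_le_of_lt hqS))
            fun r _ _ => h0 r y
  have h2 := (ENNReal.ofReal_le_ofReal_iff (by positivity)).1 h1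
  exact (pow_le_pow_iff_left₀ (Finset.sum_nonneg fun r _ => h0 r x) hT.le two_ne_zero).1 h2

end

/-- **T3** -/
theorem t3 {ζ : ℝ → ℝ} (hz : ZetC ζ) : T3 ζ := by
  obtain ⟨K, hζ⟩ := zb_of hz
  intro P
  have hK := hζ.nonneg
  set C0 : ℝ := (P + 1 : ℕ) * (16128 * K ^ 2 + 9216 * K ^ 4) + 8 with hC0
  have hC00 : 0 ≤ C0 := by positivity
  refine ⟨2 * C0 + 12 + 4 * K ^ 2, by positivity, ?_⟩
  intro Ψ hP S s0 m0 h act Z H D U b m hS LT T hHT hT
  have hH := LT.H0
  have hD := LT.D0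
  have hHD : 0 ≤ H * D := mul_nonneg hH hD
  set Θ := Th ζ K P Ψ b m U h act S with hΘ
  set σ := sgE Θ (ENNReal.ofReal (T ^ 2)) S with hσ
  have hst : StopS S σ := sgE_stop _ _ _
  have hvol : volume {x | σ x < S} ≤ ENNReal.ofReal (C0 * (H * D / T) ^ 2 * (1 / 2) ^ s0) := by
    have h1 := (sgE_vol Θ (ENNReal.ofReal (T ^ 2)) S).trans (th_int hζ hP LT hS)
    rw [← hσ] at h1
    have hT2 : (0 : ℝ) < T ^ 2 := by positivity
    have h2 : volume {x | σ x < S} ≤ ENNReal.ofReal (C0 * (H * D) ^ 2 * (1 / 2) ^ s0) /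
        ENNReal.ofReal (T ^ 2) := by
      rw [ENNReal.le_div_iff_mul_le (Or.inl (by
        rw [Ne, ENNReal.ofReal_eq_zero, not_le]; exact hT2)) (Or.inl ENNReal.ofReal_ne_top), mul_comm]
      exact h1
    rw [← ENNReal.ofReal_div_of_pos hT2] at h2
    refine h2.trans (ENNReal.ofReal_le_ofReal (le_of_eq ?_))
    rw [div_pow]
    ring
  refine ⟨σ, hst, hvol.trans (ENNReal.ofReal_le_ofReal ?_), ?_, ?_, ?_, ?_, ?_⟩
  · have : C0 ≤ 2 * C0 + 12 + 4 * K ^ 2 := by nlinarith [sq_nonneg K]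
    gcongr
  · refine (StopGx153.rem_vol LT.toTree hst).trans ?_
    refine (mul_le_mul_right hvol _).trans ?_
    have e2 : (2 : ℝ≥0∞) = ENNReal.ofReal 2 := by norm_num
    rw [e2, ← ENNReal.ofReal_mul (by norm_num), ← ENNReal.ofReal_mul (by positivity)]
    refine ENNReal.ofReal_le_ofReal ?_
    have : 2 * D * (C0 * (H * D / T) ^ 2 * (1 / 2) ^ s0) =
        (2 * C0) * D * (H * D / T) ^ 2 * (1 / 2) ^ s0 := by ring
    rw [this]
    have : 2 * C0 ≤ 2 * C0 + 12 + 4 * K ^ 2 := by nlinarith [sq_nonneg K]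
    gcongr
  · -- FL
    intro i hi s hs v x
    rw [kept_FL hst]
    have hfin : (3 : ℝ) * T ≤ (2 * C0 + 12 + 4 * K ^ 2) * T := by
      have : (3 : ℝ) ≤ 2 * C0 + 12 + 4 * K ^ 2 := by nlinarith [sq_nonneg K]
      gcongr
    rcases Nat.eq_zero_or_pos (min s (σ x)) with h0 | h0
    · rw [h0, Finset.range_zero, Finset.sum_empty, abs_zero]
      positivity
    · obtain ⟨q, hq⟩ : ∃ q, min s (σ x) = q + 1 := ⟨min s (σ x) - 1, by omega⟩
      rw [hq]
      have hqσ : q < σ x := by omega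
      exact (fl_bound hζ LT hP hT hi hqσ v).trans hfin
  · -- aL
    intro i hi s v x
    rw [kept_aL hst]
    have h1 : |aL (Ψ i) b m h act s v x| ≤ H * D :=
      abs_aL_le LT.toTree hH (hP.cont i (by omega)) (hP.bd i (by omega)) s v x
    have h2 : T ≤ (2 * C0 + 12 + 4 * K ^ 2) * T := by
      have : (1 : ℝ) ≤ 2 * C0 + 12 + 4 * K ^ 2 := by nlinarith [sq_nonneg K]
      nlinarith
    split_ifs
    · exact (h1.trans hHT).trans h2
    · rw [abs_zero]; positivity
  · -- bL
    intro i hi a c hac hc v x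
    have hbound : ∀ n ≤ S, |∑ s ∈ Finset.range n, ga s x * bL ζ (Ψ i) b m h (kact act σ) s v x| ≤
        (6 + 2 * K ^ 2) * T := by
      intro n hn
      set k := min n (σ x) with hk
      have hkn : k ≤ n := min_le_left _ _
      rw [← Finset.sum_range_add_sum_Ico _ hkn]
      have p1 : |∑ s ∈ Finset.range k, ga s x * bL ζ (Ψ i) b m h (kact act σ) s v x| ≤ 6 * T := by
        have e : ∑ s ∈ Finset.range k, ga s x * bL ζ (Ψ i) b m h (kact act σ) s v x =
            GS (bz ζ fun r => aL (Ψ i) b m h act r v) k x := by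
          unfold GS
          refine Finset.sum_congr rfl fun s hs => ?_
          have hs' : s < σ x := lt_of_lt_of_le (Finset.mem_range.1 hs) (min_le_right _ _)
          rw [kept_bL hζ hst, bz_lt hs']
          rfl
        rw [e]
        rcases Nat.eq_zero_or_pos k with h0 | h0
        · rw [h0]
          simp only [GS, Finset.range_zero, Finset.sum_empty, abs_zero]
          positivity
        · obtain ⟨q, hq⟩ : ∃ q, k = q + 1 := ⟨k - 1, by omega⟩
          rw [hq]
          have hqσ : q < σ x := by omega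
          exact gs_bound hζ LT hP hT hi hqσ v
      have p2 : |∑ s ∈ Finset.Ico k n, ga s x * bL ζ (Ψ i) b m h (kact act σ) s v x| ≤
          2 * K ^ 2 * T := by
        rcases Nat.lt_or_ge (σ x) n with hlt | hge
        · have hkσ : k = σ x := by omega
          have h1 : ∀ s ∈ Finset.Ico k n, |ga s x * bL ζ (Ψ i) b m h (kact act σ) s v x| ≤
              K ^ 2 * (H * D) * ((2 : ℝ) ^ (σ x) / 2 ^ s) := by
            intro s hs
            rw [abs_mul, abs_ga, one_mul, kept_bL hζ hst]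
            refine bz_ge hζ (fun r x => abs_aL_le LT.toTree hH (hP.cont i (by omega))
              (hP.bd i (by omega)) r v x) ?_
            have := (Finset.mem_Ico.1 hs).1
            omega
          refine (Finset.abs_sum_le_sum_abs _ _).trans ((Finset.sum_le_sum h1).trans ?_)
          rw [← Finset.mul_sum]
          have h2 : ∑ s ∈ Finset.Ico k n, (2 : ℝ) ^ (σ x) / 2 ^ s ≤ 2 := by
            rw [hkσ, Finset.sum_Ico_eq_sum_range]
            have h3 : ∀ j ∈ Finset.range (n - σ x), (2 : ℝ) ^ (σ x) / 2 ^ (σ x + j) = (1 / 2) ^ j := by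
              intro j _
              rw [pow_add, div_mul_eq_div_div, div_self (pw _).ne', one_div, one_div, inv_pow]
            rw [Finset.sum_congr rfl h3]
            have h4 := Summable.sum_le_tsum (Finset.range (n - σ x)) (fun j _ => by positivity)
              summable_geometric_two
            rw [tsum_geometric_two] at h4
            exact h4
          calc K ^ 2 * (H * D) * ∑ s ∈ Finset.Ico k n, (2 : ℝ) ^ (σ x) / 2 ^ s ≤
              K ^ 2 * T * 2 := by gcongr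
            _ = 2 * K ^ 2 * T := by ring
        · have hkn' : k = n := by omega
          rw [hkn', Finset.Ico_self, Finset.sum_empty, abs_zero]
          positivity
      calc |(∑ s ∈ Finset.range k, ga s x * bL ζ (Ψ i) b m h (kact act σ) s v x) +
          ∑ s ∈ Finset.Ico k n, ga s x * bL ζ (Ψ i) b m h (kact act σ) s v x| ≤ 6 * T + 2 * K ^ 2 * T :=
            (abs_add_le _ _).trans (add_le_add p1 p2)
        _ = _ := by ring
    rw [Finset.sum_Ico_eq_sub _ hac]
    refine (abs_sub _ _).trans ?_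
    have h1 := hbound c hc
    have h2 := hbound a (hac.trans hc)
    have h3 : (6 + 2 * K ^ 2) * T + (6 + 2 * K ^ 2) * T ≤ (2 * C0 + 12 + 4 * K ^ 2) * T := by
      nlinarith
    linarith
  · -- eL
    intro x
    have e : ∑ s ∈ Finset.range S, eL U m h (kact act σ) s x =
        ∑ s ∈ Finset.range (min S (σ x)), eL U m h act s x := by
      rw [← sum_kept]
      refine Finset.sum_congr rfl fun s _ => ?_
      exact kept_pL _ hst s x
    rw [e]
    have h2 : T ≤ (2 * C0 + 12 + 4 * K ^ 2) * T := by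
      have : (1 : ℝ) ≤ 2 * C0 + 12 + 4 * K ^ 2 := by nlinarith [sq_nonneg K]
      nlinarith
    rcases Nat.eq_zero_or_pos (min S (σ x)) with h0 | h0
    · rw [h0, Finset.range_zero, Finset.sum_empty]
      positivity
    · obtain ⟨q, hq⟩ : ∃ q, min S (σ x) = q + 1 := ⟨min S (σ x) - 1, by omega⟩
      rw [hq]
      have hqσ : q < σ x := by omega
      exact (el_bound hT hqσ).trans h2

end Crest.Agent.R087.T3x153
end
end

-- ▼ part R087/TreeLow_575
section

/-!
Row 87 (S0115), operator part, leaf **TREELOW** (helper575): one LOW tree, stopping + pointwise pairing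
bound, from `T3` (helper153) and `PAIR-LOW` (`PLow_575`).
-/

set_option autoImplicit false

noncomputable section

open MeasureTheory Crest.Agent.R087.Sh0x283 Crest.Agent.R087.GateDefx273 Crest.Agent.R087.E2x542
open Crest.Agent.R087.T1x90 Crest.Agent.R087.TreeIfx153 Crest.Agent.R087.PLdefx575
open Crest.Agent.R087.OP0x270

namespace Crest.Agent.R087.TreeLowx575

/-! ### the profile -/

/-- half of the autocorrelation -/
def Xh (ω : ℝ → ℝ) (r : ℝ) : ℝ := 1 / 2 * Pair1x339.Xi ω r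

theorem iter_Xh {M : ℕ} {ω : ℝ → ℝ} (h : Pair1x339.Om M ω) (n : ℕ) (r : ℝ) :
    iteratedDeriv n (Xh ω) r = 1 / 2 * iteratedDeriv n (Pair1x339.Xi ω) r := by
  induction n generalizing r with
  | zero => simp [Xh]
  | succ n ih =>
    rw [iteratedDeriv_succ, iteratedDeriv_succ, funext ih]
    have : Differentiable ℝ (iteratedDeriv n (Pair1x339.Xi ω)) :=
      (Pair1x339.smooth_iter (Pair1x339.smooth_Xi h) n).differentiable (by simp)
    exact deriv_const_mul _ (this r)

theorem prf {q : ℕ} {ω : ℝ → ℝ} (hω : PW (2 * q + 8) ω) : Prf (4 * q + 4) (Xh ω) := by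
  have h : Pair1x339.Om (2 * q + 8) ω := hω
  refine ⟨contDiff_const.mul (Pair1x339.smooth_Xi h), fun r hr => ?_, fun i hi r => ?_⟩
  · have := Pair1x339.Xi_zero h 0 hr
    rw [iteratedDeriv_zero] at this
    simp only [Xh]
    rw [this, mul_zero]
  · rw [iter_Xh h, abs_mul, abs_of_pos (by norm_num : (0 : ℝ) < 1 / 2)]
    have := Pair1x339.Xi_bd h (n := i) (by omega) r
    linarith

theorem pr_eq {ζ : ℝ → ℝ} (hζ : ZetC ζ) {q : ℕ} {ω : ℝ → ℝ} (hω : PW (2 * q + 8) ω)
    (U : ℝ × ℝ → ℝ) (s s' : ℕ) (z z' : ℝ × ℝ) :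
    pr (iteratedDeriv (2 * q + 2) ω) ζ U s s' z z' =
      2 * Pair1x339.pp (iteratedDeriv (4 * q + 4) (Xh ω)) ζ U s' s z' z := by
  have h : Pair1x339.Om (2 * q + 8) ω := hω
  have e1 : pr (iteratedDeriv (2 * q + 2) ω) ζ U s s' z z' =
      ∫ w, Pair1x339.kk (iteratedDeriv (2 * q + 2) ω) ζ U s' z' w *
        Pair1x339.kk (iteratedDeriv (2 * q + 2) ω) ζ U s z w := by
    unfold pr
    congr 1
    ext w
    exact mul_comm _ _
  rw [e1, Pair1x339.pair_eq hζ h]
  have e2 : (-1 : ℝ) ^ (2 * q + 2) = 1 := Even.neg_one_pow ⟨q + 1, by ring⟩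
  have e3 : iteratedDeriv (2 * (2 * q + 2)) (Pair1x339.Xi ω) =
      fun r => 2 * iteratedDeriv (4 * q + 4) (Xh ω) r := by
    funext r
    rw [iter_Xh h, show 2 * (2 * q + 2) = 4 * q + 4 by ring]
    ring
  rw [e2, e3, Pair1x339.pp_const_mul, one_mul]

/-! ### measurability and integrability of the pairing -/

theorem pp_meas {Φ ζ : ℝ → ℝ} (hΦ : Continuous Φ) (hζ : Continuous ζ) {U : ℝ × ℝ → ℝ}
    (hU : Measurable U) (s' s : ℕ) (w : ℝ × ℝ) :
    Measurable (fun z => Pair1x339.pp Φ ζ U s' s w z) := by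
  unfold Pair1x339.pp Pair1x339.ln
  have h1 : Measurable fun z : ℝ × ℝ => gt (Int.fract ((2 : ℝ) ^ s * z.1)) :=
    GateAx273.gt_meas.comp (measurable_fract.comp (measurable_const.mul measurable_fst))
  have h2 : Measurable fun z : ℝ × ℝ => (2 : ℝ) ^ s' * gt (Int.fract ((2 : ℝ) ^ s' * w.1)) *
      ((2 : ℝ) ^ s * gt (Int.fract ((2 : ℝ) ^ s * z.1))) :=
    measurable_const.mul (measurable_const.mul h1)
  refine h2.mul ?_
  refine PairDeepAx975.measurable_par (F := fun p : (ℝ × ℝ) × ℝ =>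
    ζ ((2 : ℝ) ^ s * p.2 - ⌊(2 : ℝ) ^ s * p.1.1⌋) * ζ ((2 : ℝ) ^ s' * p.2 - ⌊(2 : ℝ) ^ s' * w.1⌋) *
      Φ (w.2 + (p.2 - w.1) * U w - (p.1.2 + (p.2 - p.1.1) * U p.1))) ?_
  have h3 : Measurable fun p : (ℝ × ℝ) × ℝ => ((⌊(2 : ℝ) ^ s * p.1.1⌋ : ℤ) : ℝ) :=
    (measurable_from_top (f := fun n : ℤ => (n : ℝ))).comp
      (Int.measurable_floor.comp (measurable_const.mul (measurable_fst.comp measurable_fst)))
  have h4 : Measurable fun p : (ℝ × ℝ) × ℝ => U p.1 := hU.comp measurable_fst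
  refine ((hζ.measurable.comp ?_).mul (hζ.measurable.comp ?_)).mul (hΦ.measurable.comp ?_)
  · fun_prop
  · fun_prop
  · fun_prop

theorem pp_bdd {Φ ζ : ℝ → ℝ} (hζ : ZetC ζ) (hΦ : ∀ u, |Φ u| ≤ 1) (U : ℝ × ℝ → ℝ) (s' s : ℕ)
    (w : ℝ × ℝ) : ∃ M : ℝ, ∀ z, |Pair1x339.pp Φ ζ U s' s w z| ≤ M := by
  obtain ⟨A, hA0, hA⟩ := Pair1x339.exists_bd hζ.1 (Pair1x339.zet_cs hζ) 0
  have hA' : ∀ u, |ζ u| ≤ A := by simpa using hA 0 le_rfl
  refine ⟨(2 : ℝ) ^ s' * 2 ^ s * (A * A * 1 * ((2 : ℝ) ^ s)⁻¹), fun z => ?_⟩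
  refine (Pair1x339.pp_abs _ _ _ _ _ _ _).trans ?_
  exact mul_le_mul_of_nonneg_left
    (Pair1x339.qq_triv (Pair1x339.ZetC.pr hζ) hA' hA' hΦ _ _ _ _ _ _) (by positivity)

theorem pp_int {Φ ζ : ℝ → ℝ} (hζ : ZetC ζ) (hΦc : Continuous Φ) (hΦ : ∀ u, |Φ u| ≤ 1)
    {U : ℝ × ℝ → ℝ} (hU : Measurable U) {h : ℝ × ℝ → ℝ} (hh : Nice h) (s' s : ℕ) (w : ℝ × ℝ) :
    Integrable (fun z => h z * Pair1x339.pp Φ ζ U s' s w z) := by
  obtain ⟨M, hM⟩ := pp_bdd hζ hΦ U s' s w
  exact (PairDeepAx975.nice_int hh).mul_bdd (c := M)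
    (pp_meas hΦc hζ.1.continuous hU s' s w).aestronglyMeasurable
    (Filter.Eventually.of_forall fun z => by rw [Real.norm_eq_abs]; exact hM z)

/-! ### the tree -/

/-- alive points -/
def ZZ (B : Set (ℝ × ℝ)) (lo hi : ℝ × ℝ → ℕ) : Set (ℝ × ℝ) := {z | z ∈ B ∧ lo z < hi z}

/-- activity -/
def ac (lo hi : ℝ × ℝ → ℕ) (s : ℕ) : Set (ℝ × ℝ) := {z | lo z ≤ s ∧ s < hi z}

theorem mZZ {B : Set (ℝ × ℝ)} {lo hi : ℝ × ℝ → ℕ} (hB : MeasurableSet B) (h1 : Measurable lo)
    (h2 : Measurable hi) : MeasurableSet (ZZ B lo hi) :=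
  hB.inter (measurableSet_lt h1 h2)

theorem mac {lo hi : ℝ × ℝ → ℕ} (h1 : Measurable lo) (h2 : Measurable hi) (s : ℕ) :
    MeasurableSet (ac lo hi s) :=
  (measurableSet_le h1 measurable_const).inter (measurableSet_lt measurable_const h2)

theorem cel_of_mem {R : Tube} {x : ℝ} (h : x ∈ R.I) : cel R.k x = R.j := by
  have h2 : (0 : ℝ) < 2 ^ R.k := by positivity
  have hl : R.len * 2 ^ R.k = 1 := by
    rw [Tube.len, ← mul_pow]; norm_num
  obtain ⟨h3, h4⟩ := h
  rw [cel, Int.floor_eq_iff]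
  constructor
  · calc (R.j : ℝ) = R.j * R.len * 2 ^ R.k := by rw [mul_assoc, hl, mul_one]
      _ ≤ x * 2 ^ R.k := by gcongr
      _ = 2 ^ R.k * x := mul_comm _ _
  · calc (2 : ℝ) ^ R.k * x = x * 2 ^ R.k := mul_comm _ _
      _ < ((R.j : ℝ) + 1) * R.len * 2 ^ R.k := by gcongr
      _ = (R.j : ℝ) + 1 := by rw [mul_assoc, hl, mul_one]

theorem near_mono {U : ℝ × ℝ → ℝ} {K b m : ℝ} {s t : ℕ} {z : ℝ × ℝ} (h : near U K b m s z)
    (hst : s ≤ t) : |U z - m| * (1 / 2) ^ t ≤ K :=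
  le_trans (mul_le_mul_of_nonneg_left
    (pow_le_pow_of_le_one (by norm_num) (by norm_num) hst) (abs_nonneg _)) h.2

theorem nice_h {U g : ℝ × ℝ → ℝ} {S : ℕ} {lo hi : ℝ × ℝ → ℕ} {B : Set (ℝ × ℝ)} {R : Tube} {G : ℝ}
    (hg : Measurable g) (hch : Chain S lo hi) (hB : MeasurableSet B) (hbg : ∀ z, |g z| ≤ G)
    (hpos : ∀ z ∈ B, lo z < hi z → z.1 ∈ R.I ∧ R.k ≤ lo z ∧ near U 1 R.b R.m (lo z) z) :
    Nice ((ZZ B lo hi).indicator g) := by
  have hG : 0 ≤ G := (abs_nonneg _).trans (hbg 0)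
  refine ⟨hg.indicator (mZZ hB hch.1 hch.2.1), ⟨G, fun z => ?_⟩,
    ⟨(|(R.j : ℝ)| + 1) + (1 + |R.b| + |R.m| * (|(R.j : ℝ)| + 1)), fun z hz => ?_⟩⟩
  · by_cases h : z ∈ ZZ B lo hi
    · rw [Set.indicator_of_mem h]; exact hbg z
    · rw [Set.indicator_of_notMem h, abs_zero]; exact hG
  · apply Set.indicator_of_notMem
    intro h
    obtain ⟨h1, -, h3⟩ := hpos z h.1 h.2
    have hl := R.len_pos
    have hl1 := R.len_le_one
    have hx : |z.1| ≤ |(R.j : ℝ)| + 1 := by
      obtain ⟨h4, h5⟩ := h1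
      have ha := abs_le.1 (le_refl |(R.j : ℝ)|)
      have hb : 0 ≤ |(R.j : ℝ)| := abs_nonneg _
      rw [abs_le]
      constructor
      · nlinarith
      · nlinarith
    have hy : |z.2| ≤ 1 + |R.b| + |R.m| * (|(R.j : ℝ)| + 1) := by
      have e : z.2 = (z.2 - (R.b + R.m * z.1)) + (R.b + R.m * z.1) := by ring
      calc |z.2| = |(z.2 - (R.b + R.m * z.1)) + (R.b + R.m * z.1)| := by rw [← e]
        _ ≤ |z.2 - (R.b + R.m * z.1)| + |R.b + R.m * z.1| := abs_add_le _ _
        _ ≤ 1 + (|R.b| + |R.m * z.1|) := add_le_add h3.1 (abs_add_le _ _)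
        _ = 1 + |R.b| + |R.m| * |z.1| := by rw [abs_mul]; ring
        _ ≤ _ := by gcongr
    have hn : ‖z‖ ≤ (|(R.j : ℝ)| + 1) + (1 + |R.b| + |R.m| * (|(R.j : ℝ)| + 1)) := by
      rw [Prod.norm_def, Real.norm_eq_abs, Real.norm_eq_abs]
      refine max_le ?_ ?_
      · have : 0 ≤ 1 + |R.b| + |R.m| * (|(R.j : ℝ)| + 1) := by positivity
        linarith
      · have : 0 ≤ |(R.j : ℝ)| + 1 := by positivity
        linarith
    linarith

theorem ltree {U g : ℝ × ℝ → ℝ} {S : ℕ} {lo hi : ℝ × ℝ → ℕ} {B : Set (ℝ × ℝ)} {R : Tube}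
    {G D : ℝ} (hU : Measurable U) (hg : Measurable g) (hch : Chain S lo hi) (hB : MeasurableSet B)
    (hfB : volume B ≠ ⊤) (hbg : ∀ z, |g z| ≤ G) (hD : 0 < D)
    (hpos : ∀ z ∈ B, lo z < hi z → z.1 ∈ R.I ∧ R.k ≤ lo z ∧ near U 1 R.b R.m (lo z) z)
    (hm : Mass3 B lo hi R.k D) :
    LTree S R.k R.j ((ZZ B lo hi).indicator g) (ac lo hi) (ZZ B lo hi) G D U R.b R.m := by
  have hG : 0 ≤ G := (abs_nonneg _).trans (hbg 0)
  refine ⟨⟨nice_h hg hch hB hbg hpos, fun z => ?_, hD.le, mZZ hB hch.1 hch.2.1, fun z hz => ?_,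
    fun z hz => ?_, fun s => mac hch.1 hch.2.1 s, fun s hs => ?_, fun s hs => ?_,
    fun z _ s s' s'' h1 h2 h3 h4 => ?_, fun z hz s hs hex => ?_⟩, hU, hG, fun z hz s hs => ?_,
    fun z hz s hs => ?_⟩
  · by_cases h : z ∈ ZZ B lo hi
    · rw [Set.indicator_of_mem h]; exact hbg z
    · rw [Set.indicator_of_notMem h, abs_zero]; exact hG
  · exact Set.indicator_of_notMem hz _
  · exact cel_of_mem (hpos z hz.1 hz.2).1
  · rw [Set.disjoint_left]
    intro z hz hz'
    have := (hpos z hz'.1 hz'.2).2.1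
    have h2 : lo z ≤ s := hz.1
    omega
  · rw [Set.disjoint_left]
    intro z hz hz'
    have := hch.2.2 z
    have h2 : s < hi z := hz.2
    omega
  · exact ⟨h3.1.trans h1, lt_of_le_of_lt h2 h4.2⟩
  · obtain ⟨s', hs', hz'⟩ := hex
    have h1 := hm s hs (jx s z.1) ⟨z, hz.1, hz.2, lt_of_le_of_lt hs' hz'.2, rfl⟩
    have h2 : ZZ B lo hi ∩ {w : ℝ × ℝ | cel s w.1 = cel s z.1} =
        {w | w ∈ B ∧ lo w < hi w ∧ jx s w.1 = jx s z.1} := by
      ext w
      constructor
      · rintro ⟨⟨a1, a2⟩, a3⟩; exact ⟨a1, a2, a3⟩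
      · rintro ⟨a1, a2, a3⟩; exact ⟨⟨a1, a2⟩, a3⟩
    rw [h2]
    have h3 : volume {w | w ∈ B ∧ lo w < hi w ∧ jx s w.1 = jx s z.1} ≠ ⊤ :=
      ne_top_of_le_ne_top hfB (measure_mono fun w hw => hw.1)
    rw [← ENNReal.ofReal_toReal h3]
    exact ENNReal.ofReal_le_ofReal h1
  · exact (hpos z hz.1 hz.2).2.2.1
  · exact near_mono (hpos z hz.1 hz.2).2.2 hs.1

/-! ### the pairing -/

theorem pair_PS {ζ : ℝ → ℝ} (hζ : ZetC ζ) {q : ℕ} {ω : ℝ → ℝ} (hω : PW (2 * q + 8) ω)
    {U g : ℝ × ℝ → ℝ} {S : ℕ} {lo hi : ℝ × ℝ → ℕ} {B : Set (ℝ × ℝ)} {R : Tube} {G : ℝ}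
    (hU : Measurable U) (hg : Measurable g) (hch : Chain S lo hi) (hB : MeasurableSet B)
    (hbg : ∀ z, |g z| ≤ G)
    (hpos : ∀ z ∈ B, lo z < hi z → z.1 ∈ R.I ∧ R.k ≤ lo z ∧ near U 1 R.b R.m (lo z) z)
    {σ : ℝ → ℕ} (hσ : Measurable σ) (a b : ℕ) (w : ℝ × ℝ) :
    Pair (iteratedDeriv (2 * q + 2) ω) ζ U B lo (fun z => min (hi z) (max R.k (σ z.1))) g a b w =
      2 * ∑ t ∈ Finset.Ico a b, PS (iteratedDeriv (4 * q + 4) (Xh ω)) ζ U
        ((ZZ B lo hi).indicator g) (kact (ac lo hi) σ) t w := by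
  set φ := iteratedDeriv (2 * q + 2) ω with hφ
  set Φ := iteratedDeriv (4 * q + 4) (Xh ω) with hΦ
  set h := (ZZ B lo hi).indicator g with hh
  have hn : Nice h := nice_h hg hch hB hbg hpos
  have hP := prf hω
  have hΦc : Continuous Φ := (Pair1x339.smooth_iter hP.sm _).continuous
  have hΦb : ∀ u, |Φ u| ≤ 1 := fun u => hP.bd _ (by omega) u
  have hA : ∀ s, MeasurableSet (kact (ac lo hi) σ s) := fun s =>
    (mac hch.1 hch.2.1 s).inter (measurableSet_lt measurable_const (hσ.comp measurable_fst))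
  unfold Pair
  rw [Finset.mul_sum]
  refine Finset.sum_congr rfl fun t _ => ?_
  have key : ∀ z, B.indicator g z *
      ∑ s ∈ Finset.Ico (lo z) (min (hi z) (max R.k (σ z.1))), cc s t * pr φ ζ U s t z w =
      ∑ s ∈ Finset.range (t + 1), (kact (ac lo hi) σ s).indicator
        (fun z => h z * (2 * Pair1x339.pp Φ ζ U t s w z)) z := by
    intro z
    by_cases hz : z ∈ ZZ B lo hi
    · have hzB : z ∈ B := hz.1
      have hk := (hpos z hz.1 hz.2).2.1
      have hhz : h z = g z := Set.indicator_of_mem hz _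
      rw [Set.indicator_of_mem hzB, Finset.mul_sum]
      have e1 : ∀ s ∈ Finset.Ico (lo z) (min (hi z) (max R.k (σ z.1))),
          g z * (cc s t * pr φ ζ U s t z w) =
          if s ≤ t then g z * (2 * Pair1x339.pp Φ ζ U t s w z) else 0 := by
        intro s _
        rw [cc, hφ, pr_eq hζ hω]
        split_ifs
        · rw [one_mul]
        · rw [zero_mul, mul_zero]
      have e2 : ∀ s ∈ Finset.range (t + 1), (kact (ac lo hi) σ s).indicator
          (fun z => h z * (2 * Pair1x339.pp Φ ζ U t s w z)) z =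
          if (lo z ≤ s ∧ s < hi z) ∧ s < σ z.1 then g z * (2 * Pair1x339.pp Φ ζ U t s w z)
            else 0 := by
        intro s _
        by_cases hs : (lo z ≤ s ∧ s < hi z) ∧ s < σ z.1
        · rw [if_pos hs, Set.indicator_of_mem (show z ∈ kact (ac lo hi) σ s from hs), hhz]
        · rw [if_neg hs, Set.indicator_of_notMem (show z ∉ kact (ac lo hi) σ s from hs)]
      rw [Finset.sum_congr rfl e1, Finset.sum_congr rfl e2, ← Finset.sum_filter,
        ← Finset.sum_filter]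
      refine Finset.sum_congr ?_ fun _ _ => rfl
      ext s
      simp only [Finset.mem_filter, Finset.mem_Ico, Finset.mem_range, lt_min_iff, lt_max_iff]
      omega
    · have hhz : h z = 0 := Set.indicator_of_notMem hz _
      have e2 : ∑ s ∈ Finset.range (t + 1), (kact (ac lo hi) σ s).indicator
          (fun z => h z * (2 * Pair1x339.pp Φ ζ U t s w z)) z = 0 := by
        refine Finset.sum_eq_zero fun s _ => ?_
        by_cases hs : z ∈ kact (ac lo hi) σ s
        · rw [Set.indicator_of_mem hs, hhz, zero_mul]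
        · rw [Set.indicator_of_notMem hs]
      rw [e2]
      by_cases hzB : z ∈ B
      · have : ¬ lo z < hi z := fun hc => hz ⟨hzB, hc⟩
        rw [Finset.Ico_eq_empty (by omega), Finset.sum_empty, mul_zero]
      · rw [Set.indicator_of_notMem hzB, zero_mul]
  rw [integral_congr_ae (Filter.Eventually.of_forall key)]
  have hi2 : ∀ s, Integrable (fun z => h z * (2 * Pair1x339.pp Φ ζ U t s w z)) := fun s => by
    have := (pp_int hζ hΦc hΦb hU hn t s w).const_mul 2
    refine this.congr (Filter.Eventually.of_forall fun z => ?_)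
    show 2 * (h z * Pair1x339.pp Φ ζ U t s w z) = h z * (2 * Pair1x339.pp Φ ζ U t s w z)
    ring
  rw [integral_finsetSum _ fun s _ => (hi2 s).indicator (hA s)]
  unfold PS
  rw [Finset.mul_sum]
  refine Finset.sum_congr rfl fun s _ => ?_
  rw [integral_indicator (hA s), ← integral_const_mul]
  congr 1
  ext z
  ring

/-! ### TREELOW -/

theorem treelow {ζ : ℝ → ℝ} (hζ : ZetC ζ) (h3 : T3 ζ) (q : ℕ) : TREELOW ζ q := by
  obtain ⟨C1, hC1, H1⟩ := h3 (4 * q + 4 + 1)
  obtain ⟨C2, hC2, H2⟩ := PLowx575.plowp hζ (q + 1) (4 * q + 4) (by omega) (by omega)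
  refine ⟨C1 + 2 * C2 * C1, by positivity, ?_⟩
  intro ω hω U g S lo hi B R G D Λ hU hg hch hB hfB hbg hD hΛ hpos hm
  have hG : 0 ≤ G := (abs_nonneg _).trans (hbg 0)
  have hlen := R.len_pos
  by_cases htriv : G = 0 ∨ S < R.k
  · refine ⟨fun _ => max R.k S, measurable_const, fun _ => le_max_left _ _, ?_, ?_⟩
    · have : {z | z ∈ B ∧ lo z < hi z ∧ max R.k S < hi z} = (∅ : Set (ℝ × ℝ)) := by
        ext z
        simp only [Set.mem_ofPred_eq, Set.mem_empty_iff_false, iff_false, not_and]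
        intro _ _ hc
        have := hch.2.2 z
        have h2 : S ≤ max R.k S := le_max_right _ _
        omega
      rw [this, measure_empty, ENNReal.toReal_zero]
      positivity
    · intro z' a b _ _ _
      have : Pair (iteratedDeriv (2 * q + 2) ω) ζ U B lo (fun z => min (hi z) (max R.k S)) g a b z'
          = 0 := by
        unfold Pair
        refine Finset.sum_eq_zero fun t _ => ?_
        rw [← integral_zero (ℝ × ℝ) ℝ (μ := volume)]
        congr 1
        ext z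
        rcases htriv with h0 | hS
        · have hg0 : g z = 0 := by
            have := hbg z
            rw [h0] at this
            exact abs_nonpos_iff.1 this
          have : B.indicator g z = 0 := by
            by_cases hz : z ∈ B
            · rw [Set.indicator_of_mem hz, hg0]
            · rw [Set.indicator_of_notMem hz]
          rw [this, zero_mul]
        · by_cases hz : z ∈ B
          · have h1 : ¬ lo z < hi z := fun hc => by
              have h2 := (hpos z hz hc).2.1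
              have h3 := hch.2.2 z
              omega
            rw [Finset.Ico_eq_empty (by show ¬ lo z < min (hi z) (max R.k S); omega),
              Finset.sum_empty, mul_zero]
          · rw [Set.indicator_of_notMem hz, zero_mul]
      rw [this, abs_zero]
      positivity
  · push Not at htriv
    obtain ⟨hG0, hkS⟩ := htriv
    have hGp : 0 < G := lt_of_le_of_ne hG (Ne.symm hG0)
    have hΛ0 : 0 < Λ := by linarith
    set T : ℝ := G * (Λ * D) with hT
    have hTp : 0 < T := by positivity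
    have hHD : G * D ≤ T := by
      rw [hT]
      have : D ≤ Λ * D := by nlinarith
      exact mul_le_mul_of_nonneg_left this hG
    have hLT := ltree hU hg hch hB hfB hbg hD hpos hm
    obtain ⟨σ, hσ, -, hrem, k1, k2, k3, k4⟩ := H1 (fun i => iteratedDeriv i (Xh ω))
      (PLowx575.pf_of (prf hω)) S R.k R.j _ _ _ G D U R.b R.m hkS hLT T hHD hTp
    refine ⟨fun x => max R.k (σ x), measurable_const.max hσ.meas, fun _ => le_max_left _ _, ?_, ?_⟩
    · have hsub : {z | z ∈ B ∧ lo z < hi z ∧ max R.k (σ z.1) < hi z} ⊆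
          remv (ac lo hi) (ZZ B lo hi) σ := by
        rintro z ⟨a1, a2, a3⟩
        refine ⟨⟨a1, a2⟩, max (lo z) (σ z.1), ⟨le_max_left _ _, ?_⟩, le_max_right _ _⟩
        exact max_lt a2 (lt_of_le_of_lt (le_max_right _ _) a3)
      have h1 := (measure_mono hsub).trans hrem
      have h2 : (volume {z | z ∈ B ∧ lo z < hi z ∧ max R.k (σ z.1) < hi z}).toReal ≤
          C1 * D * (G * D / T) ^ 2 * (1 / 2) ^ R.k :=
        ENNReal.toReal_le_of_le_ofReal (by positivity) h1
      refine h2.trans ?_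
      have e : G * D / T = 1 / Λ := by
        rw [hT]; field_simp
      rw [e]
      have el : (1 / 2 : ℝ) ^ R.k = R.len := rfl
      rw [el]
      have h3 : C1 * D * (1 / Λ) ^ 2 * R.len = C1 * ((1 / Λ) ^ 2 * D * R.len) := by ring
      have h4 : (C1 + 2 * C2 * C1) * (1 / Λ) ^ 2 * D * R.len =
          (C1 + 2 * C2 * C1) * ((1 / Λ) ^ 2 * D * R.len) := by ring
      rw [h3, h4]
      refine mul_le_mul_of_nonneg_right ?_ (by positivity)
      have : 0 ≤ 2 * C2 * C1 := by positivity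
      linarith
    · intro z' a b _ _ hbS
      have hA : ∀ s, MeasurableSet (kact (ac lo hi) σ s) := fun s =>
        (mac hch.1 hch.2.1 s).inter
          (measurableSet_lt measurable_const (hσ.meas.comp measurable_fst))
      have hK : Kept ζ (Xh ω) (4 * q + 4) S R.k R.j U ((ZZ B lo hi).indicator g)
          (kact (ac lo hi) σ) R.b R.m (C1 * T) := by
        refine ⟨hLT.nice, hA, hU, by positivity, ?_, k1, k2, fun a c hac hc v x =>
          k3 (4 * q + 4) (by omega) a c hac hc v x, k4⟩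
        intro s z hz hz0
        have hZ : z ∈ ZZ B lo hi := by
          by_contra hc
          exact hz0 (Set.indicator_of_notMem hc _)
        have h1 := hpos z hZ.1 hZ.2
        exact ⟨h1.2.1.trans hz.1.1, cel_of_mem h1.1, h1.2.2.1, near_mono h1.2.2 hz.1.1⟩
      have h1 := (H2 (Xh ω) (prf hω) S R.k R.j U _ _ R.b R.m (C1 * T) hK z' a b hbS).1
      rw [pair_PS hζ hω hU hg hch hB hbg hpos hσ.meas a b z', abs_mul, abs_of_pos (by norm_num :
        (0 : ℝ) < 2)]
      have erv : rv R.b R.m z' = z'.2 - R.line z'.1 := rfl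
      rw [erv] at h1
      set X : ℝ := 1 + |U z' - R.m| * (1 / 2) ^ (b - 1) + |z'.2 - R.line z'.1| with hX
      have hX1 : 1 ≤ X := by
        have e1 : 0 ≤ |U z' - R.m| * (1 / 2 : ℝ) ^ (b - 1) := by positivity
        have e2 : 0 ≤ |z'.2 - R.line z'.1| := abs_nonneg _
        rw [hX]; linarith
      have hX0 : 0 < X := by linarith
      calc 2 * |∑ t ∈ Finset.Ico a b, PS (iteratedDeriv (4 * q + 4) (Xh ω)) ζ U
            ((ZZ B lo hi).indicator g) (kact (ac lo hi) σ) t z'|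
          ≤ 2 * (C2 * (C1 * T) / X ^ (q + 1)) := by linarith
        _ ≤ 2 * (C2 * (C1 * T) / X ^ q) := by
            have : X ^ q ≤ X ^ (q + 1) := pow_le_pow_right₀ hX1 (by omega)
            gcongr
        _ = (2 * C2 * C1 * T) / X ^ q := by ring
        _ ≤ (C1 + 2 * C2 * C1) * G * (Λ * D) / X ^ q := by
            have e1 : (C1 + 2 * C2 * C1) * G * (Λ * D) = (C1 + 2 * C2 * C1) * T := by
              rw [hT]; ring
            rw [e1]
            have : 2 * C2 * C1 * T ≤ (C1 + 2 * C2 * C1) * T := by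
              refine mul_le_mul_of_nonneg_right ?_ hTp.le
              linarith
            gcongr

theorem l_treelow : L_TREELOW := fun _ hζ => treelow hζ (T3x153.t3 hζ) qq

end Crest.Agent.R087.TreeLowx575
end
end

-- ▼ part R087/Last_542

/-! Row 87 (S0115), helper542: all leaves inserted. -/

set_option autoImplicit false

namespace Crest.Agent.R087.Lastx542

open Crest.Agent.R087.Sh1x283

theorem tgt : TGT :=
  Plugx542.fin3 HNormx752.l_hnorm TreeLowx575.l_treelow LowNx282.l_lown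

end Crest.Agent.R087.Lastx542
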