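import Crest.Agent.R087.GateDef_273
import Crest.Agent.R087.OPdef_799
import Crest.Agent.R087.GateA_273
import Crest.Agent.R087.TreeIf_153
import Mathlib
import Crest.Agent.R087.Pair1_339

-- ▼ part R087/PairCore_975
section

/-!
Row 87 (S0115), operator part, analytic core of PAIR-low DEEP (helper975).

`mz`    : `|∫ ζ(2^s' u - j') F u du| ≤ C 2^-s' 2^-s' sup |F'|` (mean zero of `ζ`)
`theta` : the straightening error of one pair.
-/

set_option autoImplicit false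

noncomputable section

open MeasureTheory Crest.Agent.R087.Sh0x283 Crest.Agent.R087.Sh1x283 Crest.Agent.R087.GateDefx273

namespace Crest.Agent.R087.PairCorex975

theorem zet_cont {ζ : ℝ → ℝ} (h : ZetC ζ) : Continuous ζ := h.1.continuous


theorem zet_cs {ζ : ℝ → ℝ} (h : ZetC ζ) : HasCompactSupport ζ :=
  HasCompactSupport.of_support_subset_isCompact (isCompact_Icc (a := (1 / 8 : ℝ)) (b := 7 / 8))
    (fun t ht => h.2.1 t ht)

theorem zet_int {ζ : ℝ → ℝ} (h : ZetC ζ) : Integrable ζ :=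
  (zet_cont h).integrable_of_hasCompactSupport (zet_cs h)

/-- mean zero -/
theorem zet_mean {ζ : ℝ → ℝ} (h : ZetC ζ) : ∫ t, ζ t = 0 := by
  have h1 : ∫ t, ζ (1 - t) = ∫ t, ζ t := integral_sub_left_eq_self ζ volume 1
  have h2 : ∫ t, ζ (1 - t) = - ∫ t, ζ t := by
    rw [← integral_neg]
    exact integral_congr_ae (Filter.Eventually.of_forall fun t => h.2.2 t)
  linarith

theorem zet_bdd {ζ : ℝ → ℝ} (h : ZetC ζ) : ∃ C : ℝ, 0 ≤ C ∧ ∀ t, |ζ t| ≤ C := by
  obtain ⟨C, hC⟩ := (zet_cs h).exists_bound_of_continuous (zet_cont h)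
  exact ⟨max C 0, le_max_right _ _, fun t => (hC t).trans (le_max_left _ _)⟩

theorem zet_bdd' {ζ : ℝ → ℝ} (h : ZetC ζ) : ∃ C : ℝ, 0 ≤ C ∧ ∀ t, |deriv ζ t| ≤ C := by
  have hc : Continuous (deriv ζ) := h.1.continuous_deriv (by norm_num)
  obtain ⟨C, hC⟩ := (zet_cs h).deriv.exists_bound_of_continuous hc
  exact ⟨max C 0, le_max_right _ _, fun t => (hC t).trans (le_max_left _ _)⟩

theorem zet_deriv {ζ : ℝ → ℝ} (h : ZetC ζ) (t : ℝ) : HasDerivAt ζ (deriv ζ t) t :=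
  (h.1.differentiable (by norm_num) t).hasDerivAt

/-- change of variables `t = a u - j` -/
theorem cov {a : ℝ} (ha : 0 < a) (j : ℝ) (f : ℝ → ℝ) : ∫ u, f (a * u - j) = a⁻¹ * ∫ t, f t := by
  have h1 := Measure.integral_comp_mul_left (fun v => f (v - j)) a
  rw [integral_sub_right_eq_self f j, abs_of_pos (inv_pos.2 ha), smul_eq_mul] at h1
  exact h1

theorem zcell_int {ζ : ℝ → ℝ} (h : ZetC ζ) {a : ℝ} (ha : 0 < a) (j : ℝ) :
    Integrable fun u => ζ (a * u - j) := by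
  have h1 : Integrable fun u => ζ (u - j) := (zet_int h).comp_sub_right j
  exact h1.comp_mul_left' ha.ne'

/-- on the support of `ζ (a u - j)`: `u` in the cell -/
theorem zcell_mem {ζ : ℝ → ℝ} (h : ZetC ζ) {a : ℝ} (ha : 0 < a) {j u : ℝ} (hu : ζ (a * u - j) ≠ 0) :
    j / a < u ∧ u < (j + 1) / a := by
  have := h.2.1 _ hu
  constructor
  · rw [div_lt_iff₀ ha]; linarith
  · rw [lt_div_iff₀ ha]; linarith

/-- **mean zero of `ζ_J`**: only the oscillation of `F` over the cell counts. -/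
theorem mz {ζ : ℝ → ℝ} (h : ZetC ζ) {C₀ : ℝ} (hC₀ : ∀ t, |ζ t| ≤ C₀) {a : ℝ} (ha : 0 < a) (j : ℝ)
    (F F' : ℝ → ℝ) (M : ℝ) (hF : ∀ u ∈ Set.Icc (j / a) ((j + 1) / a), HasDerivAt F (F' u) u)
    (hF' : ∀ u ∈ Set.Icc (j / a) ((j + 1) / a), |F' u| ≤ M) :
    |∫ u, ζ (a * u - j) * F u| ≤ C₀ * M * a⁻¹ * a⁻¹ := by
  have hlen : (j + 1) / a - j / a = a⁻¹ := by field_simp; ring
  have hle : j / a ≤ (j + 1) / a := by
    have := inv_pos.2 ha
    linarith
  have hcF : ContinuousOn F (Set.Icc (j / a) ((j + 1) / a)) := fun u hu =>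
    (hF u hu).continuousAt.continuousWithinAt
  have hcz : Continuous fun u => ζ (a * u - j) := (zet_cont h).comp (by fun_prop)
  have hsupp : ∀ G : ℝ → ℝ, Function.support (fun u => ζ (a * u - j) * G u) ⊆
      Set.Icc (j / a) ((j + 1) / a) := by
    intro G u hu
    have h1 : ζ (a * u - j) ≠ 0 := left_ne_zero_of_mul hu
    have h2 := zcell_mem h ha h1
    exact ⟨h2.1.le, h2.2.le⟩
  have hi1 : Integrable fun u => ζ (a * u - j) * F u := by
    rw [← integrableOn_iff_integrable_of_support_subset (hsupp F)]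
    exact (hcz.continuousOn.mul hcF).integrableOn_Icc
  have hi2 : Integrable fun u => ζ (a * u - j) * F (j / a) :=
    (zcell_int h ha j).mul_const _
  have h0 : ∫ u, ζ (a * u - j) * F (j / a) = 0 := by
    rw [integral_mul_const, cov ha j ζ, zet_mean h]
    simp
  have h1 : ∫ u, ζ (a * u - j) * F u = ∫ u, ζ (a * u - j) * (F u - F (j / a)) := by
    have h2 : ∫ u, ζ (a * u - j) * (F u - F (j / a)) =
        (∫ u, ζ (a * u - j) * F u) - ∫ u, ζ (a * u - j) * F (j / a) := by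
      rw [← integral_sub hi1 hi2]
      exact integral_congr_ae (Filter.Eventually.of_forall fun u => by ring)
    rw [h2, h0, sub_zero]
  rw [h1, ← setIntegral_eq_integral_of_forall_compl_eq_zero (s := Set.Icc (j / a) ((j + 1) / a))
    (fun u hu => by
      by_contra hne
      exact hu (hsupp (fun u => F u - F (j / a)) hne))]
  have hM : 0 ≤ M := (abs_nonneg _).trans (hF' (j / a) ⟨le_rfl, hle⟩)
  have hC : 0 ≤ C₀ := (abs_nonneg _).trans (hC₀ 0)
  have hosc : ∀ u ∈ Set.Icc (j / a) ((j + 1) / a), |F u - F (j / a)| ≤ M * a⁻¹ := by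
    intro u hu
    have := Convex.norm_image_sub_le_of_norm_hasDerivWithin_le (f := F) (f' := F') (C := M)
      (s := Set.Icc (j / a) ((j + 1) / a)) (x := j / a) (y := u)
      (fun x hx => (hF x hx).hasDerivWithinAt) (fun x hx => hF' x hx) (convex_Icc _ _)
      ⟨le_rfl, hle⟩ hu
    rw [Real.norm_eq_abs, Real.norm_eq_abs] at this
    refine this.trans ?_
    have h3 : |u - j / a| ≤ a⁻¹ := by
      rw [abs_of_nonneg (by linarith [hu.1])]
      linarith [hu.2]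
    exact mul_le_mul_of_nonneg_left h3 hM
  have key := norm_setIntegral_le_of_norm_le_const (μ := volume)
    (s := Set.Icc (j / a) ((j + 1) / a)) (f := fun u => ζ (a * u - j) * (F u - F (j / a)))
    (C := C₀ * (M * a⁻¹)) (by rw [Real.volume_Icc]; exact ENNReal.ofReal_lt_top) (fun u hu => by
      rw [Real.norm_eq_abs, abs_mul]
      exact mul_le_mul (hC₀ _) (hosc u hu) (abs_nonneg _) hC)
  rw [Real.norm_eq_abs, measureReal_def, Real.volume_Icc, hlen,
    ENNReal.toReal_ofReal (inv_pos.2 ha).le] at key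
  calc _ ≤ C₀ * (M * a⁻¹) * a⁻¹ := key
    _ = _ := by ring

/-- **straightening error of one pair**: phase `A u = r + (u - x') κ`, perturbed by `(u - x) δ`. -/
theorem theta {ζ : ℝ → ℝ} (h : ZetC ζ) {C₀ C₁ : ℝ} (hC₀ : ∀ t, |ζ t| ≤ C₀)
    (hC₁ : ∀ t, |deriv ζ t| ≤ C₁) {a a' : ℝ} (ha : 0 < a) (ha' : 0 < a') (j j' : ℝ)
    (Φ Φ' Φ'' : ℝ → ℝ) (hΦ : ∀ v, HasDerivAt Φ (Φ' v) v) (hΦ' : ∀ v, HasDerivAt Φ' (Φ'' v) v)
    {L₁ L₂ : ℝ} (hL₁ : ∀ v, |Φ' v| ≤ L₁) (hL₂ : ∀ v, |Φ'' v| ≤ L₂) (r x' κ x δ : ℝ)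
    (hx : ∀ u ∈ Set.Icc (j' / a') ((j' + 1) / a'), |u - x| ≤ a⁻¹) :
    |∫ u, ζ (a' * u - j') * (ζ (a * u - j) *
        (Φ (r + (u - x') * κ + (u - x) * δ) - Φ (r + (u - x') * κ)))| ≤
      C₀ * (|δ| * ((C₀ + C₁) * L₁ + C₀ * L₂ * (|κ| * a⁻¹))) * a'⁻¹ * a'⁻¹ := by
  have hlip : ∀ v w, |Φ v - Φ w| ≤ L₁ * |v - w| := by
    intro v w
    have := Convex.norm_image_sub_le_of_norm_hasDerivWithin_le (f := Φ) (f' := Φ') (C := L₁)
      (s := Set.univ) (x := w) (y := v) (fun x _ => (hΦ x).hasDerivWithinAt) (fun x _ => hL₁ x)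
      convex_univ trivial trivial
    simpa using this
  have hlip' : ∀ v w, |Φ' v - Φ' w| ≤ L₂ * |v - w| := by
    intro v w
    have := Convex.norm_image_sub_le_of_norm_hasDerivWithin_le (f := Φ') (f' := Φ'') (C := L₂)
      (s := Set.univ) (x := w) (y := v) (fun x _ => (hΦ' x).hasDerivWithinAt) (fun x _ => hL₂ x)
      convex_univ trivial trivial
    simpa using this
  have hC : 0 ≤ C₀ := (abs_nonneg _).trans (hC₀ 0)
  have hCp : 0 ≤ C₁ := (abs_nonneg _).trans (hC₁ 0)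
  have hL1 : 0 ≤ L₁ := (abs_nonneg _).trans (hL₁ 0)
  have hL2 : 0 ≤ L₂ := (abs_nonneg _).trans (hL₂ 0)
  refine mz h hC₀ ha' j' _ (fun u => deriv ζ (a * u - j) * a *
      (Φ (r + (u - x') * κ + (u - x) * δ) - Φ (r + (u - x') * κ)) +
      ζ (a * u - j) * (Φ' (r + (u - x') * κ + (u - x) * δ) * (κ + δ) - Φ' (r + (u - x') * κ) * κ))
      _ ?_ ?_
  · intro u _
    have e1 : HasDerivAt (fun u => a * u - j) a u := by
      simpa using ((hasDerivAt_id u).const_mul a).sub_const j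
    have e2 : HasDerivAt (fun u => r + (u - x') * κ) κ u := by
      simpa using (((hasDerivAt_id u).sub_const x').mul_const κ).const_add r
    have e3 : HasDerivAt (fun u => (u - x) * δ) δ u := by
      simpa using ((hasDerivAt_id u).sub_const x).mul_const δ
    have e4 := (zet_deriv h (a * u - j)).comp u e1
    have e5 := (hΦ (r + (u - x') * κ + (u - x) * δ)).comp u (e2.add e3)
    have e6 := (hΦ (r + (u - x') * κ)).comp u e2
    exact e4.mul (e5.sub e6)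
  · intro u hu
    have hux := hx u hu
    have b1 : |Φ (r + (u - x') * κ + (u - x) * δ) - Φ (r + (u - x') * κ)| ≤ L₁ * (a⁻¹ * |δ|) := by
      refine (hlip _ _).trans (mul_le_mul_of_nonneg_left ?_ hL1)
      rw [add_sub_cancel_left, abs_mul]
      exact mul_le_mul_of_nonneg_right hux (abs_nonneg _)
    have b2 : |Φ' (r + (u - x') * κ + (u - x) * δ) - Φ' (r + (u - x') * κ)| ≤
        L₂ * (a⁻¹ * |δ|) := by
      refine (hlip' _ _).trans (mul_le_mul_of_nonneg_left ?_ hL2)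
      rw [add_sub_cancel_left, abs_mul]
      exact mul_le_mul_of_nonneg_right hux (abs_nonneg _)
    have b3 : |Φ' (r + (u - x') * κ + (u - x) * δ) * (κ + δ) - Φ' (r + (u - x') * κ) * κ| ≤
        L₁ * |δ| + L₂ * (a⁻¹ * |δ|) * |κ| := by
      have : Φ' (r + (u - x') * κ + (u - x) * δ) * (κ + δ) - Φ' (r + (u - x') * κ) * κ =
          Φ' (r + (u - x') * κ + (u - x) * δ) * δ +
          (Φ' (r + (u - x') * κ + (u - x) * δ) - Φ' (r + (u - x') * κ)) * κ := by ring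
      rw [this]
      refine (abs_add_le _ _).trans (add_le_add ?_ ?_)
      · rw [abs_mul]
        exact mul_le_mul_of_nonneg_right (hL₁ _) (abs_nonneg _)
      · rw [abs_mul]
        exact mul_le_mul_of_nonneg_right b2 (abs_nonneg _)
    calc _ ≤ |deriv ζ (a * u - j)| * a *
          |Φ (r + (u - x') * κ + (u - x) * δ) - Φ (r + (u - x') * κ)| +
          |ζ (a * u - j)| *
          |Φ' (r + (u - x') * κ + (u - x) * δ) * (κ + δ) - Φ' (r + (u - x') * κ) * κ| := by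
          refine (abs_add_le _ _).trans (le_of_eq ?_)
          rw [abs_mul, abs_mul, abs_mul, abs_of_pos ha]
      _ ≤ C₁ * a * (L₁ * (a⁻¹ * |δ|)) + C₀ * (L₁ * |δ| + L₂ * (a⁻¹ * |δ|) * |κ|) := by
          refine add_le_add ?_ ?_
          · exact mul_le_mul (mul_le_mul_of_nonneg_right (hC₁ _) ha.le) b1 (abs_nonneg _)
              (by positivity)
          · exact mul_le_mul (hC₀ _) b3 (abs_nonneg _) hC
      _ = _ := by
          field_simp
          ring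

end Crest.Agent.R087.PairCorex975
end
end

-- ▼ part R087/PairDeepA_975
section

/-!
Row 87 (S0115), operator part, PAIR-low DEEP (helper975), one short point against one straightened tree.

`gg`   : the kernel of a pair (long `(s,z)`, short `(s',z')`)
`alp`  : coefficient of the tree along the line `b + m t`, vertical variable `v`
`s1`   : the slope defect of one scale
-/

set_option autoImplicit false

noncomputable section

open MeasureTheory Crest.Agent.R087.Sh0x283 Crest.Agent.R087.Sh1x283 Crest.Agent.R087.GateDefx273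
open Crest.Agent.R087.OPdefx799 Crest.Agent.R087.PairCorex975

namespace Crest.Agent.R087.PairDeepAx975

/-- points in the cell of scale `s` of `x` -/
def cz (s : ℕ) (x : ℝ) : Set (ℝ × ℝ) := {z | ix s z.1 = ix s x}

/-- pair kernel -/
def gg (Φ ζ : ℝ → ℝ) (U : ℝ × ℝ → ℝ) (s s' : ℕ) (z z' : ℝ × ℝ) : ℝ :=
  ((2 : ℝ) ^ s * gt (Int.fract ((2 : ℝ) ^ s * z.1))) *
    ((2 : ℝ) ^ s' * gt (Int.fract ((2 : ℝ) ^ s' * z'.1))) *
    ∫ u, ζ ((2 : ℝ) ^ s' * u - ix s' z'.1) * (ζ ((2 : ℝ) ^ s * u - ix s z.1) *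
      Φ (ln U z u - ln U z' u))

/-- tree coefficient -/
def alp (Ψ : ℝ → ℝ) (h : ℝ × ℝ → ℝ) (b m : ℝ) (s : ℕ) (x v : ℝ) : ℝ :=
  (2 : ℝ) ^ s * ∫ z in cz s x, h z * (gt (Int.fract ((2 : ℝ) ^ s * z.1)) *
    Ψ (z.2 - (b + m * z.1) + v))

/-- slope defect -/
def s1 (h U : ℝ × ℝ → ℝ) (m : ℝ) (s : ℕ) (x : ℝ) : ℝ :=
  (2 : ℝ) ^ s * ∫ z in cz s x, |h z| * (|U z - m| * (1 / 2 : ℝ) ^ s)

theorem measurable_ix (s : ℕ) : Measurable (ix s) :=
  Int.measurable_floor.comp (measurable_id.const_mul _)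


theorem measurableSet_cz (s : ℕ) (x : ℝ) : MeasurableSet (cz s x) :=
  ((measurable_ix s).comp measurable_fst) (measurableSet_singleton (ix s x))

theorem measurable_gtf (s : ℕ) : Measurable fun x : ℝ => gt (Int.fract ((2 : ℝ) ^ s * x)) :=
  GateAx273.gt_meas.comp (measurable_fract.comp (measurable_id.const_mul _))

theorem ix_le {s : ℕ} {x : ℝ} : (ix s x : ℝ) / 2 ^ s ≤ x := by
  have h : (0 : ℝ) < 2 ^ s := by positivity
  rw [div_le_iff₀ h]
  have := Int.floor_le ((2 : ℝ) ^ s * x)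
  unfold ix
  linarith

theorem lt_ix {s : ℕ} {x : ℝ} : x < ((ix s x : ℝ) + 1) / 2 ^ s := by
  have h : (0 : ℝ) < 2 ^ s := by positivity
  rw [lt_div_iff₀ h]
  have := Int.lt_floor_add_one ((2 : ℝ) ^ s * x)
  unfold ix
  linarith

/-- nesting: same `s'`-cell implies same `s`-cell for `s ≤ s'` -/
theorem ix_mono {s s' : ℕ} (h : s ≤ s') {x y : ℝ} (e : ix s' x = ix s' y) : ix s x = ix s y := by
  have key : ∀ t : ℝ, ix s t = ix s' t / 2 ^ (s' - s) := by
    intro t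
    have h1 : ((2 : ℝ) ^ s * t) = ((2 : ℝ) ^ s' * t) / ((2 ^ (s' - s) : ℕ) : ℝ) := by
      rw [eq_div_iff (by positivity)]
      push_cast
      have : (2 : ℝ) ^ s' = 2 ^ s * 2 ^ (s' - s) := by rw [← pow_add]; congr 1; omega
      rw [this]; ring
    unfold ix
    rw [h1, Int.floor_div_natCast]
    push_cast
    rfl
  rw [key x, key y, e]

theorem nice_int {f : ℝ × ℝ → ℝ} (hf : Nice f) : Integrable f := ALGx390.nice_int hf

theorem measurable_par {F : (ℝ × ℝ) × ℝ → ℝ} (hF : Measurable F) :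
    Measurable fun z => ∫ u, F (z, u) :=
  (hF.stronglyMeasurable.integral_prod_right' (ν := (volume : Measure ℝ))).measurable

/-- Fubini for `h z * ∫ q u * F z u` -/
theorem swap {μ : Measure (ℝ × ℝ)} [SFinite μ] {h : ℝ × ℝ → ℝ} (hh : Integrable h μ) {q : ℝ → ℝ}
    (hq : Integrable q) {F : (ℝ × ℝ) × ℝ → ℝ} (hF : Measurable F) {M : ℝ} (hM : ∀ p, |F p| ≤ M) :
    ∫ z, (h z * ∫ u, q u * F (z, u)) ∂μ = ∫ u, (q u * ∫ z, h z * F (z, u) ∂μ) := by
  have h1 : Integrable (fun p : (ℝ × ℝ) × ℝ => h p.1 * q p.2) (μ.prod volume) := hh.mul_prod hq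
  have h2 : Integrable (fun p : (ℝ × ℝ) × ℝ => h p.1 * q p.2 * F p) (μ.prod volume) :=
    h1.mul_bdd (c := M) hF.aestronglyMeasurable (Filter.Eventually.of_forall fun p => by
      rw [Real.norm_eq_abs]; exact hM p)
  have e1 : ∫ z, (h z * ∫ u, q u * F (z, u)) ∂μ = ∫ z, (∫ u, h z * q u * F (z, u)) ∂μ := by
    refine integral_congr_ae (Filter.Eventually.of_forall fun z => ?_)
    show h z * ∫ u, q u * F (z, u) = ∫ u, h z * q u * F (z, u)
    rw [← integral_const_mul]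
    exact integral_congr_ae (Filter.Eventually.of_forall fun u => by ring)
  have e2 : ∫ u, (q u * ∫ z, h z * F (z, u) ∂μ) = ∫ u, (∫ z, h z * q u * F (z, u) ∂μ) := by
    refine integral_congr_ae (Filter.Eventually.of_forall fun u => ?_)
    show q u * ∫ z, h z * F (z, u) ∂μ = ∫ z, h z * q u * F (z, u) ∂μ
    rw [← integral_const_mul]
    exact integral_congr_ae (Filter.Eventually.of_forall fun z => by ring)
  rw [e1, e2]
  exact integral_integral_swap (f := fun z u => h z * q u * F (z, u)) h2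

/-- `ζ (2^s u - n) ≠ 0` puts `u` in the cell `n` -/
theorem ix_of_zet {ζ : ℝ → ℝ} (hζ : ZetC ζ) {s : ℕ} {u : ℝ} {n : ℤ}
    (h : ζ ((2 : ℝ) ^ s * u - n) ≠ 0) : ix s u = n := by
  have := hζ.2.1 _ h
  unfold ix
  rw [Int.floor_eq_iff]
  constructor <;> linarith

theorem gg_zero {Φ ζ : ℝ → ℝ} (hζ : ZetC ζ) (U : ℝ × ℝ → ℝ) {s s' : ℕ} (hs : s ≤ s') {z z' : ℝ × ℝ}
    (hz : z ∉ cz s z'.1) : gg Φ ζ U s s' z z' = 0 := by
  unfold gg
  have : ∫ u, ζ ((2 : ℝ) ^ s' * u - ix s' z'.1) * (ζ ((2 : ℝ) ^ s * u - ix s z.1) *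
      Φ (ln U z u - ln U z' u)) = 0 := by
    rw [← integral_zero ℝ ℝ]
    refine integral_congr_ae (Filter.Eventually.of_forall fun u => ?_)
    show ζ ((2 : ℝ) ^ s' * u - ix s' z'.1) * (ζ ((2 : ℝ) ^ s * u - ix s z.1) *
      Φ (ln U z u - ln U z' u)) = 0
    by_contra hne
    have h1 := left_ne_zero_of_mul hne
    have h2 := left_ne_zero_of_mul (right_ne_zero_of_mul hne)
    have e1 := ix_mono hs (ix_of_zet hζ h1)
    have e2 := ix_of_zet hζ h2
    exact hz (by show ix s z.1 = ix s z'.1; rw [← e2, e1])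
  rw [this, mul_zero]

/-- both points in the (closed) cell of scale `s` -/
theorem cell_dist {s s' : ℕ} (hs : s ≤ s') {x' x u : ℝ} (hx : ix s x = ix s x')
    (hu : u ∈ Set.Icc ((ix s' x' : ℝ) / 2 ^ s') (((ix s' x' : ℝ) + 1) / 2 ^ s')) :
    |u - x| ≤ ((2 : ℝ) ^ s)⁻¹ := by
  have h2 : (0 : ℝ) < 2 ^ s := by positivity
  have h2' : (0 : ℝ) < 2 ^ s' := by positivity
  -- the closed `s'`-cell of `x'` is inside the closed `s`-cell
  have e : ix s x' = ix s' x' / 2 ^ (s' - s) := by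
    have h1 : ((2 : ℝ) ^ s * x') = ((2 : ℝ) ^ s' * x') / ((2 ^ (s' - s) : ℕ) : ℝ) := by
      rw [eq_div_iff (by positivity)]
      push_cast
      have : (2 : ℝ) ^ s' = 2 ^ s * 2 ^ (s' - s) := by rw [← pow_add]; congr 1; omega
      rw [this]; ring
    unfold ix
    rw [h1, Int.floor_div_natCast]
    push_cast
    rfl
  have hp : (0 : ℤ) < 2 ^ (s' - s) := by positivity
  have l1 : ix s x' * 2 ^ (s' - s) ≤ ix s' x' := by rw [e]; exact Int.ediv_mul_le _ hp.ne'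
  have l2 : ix s' x' + 1 ≤ (ix s x' + 1) * 2 ^ (s' - s) := by
    rw [e]
    have := Int.lt_ediv_add_one_mul_self (ix s' x') hp
    linarith
  have l1' : (ix s x' : ℝ) * 2 ^ (s' - s) ≤ ix s' x' := by exact_mod_cast l1
  have l2' : (ix s' x' : ℝ) + 1 ≤ ((ix s x' : ℝ) + 1) * 2 ^ (s' - s) := by exact_mod_cast l2
  have hpow : (2 : ℝ) ^ s' = 2 ^ s * 2 ^ (s' - s) := by rw [← pow_add]; congr 1; omega
  have hq : (0 : ℝ) < 2 ^ (s' - s) := by positivity
  have a1 : (ix s x' : ℝ) / 2 ^ s ≤ u := by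
    refine le_trans ?_ hu.1
    rw [div_le_div_iff₀ h2 h2', hpow]
    nlinarith
  have a2 : u ≤ ((ix s x' : ℝ) + 1) / 2 ^ s := by
    refine hu.2.trans ?_
    rw [div_le_div_iff₀ h2' h2, hpow]
    nlinarith
  have b1 : (ix s x' : ℝ) / 2 ^ s ≤ x := by rw [← hx]; exact ix_le
  have b2 : x < ((ix s x' : ℝ) + 1) / 2 ^ s := by rw [← hx]; exact lt_ix
  have hl : ((ix s x' : ℝ) + 1) / 2 ^ s = (ix s x' : ℝ) / 2 ^ s + (2 ^ s)⁻¹ := by
    field_simp
  rw [abs_le]
  constructor <;> linarith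

/-- `C²` bounds of the autocorrelation -/
structure PB (Φ Φ' Φ'' : ℝ → ℝ) (L₀ L₁ L₂ : ℝ) : Prop where
  d : ∀ v, HasDerivAt Φ (Φ' v) v
  d' : ∀ v, HasDerivAt Φ' (Φ'' v) v
  b0 : ∀ v, |Φ v| ≤ L₀
  b1 : ∀ v, |Φ' v| ≤ L₁
  b2 : ∀ v, |Φ'' v| ≤ L₂

theorem PB.cont {Φ Φ' Φ'' : ℝ → ℝ} {L₀ L₁ L₂ : ℝ} (h : PB Φ Φ' Φ'' L₀ L₁ L₂) : Continuous Φ :=
  continuous_iff_continuousAt.2 fun v => (h.d v).continuousAt


theorem straighten (U : ℝ × ℝ → ℝ) (b m : ℝ) (z z' : ℝ × ℝ) (u : ℝ) :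
    ln U z u - ln U z' u = (z.2 - (b + m * z.1) + (b + m * z'.1 - z'.2)) + (u - z'.1) * (m - U z') +
      (u - z.1) * (U z - m) := by
  unfold ln; ring

/-- **one pair of scales**: straightening of the long population onto the line `b + m t` -/
theorem one {ζ : ℝ → ℝ} (hζ : ZetC ζ) {C₀ C₁ : ℝ} (hC₀ : ∀ t, |ζ t| ≤ C₀)
    (hC₁ : ∀ t, |deriv ζ t| ≤ C₁) {Φ Φ' Φ'' : ℝ → ℝ} {L₀ L₁ L₂ : ℝ} (hΦ : PB Φ Φ' Φ'' L₀ L₁ L₂)
    {U : ℝ × ℝ → ℝ} (hU : Measurable U) {h : ℝ × ℝ → ℝ}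
    (hh : Integrable h) (b m : ℝ) {s s' : ℕ} (hs : s ≤ s')
    (hUi : Integrable fun z => |h z| * (|U z - m| * (1 / 2 : ℝ) ^ s)) (z' : ℝ × ℝ) :
    |(∫ z, h z * gg Φ ζ U s s' z z') -
      (2 : ℝ) ^ s' * gt (Int.fract ((2 : ℝ) ^ s' * z'.1)) * ∫ u, ζ ((2 : ℝ) ^ s' * u - ix s' z'.1) *
        (ζ ((2 : ℝ) ^ s * u - ix s z'.1) *
          alp Φ h b m s z'.1 (b + m * z'.1 - z'.2 + (u - z'.1) * (m - U z')))| ≤
      C₀ * ((C₀ + C₁) * L₁ + C₀ * L₂) * ((2 : ℝ) ^ s * (1 / 2) ^ s' + |m - U z'| * (1 / 2) ^ s') *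
        s1 h U m s z'.1 := by
  have hpow : (0 : ℝ) < 2 ^ s := by positivity
  have hpow' : (0 : ℝ) < 2 ^ s' := by positivity
  have hC : 0 ≤ C₀ := (abs_nonneg _).trans (hC₀ 0)
  have hCp : 0 ≤ C₁ := (abs_nonneg _).trans (hC₁ 0)
  have hL0 : 0 ≤ L₀ := (abs_nonneg _).trans (hΦ.b0 0)
  have hL1 : 0 ≤ L₁ := (abs_nonneg _).trans (hΦ.b1 0)
  have hL2 : 0 ≤ L₂ := (abs_nonneg _).trans (hΦ.b2 0)
  set κ : ℝ := m - U z' with hκ
  set ρ : ℝ := b + m * z'.1 - z'.2 with hρ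
  set g' : ℝ := (2 : ℝ) ^ s' * gt (Int.fract ((2 : ℝ) ^ s' * z'.1)) with hg'
  set q : ℝ → ℝ := fun u => ζ ((2 : ℝ) ^ s' * u - ix s' z'.1) with hq
  set p : ℝ → ℝ := fun u => ζ ((2 : ℝ) ^ s * u - ix s z'.1) with hp
  have hqi : Integrable q := zcell_int hζ hpow' _
  have hqm : Measurable q := (zet_cont hζ).measurable.comp
    ((measurable_id.const_mul _).sub_const _)
  have hpm : Measurable p := (zet_cont hζ).measurable.comp
    ((measurable_id.const_mul _).sub_const _)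
  have hg'b : |g'| ≤ 2 ^ s' := by
    rw [hg', abs_mul, abs_of_pos hpow']
    calc _ ≤ (2 : ℝ) ^ s' * 1 := mul_le_mul_of_nonneg_left (GateAx273.gt_abs _) hpow'.le
      _ = _ := mul_one _
  -- the long factor
  set G : ℝ × ℝ → ℝ := fun z => (2 : ℝ) ^ s * gt (Int.fract ((2 : ℝ) ^ s * z.1)) with hG
  have hGb : ∀ z, |G z| ≤ 2 ^ s := by
    intro z
    rw [hG]
    simp only
    rw [abs_mul, abs_of_pos hpow]
    calc _ ≤ (2 : ℝ) ^ s * 1 := mul_le_mul_of_nonneg_left (GateAx273.gt_abs _) hpow.le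
      _ = _ := mul_one _
  have hGm : Measurable G := ((measurable_gtf s).comp measurable_fst).const_mul _
  -- F1 : true phase, F0 : straightened phase
  set F0 : (ℝ × ℝ) × ℝ → ℝ := fun w => G w.1 * (p w.2 *
    Φ (w.1.2 - (b + m * w.1.1) + ρ + (w.2 - z'.1) * κ)) with hF0
  set F1 : (ℝ × ℝ) × ℝ → ℝ := fun w => G w.1 * (p w.2 *
    Φ (w.1.2 - (b + m * w.1.1) + ρ + (w.2 - z'.1) * κ + (w.2 - w.1.1) * (U w.1 - m))) with hF1
  have hF0m : Measurable F0 := by
    refine (hGm.comp measurable_fst).mul ((hpm.comp measurable_snd).mul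
      (hΦ.cont.measurable.comp ?_))
    fun_prop
  have hF1m : Measurable F1 := by
    refine (hGm.comp measurable_fst).mul ((hpm.comp measurable_snd).mul
      (hΦ.cont.measurable.comp ?_))
    have : Measurable fun w : (ℝ × ℝ) × ℝ => U w.1 := hU.comp measurable_fst
    fun_prop
  have hbd : ∀ (w : (ℝ × ℝ) × ℝ) (v : ℝ), |G w.1 * (p w.2 * Φ v)| ≤ 2 ^ s * (C₀ * L₀) := by
    intro w v
    rw [abs_mul (G w.1), abs_mul (p w.2)]
    exact mul_le_mul (hGb _) (mul_le_mul (hC₀ _) (hΦ.b0 _) (abs_nonneg _) hC)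
      (by positivity) hpow.le
  have hF0b : ∀ w, |F0 w| ≤ 2 ^ s * (C₀ * L₀) := fun w => hbd w _
  have hF1b : ∀ w, |F1 w| ≤ 2 ^ s * (C₀ * L₀) := fun w => hbd w _
  -- the inner integrals
  have hq0 : ∀ z, Integrable fun u => q u * F0 (z, u) := fun z =>
    hqi.mul_bdd (c := 2 ^ s * (C₀ * L₀)) (hF0m.comp measurable_prodMk_left).aestronglyMeasurable
      (Filter.Eventually.of_forall fun u => by rw [Real.norm_eq_abs]; exact hF0b _)
  have hq1 : ∀ z, Integrable fun u => q u * F1 (z, u) := fun z =>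
    hqi.mul_bdd (c := 2 ^ s * (C₀ * L₀)) (hF1m.comp measurable_prodMk_left).aestronglyMeasurable
      (Filter.Eventually.of_forall fun u => by rw [Real.norm_eq_abs]; exact hF1b _)
  have hI0m : Measurable fun z => ∫ u, q u * F0 (z, u) :=
    measurable_par (F := fun w => q w.2 * F0 w) ((hqm.comp measurable_snd).mul hF0m)
  have hI1m : Measurable fun z => ∫ u, q u * F1 (z, u) :=
    measurable_par (F := fun w => q w.2 * F1 w) ((hqm.comp measurable_snd).mul hF1m)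
  have hIb : ∀ (F : (ℝ × ℝ) × ℝ → ℝ), (∀ w, |F w| ≤ 2 ^ s * (C₀ * L₀)) → ∀ z,
      |∫ u, q u * F (z, u)| ≤ (∫ u, |q u|) * (2 ^ s * (C₀ * L₀)) := by
    intro F hF z
    rw [← integral_mul_const]
    refine (abs_integral_le_integral_abs).trans (integral_mono_of_nonneg
      (Filter.Eventually.of_forall fun u => abs_nonneg _) (hqi.abs.mul_const _)
      (Filter.Eventually.of_forall fun u => ?_))
    show |q u * F (z, u)| ≤ |q u| * (2 ^ s * (C₀ * L₀))
    rw [abs_mul]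
    exact mul_le_mul_of_nonneg_left (hF _) (abs_nonneg _)
  set μ : Measure (ℝ × ℝ) := volume.restrict (cz s z'.1) with hμ
  have hhμ : Integrable h μ := hh.restrict
  have hi0 : Integrable (fun z => h z * ∫ u, q u * F0 (z, u)) μ :=
    hhμ.mul_bdd (c := (∫ u, |q u|) * (2 ^ s * (C₀ * L₀))) hI0m.aestronglyMeasurable
      (Filter.Eventually.of_forall fun z => by rw [Real.norm_eq_abs]; exact hIb F0 hF0b z)
  have hi1 : Integrable (fun z => h z * ∫ u, q u * F1 (z, u)) μ :=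
    hhμ.mul_bdd (c := (∫ u, |q u|) * (2 ^ s * (C₀ * L₀))) hI1m.aestronglyMeasurable
      (Filter.Eventually.of_forall fun z => by rw [Real.norm_eq_abs]; exact hIb F1 hF1b z)
  -- step A, B
  have eA : ∫ z, h z * gg Φ ζ U s s' z z' = g' * ∫ z, (h z * ∫ u, q u * F1 (z, u)) ∂μ := by
    rw [← setIntegral_eq_integral_of_forall_compl_eq_zero (s := cz s z'.1)
      (fun z hz => by rw [gg_zero hζ U hs hz, mul_zero]), ← integral_const_mul]
    refine setIntegral_congr_fun (measurableSet_cz s z'.1) fun z hz => ?_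
    have hz' : ix s z.1 = ix s z'.1 := hz
    show h z * gg Φ ζ U s s' z z' = g' * (h z * ∫ u, q u * F1 (z, u))
    have : ∫ u, q u * F1 (z, u) = G z * ∫ u, ζ ((2 : ℝ) ^ s' * u - ix s' z'.1) *
        (ζ ((2 : ℝ) ^ s * u - ix s z.1) * Φ (ln U z u - ln U z' u)) := by
      rw [← integral_const_mul]
      refine integral_congr_ae (Filter.Eventually.of_forall fun u => ?_)
      show q u * F1 (z, u) = G z * (ζ ((2 : ℝ) ^ s' * u - ix s' z'.1) *
        (ζ ((2 : ℝ) ^ s * u - ix s z.1) * Φ (ln U z u - ln U z' u)))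
      rw [straighten U b m z z' u, hz']
      simp only [hF1, hq, hp, hκ, hρ]
      ring
    rw [this]
    unfold gg
    simp only [hG, hg']
    ring
  -- step D
  have eD : ∫ u, ζ ((2 : ℝ) ^ s' * u - ix s' z'.1) * (ζ ((2 : ℝ) ^ s * u - ix s z'.1) *
      alp Φ h b m s z'.1 (ρ + (u - z'.1) * κ)) = ∫ z, (h z * ∫ u, q u * F0 (z, u)) ∂μ := by
    rw [swap hhμ hqi hF0m hF0b]
    refine integral_congr_ae (Filter.Eventually.of_forall fun u => ?_)
    show ζ ((2 : ℝ) ^ s' * u - ix s' z'.1) * (ζ ((2 : ℝ) ^ s * u - ix s z'.1) *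
      alp Φ h b m s z'.1 (ρ + (u - z'.1) * κ)) = q u * ∫ z, h z * F0 (z, u) ∂μ
    have : ∫ z, h z * F0 (z, u) ∂μ = p u * alp Φ h b m s z'.1 (ρ + (u - z'.1) * κ) := by
      unfold alp
      rw [← mul_assoc, ← integral_const_mul]
      refine integral_congr_ae (Filter.Eventually.of_forall fun z => ?_)
      show h z * F0 (z, u) = p u * 2 ^ s * (h z * (gt (Int.fract ((2 : ℝ) ^ s * z.1)) *
        Φ (z.2 - (b + m * z.1) + (ρ + (u - z'.1) * κ))))
      simp only [hF0, hG, add_assoc]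
      ring
    rw [this]
  rw [eA, eD, ← mul_sub, ← integral_sub hi1 hi0, abs_mul]
  -- step E
  have hs1i : Integrable (fun z => |h z| * (|U z - m| * (1 / 2 : ℝ) ^ s)) μ := hUi.restrict
  set K : ℝ := 2 ^ s * (C₀ * ((C₀ + C₁) * L₁ + C₀ * L₂) *
    ((2 : ℝ) ^ s * (1 / 2) ^ s' + |κ| * (1 / 2) ^ s') * (1 / 2) ^ s') with hK
  have hK0 : 0 ≤ K := by positivity
  have hpt : ∀ z ∈ cz s z'.1, |(h z * ∫ u, q u * F1 (z, u)) - h z * ∫ u, q u * F0 (z, u)| ≤
      K * (|h z| * (|U z - m| * (1 / 2 : ℝ) ^ s)) := by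
    intro z hz
    have hz' : ix s z.1 = ix s z'.1 := hz
    rw [← mul_sub, abs_mul, ← integral_sub (hq1 z) (hq0 z)]
    have e1 : ∫ u, q u * F1 (z, u) - q u * F0 (z, u) = G z * ∫ u, ζ ((2 : ℝ) ^ s' * u - ix s' z'.1) *
        (ζ ((2 : ℝ) ^ s * u - ix s z'.1) *
        (Φ ((z.2 - (b + m * z.1) + ρ) + (u - z'.1) * κ + (u - z.1) * (U z - m)) -
          Φ ((z.2 - (b + m * z.1) + ρ) + (u - z'.1) * κ))) := by
      rw [← integral_const_mul]
      refine integral_congr_ae (Filter.Eventually.of_forall fun u => ?_)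
      simp only [hF1, hF0, hq, hp]
      ring
    have e2 := theta hζ hC₀ hC₁ hpow hpow' (ix s z'.1) (ix s' z'.1) Φ Φ' Φ'' hΦ.d hΦ.d' hΦ.b1 hΦ.b2
      (z.2 - (b + m * z.1) + ρ) z'.1 κ z.1 (U z - m) (fun u hu => cell_dist hs hz' hu)
    rw [e1, abs_mul]
    have hinv : ((2 : ℝ) ^ s)⁻¹ = (1 / 2) ^ s := by rw [one_div, inv_pow]
    have hinv' : ((2 : ℝ) ^ s')⁻¹ = (1 / 2) ^ s' := by rw [one_div, inv_pow]
    rw [hinv, hinv'] at e2
    have hss : (2 : ℝ) ^ s * (1 / 2) ^ s = 1 := by rw [← mul_pow]; norm_num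
    calc |h z| * (|G z| * _) ≤ |h z| * (2 ^ s * (C₀ * (|U z - m| * ((C₀ + C₁) * L₁ + C₀ * L₂ *
          (|κ| * (1 / 2) ^ s))) * (1 / 2) ^ s' * (1 / 2) ^ s')) := by
          refine mul_le_mul_of_nonneg_left ?_ (abs_nonneg _)
          exact mul_le_mul (hGb z) e2 (abs_nonneg _) hpow.le
      _ ≤ K * (|h z| * (|U z - m| * (1 / 2 : ℝ) ^ s)) := by
          have hX : (C₀ + C₁) * L₁ + C₀ * L₂ * (|κ| * (1 / 2) ^ s) ≤
              ((C₀ + C₁) * L₁ + C₀ * L₂) * (1 + |κ| * (1 / 2) ^ s) := by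
            have h1 : 0 ≤ (C₀ + C₁) * L₁ := by positivity
            have h2 : 0 ≤ C₀ * L₂ := by positivity
            have h3 : 0 ≤ |κ| * (1 / 2 : ℝ) ^ s := by positivity
            nlinarith
          have hKe : K * (|h z| * (|U z - m| * (1 / 2 : ℝ) ^ s)) = |h z| * (2 ^ s * (C₀ *
              (|U z - m| * (((C₀ + C₁) * L₁ + C₀ * L₂) * (1 + |κ| * (1 / 2) ^ s))) *
              (1 / 2) ^ s' * (1 / 2) ^ s')) := by
            have : ((2 : ℝ) ^ s * (1 / 2) ^ s' + |κ| * (1 / 2) ^ s') * (1 / 2) ^ s =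
                (1 + |κ| * (1 / 2) ^ s) * (1 / 2) ^ s' := by
              have : (2 : ℝ) ^ s * (1 / 2) ^ s' * (1 / 2) ^ s = (1 / 2) ^ s' := by
                rw [mul_right_comm, hss, one_mul]
              linear_combination this
            rw [hK]
            linear_combination (2 ^ s * (C₀ * ((C₀ + C₁) * L₁ + C₀ * L₂) * (1 / 2) ^ s') *
              (|h z| * |U z - m|)) * this
          rw [hKe]
          refine mul_le_mul_of_nonneg_left ?_ (abs_nonneg _)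
          refine mul_le_mul_of_nonneg_left ?_ hpow.le
          refine mul_le_mul_of_nonneg_right ?_ (by positivity)
          refine mul_le_mul_of_nonneg_right ?_ (by positivity)
          refine mul_le_mul_of_nonneg_left ?_ hC
          exact mul_le_mul_of_nonneg_left hX (abs_nonneg _)
  have hE : |∫ z, ((h z * ∫ u, q u * F1 (z, u)) - h z * ∫ u, q u * F0 (z, u)) ∂μ| ≤
      K * ∫ z, |h z| * (|U z - m| * (1 / 2 : ℝ) ^ s) ∂μ := by
    rw [← integral_const_mul]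
    refine (abs_integral_le_integral_abs).trans (integral_mono_ae (hi1.sub hi0).abs
      (hs1i.const_mul K) ?_)
    rw [hμ]
    filter_upwards [ae_restrict_mem (measurableSet_cz s z'.1)] with z hz
    exact hpt z hz
  calc |g'| * _ ≤ 2 ^ s' * (K * ∫ z, |h z| * (|U z - m| * (1 / 2 : ℝ) ^ s) ∂μ) :=
        mul_le_mul hg'b hE (abs_nonneg _) hpow'.le
    _ = _ := by
        have hss' : (2 : ℝ) ^ s' * (1 / 2) ^ s' = 1 := by rw [← mul_pow]; norm_num
        unfold s1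
        rw [hK]
        linear_combination (2 ^ s * (C₀ * ((C₀ + C₁) * L₁ + C₀ * L₂) *
          ((2 : ℝ) ^ s * (1 / 2) ^ s' + |κ| * (1 / 2) ^ s')) *
          ∫ z, |h z| * (|U z - m| * (1 / 2 : ℝ) ^ s) ∂μ) * hss'

end Crest.Agent.R087.PairDeepAx975
end
end

-- ▼ part R087/PairDeep_975
section

/-!
Row 87 (S0115), operator part, leaf PAIR-LOW-DEEP (helper975).

`deep` : the sum over an interval of scales with `|U w - m| 2^-s ≤ K0` of the pairings of a short point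
`w` with one LOW tree is `≤ C T`, `T` = the four kept bounds.
-/

set_option autoImplicit false

noncomputable section

open MeasureTheory Crest.Agent.R087.Sh0x283 Crest.Agent.R087.GateDefx273 Crest.Agent.R087.T1x90
open Crest.Agent.R087.TreeIfx153 Crest.Agent.R087.PairCorex975 Crest.Agent.R087.PairDeepAx975

namespace Crest.Agent.R087.PairDeepx975

/-- pair kernel, long `(r,z)`, short `(s,w)` -/
def GG (ζ Φ : ℝ → ℝ) (U : ℝ × ℝ → ℝ) (r s : ℕ) (z w : ℝ × ℝ) : ℝ :=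
  (2 : ℝ) ^ r * ga r z.1 * ((2 : ℝ) ^ s * ga s w.1) *
    ∫ u, ζ ((2 : ℝ) ^ r * u - cel r z.1) * ζ ((2 : ℝ) ^ s * u - cel s w.1) *
      Φ (OPdefx799.ln U w u - OPdefx799.ln U z u)

/-- pairing of the short `(s,w)` with the tree -/
def PS (ζ Φ : ℝ → ℝ) (U : ℝ × ℝ → ℝ) (h : ℝ × ℝ → ℝ) (act : ℕ → Set (ℝ × ℝ)) (s : ℕ)
    (w : ℝ × ℝ) : ℝ :=
  ∑ r ∈ Finset.range (s + 1), ∫ z in act r, h z * GG ζ Φ U r s z w

theorem GG_eq (ζ Φ : ℝ → ℝ) (U : ℝ × ℝ → ℝ) (r s : ℕ) (z w : ℝ × ℝ) :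
    GG ζ Φ U r s z w = gg (fun v => Φ (-v)) ζ U r s z w := by
  unfold GG gg
  have : ∫ u, ζ ((2 : ℝ) ^ r * u - cel r z.1) * ζ ((2 : ℝ) ^ s * u - cel s w.1) *
      Φ (OPdefx799.ln U w u - OPdefx799.ln U z u) =
      ∫ u, ζ ((2 : ℝ) ^ s * u - OPdefx799.ix s w.1) * (ζ ((2 : ℝ) ^ r * u - OPdefx799.ix r z.1) *
        Φ (-(OPdefx799.ln U z u - OPdefx799.ln U w u))) := by
    refine integral_congr_ae (Filter.Eventually.of_forall fun u => ?_)
    show ζ ((2 : ℝ) ^ r * u - OPdefx799.ix r z.1) * ζ ((2 : ℝ) ^ s * u - OPdefx799.ix s w.1) *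
      Φ (OPdefx799.ln U w u - OPdefx799.ln U z u) =
      ζ ((2 : ℝ) ^ s * u - OPdefx799.ix s w.1) * (ζ ((2 : ℝ) ^ r * u - OPdefx799.ix r z.1) *
        Φ (-(OPdefx799.ln U z u - OPdefx799.ln U w u)))
    rw [neg_sub]
    ring
  rw [this]
  rfl

theorem int_act {ζ Φ : ℝ → ℝ} {U h : ℝ × ℝ → ℝ} {A : Set (ℝ × ℝ)} (hA : MeasurableSet A) (r s : ℕ)
    (w : ℝ × ℝ) :
    ∫ z in A, h z * GG ζ Φ U r s z w = ∫ z, A.indicator h z * gg (fun v => Φ (-v)) ζ U r s z w := by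
  rw [← integral_indicator hA]
  refine integral_congr_ae (Filter.Eventually.of_forall fun z => ?_)
  by_cases hz : z ∈ A
  · simp only [Set.indicator_of_mem hz, GG_eq]
  · simp only [Set.indicator_of_notMem hz, zero_mul]

theorem alp_eq (Φ : ℝ → ℝ) {h : ℝ × ℝ → ℝ} {act : ℕ → Set (ℝ × ℝ)}
    (hA : ∀ s, MeasurableSet (act s)) (b m : ℝ) (r : ℕ) (x v : ℝ) :
    alp (fun v => Φ (-v)) ((act r).indicator h) b m r x v = aL Φ b m h act r (-v) x := by
  unfold alp aL al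
  congr 1
  have h1 : ∀ z : ℝ × ℝ, (act r).indicator h z * (gt (Int.fract ((2 : ℝ) ^ r * z.1)) *
      Φ (-(z.2 - (b + m * z.1) + v))) =
      (act r).indicator (fun z => ga r z.1 * (h z * Φ (-v - rv b m z))) z := by
    intro z
    by_cases hz : z ∈ act r
    · simp only [Set.indicator_of_mem hz]
      unfold ga rv
      rw [show -(z.2 - (b + m * z.1) + v) = -v - (z.2 - (b + m * z.1)) by ring]
      ring
    · simp only [Set.indicator_of_notMem hz, zero_mul]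
  simp_rw [h1]
  rw [setIntegral_indicator (hA r)]
  rfl

theorem s1_eq {h U : ℝ × ℝ → ℝ} {act : ℕ → Set (ℝ × ℝ)} (hA : ∀ s, MeasurableSet (act s)) (m : ℝ)
    (r : ℕ) (x : ℝ) : s1 ((act r).indicator h) U m r x = eL U m h act r x := by
  unfold s1 eL pL wU
  congr 1
  have h1 : ∀ z : ℝ × ℝ, |(act r).indicator h z| * (|U z - m| * (1 / 2 : ℝ) ^ r) =
      (act r).indicator (fun z => |h z| * (|U z - m| * (1 / 2 : ℝ) ^ r)) z := by
    intro z
    by_cases hz : z ∈ act r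
    · simp only [Set.indicator_of_mem hz]
    · simp only [Set.indicator_of_notMem hz, abs_zero, zero_mul]
  simp_rw [h1]
  rw [setIntegral_indicator (hA r)]
  rfl

/-- derivative in the vertical variable -/
theorem aL_deriv {Ψ Ψ' : ℝ → ℝ} (hd : ∀ v, HasDerivAt Ψ (Ψ' v) v) (hc : Continuous Ψ')
    (hb : ∀ v, |Ψ v| ≤ 1) (hb' : ∀ v, |Ψ' v| ≤ 1) {h : ℝ × ℝ → ℝ} (hh : Nice h)
    (act : ℕ → Set (ℝ × ℝ)) (b m : ℝ) (r : ℕ) (x v : ℝ) :
    HasDerivAt (fun v => aL Ψ b m h act r v x) (aL Ψ' b m h act r v x) v := by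
  unfold aL al
  refine HasDerivAt.const_mul _ ?_
  have hΨ : Continuous Ψ := continuous_iff_continuousAt.2 fun v => (hd v).continuousAt
  have hgm : Measurable fun z : ℝ × ℝ => ga r z.1 := (measurable_gtf r).comp measurable_fst
  have hm : ∀ (Θ : ℝ → ℝ), Continuous Θ → ∀ v, Measurable fun z : ℝ × ℝ =>
      ga r z.1 * (h z * Θ (v - rv b m z)) := by
    intro Θ hΘ v
    refine hgm.mul (hh.1.mul (hΘ.measurable.comp ?_))
    unfold rv
    fun_prop
  have hi := (nice_int hh).abs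
  have hga : ∀ z : ℝ × ℝ, |ga r z.1| ≤ 1 := fun z => GateAx273.gt_abs _
  have hbound : ∀ (Θ : ℝ → ℝ), (∀ v, |Θ v| ≤ 1) → ∀ (v : ℝ) (z : ℝ × ℝ),
      ‖ga r z.1 * (h z * Θ (v - rv b m z))‖ ≤ |h z| := by
    intro Θ hΘ v z
    rw [Real.norm_eq_abs, abs_mul, abs_mul]
    have h1 := hga z
    have h2 := hΘ (v - rv b m z)
    calc |ga r z.1| * (|h z| * |Θ (v - rv b m z)|) ≤ 1 * (|h z| * 1) :=
          mul_le_mul h1 (mul_le_mul_of_nonneg_left h2 (abs_nonneg _)) (by positivity) zero_le_one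
      _ = |h z| := by ring
  refine (hasDerivAt_integral_of_dominated_loc_of_deriv_le (bound := fun z => |h z|)
    (F := fun v z => ga r z.1 * (h z * Ψ (v - rv b m z)))
    (F' := fun v z => ga r z.1 * (h z * Ψ' (v - rv b m z))) Filter.univ_mem
    (Filter.Eventually.of_forall fun v => (hm Ψ hΨ v).aestronglyMeasurable) ?_
    (hm Ψ' hc v).aestronglyMeasurable (Filter.Eventually.of_forall fun z v _ => hbound Ψ' hb' v z)
    hi.restrict (Filter.Eventually.of_forall fun z v _ => ?_)).2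
  · exact hi.restrict.mono' (hm Ψ hΨ v).aestronglyMeasurable
      (Filter.Eventually.of_forall fun z => hbound Ψ hb v z)
  · have e1 : HasDerivAt (fun v : ℝ => v - rv b m z) 1 v := (hasDerivAt_id v).sub_const _
    have e2 := (hd (v - rv b m z)).comp v e1
    have e3 := (e2.const_mul (h z)).const_mul (ga r z.1)
    simpa using e3

/-- Lipschitz bound for the truncated series in `v` -/
theorem FL_lip {ζ Ψ Ψ' : ℝ → ℝ} (hd : ∀ v, HasDerivAt Ψ (Ψ' v) v) (hc : Continuous Ψ')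
    (hb : ∀ v, |Ψ v| ≤ 1) (hb' : ∀ v, |Ψ' v| ≤ 1) {h : ℝ × ℝ → ℝ} (hh : Nice h)
    (act : ℕ → Set (ℝ × ℝ)) (b m : ℝ) (s : ℕ) {T : ℝ} (x : ℝ)
    (hT : ∀ v, |FL ζ Ψ' b m h act s v x| ≤ T) (v v' : ℝ) :
    |FL ζ Ψ b m h act s v x - FL ζ Ψ b m h act s v' x| ≤ T * |v - v'| := by
  have hder : ∀ v, HasDerivAt (fun v => FL ζ Ψ b m h act s v x) (FL ζ Ψ' b m h act s v x) v := by
    intro v
    unfold FL
    exact HasDerivAt.fun_sum fun r _ => (aL_deriv hd hc hb hb' hh act b m r x v).const_mul _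
  have := Convex.norm_image_sub_le_of_norm_hasDerivWithin_le (f := fun v => FL ζ Ψ b m h act s v x)
    (f' := fun v => FL ζ Ψ' b m h act s v x) (C := T) (s := Set.univ) (x := v') (y := v)
    (fun x _ => (hder x).hasDerivWithinAt) (fun v _ => hT v) convex_univ trivial trivial
  simpa using this

/-- the cell of scale `s` of `x` -/
def cl (s : ℕ) (x : ℝ) : Set ℝ := {u : ℝ | cel s u = cel s x}

theorem measurableSet_cl (s : ℕ) (x : ℝ) : MeasurableSet (cl s x) :=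
  (measurable_ix s) (measurableSet_singleton (OPdefx799.ix s x))

theorem cl_eq (s : ℕ) (x : ℝ) :
    cl s x = Set.Ico ((cel s x : ℝ) / 2 ^ s) (((cel s x : ℝ) + 1) / 2 ^ s) := by
  have h2 : (0 : ℝ) < 2 ^ s := by positivity
  ext u
  show cel s u = cel s x ↔ _
  constructor
  · intro h
    rw [← h]
    exact ⟨ix_le, lt_ix⟩
  · rintro ⟨h1, h3⟩
    rw [div_le_iff₀ h2] at h1
    rw [lt_div_iff₀ h2] at h3
    show ⌊(2 : ℝ) ^ s * u⌋ = _
    rw [Int.floor_eq_iff]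
    constructor <;> linarith

theorem volume_cl (s : ℕ) (x : ℝ) : volume (cl s x) = ENNReal.ofReal ((1 / 2) ^ s) := by
  rw [cl_eq, Real.volume_Ico]
  congr 1
  have h2 : (0 : ℝ) < 2 ^ s := by positivity
  rw [← sub_div, add_sub_cancel_left, one_div, one_div, inv_pow]

/-- the products of wavelets live on the cell of the short point -/
theorem wav_cell {ζ : ℝ → ℝ} (hζ : ZetC ζ) {r s : ℕ} (hrs : r ≤ s) (x : ℝ) (X Y : ℝ → ℝ)
    (hXY : ∀ u, cel s u = cel s x → X u = Y u) :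
    ∫ u, ζ ((2 : ℝ) ^ s * u - cel s x) * (ζ ((2 : ℝ) ^ r * u - cel r x) * X u) =
      ∫ u in cl s x, ζ (Int.fract ((2 : ℝ) ^ s * u)) * (ζ (Int.fract ((2 : ℝ) ^ r * u)) * Y u) := by
  rw [← setIntegral_eq_integral_of_forall_compl_eq_zero (s := cl s x) (fun u hu => by
    by_contra hne
    exact hu (ix_of_zet hζ (left_ne_zero_of_mul hne)))]
  refine setIntegral_congr_fun (measurableSet_cl s x) fun u hu => ?_
  have hu' : cel s u = cel s x := hu
  have hr : cel r u = cel r x := ix_mono hrs hu'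
  show ζ ((2 : ℝ) ^ s * u - cel s x) * (ζ ((2 : ℝ) ^ r * u - cel r x) * X u) =
    ζ (Int.fract ((2 : ℝ) ^ s * u)) * (ζ (Int.fract ((2 : ℝ) ^ r * u)) * Y u)
  rw [hXY u hu', ← hu', ← hr]
  rfl

theorem measurable_zf {ζ : ℝ → ℝ} (hζ : ZetC ζ) (r : ℕ) :
    Measurable fun u : ℝ => ζ (Int.fract ((2 : ℝ) ^ r * u)) :=
  (zet_cont hζ).measurable.comp (measurable_fract.comp (measurable_id.const_mul _))

theorem aL_cell (Ψ : ℝ → ℝ) (b m : ℝ) (h : ℝ × ℝ → ℝ) (act : ℕ → Set (ℝ × ℝ)) {r : ℕ} {x y : ℝ}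
    (hxy : cel r x = cel r y) (v : ℝ) : aL Ψ b m h act r v x = aL Ψ b m h act r v y := by
  unfold aL
  rw [hxy]

/-- **one scale of the short point**: main part `ga * bL`, errors -/
theorem scale {ζ : ℝ → ℝ} (hζ : ZetC ζ) {C₀ C₁ : ℝ} (hC₀ : ∀ t, |ζ t| ≤ C₀)
    (hC₁ : ∀ t, |deriv ζ t| ≤ C₁) {Φ Φ' Φ'' : ℝ → ℝ} (hd : ∀ v, HasDerivAt Φ (Φ' v) v)
    (hd' : ∀ v, HasDerivAt Φ' (Φ'' v) v) (hb : ∀ v, |Φ v| ≤ 1) (hb' : ∀ v, |Φ' v| ≤ 1)
    (hb'' : ∀ v, |Φ'' v| ≤ 1) {U : ℝ × ℝ → ℝ} (hU : Measurable U)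
    {h : ℝ × ℝ → ℝ} (hh : Nice h) {act : ℕ → Set (ℝ × ℝ)} (hA : ∀ s, MeasurableSet (act s))
    (b m : ℝ) {W : ℝ} (hW : ∀ s, ∀ z ∈ act s, h z ≠ 0 → |U z - m| * (1 / 2 : ℝ) ^ s ≤ W) (s : ℕ) (w : ℝ × ℝ) {T : ℝ} (hT : ∀ v x, |FL ζ Φ' b m h act (s + 1) v x| ≤ T) :
    |PS ζ Φ U h act s w - ga s w.1 * bL ζ Φ b m h act s (rv b m w) w.1| ≤
      C₀ * T * (|U w - m| * (1 / 2) ^ s) +
      ∑ r ∈ Finset.range (s + 1), C₀ * ((C₀ + C₁) * 1 + C₀ * 1) *
        ((2 : ℝ) ^ r * (1 / 2) ^ s + |U w - m| * (1 / 2) ^ s) * eL U m h act r w.1 := by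
  have hC : 0 ≤ C₀ := (abs_nonneg _).trans (hC₀ 0)
  have hT0 : 0 ≤ T := (abs_nonneg _).trans (hT 0 0)
  have hpow : (0 : ℝ) < 2 ^ s := by positivity
  have hc : Continuous Φ := continuous_iff_continuousAt.2 fun v => (hd v).continuousAt
  have hc' : Continuous Φ' := continuous_iff_continuousAt.2 fun v => (hd' v).continuousAt
  have hPB : PB (fun v => Φ (-v)) (fun v => -Φ' (-v)) (fun v => Φ'' (-v)) 1 1 1 := by
    refine ⟨fun v => ?_, fun v => ?_, fun v => hb _, fun v => ?_, fun v => hb'' _⟩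
    · exact ((hd (-v)).comp v (hasDerivAt_neg v)).congr_deriv (by ring)
    · exact ((hd' (-v)).comp v (hasDerivAt_neg v)).neg.congr_deriv (by ring)
    · rw [abs_neg]; exact hb' _
  set v : ℝ → ℝ := fun u => rv b m w + (u - w.1) * (U w - m) with hv
  set g : ℝ := (2 : ℝ) ^ s * ga s w.1 with hg
  have hgb : |g| ≤ 2 ^ s := by
    rw [hg, abs_mul, abs_of_pos hpow]
    calc _ ≤ (2 : ℝ) ^ s * 1 := mul_le_mul_of_nonneg_left (GateAx273.gt_abs _) hpow.le
      _ = _ := mul_one _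
  -- the coefficient function
  set X : ℕ → ℝ → ℝ := fun r t => aL Φ b m h act r t w.1 with hX
  have hXc : ∀ r, Continuous (X r) := fun r => continuous_iff_continuousAt.2 fun t =>
    (aL_deriv hd hc' hb hb' hh act b m r w.1 t).continuousAt
  set Z : ℕ → ℝ → ℝ := fun r u => ζ (Int.fract ((2 : ℝ) ^ r * u)) with hZ
  have hZm : ∀ r, Measurable (Z r) := fun r => measurable_zf hζ r
  set A : Set ℝ := cl s w.1 with hAd
  have hAm : MeasurableSet A := measurableSet_cl s w.1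
  have hAv : volume A ≠ ⊤ := by rw [hAd, volume_cl]; exact ENNReal.ofReal_ne_top
  have : IsFiniteMeasure (volume.restrict A) := ⟨by
    rw [Measure.restrict_apply_univ]; exact hAv.lt_top⟩
  -- step 1: every `r ≤ s`
  have h1 : ∀ r ∈ Finset.range (s + 1),
      |(∫ z in act r, h z * GG ζ Φ U r s z w) - g * ∫ u in A, Z s u * (Z r u * X r (v u))| ≤
      C₀ * ((C₀ + C₁) * 1 + C₀ * 1) * ((2 : ℝ) ^ r * (1 / 2) ^ s + |U w - m| * (1 / 2) ^ s) *
        eL U m h act r w.1 := by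
    intro r hr
    have hrs : r ≤ s := by
      have := Finset.mem_range.1 hr
      omega
    have hUi : Integrable fun z => |(act r).indicator h z| * (|U z - m| * (1 / 2 : ℝ) ^ r) := by
      refine ((nice_int hh).abs.mul_const |W|).mono' ?_ (Filter.Eventually.of_forall fun z => ?_)
      · exact ((hh.1.indicator (hA r)).abs.mul
          ((hU.sub_const m).abs.mul_const _)).aestronglyMeasurable
      · rw [Real.norm_eq_abs, abs_of_nonneg (by positivity)]
        by_cases hz : z ∈ act r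
        · rw [Set.indicator_of_mem hz]
          by_cases hz0 : h z = 0
          · rw [hz0]; simp
          · exact mul_le_mul_of_nonneg_left ((hW r z hz hz0).trans (le_abs_self W)) (abs_nonneg _)
        · rw [Set.indicator_of_notMem hz, abs_zero, zero_mul]
          positivity
    have key := one hζ hC₀ hC₁ hPB hU (h := (act r).indicator h) ((nice_int hh).indicator (hA r))
      b m hrs hUi w
    rw [s1_eq hA, abs_sub_comm m (U w)] at key
    rw [int_act (hA r)]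
    have e : ∫ u, ζ ((2 : ℝ) ^ s * u - OPdefx799.ix s w.1) *
        (ζ ((2 : ℝ) ^ r * u - OPdefx799.ix r w.1) *
          alp (fun v => Φ (-v)) ((act r).indicator h) b m r w.1
            (b + m * w.1 - w.2 + (u - w.1) * (m - U w))) =
        ∫ u in A, Z s u * (Z r u * X r (v u)) := by
      refine wav_cell hζ hrs w.1 _ _ fun u _ => ?_
      rw [alp_eq Φ hA]
      show aL Φ b m h act r _ w.1 = aL Φ b m h act r (v u) w.1
      congr 1
      simp only [hv, rv]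
      ring
    rw [e] at key
    exact key
  -- boundedness and integrability on the cell
  have hIr : ∀ (r : ℕ) (t : ℝ → ℝ), Continuous t →
      Integrable (fun u => Z s u * (Z r u * X r (t u))) (volume.restrict A) := by
    intro r t ht
    have hb1 : ∀ t, |X r t| ≤ (2 : ℝ) ^ r * ∫ z, |h z| := by
      intro t
      show |aL Φ b m h act r t w.1| ≤ _
      unfold aL al
      rw [abs_mul, abs_of_pos (by positivity : (0 : ℝ) < 2 ^ r)]
      refine mul_le_mul_of_nonneg_left ?_ (by positivity)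
      refine (abs_integral_le_integral_abs).trans ?_
      refine le_trans ?_ (setIntegral_le_integral (nice_int hh).abs
        (Filter.Eventually.of_forall fun z => abs_nonneg _) (s := {z : ℝ × ℝ | cel r z.1 =
          cel r w.1} ∩ act r))
      refine integral_mono_of_nonneg (Filter.Eventually.of_forall fun z => abs_nonneg _)
        (nice_int hh).abs.restrict (Filter.Eventually.of_forall fun z => ?_)
      show |ga r z.1 * (h z * Φ (t - rv b m z))| ≤ |h z|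
      rw [abs_mul, abs_mul]
      calc |ga r z.1| * (|h z| * |Φ (t - rv b m z)|) ≤ 1 * (|h z| * 1) :=
            mul_le_mul (GateAx273.gt_abs _) (mul_le_mul_of_nonneg_left (hb _) (abs_nonneg _))
              (by positivity) zero_le_one
        _ = |h z| := by ring
    refine Integrable.of_bound (C := C₀ * (C₀ * ((2 : ℝ) ^ r * ∫ z, |h z|)))
      ((hZm s).mul ((hZm r).mul ((hXc r).comp ht).measurable)).aestronglyMeasurable
      (Filter.Eventually.of_forall fun u => ?_)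
    rw [Real.norm_eq_abs, abs_mul (Z s u), abs_mul (Z r u)]
    exact mul_le_mul (hC₀ _) (mul_le_mul (hC₀ _) (hb1 _) (abs_nonneg _) hC)
      (by positivity) hC
  have hvc : Continuous v := by
    simp only [hv]
    fun_prop
  -- step 2: bL
  have h2 : ga s w.1 * bL ζ Φ b m h act s (rv b m w) w.1 =
      g * ∑ r ∈ Finset.range (s + 1), ∫ u in A, Z s u * (Z r u * X r (rv b m w)) := by
    rw [← integral_finsetSum _ (fun r _ => hIr r (fun _ => rv b m w) continuous_const)]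
    unfold bL
    rw [hg]
    have : ∫ u in {u : ℝ | cel s u = cel s w.1}, ζ (Int.fract ((2 : ℝ) ^ s * u)) *
        FL ζ Φ b m h act (s + 1) (rv b m w) u =
        ∫ u in A, ∑ r ∈ Finset.range (s + 1), Z s u * (Z r u * X r (rv b m w)) := by
      refine setIntegral_congr_fun hAm fun u hu => ?_
      have hu' : cel s u = cel s w.1 := hu
      show ζ (Int.fract ((2 : ℝ) ^ s * u)) * FL ζ Φ b m h act (s + 1) (rv b m w) u =
        ∑ r ∈ Finset.range (s + 1), Z s u * (Z r u * X r (rv b m w))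
      unfold FL
      rw [Finset.mul_sum]
      refine Finset.sum_congr rfl fun r hr => ?_
      have hrs : r ≤ s := by
        have := Finset.mem_range.1 hr
        omega
      rw [aL_cell Φ b m h act (ix_mono hrs hu' : cel r u = cel r w.1)]
    rw [this]
    ring
  -- step 3: the difference of the main parts
  set P1 : ℝ := ∑ r ∈ Finset.range (s + 1), ∫ u in A, Z s u * (Z r u * X r (v u)) with hP1
  set P0 : ℝ := ∑ r ∈ Finset.range (s + 1), ∫ u in A, Z s u * (Z r u * X r (rv b m w)) with hP0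
  have h3 : |g * P1 - g * P0| ≤ C₀ * T * (|U w - m| * (1 / 2) ^ s) := by
    rw [← mul_sub, abs_mul]
    have e1 : P1 - P0 = ∫ u in A, Z s u * (FL ζ Φ b m h act (s + 1) (v u) u -
          FL ζ Φ b m h act (s + 1) (rv b m w) u) := by
      rw [hP1, hP0, ← integral_finsetSum _ (fun r _ => hIr r v hvc),
        ← integral_finsetSum _ (fun r _ => hIr r (fun _ => rv b m w) continuous_const),
        ← integral_sub (integrable_finsetSum _ (fun r _ => hIr r v hvc))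
          (integrable_finsetSum _ (fun r _ => hIr r (fun _ => rv b m w) continuous_const))]
      refine setIntegral_congr_fun hAm fun u hu => ?_
      have hu' : cel s u = cel s w.1 := hu
      show (∑ r ∈ Finset.range (s + 1), Z s u * (Z r u * X r (v u))) -
        (∑ r ∈ Finset.range (s + 1), Z s u * (Z r u * X r (rv b m w))) =
        Z s u * (FL ζ Φ b m h act (s + 1) (v u) u - FL ζ Φ b m h act (s + 1) (rv b m w) u)
      unfold FL
      rw [← Finset.sum_sub_distrib, ← Finset.sum_sub_distrib, Finset.mul_sum]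
      refine Finset.sum_congr rfl fun r hr => ?_
      have hrs : r ≤ s := by
        have := Finset.mem_range.1 hr
        omega
      rw [aL_cell Φ b m h act (ix_mono hrs hu' : cel r u = cel r w.1),
        aL_cell Φ b m h act (ix_mono hrs hu' : cel r u = cel r w.1)]
      simp only [hX, hZ]
      ring
    have e2 : |P1 - P0| ≤ C₀ * (T * ((1 / 2) ^ s * |U w - m|)) * (1 / 2) ^ s := by
      rw [e1]
      have := norm_setIntegral_le_of_norm_le_const (μ := volume) (s := A)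
        (f := fun u => Z s u * (FL ζ Φ b m h act (s + 1) (v u) u -
          FL ζ Φ b m h act (s + 1) (rv b m w) u))
        (C := C₀ * (T * ((1 / 2) ^ s * |U w - m|))) hAv.lt_top (fun u hu => by
          rw [Real.norm_eq_abs, abs_mul]
          refine mul_le_mul (hC₀ _) ?_ (abs_nonneg _) hC
          refine (FL_lip hd hc' hb hb' hh act b m (s + 1) u (fun t => hT t u) _ _).trans ?_
          refine mul_le_mul_of_nonneg_left ?_ hT0
          have hvu : v u - rv b m w = (u - w.1) * (U w - m) := by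
            simp only [hv]; ring
          rw [hvu, abs_mul]
          refine mul_le_mul_of_nonneg_right ?_ (abs_nonneg _)
          have hu1 : u ∈ Set.Ico ((cel s w.1 : ℝ) / 2 ^ s) (((cel s w.1 : ℝ) + 1) / 2 ^ s) := by
            rw [← cl_eq]; exact hu
          have := cell_dist (s := s) (s' := s) le_rfl (x' := w.1) (x := w.1) (u := u) rfl
            ⟨hu1.1, hu1.2.le⟩
          rwa [one_div, inv_pow])
      rwa [Real.norm_eq_abs, measureReal_def, hAd, volume_cl, ENNReal.toReal_ofReal (by positivity)]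
        at this
    calc |g| * |P1 - P0| ≤ 2 ^ s * (C₀ * (T * ((1 / 2) ^ s * |U w - m|)) * (1 / 2) ^ s) :=
          mul_le_mul hgb e2 (abs_nonneg _) hpow.le
      _ = _ := by
          have hss : (2 : ℝ) ^ s * (1 / 2) ^ s = 1 := by rw [← mul_pow]; norm_num
          linear_combination (C₀ * T * (1 / 2) ^ s * |U w - m|) * hss
  -- conclusion
  have h4 : PS ζ Φ U h act s w - g * P1 = ∑ r ∈ Finset.range (s + 1),
      ((∫ z in act r, h z * GG ζ Φ U r s z w) - g * ∫ u in A, Z s u * (Z r u * X r (v u))) := by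
    rw [Finset.sum_sub_distrib, ← Finset.mul_sum]
    rfl
  have h5 : |PS ζ Φ U h act s w - g * P1| ≤ ∑ r ∈ Finset.range (s + 1),
      C₀ * ((C₀ + C₁) * 1 + C₀ * 1) * ((2 : ℝ) ^ r * (1 / 2) ^ s + |U w - m| * (1 / 2) ^ s) *
        eL U m h act r w.1 := by
    rw [h4]
    exact (Finset.abs_sum_le_sum_abs _ _).trans (Finset.sum_le_sum h1)
  rw [h2]
  calc |PS ζ Φ U h act s w - g * P0| = |(g * P1 - g * P0) + (PS ζ Φ U h act s w - g * P1)| := by
        congr 1; ring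
    _ ≤ |g * P1 - g * P0| + |PS ζ Φ U h act s w - g * P1| := abs_add_le _ _
    _ ≤ _ := add_le_add h3 h5

theorem sumA (e : ℕ → ℝ) (n : ℕ) :
    ∑ s ∈ Finset.range n, ∑ r ∈ Finset.range (s + 1), (2 : ℝ) ^ r * (1 / 2) ^ s * e r +
      ∑ r ∈ Finset.range n, (2 : ℝ) ^ r * (1 / 2) ^ n * 2 * e r = 2 * ∑ r ∈ Finset.range n, e r := by
  induction n with
  | zero => simp
  | succ n ih =>
    have e1 : ∑ r ∈ Finset.range (n + 1), (2 : ℝ) ^ r * (1 / 2) ^ (n + 1) * 2 * e r =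
        ∑ r ∈ Finset.range (n + 1), (2 : ℝ) ^ r * (1 / 2) ^ n * e r :=
      Finset.sum_congr rfl fun r _ => by ring
    have e2 : ∑ r ∈ Finset.range n, (2 : ℝ) ^ r * (1 / 2) ^ n * 2 * e r =
        2 * ∑ r ∈ Finset.range n, (2 : ℝ) ^ r * (1 / 2) ^ n * e r := by
      rw [Finset.mul_sum]
      exact Finset.sum_congr rfl fun r _ => by ring
    have e3 : (2 : ℝ) ^ n * (1 / 2) ^ n = 1 := by rw [← mul_pow]; norm_num
    rw [e2] at ih
    rw [Finset.sum_range_succ, e1, Finset.sum_range_succ (fun r => (2 : ℝ) ^ r * (1 / 2) ^ n * e r),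
      Finset.sum_range_succ e, e3]
    linarith

theorem sumA' {e : ℕ → ℝ} (he : ∀ r, 0 ≤ e r) (p q : ℕ) :
    ∑ s ∈ Finset.Ico p q, ∑ r ∈ Finset.range (s + 1), (2 : ℝ) ^ r * (1 / 2) ^ s * e r ≤
      2 * ∑ r ∈ Finset.range q, e r := by
  have h1 : ∑ s ∈ Finset.Ico p q, ∑ r ∈ Finset.range (s + 1), (2 : ℝ) ^ r * (1 / 2) ^ s * e r ≤
      ∑ s ∈ Finset.range q, ∑ r ∈ Finset.range (s + 1), (2 : ℝ) ^ r * (1 / 2) ^ s * e r := by
    refine Finset.sum_le_sum_of_subset_of_nonneg (fun s hs => ?_) fun s _ _ =>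
      Finset.sum_nonneg fun r _ => by have := he r; positivity
    exact Finset.mem_range.2 (Finset.mem_Ico.1 hs).2
  have h2 : 0 ≤ ∑ r ∈ Finset.range q, (2 : ℝ) ^ r * (1 / 2) ^ q * 2 * e r :=
    Finset.sum_nonneg fun r _ => by have := he r; positivity
  have := sumA e q
  linarith

theorem geoI (p q : ℕ) (h : p ≤ q) :
    ∑ s ∈ Finset.Ico p q, (1 / 2 : ℝ) ^ s + 2 * (1 / 2) ^ q = 2 * (1 / 2) ^ p := by
  induction q, h using Nat.le_induction with
  | base => simp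
  | succ q hq ih =>
    rw [Finset.sum_Ico_succ_top hq, pow_succ]
    linarith

theorem sumB {k K₀ : ℝ} (hk : 0 ≤ k) (hK : 0 ≤ K₀) {p q : ℕ}
    (h : ∀ s ∈ Finset.Ico p q, k * (1 / 2) ^ s ≤ K₀) :
    ∑ s ∈ Finset.Ico p q, k * (1 / 2 : ℝ) ^ s ≤ 2 * K₀ := by
  rcases lt_or_ge p q with hpq | hpq
  · have h1 := geoI p q hpq.le
    have h2 := h p (Finset.mem_Ico.2 ⟨le_rfl, hpq⟩)
    have h3 : (0 : ℝ) ≤ (1 / 2) ^ q := by positivity
    rw [← Finset.mul_sum]
    have h4 : ∑ s ∈ Finset.Ico p q, (1 / 2 : ℝ) ^ s ≤ 2 * (1 / 2) ^ p := by linarith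
    calc k * ∑ s ∈ Finset.Ico p q, (1 / 2 : ℝ) ^ s ≤ k * (2 * (1 / 2) ^ p) :=
          mul_le_mul_of_nonneg_left h4 hk
      _ ≤ 2 * K₀ := by linarith
  · rw [Finset.Ico_eq_empty (by omega)]
    simpa using hK

theorem eL_nonneg (U : ℝ × ℝ → ℝ) (m : ℝ) (h : ℝ × ℝ → ℝ) (act : ℕ → Set (ℝ × ℝ)) (s : ℕ) (x : ℝ) :
    0 ≤ eL U m h act s x := by
  unfold eL pL wU
  exact mul_nonneg (by positivity) (integral_nonneg fun z => by positivity)

/-- **PAIR-LOW-DEEP**, field bounded only on the active points -/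
theorem deep' {ζ : ℝ → ℝ} (hζ : ZetC ζ) {K₀ : ℝ} (hK₀ : 0 ≤ K₀) : ∃ C : ℝ, 0 ≤ C ∧
    ∀ (P : ℕ) (Ψ : ℕ → ℝ → ℝ), PF P Ψ → ∀ i : ℕ, i + 1 ≤ P →
    ∀ (S : ℕ) (U : ℝ × ℝ → ℝ) (b m : ℝ) (h : ℝ × ℝ → ℝ) (act : ℕ → Set (ℝ × ℝ)) (T : ℝ),
      Measurable U → (∃ W : ℝ, ∀ s, ∀ z ∈ act s, h z ≠ 0 → |U z - m| * (1 / 2 : ℝ) ^ s ≤ W) →
      Nice h → (∀ s, MeasurableSet (act s)) →
      (∀ s ≤ S, ∀ v x, |FL ζ (Ψ (i + 1)) b m h act s v x| ≤ T) →
      (∀ a c, a ≤ c → c ≤ S → ∀ v x,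
        |∑ s ∈ Finset.Ico a c, ga s x * bL ζ (Ψ i) b m h act s v x| ≤ T) →
      (∀ x, ∑ s ∈ Finset.range S, eL U m h act s x ≤ T) →
      ∀ (w : ℝ × ℝ) (p q : ℕ), p ≤ q → q ≤ S →
        (∀ s ∈ Finset.Ico p q, |U w - m| * (1 / 2) ^ s ≤ K₀) →
        |∑ s ∈ Finset.Ico p q, PS ζ (Ψ i) U h act s w| ≤ C * T := by
  obtain ⟨C₀, hC, hC₀⟩ := zet_bdd hζ
  obtain ⟨C₁, hC', hC₁⟩ := zet_bdd' hζ
  refine ⟨1 + 2 * C₀ * K₀ + C₀ * ((C₀ + C₁) * 1 + C₀ * 1) * (2 + 2 * K₀), by positivity, ?_⟩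
  intro P Ψ hΨ i hi S U b m h act T hU hW hh hA hF hB hE w p q hpq hq hdeep
  obtain ⟨W, hW⟩ := hW
  have hT0 : 0 ≤ T := (abs_nonneg _).trans (hF 0 (Nat.zero_le _) 0 0)
  set k : ℝ := |U w - m| with hk
  have hk0 : 0 ≤ k := abs_nonneg _
  set CC : ℝ := C₀ * ((C₀ + C₁) * 1 + C₀ * 1) with hCC
  have hCC0 : 0 ≤ CC := by positivity
  have hs : ∀ s ∈ Finset.Ico p q, |PS ζ (Ψ i) U h act s w -
      ga s w.1 * bL ζ (Ψ i) b m h act s (rv b m w) w.1| ≤ C₀ * T * (k * (1 / 2) ^ s) +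
      ∑ r ∈ Finset.range (s + 1), CC * ((2 : ℝ) ^ r * (1 / 2) ^ s + k * (1 / 2) ^ s) *
        eL U m h act r w.1 := by
    intro s hs
    have hsq := (Finset.mem_Ico.1 hs).2
    exact scale hζ hC₀ hC₁ (hΨ.der i (by omega)) (hΨ.der (i + 1) (by omega)) (hΨ.bd i (by omega))
      (hΨ.bd (i + 1) (by omega)) (hΨ.bd (i + 2) (by omega)) hU hh hA b m hW s w
      (hF (s + 1) (by omega))
  have hsum : ∀ s ∈ Finset.Ico p q, ∑ r ∈ Finset.range (s + 1), eL U m h act r w.1 ≤ T := by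
    intro s hs
    have hsq := (Finset.mem_Ico.1 hs).2
    refine le_trans (Finset.sum_le_sum_of_subset_of_nonneg (fun r hr => ?_)
      fun r _ _ => eL_nonneg U m h act r w.1) (hE w.1)
    have := Finset.mem_range.1 hr
    exact Finset.mem_range.2 (by omega)
  have h1 : |∑ s ∈ Finset.Ico p q, (PS ζ (Ψ i) U h act s w -
      ga s w.1 * bL ζ (Ψ i) b m h act s (rv b m w) w.1)| ≤
      2 * C₀ * K₀ * T + CC * (2 + 2 * K₀) * T := by
    refine (Finset.abs_sum_le_sum_abs _ _).trans ((Finset.sum_le_sum hs).trans ?_)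
    rw [Finset.sum_add_distrib, ← Finset.mul_sum]
    have hb := sumB hk0 hK₀ hdeep
    have a1 : C₀ * T * ∑ s ∈ Finset.Ico p q, k * (1 / 2) ^ s ≤ 2 * C₀ * K₀ * T := by
      calc _ ≤ C₀ * T * (2 * K₀) := mul_le_mul_of_nonneg_left hb (by positivity)
        _ = _ := by ring
    have a2 : ∑ s ∈ Finset.Ico p q, ∑ r ∈ Finset.range (s + 1),
        CC * ((2 : ℝ) ^ r * (1 / 2) ^ s + k * (1 / 2) ^ s) * eL U m h act r w.1 =
        CC * (∑ s ∈ Finset.Ico p q, ∑ r ∈ Finset.range (s + 1),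
          (2 : ℝ) ^ r * (1 / 2) ^ s * eL U m h act r w.1) +
        CC * ∑ s ∈ Finset.Ico p q, k * (1 / 2) ^ s *
          ∑ r ∈ Finset.range (s + 1), eL U m h act r w.1 := by
      simp only [Finset.mul_sum, ← Finset.sum_add_distrib]
      refine Finset.sum_congr rfl fun s _ => Finset.sum_congr rfl fun r _ => by ring
    have a3 : ∑ s ∈ Finset.Ico p q, ∑ r ∈ Finset.range (s + 1),
        (2 : ℝ) ^ r * (1 / 2) ^ s * eL U m h act r w.1 ≤ 2 * T := by
      refine (sumA' (fun r => eL_nonneg U m h act r w.1) p q).trans ?_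
      refine mul_le_mul_of_nonneg_left (le_trans (Finset.sum_le_sum_of_subset_of_nonneg
        (fun r hr => ?_) fun r _ _ => eL_nonneg U m h act r w.1) (hE w.1)) (by norm_num)
      have := Finset.mem_range.1 hr
      exact Finset.mem_range.2 (by omega)
    have a4 : ∑ s ∈ Finset.Ico p q, k * (1 / 2) ^ s *
        ∑ r ∈ Finset.range (s + 1), eL U m h act r w.1 ≤ 2 * K₀ * T := by
      calc _ ≤ ∑ s ∈ Finset.Ico p q, k * (1 / 2) ^ s * T :=
            Finset.sum_le_sum fun s hs => mul_le_mul_of_nonneg_left (hsum s hs) (by positivity)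
        _ = (∑ s ∈ Finset.Ico p q, k * (1 / 2) ^ s) * T := by rw [Finset.sum_mul]
        _ ≤ _ := mul_le_mul_of_nonneg_right hb hT0
    rw [a2]
    have b1 := mul_le_mul_of_nonneg_left a3 hCC0
    have b2 := mul_le_mul_of_nonneg_left a4 hCC0
    nlinarith
  have h2 : ∑ s ∈ Finset.Ico p q, PS ζ (Ψ i) U h act s w =
      (∑ s ∈ Finset.Ico p q, (PS ζ (Ψ i) U h act s w -
      ga s w.1 * bL ζ (Ψ i) b m h act s (rv b m w) w.1)) +
      ∑ s ∈ Finset.Ico p q, ga s w.1 * bL ζ (Ψ i) b m h act s (rv b m w) w.1 := by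
    rw [← Finset.sum_add_distrib]
    exact Finset.sum_congr rfl fun s _ => by ring
  rw [h2]
  refine (abs_add_le _ _).trans ((add_le_add h1 (hB p q hpq hq (rv b m w) w.1)).trans (le_of_eq ?_))
  ring


end Crest.Agent.R087.PairDeepx975
end
end

-- ▼ part R087/ShalA_115
section

/-!
Row 87, operator part, leaf OP-PAIR-LOW-SHALLOW (helper115), part A: calculus.

* `ibp`      : `k^n ∫ p(u) F^(n)(a + k u) du = (-1)^n ∫ p^(n)(u) F(a + k u) du`;
* `scal`     : derivatives of `u ↦ ζ(A u - j)`;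
* `leib`     : derivatives of `u ↦ ζ(a u - i) ζ(b u - j)`;
* `dint`     : `∫ |p^(n)| ≤ C b^(n-1)`;
* `cmp`      : comparison of the phases `κ` and `κ + d`.
-/

set_option autoImplicit false

noncomputable section

open MeasureTheory Crest.Agent.R087.Sh0x283 Crest.Agent.R087.GateDefx273
open Crest.Agent.R087.OPdefx799

namespace Crest.Agent.R087.ShalAx115

/-! ### smooth functions -/

theorem cd_iter {f : ℝ → ℝ} (hf : ContDiff ℝ (⊤ : ℕ∞) f) (n : ℕ) :
    ContDiff ℝ (⊤ : ℕ∞) (iteratedDeriv n f) := by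
  induction n with
  | zero => simpa using hf
  | succ n ih =>
    rw [iteratedDeriv_succ]
    exact (contDiff_infty_iff_deriv.1 ih).2

theorem cont_iter {f : ℝ → ℝ} (hf : ContDiff ℝ (⊤ : ℕ∞) f) (n : ℕ) :
    Continuous (iteratedDeriv n f) := (cd_iter hf n).continuous


theorem cs_iter {f : ℝ → ℝ} (hf : HasCompactSupport f) (n : ℕ) :
    HasCompactSupport (iteratedDeriv n f) := by
  induction n with
  | zero => simpa using hf
  | succ n ih =>
    rw [iteratedDeriv_succ]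
    exact ih.deriv



theorem scal (n : ℕ) {f : ℝ → ℝ} (hf : ContDiff ℝ (⊤ : ℕ∞) f) (a j : ℝ) :
    iteratedDeriv n (fun u => f (a * u - j)) = fun u => a ^ n * iteratedDeriv n f (a * u - j) := by
  have h1 : ContDiff ℝ n (fun u => f (u - j)) := by
    have : ContDiff ℝ (⊤ : ℕ∞) (fun u => f (u - j)) := hf.comp (contDiff_id.sub contDiff_const)
    exact this.of_le (by exact_mod_cast le_top)
  have h2 := iteratedDeriv_comp_const_mul h1 a
  have h3 := iteratedDeriv_comp_sub_const n f j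
  rw [h2]
  funext u
  rw [h3]

theorem cd_scal {f : ℝ → ℝ} (hf : ContDiff ℝ (⊤ : ℕ∞) f) (a j : ℝ) :
    ContDiff ℝ (⊤ : ℕ∞) (fun u => f (a * u - j)) :=
  hf.comp ((contDiff_const.mul contDiff_id).sub contDiff_const)

/-- Leibniz rule for the product of two wavelets -/
theorem leib (n : ℕ) {f : ℝ → ℝ} (hf : ContDiff ℝ (⊤ : ℕ∞) f) (a i b j : ℝ) (u : ℝ) :
    iteratedDeriv n (fun u => f (a * u - i) * f (b * u - j)) u =
      ∑ l ∈ Finset.range (n + 1), (n.choose l : ℝ) * (a ^ l * iteratedDeriv l f (a * u - i)) *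
        (b ^ (n - l) * iteratedDeriv (n - l) f (b * u - j)) := by
  have h1 : ContDiffAt ℝ n (fun u => f (a * u - i)) u :=
    ((cd_scal hf a i).of_le (by exact_mod_cast le_top)).contDiffAt
  have h2 : ContDiffAt ℝ n (fun u => f (b * u - j)) u :=
    ((cd_scal hf b j).of_le (by exact_mod_cast le_top)).contDiffAt
  rw [iteratedDeriv_fun_mul h1 h2]
  refine Finset.sum_congr rfl fun l _ => ?_
  rw [scal l hf a i, scal (n - l) hf b j]

end Crest.Agent.R087.ShalAx115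
end
end

-- ▼ part R087/ShalB_115
section

/-!
Row 87, operator part, leaf OP-PAIR-LOW-SHALLOW (helper115), part B: oscillatory integrals.

* `ibpc`   : iterated integration by parts for a chain `Ψ 0, Ψ 1, …` of derivatives;
* `zbd`    : bound of the derivatives of `ζ`;
* `pder_*` : the `n`-th derivative of `u ↦ ζ(a u - i) ζ(b u - j)`, `1 ≤ a ≤ b`;
* `cmp`    : comparison of the phases `κ` and `κ - d`.
-/

set_option autoImplicit false

noncomputable section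

open MeasureTheory Crest.Agent.R087.Sh0x283 Crest.Agent.R087.GateDefx273
open Crest.Agent.R087.OPdefx799 Crest.Agent.R087.ShalAx115 Crest.Agent.R087.GateAx273

namespace Crest.Agent.R087.ShalBx115

/-- integration by parts, chain form -/
theorem ibpc (n : ℕ) (p : ℝ → ℝ) (Ψ : ℕ → ℝ → ℝ) (hp : ContDiff ℝ (⊤ : ℕ∞) p)
    (hpc : HasCompactSupport p)
    (hd : ∀ i < n, ∀ v, HasDerivAt (Ψ i) (Ψ (i + 1) v) v) (hc : ∀ i ≤ n, Continuous (Ψ i))
    (a k : ℝ) :
    k ^ n * ∫ u, p u * Ψ n (a + k * u) =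
      (-1) ^ n * ∫ u, iteratedDeriv n p u * Ψ 0 (a + k * u) := by
  induction n generalizing p with
  | zero => simp
  | succ n ih =>
    have hpd : Differentiable ℝ p := hp.differentiable (by simp)
    have hp1 : Continuous (deriv p) := (contDiff_infty_iff_deriv.1 hp).2.continuous
    have hlin : Continuous (fun u : ℝ => a + k * u) := by fun_prop
    have hv : ∀ u, HasDerivAt (fun u => Ψ n (a + k * u)) (k * Ψ (n + 1) (a + k * u)) u := by
      intro u
      have h1 : HasDerivAt (fun u => a + k * u) k u := by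
        simpa using ((hasDerivAt_id u).const_mul k).const_add a
      have h2 := (hd n (Nat.lt_succ_self n) (a + k * u)).comp u h1
      simpa [mul_comm, Function.comp_def] using h2
    have cn : Continuous (Ψ n) := hc n (Nat.le_succ n)
    have cn1 : Continuous (Ψ (n + 1)) := hc (n + 1) le_rfl
    have hi1 : Integrable (p * fun u => k * Ψ (n + 1) (a + k * u)) :=
      (hp.continuous.mul (continuous_const.mul (cn1.comp hlin))).integrable_of_hasCompactSupport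
        hpc.mul_right
    have hi2 : Integrable ((deriv p) * fun u => Ψ n (a + k * u)) :=
      (hp1.mul (cn.comp hlin)).integrable_of_hasCompactSupport hpc.deriv.mul_right
    have hi3 : Integrable (p * fun u => Ψ n (a + k * u)) :=
      (hp.continuous.mul (cn.comp hlin)).integrable_of_hasCompactSupport hpc.mul_right
    have h := integral_mul_deriv_eq_deriv_mul_of_integrable (u := p)
      (v := fun u => Ψ n (a + k * u)) (u' := deriv p) (v' := fun u => k * Ψ (n + 1) (a + k * u))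
      (fun x _ => (hpd x).hasDerivAt) (fun x _ => hv x) hi1 hi2 hi3
    have h1 : k * ∫ u, p u * Ψ (n + 1) (a + k * u) = - ∫ u, deriv p u * Ψ n (a + k * u) := by
      rw [← h, ← integral_const_mul]
      refine integral_congr_ae (Filter.Eventually.of_forall fun u => ?_)
      simp only
      ring
    have h2 := ih (deriv p) (contDiff_infty_iff_deriv.1 hp).2 hpc.deriv
      (fun i hi => hd i (Nat.lt_succ_of_lt hi)) (fun i hi => hc i (Nat.le_succ_of_le hi))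
    rw [pow_succ, mul_assoc, h1, iteratedDeriv_succ', mul_neg, h2]
    ring

/-! ### the wavelet -/

theorem iter_zero {ζ : ℝ → ℝ} (hζ : ZetC ζ) (i : ℕ) (t : ℝ) (h : iteratedDeriv i ζ t ≠ 0) :
    1 / 8 ≤ t ∧ t ≤ 7 / 8 := by
  by_contra hc
  have hcc : t ∈ (Set.Icc (1 / 8 : ℝ) (7 / 8))ᶜ := by
    intro hm; exact hc ⟨hm.1, hm.2⟩
  have hop : IsOpen (Set.Icc (1 / 8 : ℝ) (7 / 8))ᶜ := isClosed_Icc.isOpen_compl
  have he : Set.EqOn ζ (fun _ => (0 : ℝ)) (Set.Icc (1 / 8 : ℝ) (7 / 8))ᶜ := by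
    intro x hx
    by_contra h0
    exact hx ⟨(hζ.2.1 x h0).1, (hζ.2.1 x h0).2⟩
  have h1 := he.iteratedDeriv_of_isOpen hop i hcc
  rw [h1] at h
  apply h
  rw [iteratedDeriv_const]
  split_ifs <;> rfl

theorem zbd {ζ : ℝ → ℝ} (hζ : ZetC ζ) (n : ℕ) :
    ∃ M : ℝ, 1 ≤ M ∧ ∀ i ≤ n, ∀ t, |iteratedDeriv i ζ t| ≤ M := by
  have h1 : ∀ i, ∃ C : ℝ, ∀ t, |iteratedDeriv i ζ t| ≤ C := fun i =>
    (cont_iter hζ.1 i).bounded_above_of_compact_support (cs_iter (zet_cs hζ) i)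
  choose C hC using h1
  refine ⟨1 + ∑ i ∈ Finset.range (n + 1), |C i|, ?_, ?_⟩
  · have : (0 : ℝ) ≤ ∑ i ∈ Finset.range (n + 1), |C i| := Finset.sum_nonneg fun i _ => abs_nonneg _
    linarith
  · intro i hi t
    have h2 : |C i| ≤ ∑ i ∈ Finset.range (n + 1), |C i| :=
      Finset.single_le_sum (f := fun i => |C i|) (fun i _ => abs_nonneg _)
        (Finset.mem_range.2 (Nat.lt_succ_of_le hi))
    have := hC i t
    have := le_abs_self (C i)
    linarith

/-- product of two wavelets -/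
def pp (ζ : ℝ → ℝ) (a i b j : ℝ) (u : ℝ) : ℝ := ζ (a * u - i) * ζ (b * u - j)

theorem cd_pp {ζ : ℝ → ℝ} (hζ : ZetC ζ) (a i b j : ℝ) : ContDiff ℝ (⊤ : ℕ∞) (pp ζ a i b j) :=
  (cd_scal hζ.1 a i).mul (cd_scal hζ.1 b j)

theorem cs_scal {ζ : ℝ → ℝ} (hζ : ZetC ζ) {b : ℝ} (hb : 0 < b) (j : ℝ) :
    HasCompactSupport (fun u => ζ (b * u - j)) := by
  refine HasCompactSupport.intro (isCompact_Icc (a := j / b) (b := (j + 1) / b)) ?_
  intro u hu
  by_contra h0
  have h1 := hζ.2.1 _ h0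
  apply hu
  constructor
  · rw [div_le_iff₀ hb]; nlinarith [h1.1]
  · rw [le_div_iff₀ hb]; nlinarith [h1.2]

theorem cs_pp {ζ : ℝ → ℝ} (hζ : ZetC ζ) (a i : ℝ) {b : ℝ} (hb : 0 < b) (j : ℝ) :
    HasCompactSupport (pp ζ a i b j) := (cs_scal hζ hb j).mul_left

theorem pder_eq {ζ : ℝ → ℝ} (hζ : ZetC ζ) (n : ℕ) (a i b j u : ℝ) :
    iteratedDeriv n (pp ζ a i b j) u =
      ∑ l ∈ Finset.range (n + 1), (n.choose l : ℝ) * (a ^ l * iteratedDeriv l ζ (a * u - i)) *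
        (b ^ (n - l) * iteratedDeriv (n - l) ζ (b * u - j)) := leib n hζ.1 a i b j u

theorem pder_ne {ζ : ℝ → ℝ} (hζ : ZetC ζ) (n : ℕ) (a i b j u : ℝ)
    (h : iteratedDeriv n (pp ζ a i b j) u ≠ 0) :
    (1 / 8 ≤ a * u - i ∧ a * u - i ≤ 7 / 8) ∧ (1 / 8 ≤ b * u - j ∧ b * u - j ≤ 7 / 8) := by
  rw [pder_eq hζ] at h
  obtain ⟨l, _, hl⟩ := Finset.exists_ne_zero_of_sum_ne_zero h
  have h1 : iteratedDeriv l ζ (a * u - i) ≠ 0 := by
    intro h0; apply hl; rw [h0]; ring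
  have h2 : iteratedDeriv (n - l) ζ (b * u - j) ≠ 0 := by
    intro h0; apply hl; rw [h0]; ring
  exact ⟨iter_zero hζ _ _ h1, iter_zero hζ _ _ h2⟩

theorem pder_bd {ζ : ℝ → ℝ} (hζ : ZetC ζ) {n : ℕ} {M : ℝ} (hM : 1 ≤ M)
    (hM' : ∀ i ≤ n, ∀ t, |iteratedDeriv i ζ t| ≤ M) {a b : ℝ} (ha : 0 ≤ a) (hab : a ≤ b)
    (i j u : ℝ) : |iteratedDeriv n (pp ζ a i b j) u| ≤ 2 ^ n * M ^ 2 * b ^ n := by
  rw [pder_eq hζ]
  have hb : 0 ≤ b := ha.trans hab
  calc |∑ l ∈ Finset.range (n + 1), (n.choose l : ℝ) * (a ^ l * iteratedDeriv l ζ (a * u - i)) *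
        (b ^ (n - l) * iteratedDeriv (n - l) ζ (b * u - j))|
      ≤ ∑ l ∈ Finset.range (n + 1), |(n.choose l : ℝ) * (a ^ l * iteratedDeriv l ζ (a * u - i)) *
        (b ^ (n - l) * iteratedDeriv (n - l) ζ (b * u - j))| := Finset.abs_sum_le_sum_abs _ _
    _ ≤ ∑ l ∈ Finset.range (n + 1), (n.choose l : ℝ) * (M ^ 2 * b ^ n) := by
        refine Finset.sum_le_sum fun l hl => ?_
        have hln : l ≤ n := Nat.le_of_lt_succ (Finset.mem_range.1 hl)
        rw [abs_mul, abs_mul, abs_mul, abs_mul, abs_of_nonneg (by positivity : (0 : ℝ) ≤ n.choose l),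
          abs_of_nonneg (by positivity : (0 : ℝ) ≤ a ^ l),
          abs_of_nonneg (by positivity : (0 : ℝ) ≤ b ^ (n - l))]
        have h1 := hM' l hln (a * u - i)
        have h2 := hM' (n - l) (Nat.sub_le _ _) (b * u - j)
        have h3 : a ^ l ≤ b ^ l := pow_le_pow_left₀ ha hab l
        calc (n.choose l : ℝ) * (a ^ l * |iteratedDeriv l ζ (a * u - i)|) *
              (b ^ (n - l) * |iteratedDeriv (n - l) ζ (b * u - j)|)
            ≤ (n.choose l : ℝ) * (b ^ l * M) * (b ^ (n - l) * M) := by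
              have hM0 : 0 ≤ M := by linarith
              gcongr
          _ = (n.choose l : ℝ) * (M ^ 2 * (b ^ l * b ^ (n - l))) := by ring
          _ = (n.choose l : ℝ) * (M ^ 2 * b ^ n) := by
              rw [← pow_add, Nat.add_sub_cancel' hln]
    _ = 2 ^ n * M ^ 2 * b ^ n := by
        rw [← Finset.sum_mul]
        have : (∑ l ∈ Finset.range (n + 1), (n.choose l : ℝ)) = 2 ^ n := by
          exact_mod_cast Nat.sum_range_choose n
        rw [this]; ring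

/-- bounded functions supported in the short cell -/
theorem int_cell_le {f : ℝ → ℝ} {b j A : ℝ} (hb : 0 < b) (_hA : 0 ≤ A)
    (hne : ∀ u, f u ≠ 0 → 1 / 8 ≤ b * u - j ∧ b * u - j ≤ 7 / 8) (hf : ∀ u, |f u| ≤ A) :
    |∫ u, f u| ≤ A * b⁻¹ := by
  have h1 : ∫ u, f u = ∫ u in Set.Icc (j / b) ((j + 1) / b), f u := by
    rw [setIntegral_eq_integral_of_forall_compl_eq_zero]
    intro u hu
    by_contra h0
    have h1 := hne u h0
    apply hu
    constructor
    · rw [div_le_iff₀ hb]; nlinarith [h1.1]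
    · rw [le_div_iff₀ hb]; nlinarith [h1.2]
  rw [h1]
  have h2 := norm_setIntegral_le_of_norm_le_const (μ := volume) (s := Set.Icc (j / b) ((j + 1) / b))
    (f := f) (C := A) (by rw [Real.volume_Icc]; exact ENNReal.ofReal_lt_top)
    (fun u _ => by rw [Real.norm_eq_abs]; exact hf u)
  rw [Real.norm_eq_abs] at h2
  refine h2.trans ?_
  have h3 : volume.real (Set.Icc (j / b) ((j + 1) / b)) = b⁻¹ := by
    rw [Real.volume_real_Icc_of_le]
    · field_simp; ring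
    · gcongr; linarith
  rw [h3]

theorem pow_cmp (n : ℕ) {t : ℝ} (ht : |t| ≤ 1) : |(1 + t) ^ n - 1| ≤ (2 ^ n - 1) * |t| := by
  induction n with
  | zero => simp
  | succ n ih =>
    have h1 : (1 + t) ^ (n + 1) - 1 = (1 + t) * ((1 + t) ^ n - 1) + t := by ring
    rw [h1]
    have h2 : |1 + t| ≤ 2 := by
      rw [abs_le] at ht ⊢
      constructor <;> linarith [ht.1, ht.2]
    calc |(1 + t) * ((1 + t) ^ n - 1) + t| ≤ |1 + t| * |(1 + t) ^ n - 1| + |t| := by
          rw [← abs_mul]; exact abs_add_le _ _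
      _ ≤ 2 * ((2 ^ n - 1) * |t|) + |t| := by
          have : 0 ≤ |(1 + t) ^ n - 1| := abs_nonneg _
          gcongr
      _ = (2 ^ (n + 1) - 1) * |t| := by ring

/-- comparison of the phases `κ` and `κ - d` -/
theorem cmp {ζ : ℝ → ℝ} (hζ : ZetC ζ) {n : ℕ} {M : ℝ} (hM : 1 ≤ M)
    (hM' : ∀ i ≤ n, ∀ t, |iteratedDeriv i ζ t| ≤ M) (Ψ : ℕ → ℝ → ℝ)
    (hd : ∀ i < n, ∀ v, HasDerivAt (Ψ i) (Ψ (i + 1) v) v) (hc : ∀ i ≤ n, Continuous (Ψ i))
    (h0 : ∀ v, |Ψ 0 v| ≤ 1) (hL : ∀ v v', |Ψ 0 v - Ψ 0 v'| ≤ |v - v'|)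
    {a b : ℝ} (ha : 0 < a) (hab : a ≤ b) (i j c κ d x y : ℝ) (hκ : 2 * b ≤ |κ|) (hd' : |d| ≤ a)
    (hx : ∀ u, 1 / 8 ≤ a * u - i → a * u - i ≤ 7 / 8 → |u - x| ≤ a⁻¹) :
    |κ ^ n * (∫ u, pp ζ a i b j u * Ψ n (c + κ * (u - y) - d * (u - x))) -
      (-1) ^ n * ∫ u, iteratedDeriv n (pp ζ a i b j) u * Ψ 0 (c + κ * (u - y))| ≤
      (8 ^ n * M ^ 2) * b ^ n * b⁻¹ * (|d| * a⁻¹) := by
  have hb : 0 < b := lt_of_lt_of_le ha hab
  have hk0 : κ ≠ 0 := by
    intro h; rw [h, abs_zero] at hκ; linarith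
  have hkp : 0 < |κ| := abs_pos.2 hk0
  set t : ℝ := -(d / κ) with ht
  have htb : |t| ≤ 1 / 2 := by
    rw [ht, abs_neg, abs_div, div_le_iff₀ hkp]; linarith
  have htd : |t| ≤ |d| * a⁻¹ := by
    rw [ht, abs_neg, abs_div, div_eq_mul_inv]
    have : |κ|⁻¹ ≤ a⁻¹ := by
      apply inv_anti₀ ha; linarith
    gcongr
  have hkd : κ - d = κ * (1 + t) := by
    rw [ht]; field_simp; ring
  -- integration by parts for the phase κ - d
  have e1 := ibpc n (pp ζ a i b j) Ψ (cd_pp hζ a i b j) (cs_pp hζ a i hb j) hd hc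
    (c - κ * y + d * x) (κ - d)
  have e2 : (fun u => pp ζ a i b j u * Ψ n (c + κ * (u - y) - d * (u - x))) =
      fun u => pp ζ a i b j u * Ψ n (c - κ * y + d * x + (κ - d) * u) := by
    funext u; congr 2; ring
  have e3 : (fun u => iteratedDeriv n (pp ζ a i b j) u * Ψ 0 (c - κ * y + d * x + (κ - d) * u)) =
      fun u => iteratedDeriv n (pp ζ a i b j) u * Ψ 0 (c + κ * (u - y) - d * (u - x)) := by
    funext u; congr 2; ring
  rw [e2]
  rw [e3] at e1
  set K : ℝ := ∫ u, pp ζ a i b j u * Ψ n (c - κ * y + d * x + (κ - d) * u) with hK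
  set I1 : ℝ := ∫ u, iteratedDeriv n (pp ζ a i b j) u * Ψ 0 (c + κ * (u - y) - d * (u - x)) with hI1
  set I0 : ℝ := ∫ u, iteratedDeriv n (pp ζ a i b j) u * Ψ 0 (c + κ * (u - y)) with hI0
  have hA : 0 ≤ 2 ^ n * M ^ 2 * b ^ n := by positivity
  have hne : ∀ u, iteratedDeriv n (pp ζ a i b j) u ≠ 0 → 1 / 8 ≤ b * u - j ∧ b * u - j ≤ 7 / 8 :=
    fun u h => (pder_ne hζ n a i b j u h).2
  have hpb := pder_bd hζ hM hM' ha.le hab i j
  have cP : Continuous (iteratedDeriv n (pp ζ a i b j)) := cont_iter (cd_pp hζ a i b j) n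
  have sP : HasCompactSupport (iteratedDeriv n (pp ζ a i b j)) := cs_iter (cs_pp hζ a i hb j) n
  have c0 : Continuous (Ψ 0) := hc 0 (Nat.zero_le n)
  have b1 : |I1| ≤ 2 ^ n * M ^ 2 * b ^ n * b⁻¹ := by
    refine int_cell_le (j := j) hb hA (fun u hu => hne u (left_ne_zero_of_mul hu)) fun u => ?_
    rw [abs_mul]
    calc |iteratedDeriv n (pp ζ a i b j) u| * |Ψ 0 (c + κ * (u - y) - d * (u - x))|
        ≤ (2 ^ n * M ^ 2 * b ^ n) * 1 := by
          have := h0 (c + κ * (u - y) - d * (u - x))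
          have := hpb u
          gcongr
      _ = _ := mul_one _
  have b2 : |I1 - I0| ≤ 2 ^ n * M ^ 2 * b ^ n * (|d| * a⁻¹) * b⁻¹ := by
    rw [hI1, hI0, ← integral_sub]
    · have e4 : (fun u => iteratedDeriv n (pp ζ a i b j) u * Ψ 0 (c + κ * (u - y) - d * (u - x)) -
          iteratedDeriv n (pp ζ a i b j) u * Ψ 0 (c + κ * (u - y))) =
          fun u => iteratedDeriv n (pp ζ a i b j) u *
            (Ψ 0 (c + κ * (u - y) - d * (u - x)) - Ψ 0 (c + κ * (u - y))) := by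
        funext u; ring
      rw [e4]
      refine int_cell_le (j := j) hb (by positivity) (fun u hu => hne u (left_ne_zero_of_mul hu))
        fun u => ?_
      rw [abs_mul]
      by_cases hu : iteratedDeriv n (pp ζ a i b j) u = 0
      · rw [hu, abs_zero, zero_mul]; positivity
      · have h3 := (pder_ne hζ n a i b j u hu).1
        have h4 := hx u h3.1 h3.2
        have h5 := hL (c + κ * (u - y) - d * (u - x)) (c + κ * (u - y))
        have h6 : |c + κ * (u - y) - d * (u - x) - (c + κ * (u - y))| = |d| * |u - x| := by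
          rw [← abs_mul, ← abs_neg]; congr 1; ring
        rw [h6] at h5
        have h7 := hpb u
        calc |iteratedDeriv n (pp ζ a i b j) u| *
              |Ψ 0 (c + κ * (u - y) - d * (u - x)) - Ψ 0 (c + κ * (u - y))|
            ≤ (2 ^ n * M ^ 2 * b ^ n) * (|d| * |u - x|) := by gcongr
          _ ≤ (2 ^ n * M ^ 2 * b ^ n) * (|d| * a⁻¹) := by gcongr
    · exact (cP.mul (c0.comp (by fun_prop))).integrable_of_hasCompactSupport sP.mul_right
    · exact (cP.mul (c0.comp (by fun_prop))).integrable_of_hasCompactSupport sP.mul_right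
  -- `κ^n K - (-1)^n I0 = (-1)^n (I1 - I0) - (κ^n ((1+t)^n - 1)) K`
  have e5 : κ ^ n * K - (-1) ^ n * I0 =
      (-1) ^ n * (I1 - I0) - ((1 + t) ^ n - 1) * (κ ^ n * K) := by
    have : (κ * (1 + t)) ^ n * K = (-1) ^ n * I1 := by rw [← hkd]; exact e1
    rw [mul_pow] at this
    linear_combination this
  have hκK : |κ ^ n * K| ≤ 2 ^ n * |I1| := by
    have h3 : (κ * (1 + t)) ^ n * K = (-1) ^ n * I1 := by rw [← hkd]; exact e1
    rw [mul_pow] at h3
    have h4 : |(1 + t) ^ n| * |κ ^ n * K| = |I1| := by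
      rw [← abs_mul]
      have : (1 + t) ^ n * (κ ^ n * K) = (-1) ^ n * I1 := by rw [← h3]; ring
      rw [this, abs_mul, abs_pow, abs_neg, abs_one, one_pow, one_mul]
    have h5 : (1 / 2 : ℝ) ^ n ≤ |(1 + t) ^ n| := by
      rw [abs_pow]
      apply pow_le_pow_left₀ (by norm_num)
      have := neg_abs_le t
      have h6 : (1 : ℝ) / 2 ≤ 1 + t := by linarith
      exact h6.trans (le_abs_self _)
    have h7 : (1 / 2 : ℝ) ^ n * |κ ^ n * K| ≤ |I1| := by
      rw [← h4]; gcongr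
    calc |κ ^ n * K| = 2 ^ n * ((1 / 2 : ℝ) ^ n * |κ ^ n * K|) := by
          rw [← mul_assoc, ← mul_pow]; norm_num
      _ ≤ 2 ^ n * |I1| := by gcongr
  rw [e5]
  have h8 := pow_cmp n (htb.trans (by norm_num) : |t| ≤ 1)
  have h2n : (1 : ℝ) ≤ 2 ^ n := one_le_pow₀ (by norm_num)
  calc |(-1) ^ n * (I1 - I0) - ((1 + t) ^ n - 1) * (κ ^ n * K)|
      ≤ |I1 - I0| + |(1 + t) ^ n - 1| * |κ ^ n * K| := by
        refine (abs_sub _ _).trans ?_
        rw [abs_mul, abs_mul, abs_pow, abs_neg, abs_one, one_pow, one_mul]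
    _ ≤ 2 ^ n * M ^ 2 * b ^ n * (|d| * a⁻¹) * b⁻¹ +
        ((2 ^ n - 1) * (|d| * a⁻¹)) * (2 ^ n * (2 ^ n * M ^ 2 * b ^ n * b⁻¹)) := by
        have h9 : (2 ^ n - 1) * |t| ≤ (2 ^ n - 1) * (|d| * a⁻¹) := by
          apply mul_le_mul_of_nonneg_left htd; linarith
        have h10 : |κ ^ n * K| ≤ 2 ^ n * (2 ^ n * M ^ 2 * b ^ n * b⁻¹) :=
          hκK.trans (by gcongr)
        have h11 : 0 ≤ (2 ^ n - 1) * (|d| * a⁻¹) := by
          apply mul_nonneg (by linarith); positivity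
        gcongr
        exact h8.trans h9
    _ ≤ _ := by
        have h12 : 0 ≤ M ^ 2 * b ^ n * b⁻¹ * (|d| * a⁻¹) := by positivity
        have h13 : (2 : ℝ) ^ n + (2 ^ n - 1) * (2 ^ n * 2 ^ n) ≤ 8 ^ n := by
          have h8' : (8 : ℝ) ^ n = 2 ^ n * 2 ^ n * 2 ^ n := by rw [← mul_pow, ← mul_pow]; norm_num
          rw [h8']; nlinarith [h2n, mul_nonneg (by linarith : (0:ℝ) ≤ 2 ^ n) (by linarith : (0:ℝ) ≤ 2 ^ n - 1)]
        calc 2 ^ n * M ^ 2 * b ^ n * (|d| * a⁻¹) * b⁻¹ +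
              (2 ^ n - 1) * (|d| * a⁻¹) * (2 ^ n * (2 ^ n * M ^ 2 * b ^ n * b⁻¹))
            = ((2 : ℝ) ^ n + (2 ^ n - 1) * (2 ^ n * 2 ^ n)) * (M ^ 2 * b ^ n * b⁻¹ * (|d| * a⁻¹)) := by
              ring
          _ ≤ 8 ^ n * (M ^ 2 * b ^ n * b⁻¹ * (|d| * a⁻¹)) := by gcongr
          _ = _ := by ring

end Crest.Agent.R087.ShalBx115
end
end

-- ▼ part R087/PSdef_115
section

/-!
Row 87, operator part: the pairing of one LOW tree with one short point (helper115), in the notation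
of `TreeIf_153` (common to PAIR-LOW-DEEP (975), PAIR-LOW-SHALLOW (115), PAIR-LOW-ASM (575)).

* `GG ζ Φ U r s z w` : scalar product of the gated kernels of `z` (scale `r`, long) and `w` (scale
  `s`, short); `Φ` = autocorrelation of the band profile;
* `PS ζ Φ U h act s w = ∑_{r ≤ s} ∫_{z ∈ act r} h z * GG ζ Φ U r s z w`.
-/

set_option autoImplicit false

noncomputable section

open MeasureTheory Crest.Agent.R087.T1x90 Crest.Agent.R087.OPdefx799

namespace Crest.Agent.R087.PSdefx115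

/-- scalar product of two gated kernels -/
def GG (ζ Φ : ℝ → ℝ) (U : ℝ × ℝ → ℝ) (r s : ℕ) (z w : ℝ × ℝ) : ℝ :=
  (2 : ℝ) ^ r * ga r z.1 * ((2 : ℝ) ^ s * ga s w.1) *
    ∫ u, ζ ((2 : ℝ) ^ r * u - cel r z.1) * ζ ((2 : ℝ) ^ s * u - cel s w.1) *
      Φ (ln U w u - ln U z u)

/-- pairing of the short piece of scale `s` at `w` with all the longer (and equal) pieces of a tree -/
def PS (ζ Φ : ℝ → ℝ) (U h : ℝ × ℝ → ℝ) (act : ℕ → Set (ℝ × ℝ)) (s : ℕ) (w : ℝ × ℝ) : ℝ :=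
  ∑ r ∈ Finset.range (s + 1), ∫ z in act r, h z * GG ζ Φ U r s z w

end Crest.Agent.R087.PSdefx115
end
end

-- ▼ part R087/PLcomb_575
section

/-!
Row 87 (S0115), operator part, leaf PAIR-LOW-ASM, combinatorial half (helper575).

`comb` : from the DEEP bound (sums over intervals of scales with `k 2^-s ≤ K0`), the SHALLOW bound (one
scale with `k 2^-s > K0`, gain `(k 2^-s)^-N`) and the support property, the sum over an interval of
scales is zero or `≤ C T 2^{-N h}` where some scale of the interval is `2^h`-near.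
-/

set_option autoImplicit false

noncomputable section

namespace Crest.Agent.R087.PLcombx575

theorem exists_pow_le {k : ℝ} (hk : 1 ≤ k) : ∃ h : ℕ, (2 : ℝ) ^ h ≤ k ∧ k < 2 ^ (h + 1) :=
  exists_nat_pow_near hk (by norm_num)

/-- geometric sum of shallow terms -/
theorem geo_shallow (P : ℕ → ℝ) (B k : ℝ) (hk : 0 < k) (N p q : ℕ) (hN : 1 ≤ N) (hB : 0 ≤ B)
    (hsh : ∀ s, p ≤ s → s < q → |P s| ≤ B * (k * (1 / 2) ^ s)⁻¹ ^ N) (hpq : p < q) :
    |∑ s ∈ Finset.Ico p q, P s| ≤ 2 * B * (k * (1 / 2) ^ (q - 1))⁻¹ ^ N := by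
  obtain ⟨n, rfl⟩ : ∃ n, q = p + n + 1 := ⟨q - p - 1, by omega⟩
  clear hpq
  have key : ∀ n, (∀ s, p ≤ s → s < p + n + 1 → |P s| ≤ B * (k * (1 / 2) ^ s)⁻¹ ^ N) →
      |∑ s ∈ Finset.Ico p (p + n + 1), P s| ≤ 2 * B * (k * (1 / 2) ^ (p + n))⁻¹ ^ N := by
    intro n
    induction n with
    | zero =>
      intro h
      have h0 := h p le_rfl (by omega)
      simp only [Nat.add_zero, Nat.Ico_succ_singleton, Finset.sum_singleton]
      have : 0 ≤ B * (k * (1 / 2) ^ p)⁻¹ ^ N := by positivity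
      linarith
    | succ n ih =>
      intro h
      have h1 := ih (fun s hs hs' => h s hs (by omega))
      have h2 := h (p + n + 1) (by omega) (by omega)
      rw [show p + (n + 1) + 1 = (p + n + 1) + 1 by ring, Finset.sum_Ico_succ_top (by omega)]
      have h3 : (k * (1 / 2) ^ (p + n))⁻¹ ^ N ≤ 1 / 2 * (k * (1 / 2) ^ (p + n + 1))⁻¹ ^ N := by
        have e : (k * (1 / 2) ^ (p + n + 1))⁻¹ = 2 * (k * (1 / 2) ^ (p + n))⁻¹ := by
          rw [pow_succ]
          field_simp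
        rw [e, mul_pow]
        have h4 : (2 : ℝ) ≤ 2 ^ N := by
          calc (2 : ℝ) = 2 ^ 1 := by norm_num
            _ ≤ 2 ^ N := pow_le_pow_right₀ (by norm_num) hN
        have h5 : 0 ≤ (k * (1 / 2) ^ (p + n))⁻¹ ^ N := by positivity
        nlinarith
      calc |∑ s ∈ Finset.Ico p (p + n + 1), P s + P (p + n + 1)|
          ≤ |∑ s ∈ Finset.Ico p (p + n + 1), P s| + |P (p + n + 1)| := abs_add_le _ _
        _ ≤ 2 * B * (1 / 2 * (k * (1 / 2) ^ (p + n + 1))⁻¹ ^ N) +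
            B * (k * (1 / 2) ^ (p + n + 1))⁻¹ ^ N := by
          refine add_le_add (h1.trans ?_) h2
          exact mul_le_mul_of_nonneg_left h3 (by positivity)
        _ = _ := by rw [show p + (n + 1) = p + n + 1 by ring]; ring
  exact key n hsh

/-- the pointwise conclusion -/
theorem comb (P : ℕ → ℝ) (A k r K0 C0 : ℝ) (N : ℕ) (hN : 1 ≤ N) (hA : 0 ≤ A) (hk : 0 ≤ k)
    (hK0 : 1 ≤ K0) (hC0 : 0 ≤ C0)
    (hdeep : ∀ p q, (∀ s, p ≤ s → s < q → k * (1 / 2) ^ s ≤ K0) → |∑ s ∈ Finset.Ico p q, P s| ≤ A)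
    (hsh : ∀ s, K0 < k * (1 / 2) ^ s → |P s| ≤ A * (k * (1 / 2) ^ s)⁻¹ ^ N)
    (hsupp : ∀ s, P s ≠ 0 → r ≤ k * (1 / 2) ^ s + C0) (p q : ℕ) :
    ∑ s ∈ Finset.Ico p q, P s = 0 ∨ ∃ h s : ℕ, p ≤ s ∧ s < q ∧ P s ≠ 0 ∧
      r ≤ (K0 + C0 + 2) * 2 ^ h ∧ k * (1 / 2) ^ s ≤ (K0 + C0 + 2) * 2 ^ h ∧
      |∑ s ∈ Finset.Ico p q, P s| ≤ 3 * A * (1 / 2) ^ (N * h) := by
  classical
  by_cases hne : ∃ s, s ∈ (Finset.Ico p q).filter (fun s => P s ≠ 0)
  swap
  · left
    refine Finset.sum_eq_zero fun s hs => ?_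
    by_contra h
    exact hne ⟨s, Finset.mem_filter.2 ⟨hs, h⟩⟩
  right
  obtain ⟨s1, hs1, hmax⟩ := Finset.exists_max_image ((Finset.Ico p q).filter (fun s => P s ≠ 0)) id hne
  rw [Finset.mem_filter, Finset.mem_Ico] at hs1
  obtain ⟨⟨hp1, hq1⟩, hP1⟩ := hs1
  have hcut : ∑ s ∈ Finset.Ico p q, P s = ∑ s ∈ Finset.Ico p (s1 + 1), P s := by
    rw [← Finset.sum_Ico_consecutive P (show p ≤ s1 + 1 by omega) (show s1 + 1 ≤ q by omega)]
    have : ∑ s ∈ Finset.Ico (s1 + 1) q, P s = 0 := by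
      refine Finset.sum_eq_zero fun s hs => ?_
      by_contra h
      rw [Finset.mem_Ico] at hs
      have := hmax s (Finset.mem_filter.2 ⟨Finset.mem_Ico.2 ⟨by omega, by omega⟩, h⟩)
      simp only [id] at this
      omega
    rw [this, add_zero]
  have hr1 := hsupp s1 hP1
  have hmono : ∀ s, s ≤ s1 → k * (1 / 2) ^ s1 ≤ k * (1 / 2) ^ s := fun s hs =>
    mul_le_mul_of_nonneg_left (pow_le_pow_of_le_one (by norm_num) (by norm_num) hs) hk
  rcases le_or_gt (k * (1 / 2) ^ s1) K0 with hc | hc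
  · -- the last scale is deep
    refine ⟨0, s1, hp1, hq1, hP1, ?_, ?_, ?_⟩
    · rw [pow_zero]; linarith
    · rw [pow_zero]; linarith
    · rw [Nat.mul_zero, pow_zero, mul_one, hcut]
      -- first deep scale
      have hex : ∃ s, p ≤ s ∧ k * (1 / 2) ^ s ≤ K0 := ⟨s1, hp1, hc⟩
      let p' := Nat.find hex
      have hp' := Nat.find_spec hex
      have hp's : p' ≤ s1 := Nat.find_min' hex ⟨hp1, hc⟩
      have hdeep' : ∀ s, p' ≤ s → s < s1 + 1 → k * (1 / 2) ^ s ≤ K0 := by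
        intro s hs _
        refine le_trans ?_ hp'.2
        exact mul_le_mul_of_nonneg_left (pow_le_pow_of_le_one (by norm_num) (by norm_num) hs) hk
      have h1 := hdeep p' (s1 + 1) hdeep'
      rw [← Finset.sum_Ico_consecutive P hp'.1 (show p' ≤ s1 + 1 by omega)]
      have h2 : |∑ s ∈ Finset.Ico p p', P s| ≤ 2 * A := by
        rcases Nat.eq_or_lt_of_le hp'.1 with he | hlt
        · have : p' = p := he.symm
          rw [this]; simp; linarith
        · have hsh' : ∀ s, p ≤ s → s < p' → |P s| ≤ A * (k * (1 / 2) ^ s)⁻¹ ^ N := by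
            intro s hs hs'
            apply hsh s
            by_contra hcon
            exact Nat.find_min hex hs' ⟨hs, not_lt.1 hcon⟩
          have hk0 : K0 < k * (1 / 2) ^ (p' - 1) := by
            by_contra hcon
            exact Nat.find_min hex (show p' - 1 < p' by omega) ⟨by omega, not_lt.1 hcon⟩
          have hkpos : 0 < k := by
            by_contra hcon
            have hk' : k = 0 := le_antisymm (not_lt.1 hcon) hk
            rw [hk', zero_mul] at hk0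
            linarith
          have h3 := geo_shallow P A k hkpos N p p' hN hA hsh' hlt
          refine h3.trans ?_
          have h4 : (k * (1 / 2) ^ (p' - 1))⁻¹ ^ N ≤ 1 :=
            pow_le_one₀ (by positivity) (inv_le_one_of_one_le₀ (by linarith))
          nlinarith
      calc |∑ s ∈ Finset.Ico p p', P s + ∑ s ∈ Finset.Ico p' (s1 + 1), P s|
          ≤ |∑ s ∈ Finset.Ico p p', P s| + |∑ s ∈ Finset.Ico p' (s1 + 1), P s| := abs_add_le _ _
        _ ≤ 3 * A := by linarith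
  · -- all scales are shallow
    have hkpos : 0 < k := by
      by_contra hcon
      have hk' : k = 0 := le_antisymm (not_lt.1 hcon) hk
      rw [hk', zero_mul] at hc
      linarith
    obtain ⟨h, hh1, hh2⟩ := exists_pow_le (hK0.trans hc.le)
    refine ⟨h, s1, hp1, hq1, hP1, ?_, ?_, ?_⟩
    · have h2 : (1 : ℝ) ≤ 2 ^ h := one_le_pow₀ (by norm_num)
      rw [pow_succ] at hh2
      nlinarith
    · have h2 : (1 : ℝ) ≤ 2 ^ h := one_le_pow₀ (by norm_num)
      rw [pow_succ] at hh2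
      nlinarith
    · rw [hcut]
      have h3 := geo_shallow P A k hkpos N p (s1 + 1) hN hA
        (fun s _ hs' => hsh s (lt_of_lt_of_le hc (hmono s (by omega)))) (by omega)
      rw [Nat.add_sub_cancel] at h3
      refine h3.trans ?_
      have h4 : (k * (1 / 2) ^ s1)⁻¹ ^ N ≤ (1 / 2) ^ (N * h) := by
        rw [mul_comm N h, pow_mul]
        refine pow_le_pow_left₀ (by positivity) ?_ N
        have e : ((1 : ℝ) / 2) ^ h = (2 ^ h)⁻¹ := by rw [one_div, inv_pow]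
        rw [e]
        exact inv_anti₀ (by positivity) hh1
      have h5 : (0 : ℝ) ≤ (1 / 2) ^ (N * h) := by positivity
      nlinarith

end Crest.Agent.R087.PLcombx575
end
end

-- ▼ part R087/PLdef_575

/-!
Row 87 (S0115), operator part, PAIR-LOW: literal Props for ONE LOW tree and ONE short point
(helper575, owner of PAIR-LOW-ASM), in the notation of `TreeIf_153` and `Pair1_339`.

* `Prf L X`  : autocorrelation profile: smooth, supported in `[-2,2]`, `|X^(i)| ≤ 1` for `i ≤ L+2`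
* `Kept`     : facts about one kept tree (output of `T3`), threshold `T`
* `PS`       : `∑_{s ≤ t} ∫_{z ∈ act s} h z * pp Φ ζ U t s w z` : pairing of the tree with the short
               point `w` at the scale `2^-t`
* `PLdeep`   : sums over intervals of deep scales
* `PLshallow`: one shallow scale
* `PLow`     : the pointwise conclusion
-/

set_option autoImplicit false

noncomputable section

open MeasureTheory Crest.Agent.R087.Sh0x283 Crest.Agent.R087.GateDefx273 Crest.Agent.R087.T1x90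
open Crest.Agent.R087.TreeIfx153 Crest.Agent.R087.Pair1x339

namespace Crest.Agent.R087.PLdefx575

/-- profiles -/
structure Prf (L : ℕ) (X : ℝ → ℝ) : Prop where
  sm : ContDiff ℝ (⊤ : ℕ∞) X
  supp : ∀ r, 2 < |r| → X r = 0
  bd : ∀ i ≤ L + 2, ∀ r, |iteratedDeriv i X r| ≤ 1

/-- pairing of a tree with the short point `w` at the scale `2^-t` (scales `s ≤ t` of the tree) -/
def PS (Φ ζ : ℝ → ℝ) (U h : ℝ × ℝ → ℝ) (act : ℕ → Set (ℝ × ℝ)) (t : ℕ) (w : ℝ × ℝ) : ℝ :=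
  ∑ s ∈ Finset.range (t + 1), ∫ z in act s, h z * pp Φ ζ U t s w z

/-- one kept tree over the cell `(s0,m0)` along the line `b + m u`, threshold `T` -/
structure Kept (ζ X : ℝ → ℝ) (L S s0 : ℕ) (m0 : ℤ) (U h : ℝ × ℝ → ℝ) (act : ℕ → Set (ℝ × ℝ))
    (b m T : ℝ) : Prop where
  nice : Nice h
  mact : ∀ s, MeasurableSet (act s)
  mU : Measurable U
  T0 : 0 ≤ T
  loc : ∀ s z, z ∈ act s → h z ≠ 0 →
    s0 ≤ s ∧ cel s0 z.1 = m0 ∧ |rv b m z| ≤ 1 ∧ |U z - m| * (1 / 2) ^ s ≤ 1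
  k1 : ∀ i ≤ L + 1, ∀ s ≤ S, ∀ v x, |FL ζ (iteratedDeriv i X) b m h act s v x| ≤ T
  k2 : ∀ i ≤ L + 1, ∀ s v x, |aL (iteratedDeriv i X) b m h act s v x| ≤ T
  k3 : ∀ a c, a ≤ c → c ≤ S → ∀ v x,
    |∑ s ∈ Finset.Ico a c, ga s x * bL ζ (iteratedDeriv L X) b m h act s v x| ≤ T
  k4 : ∀ x, ∑ s ∈ Finset.range S, eL U m h act s x ≤ T

/-- **PAIR-LOW-DEEP** -/
def PLdeep (ζ : ℝ → ℝ) : Prop := ∀ L : ℕ, ∃ C : ℝ, 0 ≤ C ∧ ∀ X : ℝ → ℝ, Prf L X →
  ∀ (S s0 : ℕ) (m0 : ℤ) (U h : ℝ × ℝ → ℝ) (act : ℕ → Set (ℝ × ℝ)) (b m T : ℝ),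
    Kept ζ X L S s0 m0 U h act b m T → ∀ (w : ℝ × ℝ) (p q : ℕ), q ≤ S →
    (∀ t, p ≤ t → t < q → |U w - m| * (1 / 2) ^ t ≤ 20) →
    |∑ t ∈ Finset.Ico p q, PS (iteratedDeriv L X) ζ U h act t w| ≤ C * T

/-- **PAIR-LOW-SHALLOW** -/
def PLshallow (ζ : ℝ → ℝ) : Prop := ∀ n L : ℕ, n ≤ L → ∃ C : ℝ, 0 ≤ C ∧ ∀ X : ℝ → ℝ, Prf L X →
  ∀ (S s0 : ℕ) (m0 : ℤ) (U h : ℝ × ℝ → ℝ) (act : ℕ → Set (ℝ × ℝ)) (b m T : ℝ),
    Kept ζ X L S s0 m0 U h act b m T → ∀ (w : ℝ × ℝ) (t : ℕ), t < S →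
    20 < |U w - m| * (1 / 2) ^ t →
    |PS (iteratedDeriv L X) ζ U h act t w| ≤ C * T * (|U w - m| * (1 / 2) ^ t)⁻¹ ^ n

/-- **PAIR-LOW**: the pointwise conclusion for one tree and one short point. -/
def PLow (ζ : ℝ → ℝ) : Prop := ∀ n L : ℕ, 1 ≤ n → n ≤ L → ∃ C : ℝ, 0 ≤ C ∧ ∀ X : ℝ → ℝ,
  Prf L X → ∀ (S s0 : ℕ) (m0 : ℤ) (U h : ℝ × ℝ → ℝ) (act : ℕ → Set (ℝ × ℝ)) (b m T : ℝ),
    Kept ζ X L S s0 m0 U h act b m T → ∀ (w : ℝ × ℝ) (p q : ℕ), q ≤ S →
    ∑ t ∈ Finset.Ico p q, PS (iteratedDeriv L X) ζ U h act t w = 0 ∨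
    ∃ k t : ℕ, p ≤ t ∧ t < q ∧ s0 ≤ t ∧ cel s0 w.1 = m0 ∧ |rv b m w| ≤ C * 2 ^ k ∧
      |U w - m| * (1 / 2) ^ t ≤ C * 2 ^ k ∧
      |∑ t ∈ Finset.Ico p q, PS (iteratedDeriv L X) ζ U h act t w| ≤ C * T * (1 / 2) ^ (n * k)

/-- **PAIR-LOW**, product form: nearness measured at the finest scale `q - 1`. -/
def PLowP (ζ : ℝ → ℝ) : Prop := ∀ n L : ℕ, 1 ≤ n → n ≤ L → ∃ C : ℝ, 0 ≤ C ∧ ∀ X : ℝ → ℝ,
  Prf L X → ∀ (S s0 : ℕ) (m0 : ℤ) (U h : ℝ × ℝ → ℝ) (act : ℕ → Set (ℝ × ℝ)) (b m T : ℝ),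
    Kept ζ X L S s0 m0 U h act b m T → ∀ (w : ℝ × ℝ) (p q : ℕ), q ≤ S →
    |∑ t ∈ Finset.Ico p q, PS (iteratedDeriv L X) ζ U h act t w| ≤
        C * T / (1 + |U w - m| * (1 / 2) ^ (q - 1) + |rv b m w|) ^ n ∧
    (∑ t ∈ Finset.Ico p q, PS (iteratedDeriv L X) ζ U h act t w ≠ 0 → s0 < q ∧ cel s0 w.1 = m0)

/-! ### support -/

theorem pp_swap (Φ ζ : ℝ → ℝ) (U : ℝ × ℝ → ℝ) (s t : ℕ) (z w : ℝ × ℝ) :
    pp Φ ζ U t s w z = pp (fun r => Φ (-r)) ζ U s t z w := by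
  unfold pp
  rw [mul_comm ((2 : ℝ) ^ t * gt (Int.fract ((2 : ℝ) ^ t * w.1)))]
  congr 2
  ext u
  show _ = ζ ((2 : ℝ) ^ t * u - ⌊(2 : ℝ) ^ t * w.1⌋) * ζ ((2 : ℝ) ^ s * u - ⌊(2 : ℝ) ^ s * z.1⌋) *
    Φ (-(ln U z u - ln U w u))
  rw [neg_sub, mul_comm (ζ ((2 : ℝ) ^ s * u - ⌊(2 : ℝ) ^ s * z.1⌋))]

theorem cell_dist {s : ℕ} {x y : ℝ} (h : cel s x = cel s y) : |x - y| ≤ (1 / 2) ^ s := by
  have hp : (0 : ℝ) < 2 ^ s := by positivity
  have h1 := Int.floor_le ((2 : ℝ) ^ s * x)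
  have h2 := Int.lt_floor_add_one ((2 : ℝ) ^ s * x)
  have h3 := Int.floor_le ((2 : ℝ) ^ s * y)
  have h4 := Int.lt_floor_add_one ((2 : ℝ) ^ s * y)
  have h5 : (⌊(2 : ℝ) ^ s * x⌋ : ℤ) = ⌊(2 : ℝ) ^ s * y⌋ := h
  rw [h5] at h1 h2
  have e : ((1 : ℝ) / 2) ^ s = (2 ^ s)⁻¹ := by rw [one_div, inv_pow]
  have h6 : |2 ^ s * (x - y)| ≤ 1 := by
    rw [abs_le]
    constructor <;> linarith
  rw [abs_mul, abs_of_pos hp] at h6
  rw [e, ← one_div, le_div_iff₀ hp]
  linarith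

/-- nonzero pairing: the lines are close, with explicit constants -/
theorem supp_pair {Φ ζ : ℝ → ℝ} (hz : ZetC ζ) (hΦ : ∀ r, 2 < |r| → Φ r = 0) {U : ℝ × ℝ → ℝ}
    {s t : ℕ} (hst : s ≤ t) {z w : ℝ × ℝ} {b m : ℝ} (h : pp Φ ζ U t s w z ≠ 0)
    (h1 : |rv b m z| ≤ 1) (h2 : |U z - m| * (1 / 2) ^ s ≤ 1) :
    cel s z.1 = cel s w.1 ∧ |rv b m w| ≤ |U w - m| * (1 / 2) ^ t + 4 := by
  rw [pp_swap] at h
  obtain ⟨hc, u, hu, hd⟩ := pp_ne hz (R := 2) (Φ := fun r => Φ (-r))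
    (fun r hr => hΦ _ (by rwa [abs_neg])) hst h
  refine ⟨hc, ?_⟩
  have hcu : cel s u = cel s w.1 := cell_mono hst hu
  have d1 : |u - w.1| ≤ (1 / 2) ^ t := cell_dist hu
  have d2 : |u - z.1| ≤ (1 / 2) ^ s := cell_dist (hcu.trans hc.symm)
  have e : rv b m w = -((u - w.1) * (U w - m)) - (ln U z u - ln U w u) + rv b m z +
      (u - z.1) * (U z - m) := by
    unfold rv ln; ring
  have a1 : |(u - w.1) * (U w - m)| ≤ |U w - m| * (1 / 2) ^ t := by
    rw [abs_mul, mul_comm]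
    exact mul_le_mul_of_nonneg_left d1 (abs_nonneg _)
  have a2 : |(u - z.1) * (U z - m)| ≤ 1 := by
    rw [abs_mul, mul_comm]
    exact (mul_le_mul_of_nonneg_left d2 (abs_nonneg _)).trans h2
  have a3 := abs_le.1 a1
  have a4 := abs_le.1 a2
  have a5 := abs_le.1 h1
  have a6 := abs_le.1 hd
  rw [e, abs_le]
  constructor <;> linarith

/-- support of `PS` -/
theorem supp_PS {ζ X : ℝ → ℝ} (hz : ZetC ζ) {L S s0 : ℕ} (hX : Prf L X) {m0 : ℤ}
    {U h : ℝ × ℝ → ℝ} {act : ℕ → Set (ℝ × ℝ)} {b m T : ℝ} (hK : Kept ζ X L S s0 m0 U h act b m T)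
    (w : ℝ × ℝ) (t : ℕ) (hne : PS (iteratedDeriv L X) ζ U h act t w ≠ 0) :
    s0 ≤ t ∧ cel s0 w.1 = m0 ∧ |rv b m w| ≤ |U w - m| * (1 / 2) ^ t + 4 := by
  unfold PS at hne
  obtain ⟨s, hs, hs'⟩ := Finset.exists_ne_zero_of_sum_ne_zero hne
  have hst : s ≤ t := Nat.lt_succ_iff.1 (Finset.mem_range.1 hs)
  have h1 : ∃ z, z ∈ act s ∧ h z * pp (iteratedDeriv L X) ζ U t s w z ≠ 0 := by
    by_contra hc
    push Not at hc
    apply hs'
    rw [setIntegral_congr_fun (hK.mact s) (g := fun _ => (0 : ℝ)) (fun z hz => hc z hz)]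
    simp
  obtain ⟨z, hz1, hz2⟩ := h1
  obtain ⟨l1, l2, l3, l4⟩ := hK.loc s z hz1 (left_ne_zero_of_mul hz2)
  obtain ⟨c1, c2⟩ := supp_pair hz (fun r hr => zero_iter hX.supp L r hr) hst
    (right_ne_zero_of_mul hz2) l3 l4
  refine ⟨l1.trans hst, ?_, c2⟩
  rw [← l2]
  exact (cell_mono l1 c1).symm

/-- **ASM**: deep + shallow give the pointwise conclusion. -/
theorem plow_of {ζ : ℝ → ℝ} (hz : ZetC ζ) (hd : PLdeep ζ) (hs : PLshallow ζ) : PLow ζ := by
  intro n L hn hnL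
  obtain ⟨C1, hC1, hd⟩ := hd L
  obtain ⟨C2, hC2, hs⟩ := hs n L hnL
  refine ⟨3 * (C1 + C2) + 26, by positivity, ?_⟩
  intro X hX S s0 m0 U h act b m T hK w p q hq
  have hT := hK.T0
  set P : ℕ → ℝ := fun t => if t < S then PS (iteratedDeriv L X) ζ U h act t w else 0 with hP
  have hsum : ∀ p q, q ≤ S → ∑ t ∈ Finset.Ico p q, P t =
      ∑ t ∈ Finset.Ico p q, PS (iteratedDeriv L X) ζ U h act t w := by
    intro p q hq
    refine Finset.sum_congr rfl fun t ht => ?_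
    rw [Finset.mem_Ico] at ht
    simp only [hP]
    rw [if_pos (by omega)]
  have hcut : ∀ p q, ∑ t ∈ Finset.Ico p q, P t = ∑ t ∈ Finset.Ico p (min q S), P t := by
    intro p q
    symm
    apply Finset.sum_subset
    · intro t ht
      rw [Finset.mem_Ico] at ht ⊢
      omega
    · intro t ht ht'
      rw [Finset.mem_Ico] at ht ht'
      simp only [hP]
      rw [if_neg (by omega)]
  have key := PLcombx575.comb P ((C1 + C2) * T) |U w - m| |rv b m w| 20 4 n hn (by positivity)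
    (abs_nonneg _) (by norm_num) (by norm_num) ?_ ?_ ?_ p q
  · rw [hsum p q hq] at key
    rcases key with h0 | ⟨k, t, h1, h2, h3, h4, h5, h6⟩
    · exact Or.inl h0
    · right
      have hPS : PS (iteratedDeriv L X) ζ U h act t w ≠ 0 := by
        simp only [hP] at h3
        rw [if_pos (by omega)] at h3
        exact h3
      obtain ⟨g1, g2, g3⟩ := supp_PS hz hX hK w t hPS
      have hk : (0 : ℝ) < 2 ^ k := by positivity
      refine ⟨k, t, h1, h2, g1, g2, ?_, ?_, ?_⟩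
      · refine h4.trans ?_
        apply mul_le_mul_of_nonneg_right _ hk.le
        linarith
      · refine h5.trans ?_
        apply mul_le_mul_of_nonneg_right _ hk.le
        linarith
      · refine h6.trans ?_
        apply mul_le_mul_of_nonneg_right _ (by positivity)
        nlinarith
  · intro p' q' hpq
    rw [hcut, hsum _ _ (min_le_right _ _)]
    refine (hd X hX S s0 m0 U h act b m T hK w p' (min q' S) (min_le_right _ _) ?_).trans ?_
    · intro t ht ht'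
      exact hpq t ht (lt_of_lt_of_le ht' (min_le_left _ _))
    · apply mul_le_mul_of_nonneg_right _ hT
      linarith
  · intro t ht
    simp only [hP]
    split_ifs with hS
    · refine (hs X hX S s0 m0 U h act b m T hK w t hS ht).trans ?_
      apply mul_le_mul_of_nonneg_right _ (by positivity)
      apply mul_le_mul_of_nonneg_right _ hT
      linarith
    · rw [abs_zero]; positivity
  · intro t ht
    simp only [hP] at ht
    split_ifs at ht with hS
    · exact (supp_PS hz hX hK w t ht).2.2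
    · exact absurd rfl ht

theorem plowp_of {ζ : ℝ → ℝ} (H : PLow ζ) : PLowP ζ := by
  intro n L hn hnL
  obtain ⟨C, hC, H⟩ := H n L hn hnL
  refine ⟨C * (1 + 2 * C) ^ n, by positivity, ?_⟩
  intro X hX S s0 m0 U h act b m T hK w p q hq
  have hT := hK.T0
  rcases H X hX S s0 m0 U h act b m T hK w p q hq with h0 | ⟨k, t, h1, h2, h3, h4, h5, h6, h7⟩
  · rw [h0]
    refine ⟨?_, fun h => absurd rfl h⟩
    rw [abs_zero]
    positivity
  · refine ⟨?_, fun _ => ⟨by omega, h4⟩⟩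
    refine h7.trans ?_
    have hk : (1 : ℝ) ≤ 2 ^ k := one_le_pow₀ (by norm_num)
    have h8 : |U w - m| * (1 / 2) ^ (q - 1) ≤ C * 2 ^ k := by
      refine le_trans ?_ h6
      exact mul_le_mul_of_nonneg_left
        (pow_le_pow_of_le_one (by norm_num) (by norm_num) (by omega)) (abs_nonneg _)
    have h9 : 1 + |U w - m| * (1 / 2) ^ (q - 1) + |rv b m w| ≤ (1 + 2 * C) * 2 ^ k := by
      nlinarith
    have h10 : 0 < 1 + |U w - m| * (1 / 2) ^ (q - 1) + |rv b m w| := by positivity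
    rw [le_div_iff₀ (by positivity)]
    calc C * T * (1 / 2) ^ (n * k) * (1 + |U w - m| * (1 / 2) ^ (q - 1) + |rv b m w|) ^ n
        ≤ C * T * (1 / 2) ^ (n * k) * ((1 + 2 * C) * 2 ^ k) ^ n := by
          gcongr
      _ = C * (1 + 2 * C) ^ n * T * ((1 / 2) ^ (n * k) * 2 ^ (n * k)) := by
          rw [mul_pow, ← pow_mul, mul_comm k n]; ring
      _ = C * (1 + 2 * C) ^ n * T := by
          rw [← mul_pow]; norm_num

end Crest.Agent.R087.PLdefx575
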