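import Crest.Agent.R087.E2leaf_542
import Mathlib

-- ▼ part R087/HLlin_975
section

/-!
# Row 87, leaf `HLlin`: discrete linearised Hardy-Littlewood in `L²` (helper975)

Elementary `T T*` and bootstrapping: `S[h] ≤ 16 Q + S[4 h] / 2`.
-/

set_option autoImplicit false

noncomputable section

open MeasureTheory

namespace Crest.Agent.R087.HLlinx975

open Crest.Agent.R087.E2x542

/-- box -/
def bx (r c y : ℝ) : ℝ := if |y - c| ≤ r then 1 else 0

theorem bx_nonneg (r c y : ℝ) : 0 ≤ bx r c y := by unfold bx; split_ifs <;> norm_num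

theorem bx_le_one (r c y : ℝ) : bx r c y ≤ 1 := by unfold bx; split_ifs <;> norm_num

theorem bx_eq_indicator (r c : ℝ) : bx r c = (Set.Icc (c - r) (c + r)).indicator fun _ => 1 := by
  funext y
  unfold bx
  by_cases h : |y - c| ≤ r
  · rw [if_pos h, Set.indicator_of_mem]
    rw [abs_le] at h
    constructor <;> linarith [h.1, h.2]
  · rw [if_neg h, Set.indicator_of_notMem]
    intro h2
    apply h
    rw [abs_le]
    constructor <;> linarith [h2.1, h2.2]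

theorem integrable_bx (r c : ℝ) : Integrable (bx r c) := by
  rw [bx_eq_indicator]
  exact (integrable_indicator_iff measurableSet_Icc).2 (integrableOn_const (by simp))

theorem integral_bx (r c : ℝ) (hr : 0 ≤ r) : ∫ y, bx r c y = 2 * r := by
  rw [bx_eq_indicator, integral_indicator measurableSet_Icc]
  simp only [integral_const, MeasurableSet.univ, measureReal_restrict_apply, Set.univ_inter,
    Real.volume_real_Icc, smul_eq_mul, mul_one]
  rw [max_eq_left (by linarith)]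
  ring

theorem integrable_bx_mul (r c s d : ℝ) : Integrable fun y => bx r c y * bx s d y := by
  refine (integrable_bx r c).mul_bdd (c := 1) ?_ ?_
  · exact (integrable_bx s d).aestronglyMeasurable
  · refine Filter.Eventually.of_forall fun y => ?_
    rw [Real.norm_eq_abs, abs_of_nonneg (bx_nonneg _ _ _)]
    exact bx_le_one _ _ _

theorem pair_le (r s b c : ℝ) (hr : 0 ≤ r) :
    ∫ y, bx r b y * bx s c y ≤ 2 * r * (if |b - c| ≤ r + s then 1 else 0) := by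
  have h1 : ∀ y, bx r b y * bx s c y ≤ bx r b y * (if |b - c| ≤ r + s then 1 else 0) := by
    intro y
    unfold bx
    by_cases hb : |y - b| ≤ r
    · by_cases hc : |y - c| ≤ s
      · have : |b - c| ≤ r + s := by
          rw [abs_le] at *
          constructor <;> linarith [hb.1, hb.2, hc.1, hc.2]
        simp [hb, hc, this]
      · simp only [hb, hc, if_true, if_false, mul_zero, one_mul]
        split_ifs <;> norm_num
    · simp [hb]
  calc ∫ y, bx r b y * bx s c y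
      ≤ ∫ y, bx r b y * (if |b - c| ≤ r + s then 1 else 0) :=
        integral_mono (integrable_bx_mul _ _ _ _) ((integrable_bx r b).mul_const _) h1
    _ = _ := by rw [integral_mul_const, integral_bx r b hr]

theorem pair_eq (r s b c : ℝ) (hr : 0 ≤ r) (h : |b - c| + r ≤ s) :
    ∫ y, bx r b y * bx s c y = 2 * r := by
  rw [← integral_bx r b hr]
  congr 1
  funext y
  unfold bx
  by_cases hb : |y - b| ≤ r
  · have : |y - c| ≤ s := by
      have := abs_add_le (y - b) (b - c)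
      rw [show y - b + (b - c) = y - c by ring] at this
      linarith
    simp [hb, this]
  · simp [hb]

variable {n : ℕ}

/-- the linearised sum -/
def S (b a h : Fin n → ℝ) : ℝ :=
  ∑ i, a i * (h i)⁻¹ * ∑ i', a i' * (if |b i - b i'| ≤ h i then 1 else 0)

/-- the smoothed function -/
def gg (b a h : Fin n → ℝ) (y : ℝ) : ℝ := ∑ i, a i * (h i)⁻¹ * bx (2 * h i) (b i) y

/-- the counting function -/
def NN (b a : Fin n → ℝ) (y : ℝ) : ℝ := ∑ i, a i * bx (1 / 2) (b i) y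

theorem mul_expand (b a h : Fin n → ℝ) (y : ℝ) :
    gg b a h y * NN b a y =
      ∑ i, ∑ j, a i * (h i)⁻¹ * a j * (bx (1 / 2) (b j) y * bx (2 * h i) (b i) y) := by
  rw [gg, NN, Finset.sum_mul_sum]
  refine Finset.sum_congr rfl fun i _ => Finset.sum_congr rfl fun j _ => ?_
  ring

theorem sq_expand (b a h : Fin n → ℝ) (y : ℝ) :
    gg b a h y ^ 2 =
      ∑ i, ∑ j, a i * (h i)⁻¹ * (a j * (h j)⁻¹) *
        (bx (2 * h i) (b i) y * bx (2 * h j) (b j) y) := by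
  rw [sq, gg, Finset.sum_mul_sum]
  refine Finset.sum_congr rfl fun i _ => Finset.sum_congr rfl fun j _ => ?_
  ring

theorem N_expand (b a : Fin n → ℝ) (y : ℝ) :
    NN b a y ^ 2 =
      ∑ i, ∑ j, a i * a j * (bx (1 / 2) (b i) y * bx (1 / 2) (b j) y) := by
  rw [sq, NN, Finset.sum_mul_sum]
  refine Finset.sum_congr rfl fun i _ => Finset.sum_congr rfl fun j _ => ?_
  ring

theorem integrable_mul (b a h : Fin n → ℝ) : Integrable fun y => gg b a h y * NN b a y := by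
  simp_rw [mul_expand]
  exact integrable_finsetSum _ fun i _ => integrable_finsetSum _ fun j _ =>
    (integrable_bx_mul _ _ _ _).const_mul _

theorem integrable_sq (b a h : Fin n → ℝ) : Integrable fun y => gg b a h y ^ 2 := by
  simp_rw [sq_expand]
  exact integrable_finsetSum _ fun i _ => integrable_finsetSum _ fun j _ =>
    (integrable_bx_mul _ _ _ _).const_mul _

theorem integrable_N (b a : Fin n → ℝ) : Integrable fun y => NN b a y ^ 2 := by
  simp_rw [N_expand]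
  exact integrable_finsetSum _ fun i _ => integrable_finsetSum _ fun j _ =>
    (integrable_bx_mul _ _ _ _).const_mul _

theorem S_le_integral (b a h : Fin n → ℝ) (ha : ∀ i, 0 ≤ a i) (hh : ∀ i, 1 ≤ h i) :
    S b a h ≤ ∫ y, gg b a h y * NN b a y := by
  simp_rw [mul_expand]
  rw [integral_finsetSum _ fun i _ => integrable_finsetSum _ fun j _ =>
    (integrable_bx_mul _ _ _ _).const_mul _]
  rw [S]
  refine Finset.sum_le_sum fun i _ => ?_
  rw [integral_finsetSum _ fun j _ => (integrable_bx_mul _ _ _ _).const_mul _, Finset.mul_sum]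
  refine Finset.sum_le_sum fun j _ => ?_
  rw [integral_const_mul, ← mul_assoc]
  have hi : 0 < h i := lt_of_lt_of_le one_pos (hh i)
  have h0 : 0 ≤ a i * (h i)⁻¹ * a j :=
    mul_nonneg (mul_nonneg (ha i) (inv_nonneg.2 hi.le)) (ha j)
  refine mul_le_mul_of_nonneg_left ?_ h0
  by_cases hc : |b i - b j| ≤ h i
  · rw [if_pos hc, pair_eq _ _ _ _ (by norm_num)]
    · norm_num
    · rw [abs_sub_comm]; linarith [hh i]
  · rw [if_neg hc]
    exact integral_nonneg fun y => mul_nonneg (bx_nonneg _ _ _) (bx_nonneg _ _ _)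

theorem integral_sq_le (b a h : Fin n → ℝ) (ha : ∀ i, 0 ≤ a i) (hh : ∀ i, 1 ≤ h i) :
    ∫ y, gg b a h y ^ 2 ≤ 32 * S b a (fun i => 4 * h i) := by
  simp_rw [sq_expand]
  rw [integral_finsetSum _ fun i _ => integrable_finsetSum _ fun j _ =>
    (integrable_bx_mul _ _ _ _).const_mul _]
  have hpair : ∀ i j : Fin n,
      a i * (h i)⁻¹ * (a j * (h j)⁻¹) * (∫ y, bx (2 * h i) (b i) y * bx (2 * h j) (b j) y) ≤
        4 * (a i * (h i)⁻¹ * (a j * (if |b i - b j| ≤ 4 * h i then 1 else 0))) +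
        4 * (a j * (h j)⁻¹ * (a i * (if |b j - b i| ≤ 4 * h j then 1 else 0))) := by
    intro i j
    have hi : 0 < h i := lt_of_lt_of_le one_pos (hh i)
    have hj : 0 < h j := lt_of_lt_of_le one_pos (hh j)
    have hA : 0 ≤ a i * (h i)⁻¹ * (a j * (if |b i - b j| ≤ 4 * h i then (1 : ℝ) else 0)) := by
      refine mul_nonneg (mul_nonneg (ha i) (inv_nonneg.2 hi.le)) (mul_nonneg (ha j) ?_)
      split_ifs <;> norm_num
    have hB : 0 ≤ a j * (h j)⁻¹ * (a i * (if |b j - b i| ≤ 4 * h j then (1 : ℝ) else 0)) := by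
      refine mul_nonneg (mul_nonneg (ha j) (inv_nonneg.2 hj.le)) (mul_nonneg (ha i) ?_)
      split_ifs <;> norm_num
    have h0 : 0 ≤ a i * (h i)⁻¹ * (a j * (h j)⁻¹) :=
      mul_nonneg (mul_nonneg (ha i) (inv_nonneg.2 hi.le)) (mul_nonneg (ha j) (inv_nonneg.2 hj.le))
    rcases le_total (h j) (h i) with hij | hij
    · -- `h j ≤ h i`
      have h1 : ∫ y, bx (2 * h i) (b i) y * bx (2 * h j) (b j) y ≤
          2 * (2 * h j) * (if |b i - b j| ≤ 4 * h i then 1 else 0) := by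
        have h2 := pair_le (2 * h j) (2 * h i) (b j) (b i) (by linarith)
        simp_rw [mul_comm (bx (2 * h j) (b j) _)] at h2
        refine h2.trans ?_
        refine mul_le_mul_of_nonneg_left ?_ (by linarith)
        by_cases hc : |b j - b i| ≤ 2 * h j + 2 * h i
        · rw [if_pos hc, if_pos]
          rw [abs_sub_comm]; linarith
        · rw [if_neg hc]; split_ifs <;> norm_num
      have h3 := mul_le_mul_of_nonneg_left h1 h0
      have h4 : a i * (h i)⁻¹ * (a j * (h j)⁻¹) *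
          (2 * (2 * h j) * (if |b i - b j| ≤ 4 * h i then 1 else 0)) =
          4 * (a i * (h i)⁻¹ * (a j * (if |b i - b j| ≤ 4 * h i then 1 else 0))) := by
        field_simp
        ring
      linarith
    · have h1 : ∫ y, bx (2 * h i) (b i) y * bx (2 * h j) (b j) y ≤
          2 * (2 * h i) * (if |b j - b i| ≤ 4 * h j then 1 else 0) := by
        have h2 := pair_le (2 * h i) (2 * h j) (b i) (b j) (by linarith)
        refine h2.trans ?_
        refine mul_le_mul_of_nonneg_left ?_ (by linarith)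
        by_cases hc : |b i - b j| ≤ 2 * h i + 2 * h j
        · rw [if_pos hc, if_pos]
          rw [abs_sub_comm]; linarith
        · rw [if_neg hc]; split_ifs <;> norm_num
      have h3 := mul_le_mul_of_nonneg_left h1 h0
      have h4 : a i * (h i)⁻¹ * (a j * (h j)⁻¹) *
          (2 * (2 * h i) * (if |b j - b i| ≤ 4 * h j then 1 else 0)) =
          4 * (a j * (h j)⁻¹ * (a i * (if |b j - b i| ≤ 4 * h j then 1 else 0))) := by
        field_simp
        ring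
      linarith
  have hS : S b a (fun i => 4 * h i) =
      (1 / 4) * ∑ i, ∑ j, a i * (h i)⁻¹ * (a j * (if |b i - b j| ≤ 4 * h i then 1 else 0)) := by
    rw [S, Finset.mul_sum]
    refine Finset.sum_congr rfl fun i _ => ?_
    rw [← Finset.mul_sum, mul_inv]
    ring
  have hsum : ∑ i, ∫ y, ∑ j, a i * (h i)⁻¹ * (a j * (h j)⁻¹) *
        (bx (2 * h i) (b i) y * bx (2 * h j) (b j) y) ≤
      ∑ i, ∑ j, (4 * (a i * (h i)⁻¹ * (a j * (if |b i - b j| ≤ 4 * h i then 1 else 0))) +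
        4 * (a j * (h j)⁻¹ * (a i * (if |b j - b i| ≤ 4 * h j then 1 else 0)))) := by
    refine Finset.sum_le_sum fun i _ => ?_
    rw [integral_finsetSum _ fun j _ => (integrable_bx_mul _ _ _ _).const_mul _]
    refine Finset.sum_le_sum fun j _ => ?_
    rw [integral_const_mul]
    exact hpair i j
  refine hsum.trans (le_of_eq ?_)
  rw [hS]
  have key : ∀ f : Fin n → Fin n → ℝ, ∑ i, ∑ j, (4 * f i j + 4 * f j i) =
      32 * (1 / 4 * ∑ i, ∑ j, f i j) := by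
    intro f
    simp_rw [Finset.sum_add_distrib, ← Finset.mul_sum]
    rw [Finset.sum_comm (f := fun i j => f j i)]
    ring
  exact key fun i j => a i * (h i)⁻¹ * (a j * (if |b i - b j| ≤ 4 * h i then (1 : ℝ) else 0))

theorem S_step (b a h : Fin n → ℝ) (ha : ∀ i, 0 ≤ a i) (hh : ∀ i, 1 ≤ h i) :
    S b a h ≤ 16 * (∫ y, NN b a y ^ 2) + S b a (fun i => 4 * h i) / 2 := by
  have h1 := S_le_integral b a h ha hh
  have h2 := integral_sq_le b a h ha hh
  have h3 : ∫ y, gg b a h y * NN b a y ≤ ∫ y, (16 * NN b a y ^ 2 + (1 / 64) * gg b a h y ^ 2) := by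
    refine integral_mono (integrable_mul b a h)
      (((integrable_N b a).const_mul _).add ((integrable_sq b a h).const_mul _)) fun y => ?_
    change gg b a h y * NN b a y ≤ 16 * NN b a y ^ 2 + (1 / 64) * gg b a h y ^ 2
    nlinarith [sq_nonneg (4 * NN b a y - (1 / 8) * gg b a h y)]
  rw [integral_add ((integrable_N b a).const_mul _) ((integrable_sq b a h).const_mul _),
    integral_const_mul, integral_const_mul] at h3
  linarith

theorem S_le_B (b a h : Fin n → ℝ) (ha : ∀ i, 0 ≤ a i) (hh : ∀ i, 1 ≤ h i) :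
    S b a h ≤ (∑ i, a i) * ∑ i, a i := by
  rw [S, Finset.sum_mul]
  refine Finset.sum_le_sum fun i _ => ?_
  have h1 : ∑ i', a i' * (if |b i - b i'| ≤ h i then (1 : ℝ) else 0) ≤ ∑ i', a i' := by
    refine Finset.sum_le_sum fun j _ => ?_
    refine mul_le_of_le_one_right (ha j) ?_
    split_ifs <;> norm_num
  have h2 : a i * (h i)⁻¹ ≤ a i := mul_le_of_le_one_right (ha i) (inv_le_one_of_one_le₀ (hh i))
  have h3 : 0 ≤ ∑ i', a i' * (if |b i - b i'| ≤ h i then (1 : ℝ) else 0) := by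
    refine Finset.sum_nonneg fun j _ => mul_nonneg (ha j) ?_
    split_ifs <;> norm_num
  exact mul_le_mul h2 h1 h3 (ha i)

theorem S_iter (b a : Fin n → ℝ) (ha : ∀ i, 0 ≤ a i) (m : ℕ) :
    ∀ h : Fin n → ℝ, (∀ i, 1 ≤ h i) →
      S b a h ≤ 32 * (∫ y, NN b a y ^ 2) + ((∑ i, a i) * ∑ i, a i) / 2 ^ m := by
  have hQ : 0 ≤ ∫ y, NN b a y ^ 2 := integral_nonneg fun y => sq_nonneg _
  induction m with
  | zero =>
    intro h hh
    have := S_le_B b a h ha hh
    simp only [pow_zero, div_one]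
    linarith
  | succ m ih =>
    intro h hh
    have h1 := S_step b a h ha hh
    have h2 := ih (fun i => 4 * h i) fun i => by linarith [hh i]
    rw [pow_succ, ← div_div]
    linarith

/-- **leaf HLlin**. -/
theorem hllin : HLlin := by
  refine ⟨32, ?_⟩
  intro n b h a ha hh
  have hN : ∀ y, ∑ i, a i * win (y - b i) = NN b a y := fun y => rfl
  simp_rw [hN]
  change S b a h ≤ _
  have h1 : Filter.Tendsto (fun m : ℕ => 32 * (∫ y, NN b a y ^ 2) +
      ((∑ i, a i) * ∑ i, a i) / 2 ^ m) Filter.atTop (nhds (32 * (∫ y, NN b a y ^ 2) + 0)) := by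
    refine Filter.Tendsto.add tendsto_const_nhds ?_
    exact tendsto_const_nhds.div_atTop (tendsto_pow_atTop_atTop_of_one_lt (by norm_num))
  rw [add_zero] at h1
  exact ge_of_tendsto' h1 fun m => S_iter b a ha m h hh

end Crest.Agent.R087.HLlinx975
end
end

-- ▼ part R087/LevAbs_575
section

/-!
Row 87, (E2) MAIN, abstract almost orthogonality of one level (helper575).
-/

set_option autoImplicit false

noncomputable section

open Filter Topology

namespace Crest.Agent.R087.LevAbsx575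

/-- Cauchy-Schwarz with weights -/
theorem cs_w {ι : Type*} (s : Finset ι) (u x : ι → ℝ) (hu : ∀ i ∈ s, 0 ≤ u i) :
    (∑ i ∈ s, u i * x i) ^ 2 ≤ (∑ i ∈ s, u i) * ∑ i ∈ s, u i * x i ^ 2 := by
  refine Finset.sum_sq_le_sum_mul_sum_of_sq_le_mul s (fun i hi => hu i hi)
    (fun i hi => mul_nonneg (hu i hi) (sq_nonneg _)) fun i _ => le_of_eq (by ring)

section

variable {V : Type*} [SeminormedAddCommGroup V] {σ : Type*} [Fintype σ]
  (Δ : ℤ → V →+ V) (S : ℕ → σ → V →+ V) (f : ℕ → σ → V) (jj : σ → ℤ) (K : ℕ) (N A D : ℝ)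
  (B : ℕ → σ → ℝ) (F : σ → ℝ) (w : ℤ → ℝ)

/-- truncated sum -/
def gL (L k : ℕ) : V := ∑ s, S k s (∑ l ∈ Finset.Icc (-(L : ℤ)) L, Δ l (f k s))

variable (hw0 : ∀ n, 0 ≤ w n) (hwD : ∀ G : Finset ℤ, ∑ n ∈ G, w n ≤ D)

include hwD in
theorem D_nonneg : 0 ≤ D := by simpa using hwD ∅

include hw0 hwD in
/-- sum over all classes at one scale -/
theorem sum_cls [DecidableEq ℤ] (hN : 0 ≤ N)
    (h5 : ∀ j : ℤ, ((Finset.univ.filter (fun s => jj s = j)).card : ℝ) ≤ N) (m k : ℤ) :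
    ∑ s, w (m - (jj s - k)) ≤ N * D := by
  classical
  rw [← Finset.sum_fiberwise_of_maps_to (t := Finset.univ.image jj)
    (fun s _ => Finset.mem_image_of_mem jj (Finset.mem_univ s))]
  calc ∑ j ∈ Finset.univ.image jj, ∑ s with jj s = j, w (m - (jj s - k))
      ≤ ∑ j ∈ Finset.univ.image jj, N * w (m - (j - k)) := by
        refine Finset.sum_le_sum fun j _ => ?_
        calc ∑ s with jj s = j, w (m - (jj s - k)) = ∑ s with jj s = j, w (m - (j - k)) := by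
              refine Finset.sum_congr rfl fun s hs => ?_
              rw [(Finset.mem_filter.1 hs).2]
          _ = ((Finset.univ.filter (fun s => jj s = j)).card : ℝ) * w (m - (j - k)) := by
              rw [Finset.sum_const, nsmul_eq_mul]
          _ ≤ N * w (m - (j - k)) := mul_le_mul_of_nonneg_right (h5 j) (hw0 _)
    _ = N * ∑ j ∈ Finset.univ.image jj, w (m - (j - k)) := by rw [Finset.mul_sum]
    _ = N * ∑ n ∈ (Finset.univ.image jj).image (fun j => m - (j - k)), w n := by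
        congr 1
        refine (Finset.sum_image ?_).symm
        intro a _ b _ hab
        simpa using hab
    _ ≤ N * D := mul_le_mul_of_nonneg_left (hwD _) hN

variable (h4 : ∀ k s m l v, ‖Δ m (S k s (Δ l v))‖ ≤
  A * (w (m - (jj s - k)) * w (l - (jj s - k))) * ‖Δ l v‖)

include hw0 hwD h4 in
theorem step_A (hN : 0 ≤ N)
    (h5 : ∀ j : ℤ, ((Finset.univ.filter (fun s => jj s = j)).card : ℝ) ≤ N) (L k : ℕ) (m : ℤ) :
    ‖Δ m (gL Δ S f L k)‖ ^ 2 ≤ A ^ 2 * (N * D * D) *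
      ∑ s, ∑ l ∈ Finset.Icc (-(L : ℤ)) L,
        w (m - (jj s - k)) * w (l - (jj s - k)) * ‖Δ l (f k s)‖ ^ 2 := by
  classical
  have hD := D_nonneg D w hwD
  set I := Finset.Icc (-(L : ℤ)) L with hI
  have h1 : ‖Δ m (gL Δ S f L k)‖ ≤ A * ∑ p ∈ (Finset.univ : Finset σ) ×ˢ I,
      (w (m - (jj p.1 - k)) * w (p.2 - (jj p.1 - k))) * ‖Δ p.2 (f k p.1)‖ := by
    unfold gL
    rw [map_sum, Finset.mul_sum, Finset.sum_product]
    refine (norm_sum_le _ _).trans (Finset.sum_le_sum fun s _ => ?_)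
    rw [map_sum, map_sum]
    refine (norm_sum_le _ _).trans (Finset.sum_le_sum fun l _ => ?_)
    refine (h4 k s m l _).trans (le_of_eq ?_)
    ring
  have h2 : ∑ p ∈ (Finset.univ : Finset σ) ×ˢ I,
      (w (m - (jj p.1 - k)) * w (p.2 - (jj p.1 - k))) ≤ N * D * D := by
    rw [Finset.sum_product]
    calc ∑ s, ∑ l ∈ I, w (m - (jj s - k)) * w (l - (jj s - k))
        ≤ ∑ s, w (m - (jj s - k)) * D := by
          refine Finset.sum_le_sum fun s _ => ?_
          rw [← Finset.mul_sum]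
          refine mul_le_mul_of_nonneg_left ?_ (hw0 _)
          have : ∑ l ∈ I, w (l - (jj s - k)) =
              ∑ n ∈ I.image (fun l => l - (jj s - k)), w n := by
            rw [Finset.sum_image]
            intro a _ b _ hab
            simpa using hab
          rw [this]
          exact hwD _
      _ = (∑ s, w (m - (jj s - k))) * D := by rw [Finset.sum_mul]
      _ ≤ (N * D) * D :=
          mul_le_mul_of_nonneg_right (sum_cls jj N D w hw0 hwD hN h5 m k) hD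
  calc ‖Δ m (gL Δ S f L k)‖ ^ 2
      ≤ (A * ∑ p ∈ (Finset.univ : Finset σ) ×ˢ I,
          (w (m - (jj p.1 - k)) * w (p.2 - (jj p.1 - k))) * ‖Δ p.2 (f k p.1)‖) ^ 2 :=
        pow_le_pow_left₀ (norm_nonneg _) h1 2
    _ = A ^ 2 * (∑ p ∈ (Finset.univ : Finset σ) ×ˢ I,
          (w (m - (jj p.1 - k)) * w (p.2 - (jj p.1 - k))) * ‖Δ p.2 (f k p.1)‖) ^ 2 := by
        rw [mul_pow]
    _ ≤ A ^ 2 * ((∑ p ∈ (Finset.univ : Finset σ) ×ˢ I,
          (w (m - (jj p.1 - k)) * w (p.2 - (jj p.1 - k)))) *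
          ∑ p ∈ (Finset.univ : Finset σ) ×ˢ I,
          (w (m - (jj p.1 - k)) * w (p.2 - (jj p.1 - k))) * ‖Δ p.2 (f k p.1)‖ ^ 2) := by
        refine mul_le_mul_of_nonneg_left ?_ (sq_nonneg _)
        exact cs_w _ _ _ fun p _ => mul_nonneg (hw0 _) (hw0 _)
    _ ≤ A ^ 2 * ((N * D * D) *
          ∑ p ∈ (Finset.univ : Finset σ) ×ˢ I,
          (w (m - (jj p.1 - k)) * w (p.2 - (jj p.1 - k))) * ‖Δ p.2 (f k p.1)‖ ^ 2) := by
        refine mul_le_mul_of_nonneg_left ?_ (sq_nonneg _)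
        refine mul_le_mul_of_nonneg_right h2 (Finset.sum_nonneg fun p _ => ?_)
        exact mul_nonneg (mul_nonneg (hw0 _) (hw0 _)) (sq_nonneg _)
    _ = _ := by rw [Finset.sum_product]; ring

variable (h1 : ∀ v, HasSum (fun m => ‖Δ m v‖ ^ 2) (‖v‖ ^ 2))

include hw0 hwD h4 h1 in
theorem step_B (hN : 0 ≤ N)
    (h5 : ∀ j : ℤ, ((Finset.univ.filter (fun s => jj s = j)).card : ℝ) ≤ N) (L k : ℕ) :
    ‖gL Δ S f L k‖ ^ 2 ≤ A ^ 2 * (N * D * D) * D *
      ∑ s, ∑ l ∈ Finset.Icc (-(L : ℤ)) L, w (l - (jj s - k)) * ‖Δ l (f k s)‖ ^ 2 := by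
  classical
  have hD := D_nonneg D w hwD
  refine hasSum_le_of_sum_le (h1 _) fun G => ?_
  calc ∑ m ∈ G, ‖Δ m (gL Δ S f L k)‖ ^ 2
      ≤ ∑ m ∈ G, A ^ 2 * (N * D * D) * ∑ s, ∑ l ∈ Finset.Icc (-(L : ℤ)) L,
        w (m - (jj s - k)) * w (l - (jj s - k)) * ‖Δ l (f k s)‖ ^ 2 :=
        Finset.sum_le_sum fun m _ => step_A Δ S f jj N A D w hw0 hwD h4 hN h5 L k m
    _ = A ^ 2 * (N * D * D) * ∑ s, ∑ l ∈ Finset.Icc (-(L : ℤ)) L,
        (∑ m ∈ G, w (m - (jj s - k))) * (w (l - (jj s - k)) * ‖Δ l (f k s)‖ ^ 2) := by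
        rw [← Finset.mul_sum, Finset.sum_comm]
        congr 1
        refine Finset.sum_congr rfl fun s _ => ?_
        rw [Finset.sum_comm]
        refine Finset.sum_congr rfl fun l _ => ?_
        rw [Finset.sum_mul]
        refine Finset.sum_congr rfl fun m _ => by ring
    _ ≤ A ^ 2 * (N * D * D) * ∑ s, ∑ l ∈ Finset.Icc (-(L : ℤ)) L,
        D * (w (l - (jj s - k)) * ‖Δ l (f k s)‖ ^ 2) := by
        refine mul_le_mul_of_nonneg_left ?_ (by positivity)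
        refine Finset.sum_le_sum fun s _ => Finset.sum_le_sum fun l _ => ?_
        refine mul_le_mul_of_nonneg_right ?_ (mul_nonneg (hw0 _) (sq_nonneg _))
        have : ∑ m ∈ G, w (m - (jj s - k)) =
            ∑ n ∈ G.image (fun l => l - (jj s - k)), w n := by
          rw [Finset.sum_image]
          intro a _ b _ hab
          simpa using hab
        rw [this]
        exact hwD _
    _ = _ := by
        simp_rw [← Finset.mul_sum]
        ring

variable (h6 : ∀ s (n : ℤ), ∑ k ∈ Finset.range K, ‖Δ (jj s - k + n) (f k s)‖ ^ 2 ≤ F s)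

include hw0 hwD h6 in
theorem step_C (L : ℕ) :
    ∑ k ∈ Finset.range K, ∑ s, ∑ l ∈ Finset.Icc (-(L : ℤ)) L,
      w (l - (jj s - k)) * ‖Δ l (f k s)‖ ^ 2 ≤ D * ∑ s, F s := by
  classical
  rw [Finset.sum_comm, Finset.mul_sum]
  refine Finset.sum_le_sum fun s _ => ?_
  set G : Finset ℤ := Finset.Icc (-(L : ℤ) - |jj s|) (L + |jj s| + K) with hG
  have hF : 0 ≤ F s := le_trans (Finset.sum_nonneg fun k _ => sq_nonneg _) (h6 s 0)
  calc ∑ k ∈ Finset.range K, ∑ l ∈ Finset.Icc (-(L : ℤ)) L,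
        w (l - (jj s - k)) * ‖Δ l (f k s)‖ ^ 2
      ≤ ∑ k ∈ Finset.range K, ∑ n ∈ G, w n * ‖Δ (jj s - k + n) (f k s)‖ ^ 2 := by
        refine Finset.sum_le_sum fun k hk => ?_
        have hk' := Finset.mem_range.1 hk
        have e1 : ∑ l ∈ Finset.Icc (-(L : ℤ)) L, w (l - (jj s - k)) * ‖Δ l (f k s)‖ ^ 2 =
            ∑ n ∈ (Finset.Icc (-(L : ℤ)) L).image (fun l => l - (jj s - k)),
              w n * ‖Δ (jj s - k + n) (f k s)‖ ^ 2 := by
          rw [Finset.sum_image]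
          · refine Finset.sum_congr rfl fun l _ => ?_
            rw [add_sub_cancel]
          · intro a _ b _ hab
            simpa using hab
        rw [e1]
        refine Finset.sum_le_sum_of_subset_of_nonneg ?_ fun n _ _ =>
          mul_nonneg (hw0 _) (sq_nonneg _)
        intro n hn
        obtain ⟨l, hl, rfl⟩ := Finset.mem_image.1 hn
        rw [Finset.mem_Icc] at hl
        rw [hG, Finset.mem_Icc]
        have h7 := le_abs_self (jj s)
        have h8 := neg_abs_le (jj s)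
        have h9 : (k : ℤ) < K := by exact_mod_cast hk'
        constructor <;> omega
    _ = ∑ n ∈ G, w n * ∑ k ∈ Finset.range K, ‖Δ (jj s - k + n) (f k s)‖ ^ 2 := by
        rw [Finset.sum_comm]
        refine Finset.sum_congr rfl fun n _ => ?_
        rw [Finset.mul_sum]
    _ ≤ ∑ n ∈ G, w n * F s :=
        Finset.sum_le_sum fun n _ => mul_le_mul_of_nonneg_left (h6 s n) (hw0 _)
    _ = (∑ n ∈ G, w n) * F s := by rw [Finset.sum_mul]
    _ ≤ D * F s := mul_le_mul_of_nonneg_right (hwD _) hF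

include hw0 hwD h4 h1 h6 in
/-- one level: abstract bound -/
theorem levabs (hN : 0 ≤ N)
    (h5 : ∀ j : ℤ, ((Finset.univ.filter (fun s => jj s = j)).card : ℝ) ≤ N)
    (h2 : ∀ v, Tendsto (fun L : ℕ => ‖v - ∑ l ∈ Finset.Icc (-(L : ℤ)) L, Δ l v‖) atTop (𝓝 0))
    (h3 : ∀ k s v, ‖S k s v‖ ≤ B k s * ‖v‖) :
    ∑ k ∈ Finset.range K, ‖∑ s, S k s (f k s)‖ ^ 2 ≤ A ^ 2 * N * D ^ 4 * ∑ s, F s := by
  classical
  have hD := D_nonneg D w hwD
  have hbd : ∀ L : ℕ, ∑ k ∈ Finset.range K, ‖gL Δ S f L k‖ ^ 2 ≤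
      A ^ 2 * N * D ^ 4 * ∑ s, F s := by
    intro L
    calc ∑ k ∈ Finset.range K, ‖gL Δ S f L k‖ ^ 2
        ≤ ∑ k ∈ Finset.range K, A ^ 2 * (N * D * D) * D *
          ∑ s, ∑ l ∈ Finset.Icc (-(L : ℤ)) L, w (l - (jj s - k)) * ‖Δ l (f k s)‖ ^ 2 :=
          Finset.sum_le_sum fun k _ => step_B Δ S f jj N A D w hw0 hwD h4 h1 hN h5 L k
      _ = A ^ 2 * (N * D * D) * D * ∑ k ∈ Finset.range K,
          ∑ s, ∑ l ∈ Finset.Icc (-(L : ℤ)) L, w (l - (jj s - k)) * ‖Δ l (f k s)‖ ^ 2 := by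
          rw [Finset.mul_sum]
      _ ≤ A ^ 2 * (N * D * D) * D * (D * ∑ s, F s) :=
          mul_le_mul_of_nonneg_left (step_C Δ f jj K D F w hw0 hwD h6 L) (by positivity)
      _ = _ := by ring
  have hlim : Tendsto (fun L : ℕ => ∑ k ∈ Finset.range K, ‖gL Δ S f L k‖ ^ 2) atTop
      (𝓝 (∑ k ∈ Finset.range K, ‖∑ s, S k s (f k s)‖ ^ 2)) := by
    refine tendsto_finsetSum _ fun k _ => ?_
    refine Tendsto.pow ?_ 2
    have hz : Tendsto (fun L : ℕ => ∑ s, B k s *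
        ‖f k s - ∑ l ∈ Finset.Icc (-(L : ℤ)) L, Δ l (f k s)‖) atTop (𝓝 0) := by
      have := tendsto_finsetSum (Finset.univ : Finset σ)
        (fun s _ => (h2 (f k s)).const_mul (B k s))
      simpa using this
    rw [tendsto_iff_norm_sub_tendsto_zero]
    refine squeeze_zero (fun _ => norm_nonneg _) (fun L => ?_) hz
    rw [Real.norm_eq_abs]
    refine (abs_norm_sub_norm_le _ _).trans ?_
    rw [← norm_neg, neg_sub]
    unfold gL
    rw [← Finset.sum_sub_distrib]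
    refine (norm_sum_le _ _).trans (Finset.sum_le_sum fun s _ => ?_)
    rw [← map_sub]
    exact h3 k s _
  exact le_of_tendsto' hlim hbd

end

end Crest.Agent.R087.LevAbsx575
end
end

-- ▼ part R087/MainV_575
section

/-!
Row 87, (E2) MAIN (helper575): the seminormed space `V1` of test functions on the line
(seminorm `sqrt (∫ f^2)`), dyadic martingale differences on it, convergence of partial sums.
-/

set_option autoImplicit false

noncomputable section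

open MeasureTheory Filter Topology
open scoped ENNReal RealInnerProductSpace

namespace Crest.Agent.R087.MainVx575

open E2x542

theorem nice1_zero : Nice1 (0 : ℝ → ℝ) :=
  ⟨measurable_const, ⟨0, fun y => by simp⟩, 0, fun y _ => rfl⟩

theorem nice1_add {f g : ℝ → ℝ} (hf : Nice1 f) (hg : Nice1 g) : Nice1 (f + g) := by
  obtain ⟨h1, ⟨M, hM⟩, R, hR⟩ := hf
  obtain ⟨h1', ⟨M', hM'⟩, R', hR'⟩ := hg
  refine ⟨h1.add h1', ⟨M + M', fun y => ?_⟩, max R R', fun y hy => ?_⟩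
  · exact (abs_add_le _ _).trans (add_le_add (hM y) (hM' y))
  · show f y + g y = 0
    rw [hR y (lt_of_le_of_lt (le_max_left _ _) hy), hR' y (lt_of_le_of_lt (le_max_right _ _) hy),
      add_zero]

theorem nice1_neg {f : ℝ → ℝ} (hf : Nice1 f) : Nice1 (-f) := by
  obtain ⟨h1, ⟨M, hM⟩, R, hR⟩ := hf
  refine ⟨h1.neg, ⟨M, fun y => ?_⟩, R, fun y hy => ?_⟩
  · show |-(f y)| ≤ M
    rw [abs_neg]; exact hM y
  · show -(f y) = 0
    rw [hR y hy, neg_zero]

theorem nice1_sub {f g : ℝ → ℝ} (hf : Nice1 f) (hg : Nice1 g) : Nice1 (fun y => f y - g y) := by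
  have := nice1_add hf (nice1_neg hg)
  have e : (fun y => f y - g y) = f + -g := by
    funext y; show f y - g y = f y + -(g y); ring
  rw [e]; exact this

theorem nice1_mul {f g : ℝ → ℝ} (hf : Nice1 f) (hg : Nice1 g) : Nice1 (fun y => f y * g y) := by
  obtain ⟨h1, ⟨M, hM⟩, R, hR⟩ := hf
  obtain ⟨h1', ⟨M', hM'⟩, R', hR'⟩ := hg
  refine ⟨h1.mul h1', ⟨M * M', fun y => ?_⟩, R, fun y hy => ?_⟩
  · rw [abs_mul]
    exact mul_le_mul (hM y) (hM' y) (abs_nonneg _) ((abs_nonneg _).trans (hM y))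
  · show f y * g y = 0
    rw [hR y hy, zero_mul]

theorem nice1_smul {f : ℝ → ℝ} (hf : Nice1 f) (c : ℝ) : Nice1 (fun y => c * f y) := by
  obtain ⟨h1, ⟨M, hM⟩, R, hR⟩ := hf
  refine ⟨h1.const_mul c, ⟨|c| * M, fun y => ?_⟩, R, fun y hy => ?_⟩
  · rw [abs_mul]
    exact mul_le_mul_of_nonneg_left (hM y) (abs_nonneg _)
  · show c * f y = 0
    rw [hR y hy, mul_zero]

theorem nice1_sq {f : ℝ → ℝ} (hf : Nice1 f) : Nice1 (fun y => (f y) ^ 2) := by
  have := nice1_mul hf hf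
  simpa only [← pow_two] using this

theorem integrable_of_nice1 {f : ℝ → ℝ} (hf : Nice1 f) : Integrable f := by
  obtain ⟨hm, ⟨M, hM⟩, R, hR⟩ := hf
  have hsub : Function.support f ⊆ Metric.closedBall (0 : ℝ) R := by
    intro z hz
    by_contra h
    apply hz
    apply hR
    simpa using h
  rw [← integrableOn_iff_integrable_of_support_subset hsub]
  refine Measure.integrableOn_of_bounded (M := M) ?_ hm.aestronglyMeasurable
    (Filter.Eventually.of_forall fun z => hM z)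
  exact (isCompact_closedBall (0 : ℝ) R).measure_lt_top.ne

theorem memLp_of_nice1 {f : ℝ → ℝ} (hf : Nice1 f) : MemLp f 2 volume := by
  rw [memLp_two_iff_integrable_sq hf.1.aestronglyMeasurable]
  exact integrable_of_nice1 (nice1_sq hf)

/-- test functions form an additive group -/
def N1 : AddSubgroup (ℝ → ℝ) where
  carrier := {f | Nice1 f}
  add_mem' := fun hf hg => nice1_add hf hg
  zero_mem' := nice1_zero
  neg_mem' := fun hf => nice1_neg hf

/-- the space of test functions -/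
def V1 : Type := N1

instance : AddCommGroup V1 := inferInstanceAs (AddCommGroup N1)

/-- underlying function -/
def V1.fn (v : V1) : ℝ → ℝ := Subtype.val (p := fun f => f ∈ N1) v

theorem V1.nice (v : V1) : Nice1 v.fn := Subtype.property (p := fun f => f ∈ N1) v

/-- constructor -/
def V1.mk (f : ℝ → ℝ) (hf : Nice1 f) : V1 := (⟨f, hf⟩ : N1)

@[simp] theorem V1.fn_mk (f : ℝ → ℝ) (hf : Nice1 f) : (V1.mk f hf).fn = f := rfl

theorem V1.ext' {u v : V1} (h : u.fn = v.fn) : u = v := Subtype.ext h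

@[simp] theorem V1.fn_add (u v : V1) : (u + v).fn = u.fn + v.fn := rfl
@[simp] theorem V1.fn_neg (u : V1) : (-u).fn = -u.fn := rfl
@[simp] theorem V1.fn_zero : (0 : V1).fn = 0 := rfl
@[simp] theorem V1.fn_sub (u v : V1) : (u - v).fn = u.fn - v.fn := by
  rw [sub_eq_add_neg, V1.fn_add, V1.fn_neg, sub_eq_add_neg]

/-- evaluation as a homomorphism -/
def V1.fnHom : V1 →+ (ℝ → ℝ) where
  toFun v := v.fn
  map_zero' := rfl
  map_add' _ _ := rfl

theorem V1.fn_sum {ι : Type*} (s : Finset ι) (g : ι → V1) :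
    (∑ i ∈ s, g i).fn = fun y => ∑ i ∈ s, (g i).fn y := by
  have h := map_sum V1.fnHom g s
  funext y
  have h2 := congrFun h y
  rw [Finset.sum_apply] at h2
  exact h2

/-- embedding in `L²` -/
def toL2 : V1 →+ Lp ℝ 2 (volume : Measure ℝ) where
  toFun v := (memLp_of_nice1 v.nice).toLp v.fn
  map_zero' := by
    apply Lp.ext
    refine (MemLp.coeFn_toLp _).trans ?_
    exact (Lp.coeFn_zero ℝ 2 (volume : Measure ℝ)).symm
  map_add' u v := (MemLp.toLp_add (memLp_of_nice1 u.nice) (memLp_of_nice1 v.nice))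

instance : SeminormedAddCommGroup V1 :=
  SeminormedAddCommGroup.induced V1 (Lp ℝ 2 (volume : Measure ℝ)) toL2

theorem norm_def' (v : V1) : ‖v‖ = ‖toL2 v‖ := rfl

theorem inner_toL2 (u v : V1) : ⟪toL2 u, toL2 v⟫ = ∫ y, v.fn y * u.fn y := by
  rw [L2.inner_def]
  refine integral_congr_ae ?_
  filter_upwards [MemLp.coeFn_toLp (memLp_of_nice1 u.nice),
    MemLp.coeFn_toLp (memLp_of_nice1 v.nice)] with y hu hv
  show ⟪((memLp_of_nice1 u.nice).toLp u.fn : ℝ → ℝ) y,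
    ((memLp_of_nice1 v.nice).toLp v.fn : ℝ → ℝ) y⟫ = _
  rw [hu, hv]
  simp [mul_comm]

theorem norm_sq (v : V1) : ‖v‖ ^ 2 = ∫ y, (v.fn y) ^ 2 := by
  rw [norm_def', ← real_inner_self_eq_norm_sq, inner_toL2]
  simp only [pow_two]

theorem norm_sub_sq' (u v : V1) :
    ‖u - v‖ ^ 2 = ‖u‖ ^ 2 - 2 * (∫ y, v.fn y * u.fn y) + ‖v‖ ^ 2 := by
  rw [norm_def', norm_def', norm_def', map_sub, norm_sub_sq_real, inner_toL2]

/-! ### dyadic expectations as homomorphisms -/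

theorem integrableOn_nice1 {f : ℝ → ℝ} (hf : Nice1 f) (s : Set ℝ) : IntegrableOn f s :=
  (integrable_of_nice1 hf).integrableOn

theorem Ex_add {f g : ℝ → ℝ} (hf : Nice1 f) (hg : Nice1 g) (l : ℤ) :
    Ex l (f + g) = Ex l f + Ex l g := by
  funext y
  show Ex l (f + g) y = Ex l f y + Ex l g y
  unfold Ex
  simp only [Pi.add_apply]
  rw [integral_add (integrableOn_nice1 hf _) (integrableOn_nice1 hg _), mul_add]

theorem Ex_zero (l : ℤ) : Ex l 0 = 0 := by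
  funext y
  show Ex l 0 y = 0
  unfold Ex
  simp

variable (hM : MART)

/-- `E_l` on `V1` -/
def EH (l : ℤ) : V1 →+ V1 where
  toFun v := V1.mk (Ex l v.fn) (hM.1 l v.fn v.nice)
  map_zero' := V1.ext' (by simp [Ex_zero])
  map_add' u v := V1.ext' (by simp [Ex_add u.nice v.nice])

/-- `Δ_l` on `V1` -/
def DH (l : ℤ) : V1 →+ V1 := EH hM l - EH hM (l + 1)

theorem DH_fn (l : ℤ) (v : V1) : (DH hM l v).fn = Dl l v.fn := by
  funext y
  simp [DH, EH, Dl]

theorem EH_fn (l : ℤ) (v : V1) : (EH hM l v).fn = Ex l v.fn := rfl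

theorem norm_EH_le (l : ℤ) (v : V1) : ‖EH hM l v‖ ≤ ‖v‖ := by
  have h := hM.2.1 l v.fn v.nice
  have h1 : ‖EH hM l v‖ ^ 2 ≤ ‖v‖ ^ 2 := by rw [norm_sq, norm_sq]; exact h
  exact (sq_le_sq₀ (norm_nonneg _) (norm_nonneg _)).1 h1

theorem norm_DH_sq (l : ℤ) (v : V1) :
    ‖DH hM l v‖ ^ 2 = ‖EH hM l v‖ ^ 2 - ‖EH hM (l + 1) v‖ ^ 2 := by
  rw [norm_sq, norm_sq, norm_sq, DH_fn, EH_fn, EH_fn]
  exact hM.2.2.1 l v.fn v.nice

theorem norm_DH_le (l : ℤ) (v : V1) : ‖DH hM l v‖ ≤ ‖v‖ := by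
  have h1 : ‖DH hM l v‖ ^ 2 ≤ ‖v‖ ^ 2 := by
    rw [norm_DH_sq]
    have := pow_le_pow_left₀ (norm_nonneg _) (norm_EH_le hM l v) 2
    nlinarith [sq_nonneg ‖EH hM (l + 1) v‖]
  exact (sq_le_sq₀ (norm_nonneg _) (norm_nonneg _)).1 h1

theorem hasSum_DH (v : V1) : HasSum (fun l => ‖DH hM l v‖ ^ 2) (‖v‖ ^ 2) := by
  have h := hM.2.2.2.1 v.fn v.nice
  simp only [norm_sq, DH_fn]
  exact h

theorem hasSum_inner (v : V1) : HasSum (fun l => ∫ y, (DH hM l v).fn y * v.fn y) (‖v‖ ^ 2) := by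
  have h := hM.2.2.2.2 v.fn v.fn v.nice v.nice
  rw [norm_sq]
  simp only [DH_fn, pow_two]
  exact h

theorem tele {M : Type*} [AddCommGroup M] (e : ℤ → M) (L : ℕ) :
    ∑ l ∈ Finset.Icc (-(L : ℤ)) L, (e l - e (l + 1)) = e (-(L : ℤ)) - e (L + 1) := by
  induction L with
  | zero => simp
  | succ L ih =>
    have h : Finset.Icc (-((L + 1 : ℕ) : ℤ)) ((L + 1 : ℕ) : ℤ) =
        insert (-((L + 1 : ℕ) : ℤ)) (insert ((L + 1 : ℕ) : ℤ) (Finset.Icc (-(L : ℤ)) L)) := by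
      ext x
      simp only [Finset.mem_Icc, Finset.mem_insert]
      push_cast
      omega
    rw [h, Finset.sum_insert, Finset.sum_insert, ih]
    · push_cast
      have e1 : -((L : ℤ) + 1) + 1 = -(L : ℤ) := by ring
      rw [e1]
      abel
    · simp only [Finset.mem_Icc]
      push_cast
      omega
    · simp only [Finset.mem_Icc, Finset.mem_insert]
      push_cast
      omega

/-- partial sum -/
def RL (L : ℕ) (v : V1) : V1 := ∑ l ∈ Finset.Icc (-(L : ℤ)) L, DH hM l v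

theorem RL_eq (L : ℕ) (v : V1) : RL hM L v = EH hM (-(L : ℤ)) v - EH hM (L + 1) v := by
  unfold RL
  rw [← tele (fun l => EH hM l v) L]
  rfl

theorem tendsto_RL (v : V1) : Tendsto (fun L : ℕ => ‖v - RL hM L v‖) atTop (𝓝 0) := by
  have hIcc : Tendsto (fun L : ℕ => Finset.Icc (-(L : ℤ)) (L : ℤ)) atTop atTop :=
    Finset.tendsto_Icc_neg
  have t1 : Tendsto (fun L : ℕ => ∑ l ∈ Finset.Icc (-(L : ℤ)) L, ‖DH hM l v‖ ^ 2) atTop
      (𝓝 (‖v‖ ^ 2)) := (hasSum_DH hM v).comp hIcc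
  have t2 : Tendsto (fun L : ℕ => ∑ l ∈ Finset.Icc (-(L : ℤ)) L,
      ∫ y, (DH hM l v).fn y * v.fn y) atTop (𝓝 (‖v‖ ^ 2)) := (hasSum_inner hM v).comp hIcc
  have e1 : ∀ L : ℕ, ∑ l ∈ Finset.Icc (-(L : ℤ)) L, ‖DH hM l v‖ ^ 2 =
      ‖EH hM (-(L : ℤ)) v‖ ^ 2 - ‖EH hM (L + 1) v‖ ^ 2 := by
    intro L
    rw [← tele (fun l => ‖EH hM l v‖ ^ 2) L]
    exact Finset.sum_congr rfl fun l _ => norm_DH_sq hM l v
  have e2 : ∀ L : ℕ, ∑ l ∈ Finset.Icc (-(L : ℤ)) L, ∫ y, (DH hM l v).fn y * v.fn y =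
      ∫ y, (RL hM L v).fn y * v.fn y := by
    intro L
    rw [← integral_finsetSum]
    · refine integral_congr_ae (Filter.Eventually.of_forall fun y => ?_)
      show ∑ l ∈ Finset.Icc (-(L : ℤ)) L, (DH hM l v).fn y * v.fn y = (RL hM L v).fn y * v.fn y
      unfold RL
      rw [V1.fn_sum, Finset.sum_mul]
    · intro l _
      exact integrable_of_nice1 (nice1_mul (DH hM l v).nice v.nice)
  have hx : Tendsto (fun L : ℕ => ‖EH hM (L + 1) v‖ ^ 2) atTop (𝓝 0) := by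
    have h3 : Tendsto (fun L : ℕ => ‖v‖ ^ 2 -
        ∑ l ∈ Finset.Icc (-(L : ℤ)) L, ‖DH hM l v‖ ^ 2) atTop (𝓝 0) := by
      have := t1.const_sub (‖v‖ ^ 2)
      simpa using this
    refine squeeze_zero (fun _ => sq_nonneg _) (fun L => ?_) h3
    rw [e1 L]
    have := pow_le_pow_left₀ (norm_nonneg _) (norm_EH_le hM (-(L : ℤ)) v) 2
    linarith
  have hx' : Tendsto (fun L : ℕ => ‖EH hM (L + 1) v‖) atTop (𝓝 0) := by
    have h3 := (Real.continuous_sqrt.tendsto 0).comp hx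
    rw [Real.sqrt_zero] at h3
    refine h3.congr fun L => ?_
    exact Real.sqrt_sq (norm_nonneg _)
  have hb : Tendsto (fun L : ℕ => ‖v‖ ^ 2 - 2 * (∫ y, (RL hM L v).fn y * v.fn y) +
      (‖v‖ + ‖EH hM (L + 1) v‖) ^ 2) atTop (𝓝 0) := by
    have t3 : Tendsto (fun L : ℕ => ∫ y, (RL hM L v).fn y * v.fn y) atTop (𝓝 (‖v‖ ^ 2)) :=
      t2.congr e2
    have t4 := ((t3.const_mul 2).const_sub (‖v‖ ^ 2)).add ((hx'.const_add ‖v‖).pow 2)
    have e5 : ‖v‖ ^ 2 - 2 * ‖v‖ ^ 2 + (‖v‖ + 0) ^ 2 = 0 := by ring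
    rw [e5] at t4
    exact t4
  have hsq : Tendsto (fun L : ℕ => ‖v - RL hM L v‖ ^ 2) atTop (𝓝 0) := by
    refine squeeze_zero (fun _ => sq_nonneg _) (fun L => ?_) hb
    rw [norm_sub_sq']
    have h4 : ‖RL hM L v‖ ≤ ‖v‖ + ‖EH hM (L + 1) v‖ := by
      rw [RL_eq]
      refine (norm_sub_le _ _).trans ?_
      have := norm_EH_le hM (-(L : ℤ)) v
      linarith
    have h5 := pow_le_pow_left₀ (norm_nonneg _) h4 2
    linarith
  have h3 := (Real.continuous_sqrt.tendsto 0).comp hsq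
  rw [Real.sqrt_zero] at h3
  refine h3.congr fun L => ?_
  exact Real.sqrt_sq (norm_nonneg _)

end Crest.Agent.R087.MainVx575
end
end

-- ▼ part R087/MainOp_575
section

/-!
Row 87, (E2) MAIN (helper575): almost diagonal operators and the level estimate.
-/

set_option autoImplicit false

noncomputable section

open MeasureTheory Filter Topology
open scoped ENNReal RealInnerProductSpace

namespace Crest.Agent.R087.MainOpx575

open E2x542 MainVx575 LevAbsx575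

/-! ### weights -/

theorem sumq {q : ℝ} (h0 : 0 ≤ q) (h1 : q < 1) :
    ∃ D : ℝ, ∀ G : Finset ℤ, ∑ n ∈ G, q ^ n.natAbs ≤ D := by
  have hs : Summable (fun n : ℤ => q ^ n.natAbs) := by
    apply Summable.of_nat_of_neg
    · simpa using summable_geometric_of_lt_one h0 h1
    · simpa using summable_geometric_of_lt_one h0 h1
  exact ⟨∑' n : ℤ, q ^ n.natAbs, fun G => hs.sum_le_tsum G fun n _ => pow_nonneg h0 _⟩

/-- `p = 2^{-1/2}` -/
def pp : ℝ := Real.sqrt (1 / 2)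

theorem pp_sq : pp ^ 2 = 1 / 2 := Real.sq_sqrt (by norm_num)

theorem pp_pos : 0 < pp := Real.sqrt_pos.2 (by norm_num)

theorem pp_lt : pp < 1 := by
  have h := pp_sq
  nlinarith [pp_pos]

/-- `q = 2^{-1/8}` -/
def qq : ℝ := Real.sqrt (Real.sqrt pp)

theorem qq_four : qq ^ 4 = pp := by
  have h1 : qq ^ 2 = Real.sqrt pp := Real.sq_sqrt (Real.sqrt_nonneg _)
  have h2 : (Real.sqrt pp) ^ 2 = pp := Real.sq_sqrt pp_pos.le
  calc qq ^ 4 = (qq ^ 2) ^ 2 := by ring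
    _ = pp := by rw [h1, h2]

theorem qq_nonneg : 0 ≤ qq := Real.sqrt_nonneg _

theorem qq_lt : qq < 1 := by
  by_contra h
  push Not at h
  have := one_le_pow₀ h (n := 4)
  rw [qq_four] at this
  linarith [pp_lt]

/-- weights `2^{-|n|/2}` -/
def pW (n : ℤ) : ℝ := pp ^ n.natAbs

/-- weights `2^{-|n|/8}` -/
def wW (n : ℤ) : ℝ := qq ^ n.natAbs

theorem wW_four (n : ℤ) : wW n ^ 4 = pW n := by
  unfold wW pW
  rw [← pow_mul, mul_comm, pow_mul, qq_four]

theorem wW_nonneg (n : ℤ) : 0 ≤ wW n := pow_nonneg qq_nonneg _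

theorem pW_pos (n : ℤ) : 0 < pW n := pow_pos pp_pos _

theorem pW_le_one (n : ℤ) : pW n ≤ 1 := pow_le_one₀ pp_pos.le pp_lt.le

theorem pp_natAbs_of_nonneg {n : ℤ} (hn : 0 ≤ n) : (2 : ℝ) ^ (-n) ≤ pW n := by
  obtain ⟨m, rfl⟩ := Int.eq_ofNat_of_zero_le hn
  unfold pW
  have h1 : ((2 : ℝ) ^ (-(m : ℤ))) = (pp ^ 2) ^ m := by
    rw [pp_sq, zpow_neg, zpow_natCast, one_div, inv_pow]
  rw [Int.natAbs_natCast, h1, ← pow_mul]
  exact pow_le_pow_of_le_one pp_pos.le pp_lt.le (by omega)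

theorem pW_four_of_nonpos {n : ℤ} (hn : n ≤ 0) : ((2 : ℝ) ^ n) ^ 2 = pW n ^ 4 := by
  obtain ⟨m, hm⟩ := Int.eq_ofNat_of_zero_le (show 0 ≤ -n by omega)
  have hn' : n = -(m : ℤ) := by omega
  subst hn'
  unfold pW
  have h1 : ((2 : ℝ) ^ (-(m : ℤ))) = (pp ^ 2) ^ m := by
    rw [pp_sq, zpow_neg, zpow_natCast, one_div, inv_pow]
  rw [Int.natAbs_neg, Int.natAbs_natCast, h1]
  ring

theorem pW_four_le (n : ℤ) : pW n ^ 4 ≤ pW n := by
  calc pW n ^ 4 = pW n * pW n ^ 3 := by ring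
    _ ≤ pW n * 1 := by
        refine mul_le_mul_of_nonneg_left ?_ (pW_pos n).le
        exact pow_le_one₀ (pW_pos n).le (pW_le_one n)
    _ = pW n := mul_one _

/-! ### almost diagonal operators -/

/-- an operator with almost diagonal bounds at scale `2^lam` -/
structure Op (A : ℝ) (lam : ℤ) (T : (ℝ → ℝ) → (ℝ → ℝ)) : Prop where
  nice : ∀ f, Nice1 f → Nice1 (T f)
  add : ∀ f g, Nice1 f → Nice1 g → T (f + g) = T f + T g
  smul : ∀ (c : ℝ) f, Nice1 f → T (fun y => c * f y) = fun y => c * T f y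
  inp : ∀ l f, Nice1 f → ∫ y, (T (Dl l f) y) ^ 2 ≤ A * pW (l - lam) * ∫ y, (Dl l f y) ^ 2
  out : ∀ l f, Nice1 f → ∫ y, (Dl l (T f) y) ^ 2 ≤ A * pW (l - lam) * ∫ y, (f y) ^ 2

theorem Op.zero {A : ℝ} (hA : 0 ≤ A) (lam : ℤ) : Op A lam (fun _ _ => 0) := by
  refine ⟨fun f _ => nice1_zero, fun f g _ _ => ?_, fun c f _ => ?_, fun l f _ => ?_,
    fun l f _ => ?_⟩
  · funext y; simp
  · funext y; simp
  · have : 0 ≤ ∫ y, (Dl l f y) ^ 2 := integral_nonneg fun y => sq_nonneg _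
    have h2 := (pW_pos (l - lam)).le
    simp only [ne_eq, OfNat.ofNat_ne_zero, not_false_eq_true, zero_pow, integral_zero]
    positivity
  · have : 0 ≤ ∫ y, (f y) ^ 2 := integral_nonneg fun y => sq_nonneg _
    have h2 := (pW_pos (l - lam)).le
    have h3 : ∀ y, Dl l (fun _ => (0 : ℝ)) y = 0 := by
      intro y
      simp [Dl, Ex]
    simp only [h3, ne_eq, OfNat.ofNat_ne_zero, not_false_eq_true, zero_pow, integral_zero]
    positivity

theorem Op.map_zero {A : ℝ} {lam : ℤ} {T : (ℝ → ℝ) → (ℝ → ℝ)} (h : Op A lam T) : T 0 = 0 := by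
  have := h.smul 0 0 nice1_zero
  have e : (fun y : ℝ => (0 : ℝ) * (0 : ℝ → ℝ) y) = 0 := by funext y; simp
  rw [e] at this
  rw [this]
  funext y
  simp

/-- as a homomorphism of `V1` -/
def Op.hom {A : ℝ} {lam : ℤ} {T : (ℝ → ℝ) → (ℝ → ℝ)} (h : Op A lam T) : V1 →+ V1 where
  toFun v := V1.mk (T v.fn) (h.nice v.fn v.nice)
  map_zero' := V1.ext' (by simpa using h.map_zero)
  map_add' u v := V1.ext' (by simpa using h.add u.fn v.fn u.nice v.nice)

theorem Op.hom_fn {A : ℝ} {lam : ℤ} {T : (ℝ → ℝ) → (ℝ → ℝ)} (h : Op A lam T) (v : V1) :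
    (h.hom v).fn = T v.fn := rfl

variable (hM : MART)

theorem Op.norm_inp {A : ℝ} {lam : ℤ} {T : (ℝ → ℝ) → (ℝ → ℝ)} (h : Op A lam T) (l : ℤ) (v : V1) :
    ‖h.hom (DH hM l v)‖ ^ 2 ≤ A * pW (l - lam) * ‖DH hM l v‖ ^ 2 := by
  rw [norm_sq, norm_sq, Op.hom_fn, DH_fn]
  exact h.inp l v.fn v.nice

theorem Op.norm_out {A : ℝ} {lam : ℤ} {T : (ℝ → ℝ) → (ℝ → ℝ)} (h : Op A lam T) (l : ℤ) (v : V1) :
    ‖DH hM l (h.hom v)‖ ^ 2 ≤ A * pW (l - lam) * ‖v‖ ^ 2 := by
  rw [norm_sq, norm_sq, DH_fn, Op.hom_fn]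
  exact h.out l v.fn v.nice

include hM in
theorem Op.bounded {A : ℝ} {lam : ℤ} {T : (ℝ → ℝ) → (ℝ → ℝ)} (h : Op A lam T) (hA : 0 ≤ A) :
    ∃ B : ℝ, ∀ v : V1, ‖h.hom v‖ ≤ B * ‖v‖ := by
  obtain ⟨D, hD⟩ := sumq pp_pos.le pp_lt
  have hD0 : 0 ≤ D := by simpa using hD ∅
  refine ⟨Real.sqrt (A * D), fun v => ?_⟩
  have h1 : ‖h.hom v‖ ^ 2 ≤ A * D * ‖v‖ ^ 2 := by
    refine hasSum_le_of_sum_le (hasSum_DH hM (h.hom v)) fun G => ?_
    calc ∑ l ∈ G, ‖DH hM l (h.hom v)‖ ^ 2 ≤ ∑ l ∈ G, A * pW (l - lam) * ‖v‖ ^ 2 :=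
          Finset.sum_le_sum fun l _ => h.norm_out hM l v
      _ = A * (∑ l ∈ G, pW (l - lam)) * ‖v‖ ^ 2 := by
          rw [Finset.mul_sum, Finset.sum_mul]
      _ ≤ A * D * ‖v‖ ^ 2 := by
          refine mul_le_mul_of_nonneg_right (mul_le_mul_of_nonneg_left ?_ hA) (sq_nonneg _)
          have : ∑ l ∈ G, pW (l - lam) = ∑ n ∈ G.image (fun l => l - lam), pp ^ n.natAbs := by
            symm
            refine Finset.sum_image ?_
            intro a _ b _ hab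
            simpa using hab
          rw [this]
          exact hD _
  have h2 : (Real.sqrt (A * D) * ‖v‖) ^ 2 = A * D * ‖v‖ ^ 2 := by
    rw [mul_pow, Real.sq_sqrt (mul_nonneg hA hD0)]
  rw [← h2] at h1
  exact (sq_le_sq₀ (norm_nonneg _) (by positivity)).1 h1

theorem Op.almost_diag {A : ℝ} {lam : ℤ} {T : (ℝ → ℝ) → (ℝ → ℝ)} (h : Op A lam T) (hA : 0 ≤ A)
    (m l : ℤ) (v : V1) :
    ‖DH hM m (h.hom (DH hM l v))‖ ≤
      Real.sqrt A * (wW (m - lam) * wW (l - lam)) * ‖DH hM l v‖ := by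
  set X := ‖DH hM m (h.hom (DH hM l v))‖ with hX
  set Y := ‖DH hM l v‖ with hY
  have b1 : X ^ 2 ≤ A * pW (m - lam) * Y ^ 2 := h.norm_out hM m (DH hM l v)
  have b2 : X ^ 2 ≤ A * pW (l - lam) * Y ^ 2 := by
    refine le_trans ?_ (h.norm_inp hM l v)
    exact pow_le_pow_left₀ (norm_nonneg _) (norm_DH_le hM m _) 2
  have hsA : Real.sqrt A ^ 2 = A := Real.sq_sqrt hA
  have b3 : X ^ 4 ≤ (Real.sqrt A * (wW (m - lam) * wW (l - lam)) * Y) ^ 4 := by
    calc X ^ 4 = X ^ 2 * X ^ 2 := by ring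
      _ ≤ (A * pW (m - lam) * Y ^ 2) * (A * pW (l - lam) * Y ^ 2) := by
          refine mul_le_mul b1 b2 (sq_nonneg _) ?_
          exact mul_nonneg (mul_nonneg hA (pW_pos _).le) (sq_nonneg _)
      _ = (Real.sqrt A ^ 2) ^ 2 * (wW (m - lam) ^ 4 * wW (l - lam) ^ 4) * Y ^ 4 := by
          rw [hsA, wW_four, wW_four]; ring
      _ = _ := by ring
  refine le_of_pow_le_pow_left₀ (n := 4) (by norm_num) ?_ b3
  exact mul_nonneg (mul_nonneg (Real.sqrt_nonneg _) (mul_nonneg (wW_nonneg _) (wW_nonneg _)))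
    (norm_nonneg _)

/-! ### monotonicity of expectations -/

theorem Ex_mono {f g : ℝ → ℝ} (hf : Nice1 f) (hg : Nice1 g) (h : ∀ y, f y ≤ g y) (l : ℤ) (y : ℝ) :
    Ex l f y ≤ Ex l g y := by
  unfold Ex
  refine mul_le_mul_of_nonneg_left ?_ (by positivity)
  exact setIntegral_mono (integrableOn_nice1 hf _) (integrableOn_nice1 hg _) h

theorem Ex_nonneg {f : ℝ → ℝ} (h : ∀ y, 0 ≤ f y) (l : ℤ) (y : ℝ) : 0 ≤ Ex l f y := by
  unfold Ex
  exact mul_nonneg (by positivity) (integral_nonneg h)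

theorem norm_EH_mono (l : ℤ) {u v : V1} (h0 : ∀ y, 0 ≤ u.fn y) (h : ∀ y, u.fn y ≤ v.fn y) :
    ‖EH hM l u‖ ^ 2 ≤ ‖EH hM l v‖ ^ 2 := by
  rw [norm_sq, norm_sq, EH_fn, EH_fn]
  refine integral_mono_of_nonneg (Filter.Eventually.of_forall fun y => sq_nonneg _)
    (integrable_of_nice1 (nice1_sq (hM.1 l v.fn v.nice))) (Filter.Eventually.of_forall fun y => ?_)
  exact pow_le_pow_left₀ (Ex_nonneg h0 l y) (Ex_mono u.nice v.nice h l y) 2

/-- the positivity potential -/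
theorem potential (K : ℕ) (f : ℕ → V1) (v : V1) (h0 : ∀ k y, 0 ≤ (f k).fn y)
    (h1 : ∀ k y, (f k).fn y ≤ (f (k + 1)).fn y) (h2 : ∀ k y, (f k).fn y ≤ v.fn y) (j n : ℤ) :
    ∑ k ∈ Finset.range K, ‖DH hM (j - k + n) (f k)‖ ^ 2 ≤ ‖v‖ ^ 2 := by
  have key : ∀ K : ℕ, ∑ k ∈ Finset.range (K + 1), ‖DH hM (j - k + n) (f k)‖ ^ 2 ≤
      ‖EH hM (j - K + n) (f K)‖ ^ 2 := by
    intro K
    induction K with
    | zero =>
      rw [Finset.sum_range_one, norm_DH_sq]
      have := sq_nonneg ‖EH hM (j - (0 : ℕ) + n + 1) (f 0)‖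
      linarith
    | succ K ih =>
      rw [Finset.sum_range_succ, norm_DH_sq]
      have e : j - ((K + 1 : ℕ) : ℤ) + n + 1 = j - K + n := by push_cast; ring
      rw [e]
      have := norm_EH_mono hM (j - K + n) (h0 K) (h1 K)
      linarith
  cases K with
  | zero => simp
  | succ K =>
    refine (key K).trans ?_
    refine (norm_EH_mono hM _ (h0 K) (h2 K)).trans ?_
    exact pow_le_pow_left₀ (norm_nonneg _) (norm_EH_le hM _ v) 2

end Crest.Agent.R087.MainOpx575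
end
end

-- ▼ part R087/MainLev_575
section

/-!
Row 87, (E2) MAIN (helper575): the level estimate for a family of almost diagonal operators.
-/

set_option autoImplicit false

noncomputable section

open MeasureTheory Filter Topology
open scoped ENNReal RealInnerProductSpace

namespace Crest.Agent.R087.MainLevx575

open E2x542 MainVx575 LevAbsx575 MainOpx575

/-- translated tent -/
def phi (b x : ℝ) : ℝ := tent (x - b)

theorem tent_nonneg (u : ℝ) : 0 ≤ tent u := le_max_right _ _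

theorem tent_le_one (u : ℝ) : tent u ≤ 1 := by
  unfold tent
  exact max_le (by linarith [abs_nonneg u]) zero_le_one

theorem tent_cont : Continuous tent := by
  unfold tent
  fun_prop

theorem tent_zero {u : ℝ} (h : 1 ≤ |u|) : tent u = 0 := max_eq_right (by linarith)

theorem nice1_phi (b : ℝ) : Nice1 (phi b) := by
  refine ⟨(tent_cont.comp (by fun_prop)).measurable, ⟨1, fun y => ?_⟩, |b| + 1, fun y hy => ?_⟩
  · unfold phi
    rw [abs_of_nonneg (tent_nonneg _)]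
    exact tent_le_one _
  · unfold phi
    apply tent_zero
    have := abs_sub_abs_le_abs_sub y b
    linarith

theorem tent_le_win (u : ℝ) : tent u ≤ win (u - 1 / 2) + win (u + 1 / 2) := by
  have hw : ∀ v, 0 ≤ win v := fun v => by unfold win; split_ifs <;> norm_num
  rcases le_or_gt 1 |u| with h | h
  · rw [tent_zero h]
    exact add_nonneg (hw _) (hw _)
  · have h1 := abs_lt.1 h
    rcases le_total 0 u with h2 | h2
    · have : win (u - 1 / 2) = 1 := by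
        unfold win
        rw [if_pos]
        rw [abs_le]
        constructor <;> linarith
      rw [this]
      linarith [hw (u + 1 / 2), tent_le_one u]
    · have : win (u + 1 / 2) = 1 := by
        unfold win
        rw [if_pos]
        rw [abs_le]
        constructor <;> linarith
      rw [this]
      linarith [hw (u - 1 / 2), tent_le_one u]

theorem nice1_win (b : ℝ) : Nice1 (fun y => win (y - b)) := by
  refine ⟨?_, ⟨1, fun y => ?_⟩, |b| + 1, fun y hy => ?_⟩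
  · unfold win
    refine Measurable.ite ?_ measurable_const measurable_const
    exact (isClosed_le (by fun_prop) continuous_const).measurableSet
  · show |win (y - b)| ≤ 1
    unfold win
    split_ifs <;> simp
  · show win (y - b) = 0
    unfold win
    rw [if_neg]
    have := abs_sub_abs_le_abs_sub y b
    linarith

theorem nice1_sum {ι : Type*} (s : Finset ι) (g : ι → ℝ → ℝ) (h : ∀ i ∈ s, Nice1 (g i)) :
    Nice1 (fun y => ∑ i ∈ s, g i y) := by
  have h1 : (∑ i ∈ s, g i) ∈ N1 := AddSubgroup.sum_mem N1 h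
  have e : (fun y => ∑ i ∈ s, g i y) = ∑ i ∈ s, g i := by
    funext y; rw [Finset.sum_apply]
  rw [e]
  exact h1

/-- sum of windows dominates sum of tents in `L²` -/
theorem tents_le {n : ℕ} (a b : Fin n → ℝ) (ha : ∀ i, 0 ≤ a i) :
    ∫ y, (∑ i, a i * phi (b i) y) ^ 2 ≤ 4 * ∫ y, (∑ i, a i * win (y - b i)) ^ 2 := by
  set W : ℝ → ℝ := fun y => ∑ i, a i * win (y - b i) with hW
  have hWn : Nice1 W := nice1_sum _ _ fun i _ => nice1_smul (nice1_win (b i)) (a i)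
  have hWi : Integrable (fun y => (W y) ^ 2) := integrable_of_nice1 (nice1_sq hWn)
  have hpt : ∀ y, (∑ i, a i * phi (b i) y) ^ 2 ≤
      2 * (W (y - 1 / 2)) ^ 2 + 2 * (W (y + 1 / 2)) ^ 2 := by
    intro y
    have h0 : 0 ≤ ∑ i, a i * phi (b i) y :=
      Finset.sum_nonneg fun i _ => mul_nonneg (ha i) (tent_nonneg _)
    have h1 : ∑ i, a i * phi (b i) y ≤ W (y - 1 / 2) + W (y + 1 / 2) := by
      rw [hW]
      simp only
      rw [← Finset.sum_add_distrib]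
      refine Finset.sum_le_sum fun i _ => ?_
      rw [← mul_add]
      refine mul_le_mul_of_nonneg_left ?_ (ha i)
      have h2 := tent_le_win (y - b i)
      unfold phi
      have e1 : y - 1 / 2 - b i = y - b i - 1 / 2 := by ring
      have e2 : y + 1 / 2 - b i = y - b i + 1 / 2 := by ring
      rw [e1, e2]
      exact h2
    calc (∑ i, a i * phi (b i) y) ^ 2 ≤ (W (y - 1 / 2) + W (y + 1 / 2)) ^ 2 :=
          pow_le_pow_left₀ h0 h1 2
      _ ≤ _ := by nlinarith [sq_nonneg (W (y - 1 / 2) - W (y + 1 / 2))]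
  have i1 : Integrable (fun y => 2 * (W (y - 1 / 2)) ^ 2) :=
    (hWi.comp_sub_right (1 / 2)).const_mul 2
  have i2 : Integrable (fun y => 2 * (W (y + 1 / 2)) ^ 2) :=
    (hWi.comp_add_right (1 / 2)).const_mul 2
  calc ∫ y, (∑ i, a i * phi (b i) y) ^ 2
      ≤ ∫ y, (2 * (W (y - 1 / 2)) ^ 2 + 2 * (W (y + 1 / 2)) ^ 2) :=
        integral_mono_of_nonneg (Filter.Eventually.of_forall fun y => sq_nonneg _) (i1.add i2)
          (Filter.Eventually.of_forall hpt)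
    _ = 4 * ∫ y, (W y) ^ 2 := by
        rw [integral_add i1 i2, integral_const_mul, integral_const_mul,
          integral_sub_right_eq_self (fun y => (W y) ^ 2) (1 / 2),
          integral_add_right_eq_self (fun y => (W y) ^ 2) (1 / 2)]
        ring

section

variable (hM : MART) {σ : Type} [Fintype σ] [DecidableEq σ] {n : ℕ} (cl : Fin n → σ)
  (a b : Fin n → ℝ) (kk : Fin n → ℕ)

/-- one summand as an element of `V1` -/
def vi (i : Fin n) : V1 := V1.mk (fun y => a i * phi (b i) y) (nice1_smul (nice1_phi (b i)) (a i))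

/-- the function of a class at scale `k` -/
def fv (k : ℕ) (s : σ) : V1 := ∑ i with kk i ≤ k ∧ cl i = s, vi a b i

/-- the full function of a class -/
def fi (s : σ) : V1 := ∑ i with cl i = s, vi a b i

theorem fv_fn (k : ℕ) (s : σ) (y : ℝ) :
    (fv cl a b kk k s).fn y = ∑ i with kk i ≤ k ∧ cl i = s, a i * phi (b i) y := by
  unfold fv
  rw [V1.fn_sum]
  rfl

theorem fi_fn (s : σ) (y : ℝ) :
    (fi cl a b s).fn y = ∑ i with cl i = s, a i * phi (b i) y := by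
  unfold fi
  rw [V1.fn_sum]
  rfl

variable (ha : ∀ i, 0 ≤ a i)

include ha

theorem sum_fi_le : ∑ s, ‖fi cl a b s‖ ^ 2 ≤ 4 * ∫ y, (∑ i, a i * win (y - b i)) ^ 2 := by
  refine le_trans ?_ (tents_le a b ha)
  have h0 : ∀ s y, 0 ≤ (fi cl a b s).fn y := fun s y => by
    rw [fi_fn]
    exact Finset.sum_nonneg fun i _ => mul_nonneg (ha i) (tent_nonneg _)
  calc ∑ s, ‖fi cl a b s‖ ^ 2 = ∑ s, ∫ y, ((fi cl a b s).fn y) ^ 2 := by simp only [norm_sq]
    _ = ∫ y, ∑ s, ((fi cl a b s).fn y) ^ 2 := by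
        rw [integral_finsetSum]
        intro s _
        exact integrable_of_nice1 (nice1_sq (fi cl a b s).nice)
    _ ≤ ∫ y, (∑ s, (fi cl a b s).fn y) ^ 2 := by
        refine integral_mono_of_nonneg (Filter.Eventually.of_forall fun y =>
          Finset.sum_nonneg fun s _ => sq_nonneg _) ?_
          (Filter.Eventually.of_forall fun y => ?_)
        · exact integrable_of_nice1 (nice1_sq (nice1_sum _ _ fun s _ => (fi cl a b s).nice))
        · show ∑ s, ((fi cl a b s).fn y) ^ 2 ≤ (∑ s, (fi cl a b s).fn y) ^ 2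
          exact Finset.sum_sq_le_sq_sum_of_nonneg (fun s _ => h0 s y)
    _ = ∫ y, (∑ i, a i * phi (b i) y) ^ 2 := by
        refine integral_congr_ae (Filter.Eventually.of_forall fun y => ?_)
        show (∑ s, (fi cl a b s).fn y) ^ 2 = (∑ i, a i * phi (b i) y) ^ 2
        congr 1
        simp only [fi_fn]
        exact Finset.sum_fiberwise _ _ _

theorem potential_fv (K : ℕ) (s : σ) (j m : ℤ) :
    ∑ k ∈ Finset.range K, ‖DH hM (j - k + m) (fv cl a b kk k s)‖ ^ 2 ≤ ‖fi cl a b s‖ ^ 2 := by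
  refine potential hM K (fun k => fv cl a b kk k s) (fi cl a b s) (fun k y => ?_) (fun k y => ?_)
    (fun k y => ?_) j m
  · rw [fv_fn]
    exact Finset.sum_nonneg fun i _ => mul_nonneg (ha i) (tent_nonneg _)
  · rw [fv_fn, fv_fn]
    refine Finset.sum_le_sum_of_subset_of_nonneg ?_ fun i _ _ => mul_nonneg (ha i) (tent_nonneg _)
    intro i hi
    rw [Finset.mem_filter] at hi ⊢
    exact ⟨hi.1, hi.2.1.trans (Nat.le_succ k), hi.2.2⟩
  · rw [fv_fn, fi_fn]
    refine Finset.sum_le_sum_of_subset_of_nonneg ?_ fun i _ _ => mul_nonneg (ha i) (tent_nonneg _)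
    intro i hi
    rw [Finset.mem_filter] at hi ⊢
    exact ⟨hi.1, hi.2.2⟩

end

/-- **the level estimate** for a family of almost diagonal operators -/
theorem level (hM : MART) : ∃ C0 : ℝ, 0 ≤ C0 ∧
    ∀ (σ : Type) [Fintype σ] [DecidableEq σ] (jj : σ → ℤ) (N A : ℝ) (K n : ℕ)
      (T : ℕ → σ → (ℝ → ℝ) → (ℝ → ℝ)) (cl : Fin n → σ) (b a : Fin n → ℝ) (kk : Fin n → ℕ),
      0 ≤ A → (∀ (k : ℕ) s, Op A (jj s - k) (T k s)) → 0 ≤ N →
      (∀ j : ℤ, ((Finset.univ.filter (fun s => jj s = j)).card : ℝ) ≤ N) → (∀ i, 0 ≤ a i) →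
      ∑ k ∈ Finset.range K, ∫ y, (∑ i with kk i ≤ k, a i * T k (cl i) (phi (b i)) y) ^ 2 ≤
        C0 * A * N * ∫ y, (∑ i, a i * win (y - b i)) ^ 2 := by
  obtain ⟨D, hD⟩ := sumq qq_nonneg qq_lt
  have hD0 : 0 ≤ D := by simpa using hD ∅
  refine ⟨4 * D ^ 4, by positivity, ?_⟩
  intro σ _ _ jj N A K n T cl b a kk hA hT hN hcard ha
  have hB : ∀ (k : ℕ) s, ∃ B : ℝ, ∀ v : V1, ‖(hT k s).hom v‖ ≤ B * ‖v‖ :=
    fun k s => (hT k s).bounded hM hA
  choose B hB using hB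
  have hlev := levabs (V := V1) (σ := σ) (DH hM) (fun k s => (hT k s).hom)
    (fun k s => fv cl a b kk k s) jj K N (Real.sqrt A) D B (fun s => ‖fi cl a b s‖ ^ 2) wW
    wW_nonneg hD (fun k s m l v => (hT k s).almost_diag hM hA m l v) (hasSum_DH hM)
    (fun s m => potential_fv hM cl a b kk ha K s (jj s) m) hN hcard
    (fun v => tendsto_RL hM v) hB
  have e1 : ∀ k : ℕ, ‖∑ s, (hT k s).hom (fv cl a b kk k s)‖ ^ 2 =
      ∫ y, (∑ i with kk i ≤ k, a i * T k (cl i) (phi (b i)) y) ^ 2 := by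
    intro k
    rw [norm_sq]
    refine integral_congr_ae (Filter.Eventually.of_forall fun y => ?_)
    show ((∑ s, (hT k s).hom (fv cl a b kk k s)).fn y) ^ 2 = _
    congr 1
    rw [V1.fn_sum]
    have e2 : ∀ s, ((hT k s).hom (fv cl a b kk k s)).fn y =
        ∑ i ∈ Finset.univ.filter (fun i => kk i ≤ k) with cl i = s,
          a i * T k (cl i) (phi (b i)) y := by
      intro s
      unfold fv
      rw [map_sum, V1.fn_sum, Finset.filter_filter]
      refine Finset.sum_congr rfl fun i hi => ?_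
      have hi' := (Finset.mem_filter.1 hi).2.2
      rw [hi', Op.hom_fn]
      show T k s (fun y => a i * phi (b i) y) y = _
      rw [(hT k s).smul (a i) (phi (b i)) (nice1_phi _)]
    simp only [e2]
    exact Finset.sum_fiberwise _ _ _
  simp only [e1] at hlev
  refine hlev.trans ?_
  have hs : Real.sqrt A ^ 2 = A := Real.sq_sqrt hA
  rw [hs]
  have h4 := sum_fi_le cl a b ha
  calc A * N * D ^ 4 * ∑ s, ‖fi cl a b s‖ ^ 2
      ≤ A * N * D ^ 4 * (4 * ∫ y, (∑ i, a i * win (y - b i)) ^ 2) :=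
        mul_le_mul_of_nonneg_left h4 (by positivity)
    _ = _ := by ring

end Crest.Agent.R087.MainLevx575
end
end

-- ▼ part R087/MainTB_575
section

/-!
Row 87, (E2) MAIN (helper575): `TB` gives almost diagonal operators.
-/

set_option autoImplicit false

noncomputable section

open MeasureTheory Filter Topology

namespace Crest.Agent.R087.MainTBx575

open E2x542 MainVx575 LevAbsx575 MainOpx575 MainLevx575

theorem ii_nice1 {f : ℝ → ℝ} (hf : Nice1 f) (y μ c d : ℝ) :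
    IntervalIntegrable (fun x => f (y + x * μ)) volume c d := by
  obtain ⟨hm, ⟨M, hM⟩, _⟩ := hf
  rw [intervalIntegrable_iff]
  refine Measure.integrableOn_of_bounded (M := M) ?_ ?_ (Filter.Eventually.of_forall fun z => hM _)
  · simp
  · exact (hm.comp (by fun_prop)).aestronglyMeasurable

theorem Tt_add {f g : ℝ → ℝ} (hf : Nice1 f) (hg : Nice1 g) (θ μ : ℝ) :
    Tt θ μ (f + g) = Tt θ μ f + Tt θ μ g := by
  funext y
  show Tt θ μ (f + g) y = Tt θ μ f y + Tt θ μ g y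
  unfold Tt
  simp only [Pi.add_apply]
  rw [intervalIntegral.integral_add (ii_nice1 hf _ _ _ _) (ii_nice1 hg _ _ _ _),
    intervalIntegral.integral_add (ii_nice1 hf _ _ _ _) (ii_nice1 hg _ _ _ _)]
  ring

theorem Tt_smul (f : ℝ → ℝ) (c θ μ : ℝ) :
    Tt θ μ (fun y => c * f y) = fun y => c * Tt θ μ f y := by
  funext y
  unfold Tt
  rw [intervalIntegral.integral_const_mul, intervalIntegral.integral_const_mul]
  ring

/-- the basic numerical lemma for a single operator -/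
theorem num_single {C X I μ : ℝ} {l lam : ℤ} (hC : 0 ≤ C) (hI : 0 ≤ I)
    (h1 : (2 : ℝ) ^ lam ≤ |μ|) (h2 : |μ| ≤ (2 : ℝ) ^ (lam + 1))
    (hX1 : X ≤ C * (|μ| / 2 ^ l) * I) (hX2 : X ≤ C * ((2 : ℝ) ^ l / |μ|) ^ 2 * I) :
    X ≤ 2 * C * pW (l - lam) * I := by
  have hl : (0 : ℝ) < 2 ^ l := by positivity
  have hlam : (0 : ℝ) < 2 ^ lam := by positivity
  have hμ : 0 < |μ| := lt_of_lt_of_le hlam h1
  rcases le_total 0 (l - lam) with hn | hn
  · have e1 : |μ| / 2 ^ l ≤ 2 * pW (l - lam) := by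
      calc |μ| / 2 ^ l ≤ (2 : ℝ) ^ (lam + 1) / 2 ^ l := div_le_div_of_nonneg_right h2 hl.le
        _ = 2 * (2 : ℝ) ^ (-(l - lam)) := by
            rw [← zpow_sub₀ (by norm_num), show lam + 1 - l = 1 + -(l - lam) by ring,
              zpow_add₀ (by norm_num), zpow_one]
        _ ≤ 2 * pW (l - lam) := by
            have := pp_natAbs_of_nonneg hn
            linarith
    calc X ≤ C * (|μ| / 2 ^ l) * I := hX1
      _ ≤ C * (2 * pW (l - lam)) * I := by gcongr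
      _ = _ := by ring
  · have e1 : ((2 : ℝ) ^ l / |μ|) ^ 2 ≤ pW (l - lam) := by
      calc ((2 : ℝ) ^ l / |μ|) ^ 2 ≤ ((2 : ℝ) ^ l / 2 ^ lam) ^ 2 := by gcongr
        _ = ((2 : ℝ) ^ (l - lam)) ^ 2 := by rw [← zpow_sub₀ (by norm_num)]
        _ = pW (l - lam) ^ 4 := pW_four_of_nonpos hn
        _ ≤ pW (l - lam) := pW_four_le _
    have hp := (pW_pos (l - lam)).le
    calc X ≤ C * ((2 : ℝ) ^ l / |μ|) ^ 2 * I := hX2
      _ ≤ C * (pW (l - lam)) * I := by gcongr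
      _ ≤ _ := by
        have : 0 ≤ C * pW (l - lam) * I := by positivity
        linarith

/-- the basic numerical lemma for a difference -/
theorem num_diff {C X I μ ρ : ℝ} {l lam : ℤ} (hC : 0 ≤ C) (hI : 0 ≤ I) (hX : 0 ≤ X)
    (hρ : 0 ≤ ρ) (hρ1 : ρ ≤ 1)
    (h1 : (2 : ℝ) ^ lam ≤ |μ|) (h2 : |μ| ≤ (2 : ℝ) ^ (lam + 1))
    (hX1 : |μ| ≤ 2 ^ l → X ≤ C * ρ ^ 2 * (|μ| / 2 ^ l) * I)
    (hX2 : X ≤ 10 * C * ((2 : ℝ) ^ l / |μ|) ^ 2 * I) (hX3 : X ≤ C * ρ ^ 2 * I) :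
    X ≤ 2 * C * (ρ * Real.sqrt ρ) * pW (l - lam) * I := by
  have hl : (0 : ℝ) < 2 ^ l := by positivity
  have hlam : (0 : ℝ) < 2 ^ lam := by positivity
  have hμ : 0 < |μ| := lt_of_lt_of_le hlam h1
  have hp := (pW_pos (l - lam)).le
  have hsq : Real.sqrt ρ ^ 2 = ρ := Real.sq_sqrt hρ
  have hs0 : 0 ≤ Real.sqrt ρ := Real.sqrt_nonneg ρ
  have hs1 : Real.sqrt ρ ≤ 1 := Real.sqrt_le_one.2 hρ1
  have hρs : ρ ^ 2 ≤ ρ * Real.sqrt ρ := by
    have : ρ ≤ Real.sqrt ρ := by nlinarith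
    nlinarith
  rcases lt_or_ge 0 (l - lam) with hn | hn
  · have h3 : |μ| ≤ 2 ^ l := h2.trans (zpow_le_zpow_right₀ (by norm_num) (by omega))
    have e1 : |μ| / 2 ^ l ≤ 2 * pW (l - lam) := by
      calc |μ| / 2 ^ l ≤ (2 : ℝ) ^ (lam + 1) / 2 ^ l := div_le_div_of_nonneg_right h2 hl.le
        _ = 2 * (2 : ℝ) ^ (-(l - lam)) := by
            rw [← zpow_sub₀ (by norm_num), show lam + 1 - l = 1 + -(l - lam) by ring,
              zpow_add₀ (by norm_num), zpow_one]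
        _ ≤ 2 * pW (l - lam) := by
            have := pp_natAbs_of_nonneg hn.le
            linarith
    calc X ≤ C * ρ ^ 2 * (|μ| / 2 ^ l) * I := hX1 h3
      _ ≤ C * (ρ * Real.sqrt ρ) * (2 * pW (l - lam)) * I := by gcongr
      _ = _ := by ring
  · have e1 : ((2 : ℝ) ^ l / |μ|) ^ 2 ≤ pW (l - lam) ^ 4 := by
      calc ((2 : ℝ) ^ l / |μ|) ^ 2 ≤ ((2 : ℝ) ^ l / 2 ^ lam) ^ 2 := by gcongr
        _ = ((2 : ℝ) ^ (l - lam)) ^ 2 := by rw [← zpow_sub₀ (by norm_num)]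
        _ = pW (l - lam) ^ 4 := pW_four_of_nonpos hn
    have e2 : X ≤ 10 * C * pW (l - lam) ^ 4 * I := hX2.trans (by gcongr)
    have e3 : X ^ 4 ≤ (2 * C * (ρ * Real.sqrt ρ) * pW (l - lam) * I) ^ 4 := by
      calc X ^ 4 = X ^ 3 * X := by ring
        _ ≤ (C * ρ ^ 2 * I) ^ 3 * (10 * C * pW (l - lam) ^ 4 * I) := by gcongr
        _ = 10 * (C ^ 4 * ρ ^ 6 * pW (l - lam) ^ 4 * I ^ 4) := by ring
        _ ≤ 16 * (C ^ 4 * ρ ^ 6 * pW (l - lam) ^ 4 * I ^ 4) := by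
            have : 0 ≤ C ^ 4 * ρ ^ 6 * pW (l - lam) ^ 4 * I ^ 4 := by positivity
            linarith
        _ = 16 * (C ^ 4 * (ρ ^ 4 * (Real.sqrt ρ ^ 2) ^ 2) * pW (l - lam) ^ 4 * I ^ 4) := by
            rw [hsq]; ring
        _ = _ := by ring
    exact le_of_pow_le_pow_left₀ (n := 4) (by norm_num) (by positivity) e3

theorem sq_diff_le {f g : ℝ → ℝ} (hf : Nice1 f) (hg : Nice1 g) :
    ∫ y, (f y - g y) ^ 2 ≤ 2 * (∫ y, (f y) ^ 2) + 2 * ∫ y, (g y) ^ 2 := by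
  have i1 := integrable_of_nice1 (nice1_sq hf)
  have i2 := integrable_of_nice1 (nice1_sq hg)
  rw [← integral_const_mul, ← integral_const_mul,
    ← integral_add (i1.const_mul 2) (i2.const_mul 2)]
  refine integral_mono_of_nonneg (Filter.Eventually.of_forall fun y => sq_nonneg _)
    ((i1.const_mul 2).add (i2.const_mul 2)) (Filter.Eventually.of_forall fun y => ?_)
  show (f y - g y) ^ 2 ≤ 2 * (f y) ^ 2 + 2 * (g y) ^ 2
  nlinarith [sq_nonneg (f y + g y)]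

theorem Ex_sub {f g : ℝ → ℝ} (hf : Nice1 f) (hg : Nice1 g) (l : ℤ) (y : ℝ) :
    Ex l (fun x => f x - g x) y = Ex l f y - Ex l g y := by
  unfold Ex
  rw [integral_sub (integrableOn_nice1 hf _) (integrableOn_nice1 hg _), mul_sub]

theorem Dl_sub {f g : ℝ → ℝ} (hf : Nice1 f) (hg : Nice1 g) (l : ℤ) (y : ℝ) :
    Dl l (fun x => f x - g x) y = Dl l f y - Dl l g y := by
  unfold Dl
  rw [Ex_sub hf hg, Ex_sub hf hg]
  ring

theorem nice1_Dl (hM : MART) {f : ℝ → ℝ} (hf : Nice1 f) (l : ℤ) : Nice1 (Dl l f) := by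
  have h := (DH hM l (V1.mk f hf)).nice
  rw [DH_fn] at h
  exact h

theorem int_Dl_le (hM : MART) {f : ℝ → ℝ} (hf : Nice1 f) (l : ℤ) :
    ∫ y, (Dl l f y) ^ 2 ≤ ∫ y, (f y) ^ 2 := by
  have h := pow_le_pow_left₀ (norm_nonneg _) (norm_DH_le hM l (V1.mk f hf)) 2
  rw [norm_sq, norm_sq, DH_fn] at h
  exact h

theorem isq (f : ℝ → ℝ) : 0 ≤ ∫ y, (f y) ^ 2 := integral_nonneg fun y => sq_nonneg _

/-- single operators -/
theorem op_single (hM : MART) (hT : TB) : ∃ C : ℝ, 0 ≤ C ∧ ∀ (θ μ : ℝ) (lam : ℤ), 0 ≤ θ → θ < 1 →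
    (2 : ℝ) ^ lam ≤ |μ| → |μ| ≤ (2 : ℝ) ^ (lam + 1) → Op C lam (Tt θ μ) := by
  obtain ⟨C, hC⟩ := hT
  refine ⟨2 * |C|, by positivity, fun θ μ lam h0 h1 hμ1 hμ2 => ?_⟩
  have hl : (0 : ℝ) < 2 ^ lam := by positivity
  have hμ : 0 < |μ| := lt_of_lt_of_le hl hμ1
  have hμ0 : μ ≠ 0 := abs_pos.1 hμ
  have hCC : C ≤ |C| := le_abs_self C
  refine ⟨fun f hf => (hC θ μ 0 f h0 h1 hμ0 hf).1, fun f g hf hg => Tt_add hf hg θ μ,
    fun c f _ => Tt_smul f c θ μ, fun l f hf => ?_, fun l f hf => ?_⟩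
  · obtain ⟨_, b1, b2, _⟩ := hC θ μ l f h0 h1 hμ0 hf
    have hI := isq (Dl l f)
    refine num_single (abs_nonneg C) hI hμ1 hμ2 (b1.trans ?_) (b2.trans ?_)
    · gcongr
    · gcongr
  · obtain ⟨_, _, _, b1, b2, _⟩ := hC θ μ l f h0 h1 hμ0 hf
    have hI := isq f
    refine num_single (abs_nonneg C) hI hμ1 hμ2 (b1.trans ?_) (b2.trans ?_)
    · gcongr
    · gcongr

/-- differences -/
theorem op_diff (hM : MART) (hT : TB) : ∃ C : ℝ, 0 ≤ C ∧ ∀ (θ μ μ' ρ : ℝ) (lam : ℤ), 0 ≤ θ → θ < 1 →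
    (2 : ℝ) ^ lam ≤ |μ| → |μ| ≤ (2 : ℝ) ^ (lam + 1) → 0 ≤ ρ → ρ ≤ 1 / 2 → |μ' - μ| ≤ ρ * |μ| →
    Op (C * (ρ * Real.sqrt ρ)) lam (fun f y => Tt θ μ f y - Tt θ μ' f y) := by
  obtain ⟨C, hC⟩ := hT
  refine ⟨2 * |C|, by positivity, fun θ μ μ' ρ lam h0 h1 hμ1 hμ2 hρ0 hρ1 hdiff => ?_⟩
  have hl : (0 : ℝ) < 2 ^ lam := by positivity
  have hμ : 0 < |μ| := lt_of_lt_of_le hl hμ1
  have hμ0 : μ ≠ 0 := abs_pos.1 hμ
  have hCC : C ≤ |C| := le_abs_self C
  have hhalf : |μ' - μ| ≤ |μ| / 2 := hdiff.trans (by nlinarith)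
  have hμ' : |μ| / 2 ≤ |μ'| := by
    have h3 := abs_sub_abs_le_abs_sub μ μ'
    rw [abs_sub_comm] at h3
    linarith
  have hμ'0 : μ' ≠ 0 := by
    intro h
    rw [h, abs_zero] at hμ'
    linarith
  have hμ'p : 0 < |μ'| := abs_pos.2 hμ'0
  have hrat : |μ' - μ| / |μ| ≤ ρ := by rw [div_le_iff₀ hμ]; exact hdiff
  have hrat2 : (|μ' - μ| / |μ|) ^ 2 ≤ ρ ^ 2 := pow_le_pow_left₀ (by positivity) hrat 2
  have hfine : ∀ l : ℤ, ((2 : ℝ) ^ l / |μ'|) ^ 2 ≤ 4 * ((2 : ℝ) ^ l / |μ|) ^ 2 := by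
    intro l
    have e : (2 : ℝ) ^ l / |μ'| ≤ 2 * ((2 : ℝ) ^ l / |μ|) := by
      rw [← mul_div_assoc, div_le_div_iff₀ hμ'p hμ]
      have : (0 : ℝ) < 2 ^ l := by positivity
      nlinarith
    calc ((2 : ℝ) ^ l / |μ'|) ^ 2 ≤ (2 * ((2 : ℝ) ^ l / |μ|)) ^ 2 :=
          pow_le_pow_left₀ (by positivity) e 2
      _ = _ := by ring
  have nT : ∀ f, Nice1 f → Nice1 (Tt θ μ f) := fun f hf => (hC θ μ 0 f h0 h1 hμ0 hf).1
  have nT' : ∀ f, Nice1 f → Nice1 (Tt θ μ' f) := fun f hf => (hC θ μ' 0 f h0 h1 hμ'0 hf).1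
  refine ⟨fun f hf => nice1_sub (nT f hf) (nT' f hf), fun f g hf hg => ?_, fun c f _ => ?_,
    fun l f hf => ?_, fun l f hf => ?_⟩
  · funext y
    show Tt θ μ (f + g) y - Tt θ μ' (f + g) y =
      (Tt θ μ f y - Tt θ μ' f y) + (Tt θ μ g y - Tt θ μ' g y)
    rw [Tt_add hf hg, Tt_add hf hg, Pi.add_apply, Pi.add_apply]
    ring
  · funext y
    rw [Tt_smul, Tt_smul]
    ring
  · have hI := isq (Dl l f)
    have hDf := nice1_Dl hM hf l
    obtain ⟨_, _, b2, _, _, bd⟩ := hC θ μ l f h0 h1 hμ0 hf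
    obtain ⟨_, _, b2', _⟩ := hC θ μ' l f h0 h1 hμ'0 hf
    obtain ⟨_, bd2, _⟩ := bd μ' hhalf
    obtain ⟨bd1, _, _⟩ := (hC θ μ l (Dl l f) h0 h1 hμ0 hDf).2.2.2.2.2 μ' hhalf
    have hX := isq (fun y => Tt θ μ (Dl l f) y - Tt θ μ' (Dl l f) y)
    refine num_diff (abs_nonneg C) hI hX hρ0 (by linarith) hμ1 hμ2 (fun h3 => ?_) ?_ ?_
    · refine (bd2 h3).trans ?_
      have : 0 ≤ |μ| / 2 ^ l := by positivity
      gcongr
    · refine (sq_diff_le (nT _ hDf) (nT' _ hDf)).trans ?_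
      have c1 : ∫ y, (Tt θ μ (Dl l f) y) ^ 2 ≤
          |C| * ((2 : ℝ) ^ l / |μ|) ^ 2 * ∫ y, (Dl l f y) ^ 2 := b2.trans (by gcongr)
      have c2 : ∫ y, (Tt θ μ' (Dl l f) y) ^ 2 ≤
          |C| * (4 * ((2 : ℝ) ^ l / |μ|) ^ 2) * ∫ y, (Dl l f y) ^ 2 := by
        refine b2'.trans ?_
        calc C * ((2 : ℝ) ^ l / |μ'|) ^ 2 * ∫ y, (Dl l f y) ^ 2
            ≤ |C| * ((2 : ℝ) ^ l / |μ'|) ^ 2 * ∫ y, (Dl l f y) ^ 2 := by gcongr
          _ ≤ _ := by
            have := hfine l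
            gcongr
      linarith
    · refine bd1.trans ?_
      gcongr
  · have hI := isq f
    obtain ⟨_, _, _, _, b2, bd⟩ := hC θ μ l f h0 h1 hμ0 hf
    obtain ⟨_, _, _, _, b2', _⟩ := hC θ μ' l f h0 h1 hμ'0 hf
    obtain ⟨bd1, _, bd2⟩ := bd μ' hhalf
    have hX := isq (Dl l (fun y => Tt θ μ f y - Tt θ μ' f y))
    refine num_diff (abs_nonneg C) hI hX hρ0 (by linarith) hμ1 hμ2 (fun h3 => ?_) ?_ ?_
    · refine (bd2 h3).trans ?_
      have : 0 ≤ |μ| / 2 ^ l := by positivity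
      gcongr
    · have e1 : ∫ y, (Dl l (fun y => Tt θ μ f y - Tt θ μ' f y) y) ^ 2 =
          ∫ y, (Dl l (Tt θ μ f) y - Dl l (Tt θ μ' f) y) ^ 2 := by
        refine integral_congr_ae (Filter.Eventually.of_forall fun y => ?_)
        show (Dl l (fun y => Tt θ μ f y - Tt θ μ' f y) y) ^ 2 = _
        rw [Dl_sub (nT f hf) (nT' f hf)]
      rw [e1]
      refine (sq_diff_le (nice1_Dl hM (nT _ hf) l) (nice1_Dl hM (nT' _ hf) l)).trans ?_
      have c1 : ∫ y, (Dl l (Tt θ μ f) y) ^ 2 ≤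
          |C| * ((2 : ℝ) ^ l / |μ|) ^ 2 * ∫ y, (f y) ^ 2 := b2.trans (by gcongr)
      have c2 : ∫ y, (Dl l (Tt θ μ' f) y) ^ 2 ≤
          |C| * (4 * ((2 : ℝ) ^ l / |μ|) ^ 2) * ∫ y, (f y) ^ 2 := by
        refine b2'.trans ?_
        calc C * ((2 : ℝ) ^ l / |μ'|) ^ 2 * ∫ y, (f y) ^ 2
            ≤ |C| * ((2 : ℝ) ^ l / |μ'|) ^ 2 * ∫ y, (f y) ^ 2 := by gcongr
          _ ≤ _ := by
            have := hfine l
            gcongr
      linarith
    · refine (int_Dl_le hM (nice1_sub (nT f hf) (nT' f hf)) l).trans ?_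
      refine bd1.trans ?_
      gcongr

end Crest.Agent.R087.MainTBx575
end
end

-- ▼ part R087/MainRnd_575
section

/-!
Row 87, (E2) MAIN (helper575): dyadic rounding of the slopes and the levels.
-/

set_option autoImplicit false

noncomputable section

open MeasureTheory Filter Topology

namespace Crest.Agent.R087.MainRndx575

open E2x542 MainVx575 LevAbsx575 MainOpx575 MainLevx575 MainTBx575

/-! ### rounding -/

/-- dyadic exponent -/
def je (M : ℝ) : ℕ := Nat.log 2 ⌊|M|⌋₊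

theorem je_lower {M : ℝ} (h : 1 ≤ |M|) : (2 : ℝ) ^ (je M) ≤ |M| := by
  have h1 : ⌊|M|⌋₊ ≠ 0 := by
    have := (Nat.one_le_floor_iff |M|).2 h
    omega
  have h2 : 2 ^ (je M) ≤ ⌊|M|⌋₊ := Nat.pow_log_le_self 2 h1
  have h3 : ((2 ^ (je M) : ℕ) : ℝ) ≤ (⌊|M|⌋₊ : ℝ) := by exact_mod_cast h2
  calc (2 : ℝ) ^ (je M) = ((2 ^ (je M) : ℕ) : ℝ) := by push_cast; rfl
    _ ≤ (⌊|M|⌋₊ : ℝ) := h3
    _ ≤ |M| := Nat.floor_le (abs_nonneg _)

theorem je_upper (M : ℝ) : |M| < (2 : ℝ) ^ (je M + 1) := by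
  have h2 : ⌊|M|⌋₊ < 2 ^ (je M + 1) := Nat.lt_pow_succ_log_self (by norm_num) _
  have h3 : ((⌊|M|⌋₊ + 1 : ℕ) : ℝ) ≤ ((2 ^ (je M + 1) : ℕ) : ℝ) := by exact_mod_cast h2
  calc |M| < (⌊|M|⌋₊ : ℝ) + 1 := Nat.lt_floor_add_one _
    _ = ((⌊|M|⌋₊ + 1 : ℕ) : ℝ) := by push_cast; rfl
    _ ≤ ((2 ^ (je M + 1) : ℕ) : ℝ) := h3
    _ = _ := by push_cast; rfl

theorem one_le_of_je {M : ℝ} (h : 1 ≤ je M) : 1 ≤ |M| := by
  by_contra h'
  push Not at h'
  have h1 : ⌊|M|⌋₊ = 0 := Nat.floor_eq_zero.2 h'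
  unfold je at h
  rw [h1] at h
  simp at h

theorem je_iff {k : ℕ} {M : ℝ} : 4 * 2 ^ k ≤ |M| ↔ k + 2 ≤ je M := by
  have e : (4 : ℝ) * 2 ^ k = 2 ^ (k + 2) := by rw [pow_add]; ring
  rw [e]
  constructor
  · intro h
    have h1 := h.trans_lt (je_upper M)
    have h2 := (pow_lt_pow_iff_right₀ (by norm_num : (1 : ℝ) < 2)).1 h1
    omega
  · intro h
    have h1 : 1 ≤ |M| := one_le_of_je (by omega)
    exact (pow_le_pow_right₀ (by norm_num) h).trans (je_lower h1)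

/-- digits of `|M| / 2^j - 1` -/
def cd (r : ℕ) (M : ℝ) : ℕ := ⌊(|M| / 2 ^ (je M) - 1) * 2 ^ r⌋₊

theorem cd_lt (r : ℕ) (M : ℝ) : cd r M < 2 ^ r := by
  unfold cd
  rw [Nat.floor_lt']
  · push_cast
    have h1 : |M| / 2 ^ (je M) < 2 := by
      rw [div_lt_iff₀ (by positivity)]
      have := je_upper M
      rw [pow_succ] at this
      linarith
    have h2 : (0 : ℝ) < 2 ^ r := by positivity
    nlinarith
  · positivity

theorem cd_succ (r : ℕ) (M : ℝ) : cd r M = cd (r + 1) M / 2 := by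
  unfold cd
  rw [← Nat.floor_div_ofNat]
  congr 1
  rw [pow_succ]
  ring

/-- rounded value -/
def val (s : Bool) (j r c : ℕ) : ℝ := (if s then 1 else -1) * (2 ^ j * (1 + c / 2 ^ r))

theorem abs_val (s : Bool) (j r c : ℕ) : |val s j r c| = 2 ^ j * (1 + c / 2 ^ r) := by
  unfold val
  rw [abs_mul]
  have h1 : |(if s then (1 : ℝ) else -1)| = 1 := by split_ifs <;> simp
  rw [h1, one_mul, abs_of_nonneg (by positivity)]

theorem val_lower (s : Bool) (j r c : ℕ) : (2 : ℝ) ^ j ≤ |val s j r c| := by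
  rw [abs_val]
  have h1 : (0 : ℝ) < 2 ^ j := by positivity
  have h2 : (0 : ℝ) ≤ (c : ℝ) / 2 ^ r := by positivity
  nlinarith

theorem val_upper (s : Bool) (j r c : ℕ) (hc : c < 2 ^ r) : |val s j r c| ≤ (2 : ℝ) ^ (j + 1) := by
  rw [abs_val, pow_succ]
  have h1 : (0 : ℝ) < 2 ^ j := by positivity
  have h2 : (c : ℝ) / 2 ^ r ≤ 1 := by
    rw [div_le_one (by positivity)]
    have : (c : ℝ) ≤ ((2 ^ r : ℕ) : ℝ) := by exact_mod_cast hc.le
    simpa using this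
  nlinarith

theorem val_diff (s : Bool) (j r c : ℕ) :
    |val s j r (c / 2) - val s j (r + 1) c| ≤ (1 / 2) ^ (r + 1) * |val s j (r + 1) c| := by
  have h1 : val s j r (c / 2) - val s j (r + 1) c =
      (if s then 1 else -1) * (2 ^ j * (((2 * (c / 2 : ℕ) : ℕ) : ℝ) - c) / 2 ^ (r + 1)) := by
    unfold val
    push_cast
    have h2 : (2 : ℝ) ^ r ≠ 0 := by positivity
    rw [pow_succ]
    field_simp
    ring
  rw [h1, abs_mul]
  have h2 : |(if s then (1 : ℝ) else -1)| = 1 := by split_ifs <;> simp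
  rw [h2, one_mul, abs_div, abs_mul, abs_of_pos (show (0 : ℝ) < 2 ^ j by positivity),
    abs_of_pos (show (0 : ℝ) < 2 ^ (r + 1) by positivity)]
  have h3 : |(((2 * (c / 2 : ℕ) : ℕ) : ℝ) - c)| ≤ 1 := by
    have h4 : 2 * (c / 2) ≤ c := Nat.mul_div_le c 2
    have h5 : c ≤ 2 * (c / 2) + 1 := by omega
    have h4' : (((2 * (c / 2 : ℕ) : ℕ) : ℝ)) ≤ c := by exact_mod_cast h4
    have h5' : (c : ℝ) ≤ ((2 * (c / 2 : ℕ) : ℕ) : ℝ) + 1 := by exact_mod_cast h5
    rw [abs_le]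
    constructor <;> linarith
  have h6 := val_lower s j (r + 1) c
  have h7 : (0 : ℝ) < 2 ^ j := by positivity
  calc (2 : ℝ) ^ j * |(((2 * (c / 2 : ℕ) : ℕ) : ℝ) - c)| / 2 ^ (r + 1)
      ≤ 2 ^ j * 1 / 2 ^ (r + 1) := by gcongr
    _ = (1 / 2) ^ (r + 1) * 2 ^ j := by
        rw [one_div, inv_pow]
        field_simp
    _ ≤ _ := by gcongr

/-- the rounding of `M` at level `r` -/
def rd (r : ℕ) (M : ℝ) : ℝ := val (decide (0 < M)) (je M) r (cd r M)

theorem rd_mul_pos {r : ℕ} {M : ℝ} (h : 1 ≤ |M|) : 0 < rd r M * M := by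
  unfold rd val
  have h1 : (0 : ℝ) < 2 ^ (je M) * (1 + (cd r M : ℝ) / 2 ^ r) := by positivity
  by_cases hM : 0 < M
  · simp only [hM, decide_true, if_true, one_mul]
    positivity
  · simp only [hM, decide_false, Bool.false_eq_true, if_false]
    have hM' : M < 0 := by
      rcases lt_trichotomy M 0 with h2 | h2 | h2
      · exact h2
      · rw [h2, abs_zero] at h; linarith
      · exact absurd h2 hM
    nlinarith

theorem rd_le {r : ℕ} {M : ℝ} (h : 1 ≤ |M|) : |rd r M| ≤ |M| := by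
  unfold rd
  rw [abs_val]
  have h0 : (0 : ℝ) < 2 ^ (je M) := by positivity
  have h1 : 0 ≤ |M| / 2 ^ (je M) - 1 := by
    rw [sub_nonneg, le_div_iff₀ h0, one_mul]
    exact je_lower h
  have h2 : (cd r M : ℝ) ≤ (|M| / 2 ^ (je M) - 1) * 2 ^ r := Nat.floor_le (by positivity)
  have h3 : (cd r M : ℝ) / 2 ^ r ≤ |M| / 2 ^ (je M) - 1 := by
    rw [div_le_iff₀ (by positivity)]; exact h2
  calc (2 : ℝ) ^ (je M) * (1 + (cd r M : ℝ) / 2 ^ r) ≤ 2 ^ (je M) * (|M| / 2 ^ (je M)) := by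
        gcongr; linarith
    _ = |M| := by field_simp

theorem le_rd {r : ℕ} (M : ℝ) : |M| ≤ |rd r M| + 2 ^ (je M) / 2 ^ r := by
  unfold rd
  rw [abs_val]
  have h0 : (0 : ℝ) < 2 ^ (je M) := by positivity
  have h2 : (|M| / 2 ^ (je M) - 1) * 2 ^ r < (cd r M : ℝ) + 1 := Nat.lt_floor_add_one _
  have h3 : |M| / 2 ^ (je M) - 1 < ((cd r M : ℝ) + 1) / 2 ^ r := by
    rw [lt_div_iff₀ (by positivity)]; exact h2
  have h4 : |M| / 2 ^ (je M) < 1 + ((cd r M : ℝ) + 1) / 2 ^ r := by linarith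
  rw [div_lt_iff₀ h0] at h4
  refine h4.le.trans (le_of_eq ?_)
  field_simp
  ring

/-- the rounded slope used at scale `k` -/
def Mr (k : ℕ) (M : ℝ) : ℝ := rd (je M - k) M

theorem Mr_spec {k : ℕ} {M : ℝ} (h : 4 * 2 ^ k ≤ |M|) :
    0 < Mr k M * M ∧ 4 * 2 ^ k ≤ |Mr k M| ∧ |Mr k M| ≤ |M| ∧ |M| ≤ |Mr k M| + 2 ^ k := by
  have hj := je_iff.1 h
  have h1 : 1 ≤ |M| := one_le_of_je (by omega)
  refine ⟨rd_mul_pos h1, ?_, rd_le h1, ?_⟩
  · have e : (4 : ℝ) * 2 ^ k = 2 ^ (k + 2) := by rw [pow_add]; ring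
    rw [e]
    exact (pow_le_pow_right₀ (by norm_num) hj).trans (val_lower _ _ _ _)
  · refine (le_rd (r := je M - k) M).trans (le_of_eq ?_)
    have : (2 : ℝ) ^ (je M) / 2 ^ (je M - k) = 2 ^ k := by
      rw [div_eq_iff (by positivity), ← pow_add]
      congr 1
      omega
    rw [this]
    rfl

/-! ### levels -/

/-- classes of level `r` -/
abbrev Sg (J r : ℕ) : Type := Bool × Fin J × Fin (2 ^ r)

/-- exponent of a class -/
def jj {J r : ℕ} (s : Sg J r) : ℤ := ((s.2.1 : ℕ) : ℤ)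

theorem card_le (J r : ℕ) (j : ℤ) :
    ((Finset.univ.filter (fun s : Sg J r => jj s = j)).card : ℝ) ≤ 2 * 2 ^ r := by
  have h : (Finset.univ.filter (fun s : Sg J r => jj s = j)).card ≤
      (Finset.univ : Finset (Bool × Fin (2 ^ r))).card := by
    refine Finset.card_le_card_of_injOn (fun s => (s.1, s.2.2)) (fun s _ => Finset.mem_univ _) ?_
    intro s hs t ht hst
    simp only [Finset.coe_filter, Finset.mem_univ, true_and, Set.mem_ofPred_eq] at hs ht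
    obtain ⟨s1, s2, s3⟩ := s
    obtain ⟨t1, t2, t3⟩ := t
    simp only [Prod.mk.injEq] at hst
    have h1 : s2 = t2 := by
      apply Fin.ext
      have : jj (s1, s2, s3) = jj (t1, t2, t3) := hs.trans ht.symm
      unfold jj at this
      exact_mod_cast this
    rw [hst.1, hst.2, h1]
  have h2 : (Finset.univ : Finset (Bool × Fin (2 ^ r))).card = 2 * 2 ^ r := by
    simp [Finset.card_univ, Fintype.card_prod]
  rw [h2] at h
  exact_mod_cast h

/-- level zero operators -/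
def T0 (θ : ℕ → ℝ) (J : ℕ) (k : ℕ) (s : Sg J 0) : (ℝ → ℝ) → (ℝ → ℝ) :=
  if k + 2 ≤ (s.2.1 : ℕ) then Tt (θ k) (val s.1 s.2.1 0 s.2.2 / 2 ^ k) else fun _ _ => 0

/-- level `r + 1` operators -/
def T1 (θ : ℕ → ℝ) (J r : ℕ) (k : ℕ) (s : Sg J (r + 1)) : (ℝ → ℝ) → (ℝ → ℝ) :=
  if k + 2 ≤ (s.2.1 : ℕ) ∧ k + (r + 1) ≤ (s.2.1 : ℕ) then
    fun f y => Tt (θ k) (val s.1 s.2.1 (r + 1) s.2.2 / 2 ^ k) f y -
      Tt (θ k) (val s.1 s.2.1 r ((s.2.2 : ℕ) / 2) / 2 ^ k) f y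
  else fun _ _ => 0

theorem scale_lower {s : Bool} {j r c k : ℕ} :
    (2 : ℝ) ^ ((j : ℤ) - k) ≤ |val s j r c / 2 ^ k| := by
  rw [abs_div, abs_of_pos (show (0 : ℝ) < 2 ^ k by positivity), zpow_sub₀ (by norm_num),
    zpow_natCast, zpow_natCast]
  exact div_le_div_of_nonneg_right (val_lower _ _ _ _) (by positivity)

theorem scale_upper {s : Bool} {j r c k : ℕ} (hc : c < 2 ^ r) :
    |val s j r c / 2 ^ k| ≤ (2 : ℝ) ^ ((j : ℤ) - k + 1) := by
  have e : ((j : ℤ) - k + 1) = ((j + 1 : ℕ) : ℤ) - (k : ℤ) := by push_cast; ring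
  rw [abs_div, abs_of_pos (show (0 : ℝ) < 2 ^ k by positivity), e, zpow_sub₀ (by norm_num),
    zpow_natCast, zpow_natCast]
  exact div_le_div_of_nonneg_right (val_upper _ _ _ _ hc) (by positivity)

theorem op_T0 (hM : MART) (hT : TB) : ∃ C : ℝ, 0 ≤ C ∧ ∀ (θ : ℕ → ℝ) (J k : ℕ) (s : Sg J 0),
    (∀ k, 0 ≤ θ k ∧ θ k < 1) → Op C (jj s - k) (T0 θ J k s) := by
  obtain ⟨C, hC0, hC⟩ := op_single hM hT
  refine ⟨C, hC0, fun θ J k s hθ => ?_⟩
  unfold T0
  split_ifs with h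
  · exact hC _ _ _ (hθ k).1 (hθ k).2 scale_lower (scale_upper s.2.2.2)
  · exact Op.zero hC0 _

theorem op_T1 (hM : MART) (hT : TB) : ∃ C : ℝ, 0 ≤ C ∧ ∀ (θ : ℕ → ℝ) (J r k : ℕ) (s : Sg J (r + 1)),
    (∀ k, 0 ≤ θ k ∧ θ k < 1) → Op (C * pp ^ (3 * (r + 1))) (jj s - k) (T1 θ J r k s) := by
  obtain ⟨C, hC0, hC⟩ := op_diff hM hT
  refine ⟨C, hC0, fun θ J r k s hθ => ?_⟩
  have hpp := pp_pos.le
  have e1 : ((1 : ℝ) / 2) ^ (r + 1) * Real.sqrt ((1 / 2) ^ (r + 1)) = pp ^ (3 * (r + 1)) := by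
    have e2 : ((1 : ℝ) / 2) ^ (r + 1) = (pp ^ (r + 1)) ^ 2 := by
      rw [← pp_sq, ← pow_mul, ← pow_mul, mul_comm]
    rw [e2, Real.sqrt_sq (by positivity)]
    ring
  unfold T1
  split_ifs with h
  · have h3 := hC (θ k) (val s.1 s.2.1 (r + 1) s.2.2 / 2 ^ k)
      (val s.1 s.2.1 r ((s.2.2 : ℕ) / 2) / 2 ^ k) ((1 / 2) ^ (r + 1)) (jj s - k) (hθ k).1 (hθ k).2
      scale_lower (scale_upper s.2.2.2) (by positivity)
      (by
        rw [pow_succ]
        have : ((1 : ℝ) / 2) ^ r ≤ 1 := pow_le_one₀ (by norm_num) (by norm_num)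
        linarith)
      (by
        rw [← sub_div, abs_div, abs_div, ← mul_div_assoc]
        exact div_le_div_of_nonneg_right (val_diff _ _ _ _) (abs_nonneg _))
    rw [e1] at h3
    exact h3
  · exact Op.zero (by positivity) _

/-- class of an index -/
def cl {n : ℕ} (M : Fin n → ℝ) (J r : ℕ) (hJ : ∀ i, je (M i) < J) (i : Fin n) : Sg J r :=
  (decide (0 < M i), ⟨je (M i), hJ i⟩, ⟨cd r (M i), cd_lt r (M i)⟩)

theorem kap_eq (θ μ b y : ℝ) : kap θ (y - b) μ = Tt θ μ (phi b) y := by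
  unfold kap Tt phi
  have e : ∀ x : ℝ, y - b + x * μ = y + x * μ - b := fun x => by ring
  simp only [e]

/-- telescoping -/
theorem telescope {n : ℕ} (M : Fin n → ℝ) (J : ℕ) (hJ : ∀ i, je (M i) < J) (θ : ℕ → ℝ) (k : ℕ)
    (i : Fin n) (f : ℝ → ℝ) (y : ℝ) :
    T0 θ J k (cl M J 0 hJ i) f y + ∑ r ∈ Finset.range J, T1 θ J r k (cl M J (r + 1) hJ i) f y =
      if 4 * 2 ^ k ≤ |M i| then Tt (θ k) (Mr k (M i) / 2 ^ k) f y else 0 := by
  set e : ℕ → ℝ := fun r => Tt (θ k) (rd r (M i) / 2 ^ k) f y with he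
  have hJi := hJ i
  by_cases h : 4 * 2 ^ k ≤ |M i|
  · rw [if_pos h]
    have hj := je_iff.1 h
    have e0 : T0 θ J k (cl M J 0 hJ i) f y = e 0 := by
      unfold T0
      rw [if_pos (show k + 2 ≤ ((cl M J 0 hJ i).2.1 : ℕ) from hj)]
      rfl
    have e1 : ∀ r, T1 θ J r k (cl M J (r + 1) hJ i) f y =
        if r < je (M i) - k then e (r + 1) - e r else 0 := by
      intro r
      unfold T1
      by_cases hr : r < je (M i) - k
      · rw [if_pos hr, if_pos (show k + 2 ≤ ((cl M J (r + 1) hJ i).2.1 : ℕ) ∧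
          k + (r + 1) ≤ ((cl M J (r + 1) hJ i).2.1 : ℕ) from ⟨hj, by
            show k + (r + 1) ≤ je (M i)
            omega⟩)]
        show Tt (θ k) (val (decide (0 < M i)) (je (M i)) (r + 1) (cd (r + 1) (M i)) / 2 ^ k) f y -
          Tt (θ k) (val (decide (0 < M i)) (je (M i)) r (cd (r + 1) (M i) / 2) / 2 ^ k) f y = _
        rw [← cd_succ]
        rfl
      · rw [if_neg hr, if_neg]
        rintro ⟨_, h2⟩
        apply hr
        have : k + (r + 1) ≤ je (M i) := h2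
        omega
    rw [e0, Finset.sum_congr rfl fun r _ => e1 r, ← Finset.sum_filter]
    have e2 : (Finset.range J).filter (fun r => r < je (M i) - k) =
        Finset.range (je (M i) - k) := by
      ext r
      simp only [Finset.mem_filter, Finset.mem_range]
      omega
    rw [e2, Finset.sum_range_sub]
    show e 0 + (e (je (M i) - k) - e 0) = e (je (M i) - k)
    ring
  · rw [if_neg h]
    have hj : ¬ (k + 2 ≤ je (M i)) := fun h' => h (je_iff.2 h')
    have e0 : T0 θ J k (cl M J 0 hJ i) f y = 0 := by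
      unfold T0
      rw [if_neg (show ¬ (k + 2 ≤ ((cl M J 0 hJ i).2.1 : ℕ)) from hj)]
    have e1 : ∀ r, T1 θ J r k (cl M J (r + 1) hJ i) f y = 0 := by
      intro r
      unfold T1
      rw [if_neg]
      rintro ⟨h2, _⟩
      exact hj h2
    rw [e0, Finset.sum_eq_zero fun r _ => e1 r, add_zero]

end Crest.Agent.R087.MainRndx575
end
end

-- ▼ part R087/MAINof_575
section

/-!
Row 87, (E2) MAIN (helper575): assembly of MAIN from the levels and the last rounding error `ERR`.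
-/

set_option autoImplicit false

noncomputable section

open MeasureTheory Filter Topology

namespace Crest.Agent.R087.MAINofx575

open E2x542 MainVx575 LevAbsx575 MainOpx575 MainLevx575 MainTBx575 MainRndx575

/-- the last rounding error (helper975) -/
def ERR : Prop := ∃ C : ℝ, 0 ≤ C ∧ ∀ (K n : ℕ) (b M a : Fin n → ℝ) (kk : Fin n → ℕ) (θ : ℕ → ℝ)
    (M' : Fin n → ℕ → ℝ), (∀ i, 0 ≤ a i) → (∀ k, 0 ≤ θ k ∧ θ k < 1) →
    (∀ i k, 4 * 2 ^ k ≤ |M i| → 0 < M' i k * M i ∧ 4 * 2 ^ k ≤ |M' i k| ∧ |M' i k| ≤ |M i| ∧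
      |M i| ≤ |M' i k| + 2 ^ k) →
    ∑ k ∈ Finset.range K, ∫ y, (∑ i with kk i ≤ k ∧ 4 * 2 ^ k ≤ |M i|,
      a i * (kap (θ k) (y - b i) (M i / 2 ^ k) - kap (θ k) (y - b i) (M' i k / 2 ^ k))) ^ 2 ≤
      C * ∫ y, (∑ i, a i * win (y - b i)) ^ 2

/-- `t = 2^{-1/4}` -/
def tt : ℝ := Real.sqrt pp

theorem tt_sq : tt ^ 2 = pp := Real.sq_sqrt pp_pos.le
theorem tt_pos : 0 < tt := Real.sqrt_pos.2 pp_pos
theorem tt_lt : tt < 1 := by
  have h := tt_sq
  have h1 := pp_lt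
  nlinarith [tt_pos]

theorem sum_tt (J : ℕ) : ∑ r ∈ Finset.range J, tt ^ r ≤ (1 - tt)⁻¹ := by
  rw [← tsum_geometric_of_lt_one tt_pos.le tt_lt]
  exact (summable_geometric_of_lt_one tt_pos.le tt_lt).sum_le_tsum _ fun _ _ =>
    pow_nonneg tt_pos.le _

theorem mainof_of_err (hE : ERR) (hM : MART) (hT : TB) : MAIN := by
  obtain ⟨CE, hCE0, hCE⟩ := hE
  obtain ⟨C0, hC00, hlev⟩ := level hM
  obtain ⟨Ca, hCa0, hCa⟩ := op_T0 hM hT
  obtain ⟨Cb, hCb0, hCb⟩ := op_T1 hM hT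
  set D : ℝ := (1 - tt)⁻¹ with hD
  have hD0 : 0 ≤ D := inv_nonneg.2 (by linarith [tt_lt])
  refine ⟨3 * (C0 * Ca * 2 + D * (D * (2 * C0 * Cb)) + CE), ?_⟩
  intro K n b M a kk θ ha hθ
  set J : ℕ := (∑ i, je (M i)) + 1 with hJdef
  have hJ : ∀ i, je (M i) < J := by
    intro i
    have : je (M i) ≤ ∑ i, je (M i) :=
      Finset.single_le_sum (f := fun i => je (M i)) (fun _ _ => Nat.zero_le _) (Finset.mem_univ i)
    omega
  set Q : ℝ := ∫ y, (∑ i, a i * win (y - b i)) ^ 2 with hQ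
  have hQ0 : 0 ≤ Q := integral_nonneg fun y => sq_nonneg _
  set G0 : ℕ → ℝ → ℝ := fun k y => ∑ i with kk i ≤ k, a i * T0 θ J k (cl M J 0 hJ i) (phi (b i)) y
    with hG0
  set G1 : ℕ → ℕ → ℝ → ℝ := fun r k y =>
    ∑ i with kk i ≤ k, a i * T1 θ J r k (cl M J (r + 1) hJ i) (phi (b i)) y with hG1
  set Er : ℕ → ℝ → ℝ := fun k y => ∑ i with kk i ≤ k ∧ 4 * 2 ^ k ≤ |M i|,
      a i * (kap (θ k) (y - b i) (M i / 2 ^ k) - kap (θ k) (y - b i) (Mr k (M i) / 2 ^ k)) with hEr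
  have nG0 : ∀ k, Nice1 (G0 k) := fun k => nice1_sum _ _ fun i _ =>
    nice1_smul ((hCa θ J k _ hθ).nice _ (nice1_phi _)) (a i)
  have nG1 : ∀ r k, Nice1 (G1 r k) := fun r k => nice1_sum _ _ fun i _ =>
    nice1_smul ((hCb θ J r k _ hθ).nice _ (nice1_phi _)) (a i)
  obtain ⟨CT, hCT⟩ := hT
  have nkap : ∀ (k : ℕ) (i : Fin n) (μ : ℝ), μ ≠ 0 → Nice1 (fun y => kap (θ k) (y - b i) μ) := by
    intro k i μ hμ
    have h := (hCT (θ k) μ 0 (phi (b i)) (hθ k).1 (hθ k).2 hμ (nice1_phi _)).1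
    have e : (fun y => kap (θ k) (y - b i) μ) = Tt (θ k) μ (phi (b i)) := by
      funext y; exact kap_eq _ _ _ _
    rw [e]; exact h
  have hne : ∀ (k : ℕ) (x : ℝ), 4 * 2 ^ k ≤ |x| → x / 2 ^ k ≠ 0 := by
    intro k x hx
    have h1 : (0 : ℝ) < 2 ^ k := by positivity
    have h2 : x ≠ 0 := by
      rintro rfl
      rw [abs_zero] at hx
      linarith
    exact div_ne_zero h2 h1.ne'
  have nEr : ∀ k, Nice1 (Er k) := fun k => nice1_sum _ _ fun i hi => by
    have h4 := (Finset.mem_filter.1 hi).2.2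
    exact nice1_smul (nice1_sub (nkap k i _ (hne k _ h4)) (nkap k i _ (hne k _ (Mr_spec h4).2.1)))
      (a i)
  -- pointwise identity
  have hid : ∀ k y, ∑ i with kk i ≤ k ∧ 4 * 2 ^ k ≤ |M i|,
      a i * kap (θ k) (y - b i) (M i / 2 ^ k) =
      G0 k y + (∑ r ∈ Finset.range J, G1 r k y) + Er k y := by
    intro k y
    have e1 : G0 k y + (∑ r ∈ Finset.range J, G1 r k y) =
        ∑ i with kk i ≤ k ∧ 4 * 2 ^ k ≤ |M i|, a i * kap (θ k) (y - b i) (Mr k (M i) / 2 ^ k) := by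
      rw [hG0, hG1]
      simp only
      rw [Finset.sum_comm, ← Finset.sum_add_distrib]
      have e2 : ∀ i, a i * T0 θ J k (cl M J 0 hJ i) (phi (b i)) y +
          ∑ r ∈ Finset.range J, a i * T1 θ J r k (cl M J (r + 1) hJ i) (phi (b i)) y =
          if 4 * 2 ^ k ≤ |M i| then a i * kap (θ k) (y - b i) (Mr k (M i) / 2 ^ k) else 0 := by
        intro i
        rw [← Finset.mul_sum, ← mul_add, telescope M J hJ θ k i (phi (b i)) y]
        split_ifs
        · rw [kap_eq]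
        · rw [mul_zero]
      rw [Finset.sum_congr rfl fun i _ => e2 i, ← Finset.sum_filter, Finset.filter_filter]
    rw [e1, hEr]
    simp only
    rw [← Finset.sum_add_distrib]
    refine Finset.sum_congr rfl fun i _ => by ring
  -- squares
  have hpt : ∀ k y, (∑ i with kk i ≤ k ∧ 4 * 2 ^ k ≤ |M i|,
      a i * kap (θ k) (y - b i) (M i / 2 ^ k)) ^ 2 ≤
      3 * ((G0 k y) ^ 2 + D * (∑ r ∈ Finset.range J, (tt ^ r)⁻¹ * (G1 r k y) ^ 2) +
        (Er k y) ^ 2) := by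
    intro k y
    rw [hid k y]
    have h1 : (∑ r ∈ Finset.range J, G1 r k y) ^ 2 ≤
        D * ∑ r ∈ Finset.range J, (tt ^ r)⁻¹ * (G1 r k y) ^ 2 := by
      have h2 := cs_w (Finset.range J) (fun r => tt ^ r) (fun r => (tt ^ r)⁻¹ * G1 r k y)
        fun r _ => pow_nonneg tt_pos.le _
      have e3 : ∀ r, tt ^ r * ((tt ^ r)⁻¹ * G1 r k y) = G1 r k y := by
        intro r
        have : tt ^ r ≠ 0 := pow_ne_zero _ tt_pos.ne'
        field_simp
      have e4 : ∀ r, tt ^ r * ((tt ^ r)⁻¹ * G1 r k y) ^ 2 = (tt ^ r)⁻¹ * (G1 r k y) ^ 2 := by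
        intro r
        have : tt ^ r ≠ 0 := pow_ne_zero _ tt_pos.ne'
        field_simp
      simp only [e3, e4] at h2
      refine h2.trans (mul_le_mul_of_nonneg_right (sum_tt J) ?_)
      exact Finset.sum_nonneg fun r _ =>
        mul_nonneg (inv_nonneg.2 (pow_nonneg tt_pos.le _)) (sq_nonneg _)
    set x := G0 k y
    set z := ∑ r ∈ Finset.range J, G1 r k y
    set w := Er k y
    nlinarith [sq_nonneg (x - z), sq_nonneg (x - w), sq_nonneg (z - w)]
  -- integrals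
  have i0 : ∀ k, Integrable (fun y => (G0 k y) ^ 2) := fun k =>
    integrable_of_nice1 (nice1_sq (nG0 k))
  have i1 : ∀ r k, Integrable (fun y => (G1 r k y) ^ 2) := fun r k =>
    integrable_of_nice1 (nice1_sq (nG1 r k))
  have iE : ∀ k, Integrable (fun y => (Er k y) ^ 2) := fun k =>
    integrable_of_nice1 (nice1_sq (nEr k))
  have i1s : ∀ k, Integrable (fun y => ∑ r ∈ Finset.range J, (tt ^ r)⁻¹ * (G1 r k y) ^ 2) :=
    fun k => integrable_finsetSum _ fun r _ => (i1 r k).const_mul _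
  have iA : ∀ k, Integrable (fun y => (G0 k y) ^ 2 +
      D * ∑ r ∈ Finset.range J, (tt ^ r)⁻¹ * (G1 r k y) ^ 2) := fun k =>
    (i0 k).add ((i1s k).const_mul D)
  have hint : ∀ k, ∫ y, (∑ i with kk i ≤ k ∧ 4 * 2 ^ k ≤ |M i|,
      a i * kap (θ k) (y - b i) (M i / 2 ^ k)) ^ 2 ≤
      3 * ((∫ y, (G0 k y) ^ 2) +
        D * (∑ r ∈ Finset.range J, (tt ^ r)⁻¹ * ∫ y, (G1 r k y) ^ 2) + ∫ y, (Er k y) ^ 2) := by
    intro k
    refine (integral_mono_of_nonneg (Filter.Eventually.of_forall fun y => sq_nonneg _)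
      (((iA k).add (iE k)).const_mul 3) (Filter.Eventually.of_forall (hpt k))).trans
      (le_of_eq ?_)
    rw [integral_const_mul]
    congr 1
    have e5 : ∫ y, ((G0 k y) ^ 2 + D * (∑ r ∈ Finset.range J, (tt ^ r)⁻¹ * (G1 r k y) ^ 2) +
        (Er k y) ^ 2) = (∫ y, ((G0 k y) ^ 2 +
          D * ∑ r ∈ Finset.range J, (tt ^ r)⁻¹ * (G1 r k y) ^ 2)) + ∫ y, (Er k y) ^ 2 :=
      integral_add (iA k) (iE k)
    have e6 : ∫ y, ((G0 k y) ^ 2 + D * ∑ r ∈ Finset.range J, (tt ^ r)⁻¹ * (G1 r k y) ^ 2) =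
        (∫ y, (G0 k y) ^ 2) + ∫ y, D * ∑ r ∈ Finset.range J, (tt ^ r)⁻¹ * (G1 r k y) ^ 2 :=
      integral_add (i0 k) ((i1s k).const_mul D)
    refine e5.trans ?_
    rw [e6, integral_const_mul, integral_finsetSum _ fun r _ => (i1 r k).const_mul _]
    simp only [integral_const_mul]
  -- levels
  have hL0 : ∑ k ∈ Finset.range K, ∫ y, (G0 k y) ^ 2 ≤ C0 * Ca * 2 * Q := by
    have h := hlev (Sg J 0) jj (2 * 2 ^ 0) Ca K n (T0 θ J) (cl M J 0 hJ) b a kk hCa0
      (fun k s => hCa θ J k s hθ) (by positivity) (card_le J 0) ha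
    simpa using h
  have hL1 : ∀ r, ∑ k ∈ Finset.range K, ∫ y, (G1 r k y) ^ 2 ≤ 2 * C0 * Cb * pp ^ (r + 1) * Q := by
    intro r
    have h := hlev (Sg J (r + 1)) jj (2 * 2 ^ (r + 1)) (Cb * pp ^ (3 * (r + 1))) K n (T1 θ J r)
      (cl M J (r + 1) hJ) b a kk (by have := pp_pos; positivity)
      (fun k s => hCb θ J r k s hθ) (by positivity) (card_le J (r + 1)) ha
    refine h.trans (le_of_eq ?_)
    have e7 : pp ^ (3 * (r + 1)) * 2 ^ (r + 1) = pp ^ (r + 1) := by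
      have : pp ^ (3 * (r + 1)) = pp ^ (r + 1) * (pp ^ 2) ^ (r + 1) := by ring
      rw [this, pp_sq, mul_assoc, ← mul_pow]
      norm_num
    calc C0 * (Cb * pp ^ (3 * (r + 1))) * (2 * 2 ^ (r + 1)) * Q
        = 2 * C0 * Cb * (pp ^ (3 * (r + 1)) * 2 ^ (r + 1)) * Q := by ring
      _ = _ := by rw [e7]
  have hLs : ∑ k ∈ Finset.range K, ∑ r ∈ Finset.range J, (tt ^ r)⁻¹ * ∫ y, (G1 r k y) ^ 2 ≤
      D * (2 * C0 * Cb) * Q := by
    rw [Finset.sum_comm]
    calc ∑ r ∈ Finset.range J, ∑ k ∈ Finset.range K, (tt ^ r)⁻¹ * ∫ y, (G1 r k y) ^ 2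
        = ∑ r ∈ Finset.range J, (tt ^ r)⁻¹ * ∑ k ∈ Finset.range K, ∫ y, (G1 r k y) ^ 2 := by
          refine Finset.sum_congr rfl fun r _ => ?_
          rw [Finset.mul_sum]
      _ ≤ ∑ r ∈ Finset.range J, tt ^ r * (2 * C0 * Cb * Q) := by
          refine Finset.sum_le_sum fun r _ => ?_
          have ht : 0 < tt ^ r := pow_pos tt_pos _
          refine (mul_le_mul_of_nonneg_left (hL1 r) (inv_nonneg.2 ht.le)).trans ?_
          have e8 : pp ^ (r + 1) ≤ tt ^ r * tt ^ r := by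
            rw [← tt_sq, ← pow_mul, ← pow_add]
            exact pow_le_pow_of_le_one tt_pos.le tt_lt.le (by omega)
          calc (tt ^ r)⁻¹ * (2 * C0 * Cb * pp ^ (r + 1) * Q)
              ≤ (tt ^ r)⁻¹ * (2 * C0 * Cb * (tt ^ r * tt ^ r) * Q) := by gcongr
            _ = tt ^ r * (2 * C0 * Cb * Q) := by field_simp
      _ = (∑ r ∈ Finset.range J, tt ^ r) * (2 * C0 * Cb * Q) := by rw [Finset.sum_mul]
      _ ≤ D * (2 * C0 * Cb * Q) := by
          refine mul_le_mul_of_nonneg_right (sum_tt J) (by positivity)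
      _ = _ := by ring
  have hLE : ∑ k ∈ Finset.range K, ∫ y, (Er k y) ^ 2 ≤ CE * Q :=
    hCE K n b M a kk θ (fun i k => Mr k (M i)) ha hθ fun i k h => Mr_spec h
  calc ∑ k ∈ Finset.range K, ∫ y, (∑ i with kk i ≤ k ∧ 4 * 2 ^ k ≤ |M i|,
        a i * kap (θ k) (y - b i) (M i / 2 ^ k)) ^ 2
      ≤ ∑ k ∈ Finset.range K, 3 * ((∫ y, (G0 k y) ^ 2) +
        D * (∑ r ∈ Finset.range J, (tt ^ r)⁻¹ * ∫ y, (G1 r k y) ^ 2) + ∫ y, (Er k y) ^ 2) :=
        Finset.sum_le_sum fun k _ => hint k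
    _ = 3 * ((∑ k ∈ Finset.range K, ∫ y, (G0 k y) ^ 2) +
        D * (∑ k ∈ Finset.range K, ∑ r ∈ Finset.range J, (tt ^ r)⁻¹ * ∫ y, (G1 r k y) ^ 2) +
        ∑ k ∈ Finset.range K, ∫ y, (Er k y) ^ 2) := by
        rw [← Finset.mul_sum, Finset.sum_add_distrib, Finset.sum_add_distrib, ← Finset.mul_sum]
    _ ≤ 3 * (C0 * Ca * 2 * Q + D * (D * (2 * C0 * Cb) * Q) + CE * Q) := by gcongr
    _ = _ := by ring

end Crest.Agent.R087.MAINofx575
end
end

-- ▼ part R087/RoundE_975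

/-!
# Row 87, part of leaf `MAINof`: last rounding error (helper975)

`|kap θ d μ - kap θ d μ'| ≤ 5 μ⁻² 1[|d| ≤ 2|μ|] + (5/4)|μ|⁻¹ (edge windows)` for `|μ - μ'| ≤ 1`,
`4 ≤ |μ'| ≤ |μ|`, and its sum by `FLAT` and `EDGE`.
-/

set_option autoImplicit false

noncomputable section

open MeasureTheory

namespace Crest.Agent.R087.RoundEx975

open Crest.Agent.R087.E2x542 Crest.Agent.R087.HLlinx975

theorem continuous_tent : Continuous tent := by unfold tent; fun_prop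

theorem tent_nonneg (u : ℝ) : 0 ≤ tent u := le_max_right _ _

theorem tent_le_one (u : ℝ) : tent u ≤ 1 := by
  unfold tent; exact max_le (by linarith [abs_nonneg u]) (by norm_num)

theorem tent_eq_zero {u : ℝ} (h : 1 ≤ |u|) : tent u = 0 := by
  unfold tent; exact max_eq_right (by linarith)

/-- primitive of the tent -/
def Ph (v : ℝ) : ℝ := ∫ x in (0 : ℝ)..v, tent x

theorem integral_tent (u v : ℝ) : ∫ x in u..v, tent x = Ph v - Ph u := by
  unfold Ph
  rw [intervalIntegral.integral_interval_sub_left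
    (continuous_tent.intervalIntegrable _ _) (continuous_tent.intervalIntegrable _ _)]

theorem Ph_lip (u v : ℝ) : |Ph v - Ph u| ≤ |v - u| := by
  rw [← integral_tent]
  have := intervalIntegral.norm_integral_le_of_norm_le_const (a := u) (b := v) (f := tent) (C := 1)
    (fun x _ => by
      rw [Real.norm_eq_abs, abs_of_nonneg (tent_nonneg x)]; exact tent_le_one x)
  simpa [Real.norm_eq_abs] using this

theorem Ph_const {u v : ℝ} (hu : 1 ≤ u) (hv : 1 ≤ v) : Ph u = Ph v := by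
  have h : ∫ x in u..v, tent x = 0 := by
    rw [intervalIntegral.integral_congr (g := fun _ => (0 : ℝ))]
    · simp
    · intro x hx
      have h1 : 1 ≤ x := by
        rcases Set.mem_uIcc.1 hx with h | h
        · exact hu.trans h.1
        · exact hv.trans h.1
      exact tent_eq_zero (h1.trans (le_abs_self x))
  rw [integral_tent] at h
  linarith

theorem Ph_const' {u v : ℝ} (hu : u ≤ -1) (hv : v ≤ -1) : Ph u = Ph v := by
  have h : ∫ x in u..v, tent x = 0 := by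
    rw [intervalIntegral.integral_congr (g := fun _ => (0 : ℝ))]
    · simp
    · intro x hx
      have h1 : x ≤ -1 := by
        rcases Set.mem_uIcc.1 hx with h | h
        · exact h.2.trans hv
        · exact h.2.trans hu
      refine tent_eq_zero ?_
      rw [abs_of_nonpos (by linarith)]; linarith
  rw [integral_tent] at h
  linarith

theorem Ph_zero : Ph 0 = 0 := by unfold Ph; simp

theorem Ph_abs (v : ℝ) : |Ph v| ≤ 1 := by
  rcases le_total 1 v with h | h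
  · rw [Ph_const h le_rfl]
    have := Ph_lip 0 1
    rw [Ph_zero] at this; simpa using this
  rcases le_total v (-1) with h' | h'
  · rw [Ph_const' h' le_rfl]
    have := Ph_lip 0 (-1)
    rw [Ph_zero] at this; simpa using this
  · have := Ph_lip 0 v
    rw [Ph_zero, sub_zero, sub_zero] at this
    exact this.trans (abs_le.2 ⟨h', h⟩)

/-- numerator of `kap` -/
def Gk (θ d μ : ℝ) : ℝ :=
  2 * Ph (d + (1 / 2 - θ) * μ) - Ph (d + (-θ) * μ) - Ph (d + (1 - θ) * μ)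

theorem integral_comp (a b d μ : ℝ) (hμ : μ ≠ 0) :
    ∫ x in a..b, tent (d + x * μ) = μ⁻¹ * (Ph (d + b * μ) - Ph (d + a * μ)) := by
  have h : ∀ x : ℝ, tent (d + x * μ) = tent (d + μ * x) := fun x => by rw [mul_comm x μ]
  simp_rw [h]
  rw [intervalIntegral.integral_comp_add_mul (fun x => tent x) hμ, integral_tent, smul_eq_mul,
    mul_comm μ b, mul_comm μ a]

theorem kap_eq (θ d μ : ℝ) (hμ : μ ≠ 0) : kap θ d μ = μ⁻¹ * Gk θ d μ := by
  unfold kap Gk
  rw [integral_comp _ _ _ _ hμ, integral_comp _ _ _ _ hμ]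
  ring

theorem Gk_abs (θ d μ : ℝ) : |Gk θ d μ| ≤ 4 := by
  unfold Gk
  have h1 := abs_le.1 (Ph_abs (d + (1 / 2 - θ) * μ))
  have h2 := abs_le.1 (Ph_abs (d + (-θ) * μ))
  have h3 := abs_le.1 (Ph_abs (d + (1 - θ) * μ))
  rw [abs_le]
  constructor <;> linarith [h1.1, h1.2, h2.1, h2.2, h3.1, h3.2]

theorem Gk_eq_zero {θ d μ B : ℝ} (h0 : 0 ≤ θ) (h1 : θ < 1) (hB : 1 ≤ B) (hμ : |μ| ≤ B)
    (hd : 2 * B < |d|) : Gk θ d μ = 0 := by
  have hx : ∀ x : ℝ, |x| ≤ 1 → |x * μ| ≤ B := by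
    intro x hx
    rw [abs_mul]
    calc |x| * |μ| ≤ 1 * |μ| := mul_le_mul_of_nonneg_right hx (abs_nonneg _)
      _ ≤ B := by rw [one_mul]; exact hμ
  have a1 := abs_le.1 (hx (1 / 2 - θ) (abs_le.2 ⟨by linarith, by linarith⟩))
  have a2 := abs_le.1 (hx (-θ) (abs_le.2 ⟨by linarith, by linarith⟩))
  have a3 := abs_le.1 (hx (1 - θ) (abs_le.2 ⟨by linarith, by linarith⟩))
  unfold Gk
  rcases le_total 0 d with h | h
  · rw [abs_of_nonneg h] at hd
    rw [Ph_const (u := d + (1 / 2 - θ) * μ) (v := 1) (by linarith [a1.1]) le_rfl,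
      Ph_const (u := d + (-θ) * μ) (v := 1) (by linarith [a2.1]) le_rfl,
      Ph_const (u := d + (1 - θ) * μ) (v := 1) (by linarith [a3.1]) le_rfl]
    ring
  · rw [abs_of_nonpos h] at hd
    rw [Ph_const' (u := d + (1 / 2 - θ) * μ) (v := -1) (by linarith [a1.2]) le_rfl,
      Ph_const' (u := d + (-θ) * μ) (v := -1) (by linarith [a2.2]) le_rfl,
      Ph_const' (u := d + (1 - θ) * μ) (v := -1) (by linarith [a3.2]) le_rfl]
    ring

theorem Ph_diff {x d μ μ' : ℝ} (hx : |x| ≤ 1) (h : |μ - μ'| ≤ 1) :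
    |Ph (d + x * μ) - Ph (d + x * μ')| ≤ bx 2 0 (d + x * μ) := by
  have h1 : |x * (μ - μ')| ≤ 1 := by
    rw [abs_mul]
    calc |x| * |μ - μ'| ≤ 1 * 1 := mul_le_mul hx h (abs_nonneg _) zero_le_one
      _ = 1 := one_mul 1
  have h1' := abs_le.1 h1
  unfold bx
  by_cases hc : |d + x * μ - 0| ≤ 2
  · rw [if_pos hc]
    refine (Ph_lip _ _).trans ?_
    rw [show d + x * μ - (d + x * μ') = x * (μ - μ') by ring]
    exact h1
  · rw [if_neg hc, sub_zero] at *
    rw [not_le] at hc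
    rcases le_total 0 (d + x * μ) with h2 | h2
    · rw [abs_of_nonneg h2] at hc
      rw [Ph_const (u := d + x * μ) (v := d + x * μ') (by linarith) (by nlinarith [h1'.1, h1'.2])]
      simp
    · rw [abs_of_nonpos h2] at hc
      rw [Ph_const' (u := d + x * μ) (v := d + x * μ') (by linarith) (by nlinarith [h1'.1, h1'.2])]
      simp

theorem kap_diff {θ d μ μ' : ℝ} (h0 : 0 ≤ θ) (h1 : θ < 1) (h4 : 4 ≤ |μ'|) (hle : |μ'| ≤ |μ|)
    (h : |μ - μ'| ≤ 1) :
    |kap θ d μ - kap θ d μ'| ≤ 5 * (|μ|⁻¹ ^ 2 * bx (2 * |μ|) 0 d) +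
      5 / 4 * (|μ|⁻¹ * (2 * bx 2 0 (d + (1 / 2 - θ) * μ) + bx 2 0 (d + (-θ) * μ) +
        bx 2 0 (d + (1 - θ) * μ))) := by
  have hμ'0 : μ' ≠ 0 := by
    rintro rfl; rw [abs_zero] at h4; linarith
  have hμpos : 0 < |μ| := by linarith
  have hμ'pos : 0 < |μ'| := by linarith
  have hμ0 : μ ≠ 0 := abs_pos.1 hμpos
  rw [kap_eq _ _ _ hμ0, kap_eq _ _ _ hμ'0]
  have hsplit : μ⁻¹ * Gk θ d μ - μ'⁻¹ * Gk θ d μ' =
      (μ⁻¹ - μ'⁻¹) * Gk θ d μ + μ'⁻¹ * (Gk θ d μ - Gk θ d μ') := by ring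
  rw [hsplit]
  have hinv : |μ'|⁻¹ ≤ 5 / 4 * |μ|⁻¹ := by
    have h5 : |μ| ≤ 5 / 4 * |μ'| := by
      have := abs_sub_abs_le_abs_sub μ μ'
      linarith
    rw [← div_eq_mul_inv, inv_eq_one_div, div_le_div_iff₀ hμ'pos hμpos]
    linarith
  have hdinv : |μ⁻¹ - μ'⁻¹| ≤ 5 / 4 * |μ|⁻¹ ^ 2 := by
    rw [inv_sub_inv hμ0 hμ'0, abs_div, abs_mul, div_eq_mul_inv, mul_inv, abs_sub_comm]
    calc |μ - μ'| * (|μ|⁻¹ * |μ'|⁻¹) ≤ 1 * (|μ|⁻¹ * (5 / 4 * |μ|⁻¹)) := by
          refine mul_le_mul h ?_ (by positivity) zero_le_one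
          exact mul_le_mul_of_nonneg_left hinv (by positivity)
      _ = 5 / 4 * |μ|⁻¹ ^ 2 := by ring
  have t1 : |(μ⁻¹ - μ'⁻¹) * Gk θ d μ| ≤ 5 * (|μ|⁻¹ ^ 2 * bx (2 * |μ|) 0 d) := by
    rw [abs_mul]
    unfold bx
    by_cases hd : |d - 0| ≤ 2 * |μ|
    · rw [if_pos hd]
      calc |μ⁻¹ - μ'⁻¹| * |Gk θ d μ| ≤ (5 / 4 * |μ|⁻¹ ^ 2) * 4 :=
            mul_le_mul hdinv (Gk_abs _ _ _) (abs_nonneg _) (by positivity)
        _ = _ := by ring
    · rw [if_neg hd, Gk_eq_zero h0 h1 (B := |μ|) (by linarith) le_rfl (by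
        rw [sub_zero, not_le] at hd; exact hd)]
      simp
  have t2 : |μ'⁻¹ * (Gk θ d μ - Gk θ d μ')| ≤
      5 / 4 * (|μ|⁻¹ * (2 * bx 2 0 (d + (1 / 2 - θ) * μ) + bx 2 0 (d + (-θ) * μ) +
        bx 2 0 (d + (1 - θ) * μ))) := by
    rw [abs_mul, abs_inv]
    have b1 := Ph_diff (x := 1 / 2 - θ) (d := d) (abs_le.2 ⟨by linarith, by linarith⟩) h
    have b2 := Ph_diff (x := -θ) (d := d) (abs_le.2 ⟨by linarith, by linarith⟩) h
    have b3 := Ph_diff (x := 1 - θ) (d := d) (abs_le.2 ⟨by linarith, by linarith⟩) h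
    have hG : |Gk θ d μ - Gk θ d μ'| ≤ 2 * bx 2 0 (d + (1 / 2 - θ) * μ) +
        bx 2 0 (d + (-θ) * μ) + bx 2 0 (d + (1 - θ) * μ) := by
      unfold Gk
      rw [abs_le] at *
      constructor <;> linarith [b1.1, b1.2, b2.1, b2.2, b3.1, b3.2]
    have hs : 0 ≤ 2 * bx 2 0 (d + (1 / 2 - θ) * μ) + bx 2 0 (d + (-θ) * μ) +
        bx 2 0 (d + (1 - θ) * μ) := (abs_nonneg _).trans hG
    calc |μ'|⁻¹ * |Gk θ d μ - Gk θ d μ'|
        ≤ (5 / 4 * |μ|⁻¹) * (2 * bx 2 0 (d + (1 / 2 - θ) * μ) +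
          bx 2 0 (d + (-θ) * μ) + bx 2 0 (d + (1 - θ) * μ)) :=
          mul_le_mul hinv hG (abs_nonneg _) (by positivity)
      _ = _ := by ring
  exact (abs_add_le _ _).trans (add_le_add t1 t2)

/-! ### summation -/

theorem win_nonneg (v : ℝ) : 0 ≤ win v := by unfold win; split_ifs <;> norm_num

theorem bx_cover (v : ℝ) : bx 2 0 v ≤ ∑ e ∈ Finset.range 5, win (v - ((e : ℝ) - 2)) := by
  unfold bx
  by_cases h : |v - 0| ≤ 2
  · rw [if_pos h]
    rw [sub_zero, abs_le] at h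
    have key : ∃ e ∈ Finset.range 5, |v - ((e : ℝ) - 2)| ≤ 1 / 2 := by
      rcases le_total v (-(3 / 2)) with h1 | h1
      · exact ⟨0, by simp, abs_le.2 ⟨by push_cast; linarith [h.1], by push_cast; linarith [h.2]⟩⟩
      rcases le_total v (-(1 / 2)) with h2 | h2
      · exact ⟨1, by simp, abs_le.2 ⟨by push_cast; linarith, by push_cast; linarith⟩⟩
      rcases le_total v (1 / 2) with h3 | h3
      · exact ⟨2, by simp, abs_le.2 ⟨by push_cast; linarith, by push_cast; linarith⟩⟩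
      rcases le_total v (3 / 2) with h4 | h4
      · exact ⟨3, by simp, abs_le.2 ⟨by push_cast; linarith, by push_cast; linarith⟩⟩
      · exact ⟨4, by simp, abs_le.2 ⟨by push_cast; linarith [h.1], by push_cast; linarith [h.2]⟩⟩
    obtain ⟨e, he, hv⟩ := key
    calc (1 : ℝ) = win (v - ((e : ℝ) - 2)) := by unfold win; rw [if_pos hv]
      _ ≤ _ := Finset.single_le_sum (f := fun e : ℕ => win (v - ((e : ℝ) - 2)))
        (fun _ _ => win_nonneg _) he
  · rw [if_neg h]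
    exact Finset.sum_nonneg fun _ _ => win_nonneg _

variable {n : ℕ}

theorem integrable_sq_sum (s : Finset (Fin n)) (c r p : Fin n → ℝ) :
    Integrable fun y => (∑ i ∈ s, c i * bx (r i) (p i) y) ^ 2 := by
  have h : ∀ y, (∑ i ∈ s, c i * bx (r i) (p i) y) ^ 2 =
      ∑ i ∈ s, ∑ j ∈ s, c i * c j * (bx (r i) (p i) y * bx (r j) (p j) y) := by
    intro y
    rw [sq, Finset.sum_mul_sum]
    refine Finset.sum_congr rfl fun i _ => Finset.sum_congr rfl fun j _ => ?_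
    ring
  simp_rw [h]
  exact integrable_finsetSum _ fun i _ => integrable_finsetSum _ fun j _ =>
    (integrable_bx_mul _ _ _ _).const_mul _

/-- flat term -/
def FL (b M a : Fin n → ℝ) (k : ℕ) (y : ℝ) : ℝ :=
  ∑ i with 4 * 2 ^ k ≤ |M i|,
    a i * (2 ^ k / |M i|) ^ 2 * (if |y - b i| ≤ 2 * (|M i| / 2 ^ k) then 1 else 0)

/-- edge term -/
def ED (b M a : Fin n → ℝ) (x : ℕ → ℝ) (k : ℕ) (y : ℝ) : ℝ :=
  ∑ i with 4 * 2 ^ k ≤ |M i|, a i * (2 ^ k / |M i|) * win (y - b i + x k * (M i / 2 ^ k))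

theorem integrable_FL (b M a : Fin n → ℝ) (k : ℕ) : Integrable fun y => FL b M a k y ^ 2 :=
  integrable_sq_sum _ (fun i => a i * (2 ^ k / |M i|) ^ 2) (fun i => 2 * (|M i| / 2 ^ k)) b

theorem integrable_ED (b M a : Fin n → ℝ) (x : ℕ → ℝ) (k : ℕ) :
    Integrable fun y => ED b M a x k y ^ 2 := by
  have h := integrable_sq_sum (Finset.univ.filter fun i => 4 * 2 ^ k ≤ |M i|)
    (fun i => a i * (2 ^ k / |M i|)) (fun _ => 1 / 2) (fun i => b i - x k * (M i / 2 ^ k))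
  have h2 : ∀ y, ED b M a x k y = ∑ i with 4 * 2 ^ k ≤ |M i|,
      a i * (2 ^ k / |M i|) * bx (1 / 2) (b i - x k * (M i / 2 ^ k)) y := by
    intro y
    unfold ED
    refine Finset.sum_congr rfl fun i _ => ?_
    unfold win bx
    rw [show y - (b i - x k * (M i / 2 ^ k)) = y - b i + x k * (M i / 2 ^ k) by ring]
  simp_rw [h2]
  exact h



theorem pointwise (b M a : Fin n → ℝ) (kk : Fin n → ℕ) (θ : ℝ) (M' : Fin n → ℝ) (k : ℕ)
    (ha : ∀ i, 0 ≤ a i) (h0 : 0 ≤ θ) (h1 : θ < 1)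
    (hM : ∀ i, 4 * 2 ^ k ≤ |M i| → 4 * 2 ^ k ≤ |M' i| ∧ |M' i| ≤ |M i| ∧ |M i - M' i| ≤ 2 ^ k)
    (y : ℝ) :
    |∑ i with kk i ≤ k ∧ 4 * 2 ^ k ≤ |M i|,
      a i * (kap θ (y - b i) (M i / 2 ^ k) - kap θ (y - b i) (M' i / 2 ^ k))| ≤
    5 * FL b M a k y + 5 / 4 * ∑ e ∈ Finset.range 5,
      (2 * ED (fun i => b i + ((e : ℝ) - 2)) M a (fun _ => 1 / 2 - θ) k y +
        ED (fun i => b i + ((e : ℝ) - 2)) M a (fun _ => -θ) k y +
        ED (fun i => b i + ((e : ℝ) - 2)) M a (fun _ => 1 - θ) k y) := by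
  have hk : (0 : ℝ) < 2 ^ k := by positivity
  have hterm : ∀ i, 4 * 2 ^ k ≤ |M i| →
      a i * |kap θ (y - b i) (M i / 2 ^ k) - kap θ (y - b i) (M' i / 2 ^ k)| ≤
      5 * (a i * (2 ^ k / |M i|) ^ 2 * (if |y - b i| ≤ 2 * (|M i| / 2 ^ k) then 1 else 0)) +
      5 / 4 * ∑ e ∈ Finset.range 5,
        (2 * (a i * (2 ^ k / |M i|) *
            win (y - (b i + ((e : ℝ) - 2)) + (1 / 2 - θ) * (M i / 2 ^ k))) +
          a i * (2 ^ k / |M i|) * win (y - (b i + ((e : ℝ) - 2)) + (-θ) * (M i / 2 ^ k)) +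
          a i * (2 ^ k / |M i|) * win (y - (b i + ((e : ℝ) - 2)) + (1 - θ) * (M i / 2 ^ k))) := by
    intro i hi
    obtain ⟨p1, p2, p3⟩ := hM i hi
    have hc : (2 : ℝ) ^ k = |(2 : ℝ) ^ k| := (abs_of_pos hk).symm
    have habs : ∀ z : ℝ, |z / 2 ^ k| = |z| / 2 ^ k := fun z => by
      rw [abs_div, ← hc]
    have q1 : 4 ≤ |M' i / 2 ^ k| := by rw [habs, le_div_iff₀ hk]; exact p1
    have q2 : |M' i / 2 ^ k| ≤ |M i / 2 ^ k| := by
      rw [habs, habs]; exact div_le_div_of_nonneg_right p2 hk.le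
    have q3 : |M i / 2 ^ k - M' i / 2 ^ k| ≤ 1 := by
      rw [← sub_div, habs, div_le_one hk]; exact p3
    have hk1 := kap_diff (d := y - b i) h0 h1 q1 q2 q3
    have hinv : |M i / 2 ^ k|⁻¹ = 2 ^ k / |M i| := by rw [habs, inv_div]
    rw [hinv] at hk1
    have hA : 0 ≤ 2 ^ k / |M i| := by positivity
    have hcov : ∀ x : ℝ, bx 2 0 (y - b i + x * (M i / 2 ^ k)) ≤
        ∑ e ∈ Finset.range 5, win (y - (b i + ((e : ℝ) - 2)) + x * (M i / 2 ^ k)) := by
      intro x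
      refine (bx_cover _).trans (le_of_eq ?_)
      refine Finset.sum_congr rfl fun e _ => ?_
      congr 1; ring
    have hbx : bx (2 * |M i / 2 ^ k|) 0 (y - b i) =
        (if |y - b i| ≤ 2 * (|M i| / 2 ^ k) then 1 else 0) := by
      unfold bx; rw [habs, sub_zero]
    rw [hbx] at hk1
    have hk2 := mul_le_mul_of_nonneg_left hk1 (ha i)
    refine hk2.trans ?_
    have c1 := hcov (1 / 2 - θ)
    have c2 := hcov (-θ)
    have c3 := hcov (1 - θ)
    have hsum : (2 ^ k / |M i|) * (2 * bx 2 0 (y - b i + (1 / 2 - θ) * (M i / 2 ^ k)) +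
        bx 2 0 (y - b i + (-θ) * (M i / 2 ^ k)) + bx 2 0 (y - b i + (1 - θ) * (M i / 2 ^ k))) ≤
        (2 ^ k / |M i|) * (2 * (∑ e ∈ Finset.range 5,
          win (y - (b i + ((e : ℝ) - 2)) + (1 / 2 - θ) * (M i / 2 ^ k))) +
        (∑ e ∈ Finset.range 5, win (y - (b i + ((e : ℝ) - 2)) + (-θ) * (M i / 2 ^ k))) +
        ∑ e ∈ Finset.range 5, win (y - (b i + ((e : ℝ) - 2)) + (1 - θ) * (M i / 2 ^ k))) := by
      refine mul_le_mul_of_nonneg_left ?_ hA
      linarith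
    have hsum2 := mul_le_mul_of_nonneg_left hsum (ha i)
    simp only [Finset.sum_add_distrib, ← Finset.mul_sum]
    nlinarith [hsum2]
  calc |∑ i with kk i ≤ k ∧ 4 * 2 ^ k ≤ |M i|,
        a i * (kap θ (y - b i) (M i / 2 ^ k) - kap θ (y - b i) (M' i / 2 ^ k))|
      ≤ ∑ i with kk i ≤ k ∧ 4 * 2 ^ k ≤ |M i|,
        |a i * (kap θ (y - b i) (M i / 2 ^ k) - kap θ (y - b i) (M' i / 2 ^ k))| :=
        Finset.abs_sum_le_sum_abs _ _
    _ ≤ ∑ i with 4 * 2 ^ k ≤ |M i|,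
        a i * |kap θ (y - b i) (M i / 2 ^ k) - kap θ (y - b i) (M' i / 2 ^ k)| := by
        have : ∀ i, |a i * (kap θ (y - b i) (M i / 2 ^ k) - kap θ (y - b i) (M' i / 2 ^ k))| =
            a i * |kap θ (y - b i) (M i / 2 ^ k) - kap θ (y - b i) (M' i / 2 ^ k)| := fun i => by
          rw [abs_mul, abs_of_nonneg (ha i)]
        simp_rw [this]
        refine Finset.sum_le_sum_of_subset_of_nonneg ?_ fun i _ _ =>
          mul_nonneg (ha i) (abs_nonneg _)
        intro i hi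
        rw [Finset.mem_filter] at *
        exact ⟨hi.1, hi.2.2⟩
    _ ≤ _ := Finset.sum_le_sum fun i hi => hterm i (Finset.mem_filter.1 hi).2
    _ = _ := by
        rw [Finset.sum_add_distrib, ← Finset.mul_sum, ← Finset.mul_sum, Finset.sum_comm]
        simp_rw [Finset.sum_add_distrib, ← Finset.mul_sum]
        rfl

theorem sq_bound (F : ℝ) (X Y Z : ℕ → ℝ) :
    (5 * F + 5 / 4 * ∑ e ∈ Finset.range 5, (2 * X e + Y e + Z e)) ^ 2 ≤
      50 * F ^ 2 + 200 * ∑ e ∈ Finset.range 5, (X e ^ 2 + Y e ^ 2 + Z e ^ 2) := by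
  have h1 : (∑ e ∈ Finset.range 5, (2 * X e + Y e + Z e)) ^ 2 ≤
      5 * ∑ e ∈ Finset.range 5, (2 * X e + Y e + Z e) ^ 2 := by
    have := sq_sum_le_card_mul_sum_sq (s := Finset.range 5) (f := fun e => 2 * X e + Y e + Z e)
    simpa using this
  have h2 : ∑ e ∈ Finset.range 5, (2 * X e + Y e + Z e) ^ 2 ≤
      12 * ∑ e ∈ Finset.range 5, (X e ^ 2 + Y e ^ 2 + Z e ^ 2) := by
    rw [Finset.mul_sum]
    refine Finset.sum_le_sum fun e _ => ?_
    nlinarith [sq_nonneg (2 * X e - Y e), sq_nonneg (2 * X e - Z e), sq_nonneg (Y e - Z e),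
      sq_nonneg (Y e), sq_nonneg (Z e)]
  have h3 : 0 ≤ ∑ e ∈ Finset.range 5, (X e ^ 2 + Y e ^ 2 + Z e ^ 2) :=
    Finset.sum_nonneg fun e _ => by positivity
  nlinarith [sq_nonneg (5 * F - 5 / 4 * ∑ e ∈ Finset.range 5, (2 * X e + Y e + Z e))]

theorem translate (b a : Fin n → ℝ) (e : ℝ) :
    ∫ y, (∑ i, a i * win (y - (b i + e))) ^ 2 = ∫ y, (∑ i, a i * win (y - b i)) ^ 2 := by
  rw [← integral_sub_right_eq_self (fun y => (∑ i, a i * win (y - b i)) ^ 2) e]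
  congr 1
  funext y
  congr 1
  refine Finset.sum_congr rfl fun i _ => ?_
  congr 2; ring

/-- **last rounding error**. -/
theorem last_error (hE : EDGE) (hF : FLAT) : ∃ C : ℝ, 0 ≤ C ∧
    ∀ (K n : ℕ) (b M a : Fin n → ℝ) (kk : Fin n → ℕ) (θ : ℕ → ℝ) (M' : ℕ → Fin n → ℝ),
    (∀ i, 0 ≤ a i) → (∀ k, 0 ≤ θ k ∧ θ k < 1) →
    (∀ k i, 4 * 2 ^ k ≤ |M i| →
      4 * 2 ^ k ≤ |M' k i| ∧ |M' k i| ≤ |M i| ∧ |M i - M' k i| ≤ 2 ^ k) →
    ∑ k ∈ Finset.range K,
      ∫ y, (∑ i with kk i ≤ k ∧ 4 * 2 ^ k ≤ |M i|,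
        a i * (kap (θ k) (y - b i) (M i / 2 ^ k) - kap (θ k) (y - b i) (M' k i / 2 ^ k))) ^ 2 ≤
      C * ∫ y, (∑ i, a i * win (y - b i)) ^ 2 := by
  obtain ⟨CE, hE⟩ := hE
  obtain ⟨CF, hF⟩ := hF
  refine ⟨50 * |CF| + 200 * (5 * (3 * |CE|)), by positivity, ?_⟩
  intro K n b M a kk θ M' ha hθ hM
  set Q := ∫ y, (∑ i, a i * win (y - b i)) ^ 2 with hQ
  have hQ0 : 0 ≤ Q := integral_nonneg fun y => sq_nonneg _
  have hk : ∀ k, ∫ y, (∑ i with kk i ≤ k ∧ 4 * 2 ^ k ≤ |M i|,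
        a i * (kap (θ k) (y - b i) (M i / 2 ^ k) - kap (θ k) (y - b i) (M' k i / 2 ^ k))) ^ 2 ≤
      50 * (∫ y, FL b M a k y ^ 2) + 200 * ∑ e ∈ Finset.range 5,
        ((∫ y, ED (fun i => b i + ((e : ℝ) - 2)) M a (fun k => 1 / 2 - θ k) k y ^ 2) +
        (∫ y, ED (fun i => b i + ((e : ℝ) - 2)) M a (fun k => -θ k) k y ^ 2) +
        ∫ y, ED (fun i => b i + ((e : ℝ) - 2)) M a (fun k => 1 - θ k) k y ^ 2) := by
    intro k
    have h2e : ∀ e : ℕ, Integrable fun y =>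
        ED (fun i => b i + ((e : ℝ) - 2)) M a (fun k => 1 / 2 - θ k) k y ^ 2 +
        ED (fun i => b i + ((e : ℝ) - 2)) M a (fun k => -θ k) k y ^ 2 := fun e =>
      (integrable_ED _ M a _ k).add (integrable_ED _ M a _ k)
    have h3e : ∀ e : ℕ, Integrable fun y =>
        ED (fun i => b i + ((e : ℝ) - 2)) M a (fun k => 1 / 2 - θ k) k y ^ 2 +
        ED (fun i => b i + ((e : ℝ) - 2)) M a (fun k => -θ k) k y ^ 2 +
        ED (fun i => b i + ((e : ℝ) - 2)) M a (fun k => 1 - θ k) k y ^ 2 := fun e =>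
      (h2e e).add (integrable_ED _ M a _ k)
    have hsume : Integrable fun y => 200 * ∑ e ∈ Finset.range 5,
        (ED (fun i => b i + ((e : ℝ) - 2)) M a (fun k => 1 / 2 - θ k) k y ^ 2 +
        ED (fun i => b i + ((e : ℝ) - 2)) M a (fun k => -θ k) k y ^ 2 +
        ED (fun i => b i + ((e : ℝ) - 2)) M a (fun k => 1 - θ k) k y ^ 2) :=
      (integrable_finsetSum _ fun e _ => h3e e).const_mul _
    have hFLi : Integrable fun y => 50 * FL b M a k y ^ 2 := (integrable_FL b M a k).const_mul _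
    have hint : Integrable fun y => 50 * FL b M a k y ^ 2 + 200 * ∑ e ∈ Finset.range 5,
        (ED (fun i => b i + ((e : ℝ) - 2)) M a (fun k => 1 / 2 - θ k) k y ^ 2 +
        ED (fun i => b i + ((e : ℝ) - 2)) M a (fun k => -θ k) k y ^ 2 +
        ED (fun i => b i + ((e : ℝ) - 2)) M a (fun k => 1 - θ k) k y ^ 2) := hFLi.add hsume
    refine (integral_mono_of_nonneg (Filter.Eventually.of_forall fun y => sq_nonneg _) hint
      (Filter.Eventually.of_forall fun y => ?_)).trans (le_of_eq ?_)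
    · have h1 := pointwise b M a kk (θ k) (M' k) k ha (hθ k).1 (hθ k).2 (hM k) y
      have h2 := sq_bound (FL b M a k y)
        (fun e => ED (fun i => b i + ((e : ℝ) - 2)) M a (fun k => 1 / 2 - θ k) k y)
        (fun e => ED (fun i => b i + ((e : ℝ) - 2)) M a (fun k => -θ k) k y)
        (fun e => ED (fun i => b i + ((e : ℝ) - 2)) M a (fun k => 1 - θ k) k y)
      refine le_trans ?_ h2
      rw [← sq_abs]
      exact pow_le_pow_left₀ (abs_nonneg _) h1 2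
    · rw [integral_add hFLi hsume, integral_const_mul, integral_const_mul,
        integral_finsetSum _ fun e _ => h3e e]
      congr 2
      refine Finset.sum_congr rfl fun e _ => ?_
      rw [integral_add (h2e e) (integrable_ED _ M a _ k),
        integral_add (integrable_ED _ M a _ k) (integrable_ED _ M a _ k)]
  have hED : ∀ (e : ℕ) (x : ℕ → ℝ), (∀ k, |x k| ≤ 1) →
      ∑ k ∈ Finset.range K, (∫ y, ED (fun i => b i + ((e : ℝ) - 2)) M a x k y ^ 2) ≤
        |CE| * Q := by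
    intro e x hx
    have h1 := hE K n (fun i => b i + ((e : ℝ) - 2)) M a x ha hx
    rw [translate] at h1
    exact h1.trans (mul_le_mul_of_nonneg_right (le_abs_self _) hQ0)
  have hFL : ∑ k ∈ Finset.range K, (∫ y, FL b M a k y ^ 2) ≤ |CF| * Q :=
    (hF K n b M a ha).trans (mul_le_mul_of_nonneg_right (le_abs_self _) hQ0)
  refine (Finset.sum_le_sum fun k _ => hk k).trans ?_
  rw [Finset.sum_add_distrib, ← Finset.mul_sum, ← Finset.mul_sum, Finset.sum_comm]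
  simp_rw [Finset.sum_add_distrib]
  have hx1 : ∀ k, |1 / 2 - θ k| ≤ 1 := fun k =>
    abs_le.2 ⟨by linarith [(hθ k).2], by linarith [(hθ k).1]⟩
  have hx2 : ∀ k, |-θ k| ≤ 1 := fun k => abs_le.2 ⟨by linarith [(hθ k).2], by linarith [(hθ k).1]⟩
  have hx3 : ∀ k, |1 - θ k| ≤ 1 := fun k =>
    abs_le.2 ⟨by linarith [(hθ k).2], by linarith [(hθ k).1]⟩
  have s1 := Finset.sum_le_sum fun e (_ : e ∈ Finset.range 5) => hED e _ hx1
  have s2 := Finset.sum_le_sum fun e (_ : e ∈ Finset.range 5) => hED e _ hx2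
  have s3 := Finset.sum_le_sum fun e (_ : e ∈ Finset.range 5) => hED e _ hx3
  simp only [Finset.sum_const, Finset.card_range, nsmul_eq_mul] at s1 s2 s3
  push_cast at s1 s2 s3
  linarith

end Crest.Agent.R087.RoundEx975
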