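import Crest.Agent.R087.Asm1_283
import Crest.Agent.R087.Sh1_283

-- ▼ part R087/Asm2_283
section

/-!
Row 87, shell, S10 part 2: the pre-Hilbert space of nice functions and the operators.
-/

set_option autoImplicit false

noncomputable section

open MeasureTheory Crest.Agent.R087.Sh0x283 Crest.Agent.R087.Sh1x283 Crest.Agent.R087.Asm1x283
open scoped RealInnerProductSpace

namespace Crest.Agent.R087.Asm2x283

theorem nice_add {f g : ℝ × ℝ → ℝ} (hf : Nice f) (hg : Nice g) : Nice (fun z => f z + g z) := by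
  obtain ⟨h1, ⟨M, hM⟩, R, hR⟩ := hf
  obtain ⟨h1', ⟨M', hM'⟩, R', hR'⟩ := hg
  refine ⟨h1.add h1', ⟨M + M', fun z => (abs_add_le _ _).trans (add_le_add (hM z) (hM' z))⟩,
    max R R', fun z hz => ?_⟩
  show f z + g z = 0
  rw [hR z ((le_max_left _ _).trans_lt hz), hR' z ((le_max_right _ _).trans_lt hz), add_zero]

theorem nice_smul {f : ℝ × ℝ → ℝ} (a : ℝ) (hf : Nice f) : Nice (fun z => a * f z) := by
  obtain ⟨h1, ⟨M, hM⟩, R, hR⟩ := hf
  refine ⟨h1.const_mul a, ⟨|a| * M, fun z => ?_⟩, R, fun z hz => by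
    show a * f z = 0
    rw [hR z hz, mul_zero]⟩
  rw [abs_mul]
  exact mul_le_mul_of_nonneg_left (hM z) (abs_nonneg a)

theorem nice_zero : Nice (fun _ => 0) :=
  ⟨measurable_const, ⟨0, fun _ => by simp⟩, 0, fun _ _ => rfl⟩

theorem nice_integrable {f : ℝ × ℝ → ℝ} (hf : Nice f) : Integrable f := by
  obtain ⟨h1, ⟨M, hM⟩, R, hR⟩ := hf
  have hs : Function.support f ⊆ Metric.closedBall 0 R := by
    intro z hz
    rw [Metric.mem_closedBall, dist_zero_right]
    by_contra hcon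
    exact hz (hR z (not_le.mp hcon))
  rw [← integrableOn_iff_integrable_of_support_subset hs]
  refine Measure.integrableOn_of_bounded (M := M) ?_ h1.aestronglyMeasurable ?_
  · exact (isCompact_closedBall _ _).measure_lt_top.ne
  · exact Filter.Eventually.of_forall fun z => by simpa using hM z

theorem nice_mul {f g : ℝ × ℝ → ℝ} (hf : Nice f) (hg : Nice g) : Nice (fun z => f z * g z) := by
  obtain ⟨h1, ⟨M, hM⟩, R, hR⟩ := hf
  obtain ⟨h1', ⟨M', hM'⟩, R', hR'⟩ := hg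
  refine ⟨h1.mul h1', ⟨M * M', fun z => ?_⟩, R, fun z hz => by
    show f z * g z = 0
    rw [hR z hz, zero_mul]⟩
  rw [abs_mul]
  exact mul_le_mul (hM z) (hM' z) (abs_nonneg _) ((abs_nonneg _).trans (hM z))

def NS : Submodule ℝ (ℝ × ℝ → ℝ) where
  carrier := {f | Nice f}
  add_mem' := fun hf hg => nice_add hf hg
  zero_mem' := nice_zero
  smul_mem' := fun a _ hf => nice_smul a hf

/-- the space of nice functions. -/
def NF : Type := NS

instance : AddCommGroup NF := inferInstanceAs (AddCommGroup NS)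
instance : Module ℝ NF := inferInstanceAs (Module ℝ NS)

def NF.mk (f : ℝ × ℝ → ℝ) (h : Nice f) : NF := (⟨f, h⟩ : NS)
def NF.fn (f : NF) : ℝ × ℝ → ℝ := (f : NS).1
theorem NF.nice (f : NF) : Nice f.fn := (f : NS).2

@[ext] theorem NF.ext {f g : NF} (h : ∀ z, f.fn z = g.fn z) : f = g :=
  Subtype.ext (funext h)

@[simp] theorem fn_mk (f : ℝ × ℝ → ℝ) (h : Nice f) : (NF.mk f h).fn = f := rfl
@[simp] theorem fn_add (f g : NF) : (f + g).fn = fun z => f.fn z + g.fn z := rfl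
@[simp] theorem fn_sub (f g : NF) : (f - g).fn = fun z => f.fn z - g.fn z := rfl
@[simp] theorem fn_smul (a : ℝ) (f : NF) : (a • f).fn = fun z => a * f.fn z := rfl

instance core : PreInnerProductSpace.Core ℝ NF where
  inner f g := ∫ z, f.fn z * g.fn z
  conj_inner_symm f g := by
    simp only [conj_trivial]
    congr 1; ext z; ring
  re_inner_nonneg f := by
    simp only [RCLike.re_to_real]
    exact integral_nonneg fun z => mul_self_nonneg _
  add_left f g h := by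
    have : ∀ z, (f + g).fn z * h.fn z = f.fn z * h.fn z + g.fn z * h.fn z := fun z => by
      simp only [fn_add]; ring
    simp only [this]
    exact integral_add (nice_integrable (nice_mul f.nice h.nice))
      (nice_integrable (nice_mul g.nice h.nice))
  smul_left f g a := by
    have : ∀ z, (a • f).fn z * g.fn z = a * (f.fn z * g.fn z) := fun z => by
      simp only [fn_smul]; ring
    simp only [this, conj_trivial]
    exact integral_const_mul _ _

instance sng : SeminormedAddCommGroup NF :=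
  @InnerProductSpace.Core.toSeminormedAddCommGroup ℝ NF _ _ _ core
instance ips : InnerProductSpace ℝ NF := InnerProductSpace.ofCore core

theorem inner_eq (f g : NF) : ⟪f, g⟫ = ∫ z, f.fn z * g.fn z := rfl

theorem norm_sq_eq (f : NF) : ‖f‖ ^ 2 = ∫ z, (f.fn z) ^ 2 := by
  rw [← real_inner_self_eq_norm_sq, inner_eq]
  congr 1; ext z; ring

/-- from an `L²` inequality to norms. -/
theorem norm_le_of {f g : NF} {K : ℝ} (hK : 0 ≤ K)
    (h : ∫ z, (f.fn z) ^ 2 ≤ K ^ 2 * ∫ z, (g.fn z) ^ 2) : ‖f‖ ≤ K * ‖g‖ := by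
  rw [← norm_sq_eq, ← norm_sq_eq, ← mul_pow] at h
  exact le_of_sq_le_sq h (by positivity) |>.trans le_rfl

/-- convolution operator. -/
def CV (hA : ALG) (p : ℝ → ℝ) (hp : Continuous p) (hc : HasCompactSupport p) (k : ℤ) :
    NF →ₗ[ℝ] NF where
  toFun f := NF.mk (cv p k f.fn) (hA.1 p hp hc k f.fn f.nice)
  map_add' f g := by
    ext z
    simp only [fn_mk, fn_add]
    exact congrFun (hA.2.2.2.2.2.2.2.1 p hp hc k f.fn g.fn f.nice g.nice) z
  map_smul' a f := by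
    ext z
    simp only [fn_mk, fn_smul, RingHom.id_apply]
    exact congrFun (hA.2.2.2.2.2.2.2.2.1 p k f.fn a) z

@[simp] theorem CV_fn (hA : ALG) (p : ℝ → ℝ) (hp : Continuous p) (hc : HasCompactSupport p) (k : ℤ)
    (f : NF) : (CV hA p hp hc k f).fn = cv p k f.fn := rfl

/-- the transform as a linear map. -/
def TT (hT : TB) (K : ℝ → ℝ) (h1 : Measurable K) (h2 : ∃ M : ℝ, ∀ t, |K t| ≤ M)
    (h3 : ∀ t, 1 < |t| → K t = 0) (U : ℝ × ℝ → ℝ) (hU : Fld (1 / 2) U) : NF →ₗ[ℝ] NF where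
  toFun f := NF.mk (tk K U f.fn) ((hT K h1 h2 h3 U hU).1 f.fn f.nice)
  map_add' f g := by
    ext z
    simp only [fn_mk, fn_add]
    exact (hT K h1 h2 h3 U hU).2.2.1 f.fn g.fn f.nice g.nice z
  map_smul' a f := by
    ext z
    simp only [fn_mk, fn_smul, RingHom.id_apply]
    exact (hT K h1 h2 h3 U hU).2.2.2 f.fn a f.nice z

@[simp] theorem TT_fn (hT : TB) (K : ℝ → ℝ) (h1 : Measurable K) (h2 : ∃ M : ℝ, ∀ t, |K t| ≤ M)
    (h3 : ∀ t, 1 < |t| → K t = 0) (U : ℝ × ℝ → ℝ) (hU : Fld (1 / 2) U) (f : NF) :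
    (TT hT K h1 h2 h3 U hU f).fn = tk K U f.fn := rfl

theorem CV_norm (hA : ALG) (p : ℝ → ℝ) (hp : Continuous p) (hc : HasCompactSupport p) (k : ℤ)
    (f : NF) : ‖CV hA p hp hc k f‖ ≤ (∫ r, |p r|) * ‖f‖ := by
  refine norm_le_of (integral_nonneg fun _ => abs_nonneg _) ?_
  simpa using hA.2.1 p hp hc k f.fn f.nice

theorem CV_comm (hA : ALG) (p q : ℝ → ℝ) (hp : Continuous p) (hc : HasCompactSupport p)
    (hq : Continuous q) (hqc : HasCompactSupport q) (k l : ℤ) (f : NF) :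
    CV hA p hp hc k (CV hA q hq hqc l f) = CV hA q hq hqc l (CV hA p hp hc k f) := by
  ext z
  simp only [CV_fn]
  exact congrFun (hA.2.2.1 p q hp hc hq hqc k l f.fn f.nice) z

theorem CV_symm (hA : ALG) (p : ℝ → ℝ) (hp : Continuous p) (hc : HasCompactSupport p)
    (he : ∀ r, p (-r) = p r) (k : ℤ) (f g : NF) :
    ⟪CV hA p hp hc k f, g⟫ = ⟪f, CV hA p hp hc k g⟫ := by
  rw [inner_eq, inner_eq]
  simp only [CV_fn]
  rw [hA.2.2.2.1 p hp hc k f.fn g.fn f.nice g.nice]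
  simp only [he]

/-- transfer of a derivative. -/
theorem CV_der (hA : ALG) {ω q : ℝ → ℝ} (hω : ContDiff ℝ (⊤ : ℕ∞) ω)
    (hq : ContDiff ℝ (⊤ : ℕ∞) q) (k l : ℤ) (f : NF)
    (c1 : Continuous (deriv ω)) (c2 : HasCompactSupport (deriv ω)) (c3 : HasCompactSupport q)
    (c4 : HasCompactSupport ω) (c5 : Continuous (deriv q)) (c6 : HasCompactSupport (deriv q)) :
    CV hA (deriv ω) c1 c2 k (CV hA q hq.continuous c3 l f) =
      (2 : ℝ) ^ (k - l) • CV hA (deriv q) c5 c6 l (CV hA ω hω.continuous c4 k f) := by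
  ext z
  simp only [CV_fn, fn_smul]
  rw [hA.2.2.2.2.1 ω q (hω.of_le (by simp)) c4 (hq.of_le (by simp)) c3 k l f.fn f.nice z]
  congr 1
  exact congrFun (hA.2.2.1 ω (deriv q) hω.continuous c4 c5 c6 k l f.fn f.nice) z

end Crest.Agent.R087.Asm2x283
end
end

-- ▼ part R087/Asm3_283
section

/-!
Row 87, shell, S10 part 3: assembly `asm : ABS → ALG → APX → SBK → COMM → TB → ASM`.
-/

set_option autoImplicit false

noncomputable section

open MeasureTheory Crest.Agent.R087.Sh0x283 Crest.Agent.R087.Sh1x283 Crest.Agent.R087.Asm1x283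
  Crest.Agent.R087.Asm2x283
open scoped RealInnerProductSpace

namespace Crest.Agent.R087.Asm3x283

/-- smooth, support in `[-1,1]`. -/
def Sm (p : ℝ → ℝ) : Prop := ContDiff ℝ (⊤ : ℕ∞) p ∧ ∀ r, 1 < |r| → p r = 0

theorem Sm.comp {p : ℝ → ℝ} (h : Sm p) : HasCompactSupport p := compact_of_supp h.2

theorem sm_of_phi {p : ℝ → ℝ} (h : PhiC p) : Sm p := ⟨h.1, h.2.1⟩

theorem sm_deriv {p : ℝ → ℝ} (h : Sm p) : Sm (deriv p) := sm_of_phi (phiC_deriv h.1 h.2)

def op (hA : ALG) (p : ℝ → ℝ) (h : Sm p) (k : ℤ) : NF →ₗ[ℝ] NF := CV hA p h.1.continuous h.comp k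

theorem op_fn (hA : ALG) (p : ℝ → ℝ) (h : Sm p) (k : ℤ) (f : NF) :
    (op hA p h k f).fn = cv p k f.fn := rfl

theorem op_congr (hA : ALG) {p q : ℝ → ℝ} (h : Sm p) (h' : Sm q) (e : p = q) (k : ℤ) (f : NF) :
    op hA p h k f = op hA q h' k f := by
  subst e; rfl

theorem op_norm (hA : ALG) (p : ℝ → ℝ) (h : Sm p) (k : ℤ) (f : NF) :
    ‖op hA p h k f‖ ≤ (∫ r, |p r|) * ‖f‖ := CV_norm hA p _ _ k f

theorem op_comm (hA : ALG) (p q : ℝ → ℝ) (h : Sm p) (h' : Sm q) (k l : ℤ) (f : NF) :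
    op hA p h k (op hA q h' l f) = op hA q h' l (op hA p h k f) := CV_comm hA p q _ _ _ _ k l f

theorem op_der (hA : ALG) {ω q : ℝ → ℝ} (hω : Sm ω) (hq : Sm q) (k l : ℤ) (f : NF) :
    op hA (deriv ω) (sm_deriv hω) k (op hA q hq l f) =
      (2 : ℝ) ^ (k - l) • op hA (deriv q) (sm_deriv hq) l (op hA ω hω k f) :=
  CV_der hA hω.1 hq.1 k l f _ _ _ _ _ _

theorem two_bound (hA : ALG) {p q : ℝ → ℝ} (hp : PhiC p) (hq : PhiC q) :
    ∃ W : ℝ, 0 ≤ W ∧ ∀ (T : NF →ₗ[ℝ] NF) (b : ℝ), 0 ≤ b →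
      (∀ k g, ‖T (op hA (deriv p) (sm_deriv (sm_of_phi hp)) k g)‖ ≤ b * ‖g‖) →
      (∀ k g, ‖T (op hA (deriv q) (sm_deriv (sm_of_phi hq)) k g)‖ ≤ b * ‖g‖) →
      ∀ k l f, ‖T (op hA p (sm_of_phi hp) k (op hA q (sm_of_phi hq) l f))‖ ≤
        W * b * (2 : ℝ) ^ (-|k - l|) * ‖f‖ := by
  obtain ⟨ωp, hp1, hp2, hp3⟩ := phiC_prim hp
  obtain ⟨ωq, hq1, hq2, hq3⟩ := phiC_prim hq
  have sp : Sm ωp := ⟨hp1, hp2⟩
  have sq : Sm ωq := ⟨hq1, hq2⟩
  have ip : 0 ≤ ∫ r, |ωp r| := integral_nonneg fun _ => abs_nonneg _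
  have iq : 0 ≤ ∫ r, |ωq r| := integral_nonneg fun _ => abs_nonneg _
  refine ⟨(∫ r, |ωp r|) + ∫ r, |ωq r|, by positivity, ?_⟩
  intro T b hb h1 h2 k l f
  rcases le_total k l with hkl | hkl
  · have e : op hA p (sm_of_phi hp) k (op hA q (sm_of_phi hq) l f) =
        (2 : ℝ) ^ (k - l) • op hA (deriv q) (sm_deriv (sm_of_phi hq)) l (op hA ωp sp k f) := by
      rw [← op_der hA sp (sm_of_phi hq) k l f]
      exact op_congr hA _ _ hp3.symm k _
    rw [e, map_smul, norm_smul, Real.norm_of_nonneg (by positivity : (0 : ℝ) ≤ 2 ^ (k - l))]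
    have e2 : -|k - l| = k - l := by rw [abs_of_nonpos (by omega)]; ring
    rw [e2]
    have h3 := h2 l (op hA ωp sp k f)
    have h4 := op_norm hA ωp sp k f
    have hpos : (0 : ℝ) < 2 ^ (k - l) := by positivity
    calc (2 : ℝ) ^ (k - l) * ‖T (op hA (deriv q) (sm_deriv (sm_of_phi hq)) l (op hA ωp sp k f))‖
        ≤ (2 : ℝ) ^ (k - l) * (b * ((∫ r, |ωp r|) * ‖f‖)) := by
          gcongr
          exact h3.trans (by gcongr)
      _ ≤ (2 : ℝ) ^ (k - l) * (b * (((∫ r, |ωp r|) + ∫ r, |ωq r|) * ‖f‖)) := by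
          gcongr
          linarith
      _ = _ := by ring
  · have e : op hA p (sm_of_phi hp) k (op hA q (sm_of_phi hq) l f) =
        (2 : ℝ) ^ (l - k) • op hA (deriv p) (sm_deriv (sm_of_phi hp)) k (op hA ωq sq l f) := by
      rw [← op_der hA sq (sm_of_phi hp) l k f, op_comm]
      exact op_congr hA _ _ hq3.symm l _
    rw [e, map_smul, norm_smul, Real.norm_of_nonneg (by positivity : (0 : ℝ) ≤ 2 ^ (l - k))]
    have e2 : -|k - l| = l - k := by rw [abs_of_nonneg (by omega)]; ring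
    rw [e2]
    have h3 := h1 k (op hA ωq sq l f)
    have h4 := op_norm hA ωq sq l f
    have hpos : (0 : ℝ) < 2 ^ (l - k) := by positivity
    calc (2 : ℝ) ^ (l - k) * ‖T (op hA (deriv p) (sm_deriv (sm_of_phi hp)) k (op hA ωq sq l f))‖
        ≤ (2 : ℝ) ^ (l - k) * (b * ((∫ r, |ωq r|) * ‖f‖)) := by
          gcongr
          exact h3.trans (by gcongr)
      _ ≤ (2 : ℝ) ^ (l - k) * (b * (((∫ r, |ωp r|) + ∫ r, |ωq r|) * ‖f‖)) := by
          gcongr
          linarith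
      _ = _ := by ring

theorem sm_chi {χ : ℝ → ℝ} (h : ChiC χ) : Sm χ := ⟨h.1, fun r hr => h.2.2.2.1 r (by linarith)⟩

theorem DD_eq (hA : ALG) {χ : ℝ → ℝ} (h : ChiC χ) (m : ℤ) (f : NF) :
    DD (fun m => op hA χ (sm_chi h) m) m f = op hA (dk χ) (sm_of_phi (dk_phi h)) m f := by
  ext z
  have h2 := ch2_smooth h.1
  have h2c := ch2_comp h
  have e1 : cv χ (m + 1) f.fn = cv (ch2 χ) m f.fn := hA.2.2.2.2.2.2.1 χ m f.fn
  have e2 := hA.2.2.2.2.2.2.2.2.2 χ (ch2 χ) h.1.continuous (chiC_comp h) h2.continuous h2c m f.fn 1 (-1)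
    f.nice
  have e3 : dk χ = fun r => 1 * χ r + -1 * ch2 χ r := by ext r; unfold dk; ring
  show (op hA χ (sm_chi h) m f).fn z - (op hA χ (sm_chi h) (m + 1) f).fn z = _
  simp only [op_fn]
  rw [e1, e3, e2]
  ring

theorem AA_eq (hA : ALG) {χ : ℝ → ℝ} (h : ChiC χ) (m : ℤ) (f : NF) :
    AA (fun m => op hA χ (sm_chi h) m) m f = op hA (al χ) (sm_of_phi (al_phi h)) m f := by
  ext z
  have hc := h.1.continuous
  have hcc := chiC_comp h
  have h2 := ch2_smooth h.1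
  have h2c := ch2_comp h
  have s1 := cvp_smooth hc hcc h.1 hcc
  have s2 := cvp_smooth hc hcc h2 h2c
  have s3 := cvp_smooth h2.continuous h2c h2 h2c
  have hs := h.2.2.2.1
  have hs2 := ch2_supp hs
  have c1 : HasCompactSupport (cvp χ χ) := compact_of_supp (fun r hr => cvp_supp hs hs r hr)
  have c2 : HasCompactSupport (cvp χ (ch2 χ)) := compact_of_supp (fun r hr => cvp_supp hs hs2 r hr)
  have c3 : HasCompactSupport (cvp (ch2 χ) (ch2 χ)) :=
    compact_of_supp (fun r hr => cvp_supp hs2 hs2 r hr)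
  have lin := hA.2.2.2.2.2.2.2.2.2
  have e1 : ∀ g : ℝ × ℝ → ℝ, cv χ (m + 1) g = cv (ch2 χ) m g := fun g => hA.2.2.2.2.2.2.1 χ m g
  have comp := hA.2.2.2.2.2.1
  -- compositions
  have f1 : cv χ m (cv χ m f.fn) = cv (cvp χ χ) m f.fn := comp χ χ hc hcc hc hcc m f.fn f.nice
  have f2 : cv χ m (cv χ (m + 1) f.fn) = cv (cvp χ (ch2 χ)) m f.fn := by
    rw [e1]; exact comp χ (ch2 χ) hc hcc h2.continuous h2c m f.fn f.nice
  have f3 : cv χ (m + 1) (cv χ (m + 1) f.fn) = cv (cvp (ch2 χ) (ch2 χ)) m f.fn := by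
    rw [e1, e1]; exact comp (ch2 χ) (ch2 χ) h2.continuous h2c h2.continuous h2c m f.fn f.nice
  -- linear combination
  have g1 := lin χ (ch2 χ) hc hcc h2.continuous h2c m f.fn 3 3 f.nice
  have g2 := lin (cvp χ χ) (cvp χ (ch2 χ)) s1.continuous c1 s2.continuous c2 m f.fn (-2) (-2) f.nice
  have k1 : Continuous (fun r => 3 * χ r + 3 * ch2 χ r) := by
    have := h2.continuous; fun_prop
  have k1c : HasCompactSupport (fun r => 3 * χ r + 3 * ch2 χ r) :=
    compact_of_supp (a := 1) (fun r hr => by rw [hs r (by linarith), hs2 r (by linarith)]; ring)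
  have k2 : Continuous (fun r => -2 * cvp χ χ r + -2 * cvp χ (ch2 χ) r) := by
    have := s1.continuous
    have := s2.continuous
    fun_prop
  have k2c : HasCompactSupport (fun r => -2 * cvp χ χ r + -2 * cvp χ (ch2 χ) r) :=
    compact_of_supp (a := 1) (fun r hr => by
      rw [cvp_supp hs hs r (by linarith), cvp_supp hs hs2 r (by linarith)]; ring)
  have g3 := lin _ _ k1 k1c k2 k2c m f.fn 1 1 f.nice
  have k3 : Continuous (fun r => 1 * (3 * χ r + 3 * ch2 χ r) +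
      1 * (-2 * cvp χ χ r + -2 * cvp χ (ch2 χ) r)) := by fun_prop
  have k3c : HasCompactSupport (fun r => 1 * (3 * χ r + 3 * ch2 χ r) +
      1 * (-2 * cvp χ χ r + -2 * cvp χ (ch2 χ) r)) :=
    compact_of_supp (a := 1) (fun r hr => by
      rw [hs r (by linarith), hs2 r (by linarith), cvp_supp hs hs r (by linarith),
        cvp_supp hs hs2 r (by linarith)]; ring)
  have g4 := lin _ (cvp (ch2 χ) (ch2 χ)) k3 k3c s3.continuous c3 m f.fn 1 (-2) f.nice
  have e3 : al χ = fun r => 1 * (1 * (3 * χ r + 3 * ch2 χ r) +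
      1 * (-2 * cvp χ χ r + -2 * cvp χ (ch2 χ) r)) + -2 * cvp (ch2 χ) (ch2 χ) r := by
    ext r; unfold al; ring
  show 3 * ((op hA χ (sm_chi h) m f).fn z + (op hA χ (sm_chi h) (m + 1) f).fn z) -
    2 * ((op hA χ (sm_chi h) m (op hA χ (sm_chi h) m f)).fn z +
      (op hA χ (sm_chi h) m (op hA χ (sm_chi h) (m + 1) f)).fn z +
      (op hA χ (sm_chi h) (m + 1) (op hA χ (sm_chi h) (m + 1) f)).fn z) = _
  simp only [op_fn]
  rw [f1, f2, f3, e3, g4, g3, g1, g2, e1]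
  ring

theorem kerS_props {ψ : ℝ → ℝ} (h : PsiC ψ) (S : ℕ) :
    Measurable (kerS ψ S) ∧ (∃ M : ℝ, ∀ t, |kerS ψ S t| ≤ M) ∧ (∀ t, 1 < |t| → kerS ψ S t = 0) := by
  have hcont : Continuous (kerS ψ S) := by
    unfold kerS
    have := h.1.continuous
    fun_prop
  have hz : ∀ t, 1 < |t| → kerS ψ S t = 0 := by
    intro t ht
    unfold kerS
    apply Finset.sum_eq_zero
    intro s _
    have h1 : (1 : ℝ) ≤ 2 ^ s := one_le_pow₀ (by norm_num)
    have : ψ ((2 : ℝ) ^ s * t) = 0 := by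
      by_contra hcon
      have := (h.2.2 _ hcon).2
      rw [abs_mul, abs_of_pos (by positivity : (0 : ℝ) < 2 ^ s)] at this
      nlinarith [abs_nonneg t]
    rw [this, mul_zero]
  refine ⟨hcont.measurable, ?_, hz⟩
  obtain ⟨M, hM⟩ := hcont.bounded_above_of_compact_support (compact_of_supp hz)
  exact ⟨M, fun t => by simpa using hM t⟩

theorem fld_mono {c c' : ℝ} (h : c ≤ c') {U : ℝ × ℝ → ℝ} (hU : Fld c U) : Fld c' U :=
  ⟨hU.1, hU.2.1, fun x y y' => (hU.2.2 x y y').trans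
    (mul_le_mul_of_nonneg_right h (abs_nonneg _))⟩


end Crest.Agent.R087.Asm3x283
end
end

-- ▼ part R087/SBK_545

/-!
Row 87, SHELL leaf S6 (helper545): the single band estimate at all scales by rescaling `y ↦ 2^k y`.
-/

set_option autoImplicit false

noncomputable section

open MeasureTheory Crest.Agent.R087.Sh0x283 Crest.Agent.R087.Sh1x283

namespace Crest.Agent.R087.SBKx545

/-- scaling of the second variable in a plane integral (no integrability needed). -/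
theorem integral_scale (a : ℝ) (ha : 0 < a) (F : ℝ × ℝ → ℝ) :
    ∫ z : ℝ × ℝ, F (z.1, a * z.2) = a⁻¹ * ∫ z, F z := by
  have hm : Measure.map (Prod.map id (a * ·)) (volume : Measure (ℝ × ℝ)) =
      ENNReal.ofReal a⁻¹ • (volume : Measure (ℝ × ℝ)) := by
    rw [Measure.volume_eq_prod, ← Measure.map_prod_map _ _ measurable_id
      (measurable_const_mul a), Measure.map_id, Real.map_volume_mul_left ha.ne',
      Measure.prod_smul_right, abs_of_pos (inv_pos.2 ha)]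
  have he : MeasurableEmbedding (Prod.map id (a * ·) : ℝ × ℝ → ℝ × ℝ) :=
    MeasurableEmbedding.id.prodMap (measurableEmbedding_mulLeft₀ ha.ne')
  have h1 := he.integral_map (μ := (volume : Measure (ℝ × ℝ))) F
  rw [hm, integral_smul_measure] at h1
  rw [ENNReal.toReal_ofReal (inv_pos.2 ha).le, smul_eq_mul] at h1
  rw [h1]
  rfl

theorem sbk : SBK := by
  intro φ ψ hSB
  obtain ⟨c, hc, B, hB⟩ := hSB
  refine ⟨c, hc, max B 0, le_max_right _ _, ?_⟩
  intro U f hU hf k S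
  have ha : (0 : ℝ) < 2 ^ k := by positivity
  obtain ⟨hUm, ⟨W, hW⟩, hUL⟩ := hU
  obtain ⟨hfm, ⟨M, hM⟩, ⟨R, hR⟩⟩ := hf
  have hU' : Fld c (fun z => ((2 : ℝ) ^ k)⁻¹ * U (z.1, 2 ^ k * z.2)) := by
    refine ⟨?_, ⟨((2 : ℝ) ^ k)⁻¹ * W, ?_⟩, ?_⟩
    · apply Measurable.const_mul
      exact hUm.comp (measurable_fst.prodMk (measurable_snd.const_mul _))
    · intro z
      rw [abs_mul, abs_of_pos (inv_pos.2 ha)]
      have := hW (z.1, 2 ^ k * z.2)
      gcongr
    · intro x y y'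
      simp only
      rw [← mul_sub, abs_mul, abs_of_pos (inv_pos.2 ha)]
      calc ((2 : ℝ) ^ k)⁻¹ * |U (x, 2 ^ k * y) - U (x, 2 ^ k * y')|
          ≤ ((2 : ℝ) ^ k)⁻¹ * (c * |2 ^ k * y - 2 ^ k * y'|) := by
            have := hUL x (2 ^ k * y) (2 ^ k * y')
            gcongr
        _ = c * |y - y'| := by
            rw [← mul_sub, abs_mul, abs_of_pos ha]
            field_simp
  have hf' : Nice (fun z => f (z.1, 2 ^ k * z.2)) := by
    refine ⟨?_, ⟨M, fun z => hM _⟩, ⟨max R (((2 : ℝ) ^ k)⁻¹ * R), ?_⟩⟩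
    · exact hfm.comp (measurable_fst.prodMk (measurable_snd.const_mul _))
    · intro z hz
      apply hR
      rw [Prod.norm_def] at hz ⊢
      simp only
      rcases lt_max_iff.1 hz with h | h
      · exact lt_of_lt_of_le (lt_of_le_of_lt (le_max_left _ _) h) (le_max_left _ _)
      · refine lt_of_lt_of_le ?_ (le_max_right _ _)
        have h2 : ((2 : ℝ) ^ k)⁻¹ * R < ‖z.2‖ := lt_of_le_of_lt (le_max_right _ _) h
        rw [norm_mul, Real.norm_of_nonneg ha.le]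
        calc R = 2 ^ k * (((2 : ℝ) ^ k)⁻¹ * R) := by field_simp
          _ < 2 ^ k * ‖z.2‖ := by gcongr
  have key := hB _ _ hU' hf' S
  have e1 : ∀ z : ℝ × ℝ, cv φ 0 (fun z => f (z.1, 2 ^ k * z.2)) z = cv φ k f (z.1, 2 ^ k * z.2) := by
    intro z
    unfold cv
    congr 1
    ext r
    simp only [zpow_zero, one_mul, mul_sub]
  have e2 : ∀ z : ℝ × ℝ, tk (kerS ψ S) (fun z => ((2 : ℝ) ^ k)⁻¹ * U (z.1, 2 ^ k * z.2))
      (cv φ 0 (fun z => f (z.1, 2 ^ k * z.2))) z = tk (kerS ψ S) U (cv φ k f) (z.1, 2 ^ k * z.2) := by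
    intro z
    unfold tk
    congr 1
    ext t
    rw [e1]
    simp only
    congr 3
    field_simp
  simp_rw [e2] at key
  rw [integral_scale (2 ^ k) ha (fun z => (tk (kerS ψ S) U (cv φ k f) z) ^ 2),
    integral_scale (2 ^ k) ha (fun z => (f z) ^ 2)] at key
  have h3 : ∫ z, (tk (kerS ψ S) U (cv φ k f) z) ^ 2 ≤ B * ∫ z, (f z) ^ 2 := by
    have : ((2 : ℝ) ^ k)⁻¹ * (∫ z, (tk (kerS ψ S) U (cv φ k f) z) ^ 2) ≤
        ((2 : ℝ) ^ k)⁻¹ * (B * ∫ z, (f z) ^ 2) := by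
      calc _ ≤ _ := key
        _ = _ := by ring
    exact le_of_mul_le_mul_left this (inv_pos.2 ha)
  refine h3.trans ?_
  have : 0 ≤ ∫ z, (f z) ^ 2 := integral_nonneg fun z => sq_nonneg _
  have := le_max_left B 0
  gcongr

end Crest.Agent.R087.SBKx545
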