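import Crest.Agent.R087.Sh1_283
import Crest.Agent.R087.SBK_545_Mg
import Crest.Agent.R087.DCE_90_Mg
import Crest.Agent.R087.ALG_390
import Crest.Agent.R087.TB_820
import Crest.Agent.R087.S11_168

-- ▼ part R087/LPup_565
section

/-!
Row 87, outer shell, leaf S1: one dimensional Littlewood-Paley upper bound `LPup` (helper565).
1D calculus of `cv1` + Cotlar summation, no Fourier transform.
-/

set_option autoImplicit false

noncomputable section

open MeasureTheory Crest.Agent.R087.Sh0x283 Crest.Agent.R087.Sh1x283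

namespace Crest.Agent.R087.LPupx565

/-- bounded measurable functions vanishing off a set of finite measure are integrable. -/
theorem integrable_of {α : Type*} [MeasurableSpace α] {μ : Measure α} {f : α → ℝ} {S : Set α} {M : ℝ}
    (hm : Measurable f) (hb : ∀ x, |f x| ≤ M) (hs : ∀ x, x ∉ S → f x = 0)
    (hS : μ S ≠ ⊤) : Integrable f μ := by
  have h1 : IntegrableOn f S μ :=
    Measure.integrableOn_of_bounded hS hm.aestronglyMeasurable (M := M)
      (Filter.Eventually.of_forall (fun x => by simpa [Real.norm_eq_abs] using hb x))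
  refine (integrableOn_iff_integrable_of_support_subset ?_).1 h1
  intro x hx
  by_contra hxS
  exact hx (hs x hxS)

theorem nice1_integrable {g : ℝ → ℝ} (hg : Nice1 g) : Integrable g := by
  obtain ⟨hm, ⟨M, hM⟩, ⟨R, hR⟩⟩ := hg
  refine integrable_of (S := Set.Icc (-R) R) hm hM ?_ (by simp)
  intro x hx
  apply hR
  by_contra h
  exact hx (by rw [not_lt] at h; exact abs_le.1 h)

theorem nice1_mul {f g : ℝ → ℝ} (hf : Nice1 f) (hg : Nice1 g) : Nice1 (fun y => f y * g y) := by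
  obtain ⟨hm, ⟨M, hM⟩, ⟨R, hR⟩⟩ := hf
  obtain ⟨hm', ⟨M', hM'⟩, ⟨R', hR'⟩⟩ := hg
  refine ⟨hm.mul hm', ⟨M * M', fun y => ?_⟩, ⟨R, fun y hy => by simp [hR y hy]⟩⟩
  rw [abs_mul]
  exact mul_le_mul (hM y) (hM' y) (abs_nonneg _) ((abs_nonneg _).trans (hM y))

theorem nice1_add {f g : ℝ → ℝ} (hf : Nice1 f) (hg : Nice1 g) : Nice1 (fun y => f y + g y) := by
  obtain ⟨hm, ⟨M, hM⟩, ⟨R, hR⟩⟩ := hf
  obtain ⟨hm', ⟨M', hM'⟩, ⟨R', hR'⟩⟩ := hg
  refine ⟨hm.add hm', ⟨M + M', fun y => ?_⟩, ⟨max R R', fun y hy => ?_⟩⟩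
  · exact (abs_add_le _ _).trans (add_le_add (hM y) (hM' y))
  · simp [hR y (lt_of_le_of_lt (le_max_left _ _) hy), hR' y (lt_of_le_of_lt (le_max_right _ _) hy)]


theorem nice1_zero : Nice1 (fun _ => (0 : ℝ)) :=
  ⟨measurable_const, ⟨0, by simp⟩, ⟨0, by simp⟩⟩

theorem nice1_sum {ι : Type*} (F : Finset ι) (f : ι → ℝ → ℝ) (hf : ∀ i ∈ F, Nice1 (f i)) :
    Nice1 (fun y => ∑ i ∈ F, f i y) := by
  classical
  induction F using Finset.induction_on with
  | empty => simpa using nice1_zero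
  | insert a s ha ih =>
    have h1 := nice1_add (hf a (Finset.mem_insert_self a s))
      (ih (fun i hi => hf i (Finset.mem_insert_of_mem hi)))
    simpa [Finset.sum_insert ha] using h1

/-- a profile of radius `ρ`: continuous, vanishing outside `[-ρ,ρ]`. -/
def Prof (ρ : ℝ) (φ : ℝ → ℝ) : Prop := Continuous φ ∧ ∀ r, ρ < |r| → φ r = 0

theorem prof_bdd {ρ : ℝ} {φ : ℝ → ℝ} (h : Prof ρ φ) : ∃ M : ℝ, 0 ≤ M ∧ ∀ r, |φ r| ≤ M := by
  obtain ⟨C, hC⟩ := (isCompact_Icc (a := -ρ) (b := ρ)).exists_bound_of_continuousOn h.1.continuousOn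
  refine ⟨max C 0, le_max_right _ _, fun r => ?_⟩
  by_cases hr : ρ < |r|
  · rw [h.2 r hr, abs_zero]; exact le_max_right _ _
  · rw [not_lt] at hr
    have := hC r (abs_le.1 hr)
    rw [Real.norm_eq_abs] at this
    exact this.trans (le_max_left _ _)

theorem prof_nice1 {ρ : ℝ} {φ : ℝ → ℝ} (h : Prof ρ φ) : Nice1 φ := by
  obtain ⟨M, _, hM⟩ := prof_bdd h
  exact ⟨h.1.measurable, ⟨M, hM⟩, ⟨ρ, h.2⟩⟩

theorem prof_neg {ρ : ℝ} {φ : ℝ → ℝ} (h : Prof ρ φ) : Prof ρ (fun r => φ (-r)) :=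
  ⟨h.1.comp continuous_neg, fun r hr => h.2 _ (by rwa [abs_neg])⟩

/-- 2D integrability of a measurable bounded function with bounded support. -/
theorem intg2 {F : ℝ × ℝ → ℝ} {M R R' : ℝ} (hm : Measurable F) (hb : ∀ z, |F z| ≤ M)
    (h1 : ∀ z : ℝ × ℝ, R < |z.1| → F z = 0) (h2 : ∀ z : ℝ × ℝ, R' < |z.2| → F z = 0) :
    Integrable F ((volume : Measure ℝ).prod volume) := by
  refine integrable_of (S := (Set.Icc (-R) R) ×ˢ (Set.Icc (-R') R')) hm hb ?_ ?_
  · intro z hz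
    by_contra hne
    apply hz
    refine ⟨?_, ?_⟩
    · by_contra h
      apply hne
      apply h1
      by_contra h'
      exact h (abs_le.1 (not_lt.1 h'))
    · by_contra h
      apply hne
      apply h2
      by_contra h'
      exact h (abs_le.1 (not_lt.1 h'))
  · rw [Measure.prod_prod]
    exact ENNReal.mul_ne_top (by simp) (by simp)

theorem meas_shift {g : ℝ → ℝ} (hg : Measurable g) (k : ℤ) :
    Measurable (fun p : ℝ × ℝ => g (p.1 - (2 : ℝ) ^ k * p.2)) :=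
  hg.comp (measurable_fst.sub (measurable_snd.const_mul _))

theorem two_zpow_pos (k : ℤ) : (0 : ℝ) < (2 : ℝ) ^ k := zpow_pos (by norm_num) k

theorem cv1_nice {ρ : ℝ} {φ : ℝ → ℝ} (hφ : Prof ρ φ) (k : ℤ) {g : ℝ → ℝ} (hg : Nice1 g) :
    Nice1 (cv1 φ k g) := by
  have hφi : Integrable φ := nice1_integrable (prof_nice1 hφ)
  obtain ⟨hm, ⟨M, hM⟩, ⟨R, hR⟩⟩ := hg
  refine ⟨?_, ⟨∫ r, |φ r| * M, fun y => ?_⟩, ⟨R + (2 : ℝ) ^ k * ρ, fun y hy => ?_⟩⟩
  · have h1 : Measurable (fun p : ℝ × ℝ => φ p.2 * g (p.1 - (2 : ℝ) ^ k * p.2)) :=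
      (hφ.1.measurable.comp measurable_snd).mul (meas_shift hm k)
    exact (h1.stronglyMeasurable.integral_prod_right (ν := volume)).measurable
  · have := norm_integral_le_of_norm_le (μ := (volume : Measure ℝ))
      (f := fun r => φ r * g (y - (2 : ℝ) ^ k * r)) (g := fun r => |φ r| * M)
      (hφi.abs.mul_const M) (Filter.Eventually.of_forall (fun r => by
        rw [Real.norm_eq_abs, abs_mul]
        exact mul_le_mul_of_nonneg_left (hM _) (abs_nonneg _)))
    simpa [cv1, Real.norm_eq_abs] using this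
  · unfold cv1
    have h0 : ∀ r, φ r * g (y - (2 : ℝ) ^ k * r) = 0 := by
      intro r
      by_cases hr : ρ < |r|
      · rw [hφ.2 r hr, zero_mul]
      · rw [not_lt] at hr
        rw [hR, mul_zero]
        have h2 : |(2 : ℝ) ^ k * r| ≤ (2 : ℝ) ^ k * ρ := by
          rw [abs_mul, abs_of_pos (two_zpow_pos k)]
          exact mul_le_mul_of_nonneg_left hr (two_zpow_pos k).le
        have h3 : |y| ≤ |y - (2 : ℝ) ^ k * r| + |(2 : ℝ) ^ k * r| := by
          have := abs_add_le (y - (2 : ℝ) ^ k * r) ((2 : ℝ) ^ k * r)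
          simpa using this
        linarith
    simp [h0]


/-- weighted Cauchy-Schwarz. -/
theorem wcs {w h : ℝ → ℝ} (hw : Nice1 w) (hw0 : ∀ r, 0 ≤ w r) (hh : Measurable h)
    (hb : ∃ M : ℝ, ∀ r, |h r| ≤ M) :
    (∫ r, w r * h r) ^ 2 ≤ (∫ r, w r) * ∫ r, w r * (h r) ^ 2 := by
  obtain ⟨M, hM⟩ := hb
  have hwh : Nice1 (fun r => w r * h r) := by
    obtain ⟨hm', ⟨M', hM'⟩, ⟨R', hR'⟩⟩ := hw
    refine ⟨hm'.mul hh, ⟨M' * M, fun y => ?_⟩, ⟨R', fun y hy => by simp [hR' y hy]⟩⟩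
    rw [abs_mul]
    exact mul_le_mul (hM' y) (hM y) (abs_nonneg _) ((abs_nonneg _).trans (hM' y))
  have hwhh : Nice1 (fun r => w r * (h r) ^ 2) := by
    obtain ⟨hm', ⟨M', hM'⟩, ⟨R', hR'⟩⟩ := hwh
    refine ⟨?_, ⟨M' * M, fun y => ?_⟩, ⟨R', fun y hy => ?_⟩⟩
    · exact hw.1.mul (hh.pow_const 2)
    · show |w y * (h y) ^ 2| ≤ _
      rw [show w y * (h y) ^ 2 = (w y * h y) * h y by ring, abs_mul]
      exact mul_le_mul (hM' y) (hM y) (abs_nonneg _) ((abs_nonneg _).trans (hM' y))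
    · show w y * (h y) ^ 2 = 0
      have := hR' y hy
      simp only at this
      rw [show w y * (h y) ^ 2 = (w y * h y) * h y by ring, this, zero_mul]
  have iw := nice1_integrable hw
  have iwh := nice1_integrable hwh
  have iwhh := nice1_integrable hwhh
  have key : ∀ t : ℝ, 0 ≤ (∫ r, w r) * (t * t) + (-2 * ∫ r, w r * h r) * t + ∫ r, w r * (h r) ^ 2 := by
    intro t
    have h1 : 0 ≤ ∫ r, w r * (h r - t) ^ 2 :=
      integral_nonneg (fun r => mul_nonneg (hw0 r) (sq_nonneg _))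
    have h2 : ∫ r, w r * (h r - t) ^ 2 =
        (∫ r, w r * (h r) ^ 2) - (2 * t) * (∫ r, w r * h r) + (t * t) * ∫ r, w r := by
      rw [← integral_const_mul, ← integral_const_mul, ← integral_sub iwhh (iwh.const_mul (2 * t)),
        ← integral_add (f := fun r => w r * (h r) ^ 2 - 2 * t * (w r * h r))
          (g := fun r => t * t * w r) (iwhh.sub (iwh.const_mul (2 * t))) (iw.const_mul (t * t))]
      refine integral_congr_ae (Filter.Eventually.of_forall (fun r => ?_))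
      simp only
      ring
    rw [h2] at h1
    linarith
  have := discrim_le_zero key
  unfold discrim at this
  nlinarith [this]

theorem prof_abs {ρ : ℝ} {φ : ℝ → ℝ} (h : Prof ρ φ) : Prof ρ (fun r => |φ r|) :=
  ⟨h.1.abs, fun r hr => by simp [h.2 r hr]⟩

/-- Young/Minkowski: `L²` bound of `cv1`. -/
theorem cv1_sq {ρ : ℝ} {φ : ℝ → ℝ} (hφ : Prof ρ φ) (k : ℤ) {g : ℝ → ℝ} (hg : Nice1 g) :
    ∫ y, (cv1 φ k g y) ^ 2 ≤ (∫ r, |φ r|) ^ 2 * ∫ y, (g y) ^ 2 := by
  have hA : Nice1 (fun r => |φ r|) := prof_nice1 (prof_abs hφ)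
  have hg2 : Nice1 (fun y => (g y) ^ 2) := by simpa [sq] using nice1_mul hg hg
  -- pointwise
  have hp : ∀ y, (cv1 φ k g y) ^ 2 ≤ (∫ r, |φ r|) * ∫ r, |φ r| * (g (y - (2 : ℝ) ^ k * r)) ^ 2 := by
    intro y
    obtain ⟨M, hM⟩ := hg.2.1
    have h1 : |cv1 φ k g y| ≤ ∫ r, |φ r| * |g (y - (2 : ℝ) ^ k * r)| := by
      have := norm_integral_le_integral_norm (μ := (volume : Measure ℝ))
        (fun r => φ r * g (y - (2 : ℝ) ^ k * r))
      simpa [cv1, Real.norm_eq_abs, abs_mul] using this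
    have h2 := wcs (w := fun r => |φ r|) (h := fun r => |g (y - (2 : ℝ) ^ k * r)|) hA
      (fun r => abs_nonneg _) ((hg.1.comp (measurable_const.sub (measurable_id.const_mul _))).abs)
      ⟨M, fun r => by rw [abs_abs]; exact hM _⟩
    calc (cv1 φ k g y) ^ 2 = |cv1 φ k g y| ^ 2 := (sq_abs _).symm
      _ ≤ (∫ r, |φ r| * |g (y - (2 : ℝ) ^ k * r)|) ^ 2 := by gcongr
      _ ≤ _ := by simpa [sq_abs] using h2
  obtain ⟨M2, hM2⟩ := hg2.2.1
  obtain ⟨R2, hR2⟩ := hg2.2.2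
  obtain ⟨MA, hMA⟩ := hA.2.1
  -- Fubini
  have hint : Integrable (fun p : ℝ × ℝ => |φ p.2| * (g (p.1 - (2 : ℝ) ^ k * p.2)) ^ 2)
      ((volume : Measure ℝ).prod volume) := by
    refine intg2 (M := MA * M2) (R := R2 + (2 : ℝ) ^ k * ρ) (R' := ρ) ?_ ?_ ?_ ?_
    · exact (hA.1.comp measurable_snd).mul ((meas_shift hg.1 k).pow_const 2)
    · intro z
      rw [abs_mul]
      exact mul_le_mul (hMA _) (hM2 _) (abs_nonneg _) ((abs_nonneg _).trans (hMA z.2))
    · intro z hz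
      by_cases hr : ρ < |z.2|
      · simp [hφ.2 _ hr]
      · rw [not_lt] at hr
        have h2 : |(2 : ℝ) ^ k * z.2| ≤ (2 : ℝ) ^ k * ρ := by
          rw [abs_mul, abs_of_pos (two_zpow_pos k)]
          exact mul_le_mul_of_nonneg_left hr (two_zpow_pos k).le
        have h3 : |z.1| ≤ |z.1 - (2 : ℝ) ^ k * z.2| + |(2 : ℝ) ^ k * z.2| := by
          have := abs_add_le (z.1 - (2 : ℝ) ^ k * z.2) ((2 : ℝ) ^ k * z.2)
          simpa using this
        have h4 := hR2 (z.1 - (2 : ℝ) ^ k * z.2) (by linarith)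
        simp only at h4
        rw [h4, mul_zero]
    · intro z hz
      simp [hφ.2 _ hz]
  have hsw : ∫ y, ∫ r, |φ r| * (g (y - (2 : ℝ) ^ k * r)) ^ 2 = (∫ r, |φ r|) * ∫ y, (g y) ^ 2 := by
    rw [integral_integral_swap hint]
    have : ∀ r, ∫ y, |φ r| * (g (y - (2 : ℝ) ^ k * r)) ^ 2 = |φ r| * ∫ y, (g y) ^ 2 := by
      intro r
      rw [integral_const_mul]
      congr 1
      exact integral_sub_right_eq_self (fun y => (g y) ^ 2) _
    simp_rw [this]
    rw [integral_mul_const]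
  have hI : Integrable (fun y => ∫ r, |φ r| * (g (y - (2 : ℝ) ^ k * r)) ^ 2) := hint.integral_prod_left
  have hL : Integrable (fun y => (cv1 φ k g y) ^ 2) := by
    have := nice1_mul (cv1_nice hφ k hg) (cv1_nice hφ k hg)
    simpa [sq] using nice1_integrable this
  calc ∫ y, (cv1 φ k g y) ^ 2
      ≤ ∫ y, (∫ r, |φ r|) * ∫ r, |φ r| * (g (y - (2 : ℝ) ^ k * r)) ^ 2 :=
        integral_mono hL (hI.const_mul _) hp
    _ = (∫ r, |φ r|) * ((∫ r, |φ r|) * ∫ y, (g y) ^ 2) := by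
        rw [integral_const_mul, hsw]
    _ = _ := by ring

/-- adjoint. -/
theorem cv1_adj {ρ : ℝ} {φ : ℝ → ℝ} (hφ : Prof ρ φ) (k : ℤ) {f g : ℝ → ℝ} (hf : Nice1 f)
    (hg : Nice1 g) :
    ∫ y, cv1 φ k f y * g y = ∫ y, f y * cv1 (fun r => φ (-r)) k g y := by
  obtain ⟨Mf, hMf⟩ := hf.2.1
  obtain ⟨Mg, hMg⟩ := hg.2.1
  obtain ⟨Rf, hRf⟩ := hf.2.2
  obtain ⟨Rg, hRg⟩ := hg.2.2
  obtain ⟨MA, hMA0, hMA⟩ := prof_bdd hφ
  have hint : Integrable (fun p : ℝ × ℝ => φ p.2 * f (p.1 - (2 : ℝ) ^ k * p.2) * g p.1)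
      ((volume : Measure ℝ).prod volume) := by
    refine intg2 (M := MA * Mf * Mg) (R := Rg) (R' := ρ) ?_ ?_ ?_ ?_
    · exact ((hφ.1.measurable.comp measurable_snd).mul (meas_shift hf.1 k)).mul
        (hg.1.comp measurable_fst)
    · intro z
      rw [abs_mul, abs_mul]
      have h1 : |φ z.2| * |f (z.1 - (2 : ℝ) ^ k * z.2)| ≤ MA * Mf :=
        mul_le_mul (hMA _) (hMf _) (abs_nonneg _) hMA0
      exact mul_le_mul h1 (hMg _) (abs_nonneg _) (le_trans (by positivity) h1)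
    · intro z hz
      rw [hRg _ hz, mul_zero]
    · intro z hz
      simp [hφ.2 _ hz]
  have h1 : ∫ y, cv1 φ k f y * g y = ∫ y, ∫ r, φ r * f (y - (2 : ℝ) ^ k * r) * g y := by
    refine integral_congr_ae (Filter.Eventually.of_forall (fun y => ?_))
    simp only [cv1]
    rw [integral_mul_const]
  have hint2 : Integrable (fun p : ℝ × ℝ => f p.1 * (φ (-p.2) * g (p.1 - (2 : ℝ) ^ k * p.2)))
      ((volume : Measure ℝ).prod volume) := by
    refine intg2 (M := Mf * (MA * Mg)) (R := Rf) (R' := ρ) ?_ ?_ ?_ ?_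
    · exact (hf.1.comp measurable_fst).mul
        ((hφ.1.measurable.comp measurable_snd.neg).mul (meas_shift hg.1 k))
    · intro z
      rw [abs_mul, abs_mul]
      have h1 : |φ (-z.2)| * |g (z.1 - (2 : ℝ) ^ k * z.2)| ≤ MA * Mg :=
        mul_le_mul (hMA _) (hMg _) (abs_nonneg _) hMA0
      exact mul_le_mul (hMf _) h1 (by positivity) ((abs_nonneg _).trans (hMf z.1))
    · intro z hz
      rw [hRf _ hz, zero_mul]
    · intro z hz
      rw [hφ.2 (-z.2) (by rwa [abs_neg])]; ring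
  have h2 : ∫ y, f y * cv1 (fun r => φ (-r)) k g y =
      ∫ y, ∫ r, f y * (φ (-r) * g (y - (2 : ℝ) ^ k * r)) := by
    refine integral_congr_ae (Filter.Eventually.of_forall (fun y => ?_))
    simp only [cv1]
    rw [integral_const_mul]
  have e1 : ∫ y, ∫ r, φ r * f (y - (2 : ℝ) ^ k * r) * g y =
      ∫ r, ∫ y, φ r * f (y - (2 : ℝ) ^ k * r) * g y := integral_integral_swap hint
  have e2 : ∫ y, ∫ r, f y * (φ (-r) * g (y - (2 : ℝ) ^ k * r)) =
      ∫ r, ∫ y, f y * (φ (-r) * g (y - (2 : ℝ) ^ k * r)) := integral_integral_swap hint2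
  rw [h1, h2, e1, e2]
  rw [← integral_neg_eq_self (fun r => ∫ y, f y * (φ (-r) * g (y - (2 : ℝ) ^ k * r)))]
  refine integral_congr_ae (Filter.Eventually.of_forall (fun r => ?_))
  simp only [neg_neg]
  rw [← integral_sub_right_eq_self (fun y => f y * (φ r * g (y - (2 : ℝ) ^ k * -r))) ((2 : ℝ) ^ k * r)]
  refine integral_congr_ae (Filter.Eventually.of_forall (fun y => ?_))
  simp only
  rw [show y - (2 : ℝ) ^ k * r - (2 : ℝ) ^ k * -r = y by ring]
  ring

/-- the double kernel. -/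
def AK (φ ψ : ℝ → ℝ) (k l : ℤ) (u : ℝ) : ℝ :=
  ∫ r, φ r * ψ ((u - (2 : ℝ) ^ k * r) / (2 : ℝ) ^ l)

/-- composition of two `cv1` in kernel form. -/
theorem cv1_cv1 {ρ σ : ℝ} {φ ψ : ℝ → ℝ} (hφ : Prof ρ φ) (hψ : Prof σ ψ) (k l : ℤ) {f : ℝ → ℝ}
    (hf : Nice1 f) (y : ℝ) :
    cv1 φ k (cv1 ψ l f) y = ((2 : ℝ) ^ l)⁻¹ * ∫ u, f (y - u) * AK φ ψ k l u := by
  obtain ⟨Mf, hMf⟩ := hf.2.1
  obtain ⟨Rf, hRf⟩ := hf.2.2
  obtain ⟨MA, hMA0, hMA⟩ := prof_bdd hφ
  obtain ⟨MB, hMB0, hMB⟩ := prof_bdd hψ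
  have hl := two_zpow_pos l
  have hin : ∀ r, cv1 ψ l f (y - (2 : ℝ) ^ k * r) =
      ((2 : ℝ) ^ l)⁻¹ * ∫ u, ψ ((u - (2 : ℝ) ^ k * r) / (2 : ℝ) ^ l) * f (y - u) := by
    intro r
    have h1 := integral_sub_right_eq_self (μ := (volume : Measure ℝ))
      (fun u : ℝ => ψ (u / (2 : ℝ) ^ l) * f (y - (2 : ℝ) ^ k * r - u)) ((2 : ℝ) ^ k * r)
    have h2 := MeasureTheory.Measure.integral_comp_div
      (fun s => ψ s * f (y - (2 : ℝ) ^ k * r - (2 : ℝ) ^ l * s)) ((2 : ℝ) ^ l)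
    unfold cv1
    have h3 : ∫ u, ψ ((u - (2 : ℝ) ^ k * r) / (2 : ℝ) ^ l) * f (y - u) =
        ∫ u, ψ (u / (2 : ℝ) ^ l) * f (y - (2 : ℝ) ^ k * r - u) := by
      rw [← h1]
      refine integral_congr_ae (Filter.Eventually.of_forall (fun u => ?_))
      simp only
      congr 2
      ring
    have h4 : ∫ u, ψ (u / (2 : ℝ) ^ l) * f (y - (2 : ℝ) ^ k * r - u) =
        (2 : ℝ) ^ l * ∫ s, ψ s * f (y - (2 : ℝ) ^ k * r - (2 : ℝ) ^ l * s) := by
      rw [abs_of_pos hl, smul_eq_mul] at h2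
      rw [← h2]
      refine integral_congr_ae (Filter.Eventually.of_forall (fun u => ?_))
      simp only
      rw [mul_div_cancel₀ _ hl.ne']
    rw [h3, h4, ← mul_assoc, inv_mul_cancel₀ hl.ne', one_mul]
  have hint : Integrable (fun p : ℝ × ℝ =>
      φ p.1 * (ψ ((p.2 - (2 : ℝ) ^ k * p.1) / (2 : ℝ) ^ l) * f (y - p.2)))
      ((volume : Measure ℝ).prod volume) := by
    refine intg2 (M := MA * (MB * Mf)) (R := ρ) (R' := |y| + Rf) ?_ ?_ ?_ ?_
    · refine (hφ.1.measurable.comp measurable_fst).mul ((hψ.1.measurable.comp ?_).mul (hf.1.comp ?_))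
      · exact (measurable_snd.sub (measurable_fst.const_mul _)).div_const _
      · exact measurable_const.sub measurable_snd
    · intro z
      rw [abs_mul, abs_mul]
      have h1 := mul_le_mul (hMB ((z.2 - (2 : ℝ) ^ k * z.1) / (2 : ℝ) ^ l)) (hMf (y - z.2))
        (abs_nonneg _) hMB0
      exact mul_le_mul (hMA _) h1 (by positivity) hMA0
    · intro z hz
      rw [hφ.2 _ hz, zero_mul]
    · intro z hz
      rw [hRf (y - z.2), mul_zero, mul_zero]
      have h3 : |z.2| ≤ |y - z.2| + |y| := by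
        have := abs_sub_le z.2 y 0
        rw [sub_zero, sub_zero, abs_sub_comm] at this
        linarith
      linarith
  have h5 : cv1 φ k (cv1 ψ l f) y = ∫ r, φ r * cv1 ψ l f (y - (2 : ℝ) ^ k * r) := rfl
  rw [h5]
  simp_rw [hin]
  have h6 : ∀ r, φ r * (((2 : ℝ) ^ l)⁻¹ * ∫ u, ψ ((u - (2 : ℝ) ^ k * r) / (2 : ℝ) ^ l) * f (y - u)) =
      ((2 : ℝ) ^ l)⁻¹ * ∫ u, φ r * (ψ ((u - (2 : ℝ) ^ k * r) / (2 : ℝ) ^ l) * f (y - u)) := by
    intro r
    rw [integral_const_mul]; ring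
  simp_rw [h6]
  rw [integral_const_mul, integral_integral_swap hint]
  congr 1
  refine integral_congr_ae (Filter.Eventually.of_forall (fun u => ?_))
  simp only [AK]
  rw [← integral_const_mul]
  refine integral_congr_ae (Filter.Eventually.of_forall (fun r => ?_))
  simp only
  ring

/-- smooth profile pair: `ω` is `C¹`, both `ω` and `deriv ω` vanish off `[-ρ,ρ]`. -/
theorem prof_deriv {ρ : ℝ} {ω : ℝ → ℝ} (h : ContDiff ℝ 1 ω) (hs : ∀ r, ρ < |r| → ω r = 0) :
    Prof ρ ω ∧ Prof ρ (deriv ω) := by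
  refine ⟨⟨h.continuous, hs⟩, ⟨h.continuous_deriv le_rfl, fun r hr => ?_⟩⟩
  have hev : ω =ᶠ[nhds r] fun _ => 0 := by
    have ho : IsOpen {r : ℝ | ρ < |r|} := isOpen_lt continuous_const continuous_abs
    filter_upwards [ho.mem_nhds hr] with s hs'
    exact hs s hs'
  rw [hev.deriv_eq]
  simp

/-- integration by parts in the double kernel. -/
theorem AK_ibp {ρ σ : ℝ} {ω ψ : ℝ → ℝ} (hω : ContDiff ℝ 1 ω) (hωs : ∀ r, ρ < |r| → ω r = 0)
    (hψ : ContDiff ℝ 1 ψ) (hψs : ∀ r, σ < |r| → ψ r = 0) (k l : ℤ) (u : ℝ) :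
    AK (deriv ω) ψ k l u = (2 : ℝ) ^ (k - l) * AK ω (deriv ψ) k l u := by
  obtain ⟨pω, pω'⟩ := prof_deriv hω hωs
  obtain ⟨pψ, pψ'⟩ := prof_deriv hψ hψs
  have hl := two_zpow_pos l
  set v : ℝ → ℝ := fun r => ψ ((u - (2 : ℝ) ^ k * r) / (2 : ℝ) ^ l) with hv
  set v' : ℝ → ℝ := fun r => deriv ψ ((u - (2 : ℝ) ^ k * r) / (2 : ℝ) ^ l) * (-(2 : ℝ) ^ (k - l)) with hv'
  have hder : ∀ r, HasDerivAt v (v' r) r := by
    intro r
    have h1 : HasDerivAt (fun r : ℝ => (u - (2 : ℝ) ^ k * r) / (2 : ℝ) ^ l) (-(2 : ℝ) ^ (k - l)) r := by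
      have h0 : HasDerivAt (fun r : ℝ => (u - (2 : ℝ) ^ k * r) / (2 : ℝ) ^ l)
          ((0 - (2 : ℝ) ^ k * 1) / (2 : ℝ) ^ l) r :=
        ((hasDerivAt_const r u).sub ((hasDerivAt_id r).const_mul _)).div_const _
      convert h0 using 1
      rw [zpow_sub₀ (by norm_num : (2 : ℝ) ≠ 0)]
      ring
    have h2 : HasDerivAt ψ (deriv ψ ((u - (2 : ℝ) ^ k * r) / (2 : ℝ) ^ l))
        ((u - (2 : ℝ) ^ k * r) / (2 : ℝ) ^ l) :=
      ((hψ.differentiable one_ne_zero) _).hasDerivAt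
    exact h2.comp r h1
  have cv : Continuous v := pψ.1.comp (by fun_prop)
  have cv' : Continuous v' := (pψ'.1.comp (by fun_prop)).mul continuous_const
  have iprod : ∀ (a b : ℝ → ℝ), Prof ρ a → Continuous b → Integrable (a * b) := by
    intro a b ha hb
    have hp : Prof ρ (a * b) := ⟨ha.1.mul hb, fun r hr => by simp [ha.2 r hr]⟩
    exact nice1_integrable (prof_nice1 hp)
  have ibp := integral_mul_deriv_eq_deriv_mul_of_integrable (A := ℝ) (u := ω) (u' := deriv ω) (v := v) (v' := v')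
    (fun x _ => ((hω.differentiable one_ne_zero) x).hasDerivAt) (fun x _ => hder x)
    (iprod _ _ pω cv') (iprod _ _ pω' cv) (iprod _ _ pω cv)
  have h3 : AK (deriv ω) ψ k l u = ∫ r, deriv ω r * v r := rfl
  have h4 : ∫ r, deriv ω r * v r = - ∫ r, ω r * v' r := by rw [ibp, neg_neg]
  rw [h3, h4]
  unfold AK
  rw [← integral_neg, ← integral_const_mul]
  refine integral_congr_ae (Filter.Eventually.of_forall (fun r => ?_))
  simp only [hv']
  ring

/-- the exchange of a derivative between two scales. -/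
theorem cv1_exch {ρ σ : ℝ} {ω ψ : ℝ → ℝ} (hω : ContDiff ℝ 1 ω) (hωs : ∀ r, ρ < |r| → ω r = 0)
    (hψ : ContDiff ℝ 1 ψ) (hψs : ∀ r, σ < |r| → ψ r = 0) (k l : ℤ) {f : ℝ → ℝ} (hf : Nice1 f) (y : ℝ) :
    cv1 (deriv ω) k (cv1 ψ l f) y = (2 : ℝ) ^ (k - l) * cv1 ω k (cv1 (deriv ψ) l f) y := by
  obtain ⟨pω, pω'⟩ := prof_deriv hω hωs
  obtain ⟨pψ, pψ'⟩ := prof_deriv hψ hψs
  rw [cv1_cv1 pω' pψ k l hf, cv1_cv1 pω pψ' k l hf]
  have h1 : ∫ u, f (y - u) * AK (deriv ω) ψ k l u =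
      (2 : ℝ) ^ (k - l) * ∫ u, f (y - u) * AK ω (deriv ψ) k l u := by
    rw [← integral_const_mul]
    refine integral_congr_ae (Filter.Eventually.of_forall (fun u => ?_))
    simp only
    rw [AK_ibp hω hωs hψ hψs k l]
    ring
  rw [h1]
  ring

/-- geometric sums over `ℤ`. -/
theorem geom_sum (F : Finset ℤ) (k : ℤ) : ∑ l ∈ F, (2 : ℝ) ^ (-|k - l|) ≤ 4 := by
  classical
  have hh : ∀ n : ℤ, (2 : ℝ) ^ (-|n|) = (1 / 2 : ℝ) ^ n.natAbs := by
    intro n
    rw [← Int.natCast_natAbs, zpow_neg, zpow_natCast, one_div, inv_pow]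
  have hsplit : ∑ l ∈ F, (2 : ℝ) ^ (-|k - l|) =
      ∑ l ∈ F.filter (fun l => l ≤ k), (2 : ℝ) ^ (-|k - l|) +
      ∑ l ∈ F.filter (fun l => ¬ l ≤ k), (2 : ℝ) ^ (-|k - l|) :=
    (Finset.sum_filter_add_sum_filter_not F (fun l => l ≤ k) _).symm
  have hbd : ∀ (G : Finset ℤ), (∀ a ∈ G, ∀ b ∈ G, (k - a).natAbs = (k - b).natAbs → a = b) →
      ∑ l ∈ G, (2 : ℝ) ^ (-|k - l|) ≤ 2 := by
    intro G hG
    have h1 : ∑ l ∈ G, (2 : ℝ) ^ (-|k - l|) =
        ∑ n ∈ G.image (fun l => (k - l).natAbs), (1 / 2 : ℝ) ^ n := by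
      rw [Finset.sum_image (fun a ha b hb h => hG a ha b hb h)]
      exact Finset.sum_congr rfl (fun l _ => hh _)
    rw [h1]
    obtain ⟨N, hN⟩ : ∃ N, G.image (fun l => (k - l).natAbs) ⊆ Finset.range N := by
      refine ⟨(G.image (fun l => (k - l).natAbs)).sup id + 1, fun n hn => ?_⟩
      rw [Finset.mem_range, Nat.lt_succ_iff]
      exact Finset.le_sup (f := id) hn
    refine (Finset.sum_le_sum_of_subset_of_nonneg hN (fun i _ _ => by positivity)).trans ?_
    exact sum_geometric_two_le N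
  rw [hsplit]
  have h1 := hbd (F.filter (fun l => l ≤ k)) (by
    intro a ha b hb h
    have ha' := (Finset.mem_filter.1 ha).2
    have hb' := (Finset.mem_filter.1 hb).2
    omega)
  have h2 := hbd (F.filter (fun l => ¬ l ≤ k)) (by
    intro a ha b hb h
    have ha' := (Finset.mem_filter.1 ha).2
    have hb' := (Finset.mem_filter.1 hb).2
    omega)
  linarith

/-- the primitive of a band profile. -/
theorem primitive {φ : ℝ → ℝ} (hφ : PhiC φ) : ∃ ω : ℝ → ℝ, ContDiff ℝ 1 ω ∧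
    (∀ r, 1 < |r| → ω r = 0) ∧ deriv ω = φ := by
  obtain ⟨hs, hv, hz⟩ := hφ
  have hc : Continuous φ := hs.continuous
  have hp : Prof 1 φ := ⟨hc, hv⟩
  have hi : Integrable φ := nice1_integrable (prof_nice1 hp)
  set ω : ℝ → ℝ := fun x => ∫ t in (-1 : ℝ)..x, φ t with hω
  have hd : ∀ x, HasDerivAt ω (φ x) x := fun x =>
    intervalIntegral.integral_hasDerivAt_right (hc.intervalIntegrable _ _)
      hc.stronglyMeasurable.stronglyMeasurableAtFilter hc.continuousAt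
  have hde : deriv ω = φ := funext fun x => (hd x).deriv
  refine ⟨ω, ?_, ?_, hde⟩
  · rw [contDiff_one_iff_deriv]
    exact ⟨fun x => (hd x).differentiableAt, by rw [hde]; exact hc⟩
  · intro r hr
    rw [hω]
    simp only
    rcases lt_abs.1 hr with h | h
    · -- r > 1
      have h1 : ∫ t in (-1 : ℝ)..r, φ t = ∫ t in Set.Ioc (-1 : ℝ) r, φ t := by
        rw [intervalIntegral.integral_of_le (by linarith)]
      rw [h1, ← hz]
      refine setIntegral_eq_integral_of_ae_compl_eq_zero ?_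
      have hne : ∀ᵐ x : ℝ, x ≠ -1 := by
        simp [ae_iff, measure_singleton]
      filter_upwards [hne] with x hx hxs
      apply hv
      by_contra hc'
      rw [not_lt, abs_le] at hc'
      apply hxs
      exact ⟨lt_of_le_of_ne hc'.1 (Ne.symm hx), by linarith [hc'.2]⟩
    · have h1 : r < -1 := by linarith
      rw [intervalIntegral.integral_symm, intervalIntegral.integral_of_le h1.le]
      rw [neg_eq_zero]
      have hne : ∀ᵐ x : ℝ, x ≠ -1 := by
        simp [ae_iff, measure_singleton]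
      rw [← integral_zero ℝ ℝ (μ := volume.restrict (Set.Ioc r (-1)))]
      refine integral_congr_ae ?_
      rw [Filter.EventuallyEq, ae_restrict_iff' measurableSet_Ioc]
      filter_upwards [hne] with x hx hxs
      apply hv
      have h2 := lt_of_le_of_ne hxs.2 hx
      rw [lt_abs]
      right
      linarith


/-- almost orthogonality of `P_l P_k^*`. -/
theorem almost_orth {φ : ℝ → ℝ} (hφ : PhiC φ) : ∃ C : ℝ, 0 < C ∧ ∀ (k l : ℤ) (h : ℝ → ℝ), Nice1 h →
    ∫ y, (cv1 φ l (cv1 (fun r => φ (-r)) k h) y) ^ 2 ≤ (C * (2 : ℝ) ^ (-|k - l|)) ^ 2 * ∫ y, (h y) ^ 2 := by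
  obtain ⟨ω, hω1, hωs, hωd⟩ := primitive hφ
  have hφ1 : ContDiff ℝ 1 φ := hφ.1.of_le (by exact_mod_cast le_top)
  have hφs := hφ.2.1
  set φt : ℝ → ℝ := fun r => φ (-r) with hφt
  have hφt1 : ContDiff ℝ 1 φt := hφ1.comp contDiff_neg
  have hφts : ∀ r, 1 < |r| → φt r = 0 := fun r hr => hφs _ (by rwa [abs_neg])
  set ωt : ℝ → ℝ := fun r => -ω (-r) with hωt
  have hωt1 : ContDiff ℝ 1 ωt := (hω1.comp contDiff_neg).neg
  have hωts : ∀ r, 1 < |r| → ωt r = 0 := fun r hr => by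
    simp only [hωt]
    rw [hωs _ (by rwa [abs_neg]), neg_zero]
  have hωtd : deriv ωt = φt := by
    funext r
    have h1 : HasDerivAt ω (φ (-r)) (-r) := by
      have := ((hω1.differentiable one_ne_zero) (-r)).hasDerivAt
      rwa [hωd] at this
    have h2 : HasDerivAt (fun r : ℝ => ω (-r)) (φ (-r) * (-1)) r :=
      h1.comp r (hasDerivAt_neg r)
    have h3 : HasDerivAt ωt (-(φ (-r) * (-1))) r := h2.neg
    rw [h3.deriv]
    simp only [hφt]
    ring
  obtain ⟨pω, pω'⟩ := prof_deriv hω1 hωs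
  obtain ⟨pφ, pφ'⟩ := prof_deriv hφ1 hφs
  obtain ⟨pφt, pφt'⟩ := prof_deriv hφt1 hφts
  obtain ⟨pωt, pωt'⟩ := prof_deriv hωt1 hωts
  set C1 := (∫ r, |ω r|) * ∫ r, |deriv φt r| with hC1
  set C2 := (∫ r, |deriv φ r|) * ∫ r, |ωt r| with hC2
  have hC1n : 0 ≤ C1 := mul_nonneg (integral_nonneg fun _ => abs_nonneg _)
    (integral_nonneg fun _ => abs_nonneg _)
  have hC2n : 0 ≤ C2 := mul_nonneg (integral_nonneg fun _ => abs_nonneg _)
    (integral_nonneg fun _ => abs_nonneg _)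
  refine ⟨C1 + C2 + 1, by linarith, fun k l h hh => ?_⟩
  have hh0 : 0 ≤ ∫ y, (h y) ^ 2 := integral_nonneg fun _ => sq_nonneg _
  have two : ∀ {a b : ℝ → ℝ} (_ : Prof 1 a) (_ : Prof 1 b) (m n : ℤ),
      ∫ y, (cv1 a m (cv1 b n h) y) ^ 2 ≤ ((∫ r, |a r|) * ∫ r, |b r|) ^ 2 * ∫ y, (h y) ^ 2 := by
    intro a b ha hb m n
    have h1 := cv1_sq ha m (cv1_nice hb n hh)
    have h2 := cv1_sq hb n hh
    calc _ ≤ _ := h1
      _ ≤ (∫ r, |a r|) ^ 2 * ((∫ r, |b r|) ^ 2 * ∫ y, (h y) ^ 2) := by gcongr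
      _ = _ := by ring
  rcases le_total l k with hlk | hlk
  · have e1 : ∀ y, cv1 φ l (cv1 φt k h) y = (2 : ℝ) ^ (l - k) * cv1 ω l (cv1 (deriv φt) k h) y := by
      intro y
      have := cv1_exch hω1 hωs hφt1 hφts l k hh y
      rwa [hωd] at this
    simp_rw [e1, mul_pow]
    rw [integral_const_mul]
    have e2 : -|k - l| = l - k := by rw [abs_of_nonneg (by omega)]; ring
    rw [e2]
    have h3 := two pω pφt' l k
    calc ((2 : ℝ) ^ (l - k)) ^ 2 * ∫ y, (cv1 ω l (cv1 (deriv φt) k h) y) ^ 2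
        ≤ ((2 : ℝ) ^ (l - k)) ^ 2 * (C1 ^ 2 * ∫ y, (h y) ^ 2) := by gcongr
      _ ≤ ((2 : ℝ) ^ (l - k)) ^ 2 * ((C1 + C2 + 1) ^ 2 * ∫ y, (h y) ^ 2) := by
          gcongr
          linarith
      _ = _ := by ring
  · have e1 : ∀ y, cv1 φ l (cv1 φt k h) y = (2 : ℝ) ^ (k - l) * cv1 (deriv φ) l (cv1 ωt k h) y := by
      intro y
      have h5 := cv1_exch hφ1 hφs hωt1 hωts l k hh y
      rw [hωtd] at h5
      rw [h5, ← mul_assoc, ← zpow_add₀ (by norm_num : (2 : ℝ) ≠ 0)]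
      simp
    simp_rw [e1, mul_pow]
    rw [integral_const_mul]
    have e2 : -|k - l| = k - l := by rw [abs_of_nonpos (by omega)]; ring
    rw [e2]
    have h3 := two pφ' pωt l k
    calc ((2 : ℝ) ^ (k - l)) ^ 2 * ∫ y, (cv1 (deriv φ) l (cv1 ωt k h) y) ^ 2
        ≤ ((2 : ℝ) ^ (k - l)) ^ 2 * (C2 ^ 2 * ∫ y, (h y) ^ 2) := by gcongr
      _ ≤ ((2 : ℝ) ^ (k - l)) ^ 2 * ((C1 + C2 + 1) ^ 2 * ∫ y, (h y) ^ 2) := by
          gcongr
          linarith
      _ = _ := by ring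

/-- AM-GM for integrals. -/
theorem amgm {f g : ℝ → ℝ} (hf : Nice1 f) (hg : Nice1 g) {lam : ℝ} (hl : 0 < lam) :
    ∫ y, f y * g y ≤ (1 / (2 * lam)) * (∫ y, (f y) ^ 2) + (lam / 2) * ∫ y, (g y) ^ 2 := by
  have hff : Integrable (fun y => (f y) ^ 2) := by
    simpa [sq] using nice1_integrable (nice1_mul hf hf)
  have hgg : Integrable (fun y => (g y) ^ 2) := by
    simpa [sq] using nice1_integrable (nice1_mul hg hg)
  have hfg := nice1_integrable (nice1_mul hf hg)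
  rw [← integral_const_mul, ← integral_const_mul, ← integral_add (hff.const_mul _) (hgg.const_mul _)]
  refine integral_mono hfg ((hff.const_mul _).add (hgg.const_mul _)) (fun y => ?_)
  simp only
  have h1 : 0 ≤ (1 / (2 * lam)) * (f y - lam * g y) ^ 2 := by positivity
  have h2 : (1 / (2 * lam)) * (f y - lam * g y) ^ 2 =
      (1 / (2 * lam)) * (f y) ^ 2 - f y * g y + (lam / 2) * (g y) ^ 2 := by
    field_simp
    ring
  linarith

/-- S1. -/
theorem lpup : LPup := by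
  classical
  intro φ hφ
  obtain ⟨C, hC, hao⟩ := almost_orth hφ
  have hφc : Prof 1 φ := ⟨hφ.1.continuous, hφ.2.1⟩
  have hφt : Prof 1 (fun r => φ (-r)) := prof_neg hφc
  refine ⟨16 * C, by linarith, fun g hg F => ?_⟩
  set P : ℤ → ℝ → ℝ := fun k => cv1 φ k g with hP
  set Q : ℤ → ℝ → ℝ := fun k => cv1 (fun r => φ (-r)) k (P k) with hQ
  have nP : ∀ k, Nice1 (P k) := fun k => cv1_nice hφc k hg
  have nQ : ∀ k, Nice1 (Q k) := fun k => cv1_nice hφt k (nP k)
  set s : ℤ → ℝ := fun k => ∫ y, (P k y) ^ 2 with hs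
  have hs0 : ∀ k, 0 ≤ s k := fun k => integral_nonneg fun _ => sq_nonneg _
  set H : ℝ → ℝ := fun y => ∑ k ∈ F, Q k y with hH
  have nH : Nice1 H := nice1_sum F Q (fun k _ => nQ k)
  -- S = ∫ g H
  have hS : ∑ k ∈ F, s k = ∫ y, H y * g y := by
    have h1 : ∀ k, s k = ∫ y, Q k y * g y := by
      intro k
      have h2 := cv1_adj hφc k hg (nP k)
      simp only [hs]
      have h3 : ∫ y, (P k y) ^ 2 = ∫ y, cv1 φ k g y * P k y := by
        refine integral_congr_ae (Filter.Eventually.of_forall (fun y => ?_))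
        simp only [hP]
        ring
      rw [h3, h2]
      refine integral_congr_ae (Filter.Eventually.of_forall (fun y => ?_))
      simp only [hQ]
      ring
    simp_rw [h1, hH, Finset.sum_mul]
    rw [integral_finset_sum F (fun k _ => nice1_integrable (nice1_mul (nQ k) hg))]
  -- the double sum
  have hHH : ∫ y, (H y) ^ 2 ≤ 4 * C * ∑ k ∈ F, s k := by
    have h1 : ∫ y, (H y) ^ 2 = ∑ k ∈ F, ∑ l ∈ F, ∫ y, Q k y * Q l y := by
      have h2 : ∀ y, (H y) ^ 2 = ∑ k ∈ F, ∑ l ∈ F, Q k y * Q l y := by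
        intro y
        rw [sq, hH]
        simp only
        rw [Finset.sum_mul_sum]
      simp_rw [h2]
      rw [integral_finset_sum F (fun k _ => nice1_integrable
        (nice1_sum F (fun l y => Q k y * Q l y) (fun l _ => nice1_mul (nQ k) (nQ l))))]
      refine Finset.sum_congr rfl (fun k _ => ?_)
      rw [integral_finset_sum F (fun l _ => nice1_integrable (nice1_mul (nQ k) (nQ l)))]
    have h3 : ∀ k l, ∫ y, Q k y * Q l y ≤ (C * (2 : ℝ) ^ (-|k - l|)) / 2 * (s k + s l) := by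
      intro k l
      have hlam : 0 < C * (2 : ℝ) ^ (-|k - l|) := mul_pos hC (two_zpow_pos _)
      have h4 := cv1_adj hφc l (nQ k) (nP l)
      have h5 : ∫ y, Q k y * Q l y = ∫ y, cv1 φ l (Q k) y * P l y := by
        rw [h4]
      rw [h5]
      refine (amgm (cv1_nice hφc l (nQ k)) (nP l) hlam).trans ?_
      have h6 := hao k l (P k) (nP k)
      have h7 : (1 / (2 * (C * (2 : ℝ) ^ (-|k - l|)))) * ∫ y, (cv1 φ l (Q k) y) ^ 2 ≤
          (1 / (2 * (C * (2 : ℝ) ^ (-|k - l|)))) * ((C * (2 : ℝ) ^ (-|k - l|)) ^ 2 * s k) := by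
        apply mul_le_mul_of_nonneg_left h6
        positivity
      have h8 : (1 / (2 * (C * (2 : ℝ) ^ (-|k - l|)))) * ((C * (2 : ℝ) ^ (-|k - l|)) ^ 2 * s k) =
          (C * (2 : ℝ) ^ (-|k - l|)) / 2 * s k := by
        field_simp
      rw [h8] at h7
      have h9 : (C * (2 : ℝ) ^ (-|k - l|)) / 2 * (s k + s l) =
        (C * (2 : ℝ) ^ (-|k - l|)) / 2 * s k + (C * (2 : ℝ) ^ (-|k - l|)) / 2 * s l := by ring
      rw [h9]
      exact add_le_add h7 le_rfl
    rw [h1]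
    have h10 : ∑ k ∈ F, ∑ l ∈ F, ∫ y, Q k y * Q l y ≤
        ∑ k ∈ F, ∑ l ∈ F, ((C * (2 : ℝ) ^ (-|k - l|)) / 2 * s k + (C * (2 : ℝ) ^ (-|k - l|)) / 2 * s l) := by
      refine Finset.sum_le_sum (fun k _ => Finset.sum_le_sum (fun l _ => ?_))
      refine (h3 k l).trans (le_of_eq (by ring))
    refine h10.trans ?_
    simp_rw [Finset.sum_add_distrib]
    have h11 : ∑ k ∈ F, ∑ l ∈ F, (C * (2 : ℝ) ^ (-|k - l|)) / 2 * s l =
        ∑ k ∈ F, ∑ l ∈ F, (C * (2 : ℝ) ^ (-|k - l|)) / 2 * s k := by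
      rw [Finset.sum_comm]
      refine Finset.sum_congr rfl (fun k _ => Finset.sum_congr rfl (fun l _ => ?_))
      rw [abs_sub_comm]
    rw [h11]
    have h12 : ∑ k ∈ F, ∑ l ∈ F, (C * (2 : ℝ) ^ (-|k - l|)) / 2 * s k ≤ ∑ k ∈ F, (C / 2 * 4) * s k := by
      refine Finset.sum_le_sum (fun k _ => ?_)
      rw [← Finset.sum_mul]
      have h13 : ∑ l ∈ F, (C * (2 : ℝ) ^ (-|k - l|)) / 2 = C / 2 * ∑ l ∈ F, (2 : ℝ) ^ (-|k - l|) := by
        rw [Finset.mul_sum]
        exact Finset.sum_congr rfl (fun l _ => by ring)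
      rw [h13]
      have h14 := geom_sum F k
      have := hs0 k
      gcongr
    rw [← Finset.mul_sum] at h12
    linarith
  have hfin := amgm nH hg (lam := 4 * C) (by linarith)
  rw [← hS] at hfin
  have hgo : ∑ k ∈ F, ∫ y, (cv1 φ k g y) ^ 2 = ∑ k ∈ F, s k := rfl
  rw [hgo]
  have h20 : (1 / (2 * (4 * C))) * (∫ y, (H y) ^ 2) ≤ (1 / (2 * (4 * C))) * (4 * C * ∑ k ∈ F, s k) := by
    apply mul_le_mul_of_nonneg_left hHH
    positivity
  have h21 : (1 / (2 * (4 * C))) * (4 * C * ∑ k ∈ F, s k) = (∑ k ∈ F, s k) / 2 := by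
    field_simp
  rw [h21] at h20
  have hg0 : 0 ≤ ∫ y, (g y) ^ 2 := integral_nonneg fun _ => sq_nonneg _
  nlinarith [hfin, h20, mul_nonneg hC.le hg0]

end Crest.Agent.R087.LPupx565
end
end

-- ▼ part R087/LemL_118
section

/-!
Row 87, SHELL S3 (helper118): Lemma L from `SQT1` and `LPup`.
-/

set_option autoImplicit false

noncomputable section

open MeasureTheory Crest.Agent.R087.Sh0x283 Crest.Agent.R087.Sh1x283

namespace Crest.Agent.R087.LemLx118

/-! ### Nice functions of one variable -/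

theorem nice_integrable {g : ℝ → ℝ} (hg : Nice1 g) : Integrable g := by
  obtain ⟨hm, ⟨M, hM⟩, R, hR⟩ := hg
  have hs : Function.support g ⊆ Set.Icc (-R) R := by
    intro y hy
    rw [Set.mem_Icc, ← abs_le]
    by_contra h
    exact hy (hR y (not_le.mp h))
  rw [← integrableOn_iff_integrable_of_support_subset hs]
  exact Measure.integrableOn_of_bounded (by simp) hm.aestronglyMeasurable (M := M)
    (ae_of_all _ fun y => by simpa using hM y)

theorem nice_mul {b g : ℝ → ℝ} (hb : Measurable b) {B : ℝ} (hB : ∀ y, |b y| ≤ B) (hg : Nice1 g) :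
    Nice1 (fun y => b y * g y) := by
  obtain ⟨hm, ⟨M, hM⟩, R, hR⟩ := hg
  refine ⟨hb.mul hm, ⟨B * M, fun y => ?_⟩, R, fun y hy => by simp [hR y hy]⟩
  rw [abs_mul]
  exact mul_le_mul (hB y) (hM y) (abs_nonneg _) ((abs_nonneg _).trans (hB y))

theorem nice_sq {g : ℝ → ℝ} (hg : Nice1 g) : Nice1 (fun y => g y ^ 2) := by
  obtain ⟨hm, ⟨M, hM⟩, R, hR⟩ := hg
  refine ⟨hm.pow_const 2, ⟨M ^ 2, fun y => ?_⟩, R, fun y hy => by simp [hR y hy]⟩
  rw [abs_pow]
  exact pow_le_pow_left₀ (abs_nonneg _) (hM y) 2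

theorem nice_sub {f g : ℝ → ℝ} (hf : Nice1 f) (hg : Nice1 g) : Nice1 (fun y => f y - g y) := by
  obtain ⟨hm, ⟨M, hM⟩, R, hR⟩ := hg
  obtain ⟨hm', ⟨M', hM'⟩, R', hR'⟩ := hf
  refine ⟨hm'.sub hm, ⟨M' + M, fun y => ?_⟩, max R' R, fun y hy => ?_⟩
  · exact (abs_sub _ _).trans (add_le_add (hM' y) (hM y))
  · simp [hR y ((le_max_right _ _).trans_lt hy), hR' y ((le_max_left _ _).trans_lt hy)]

theorem nice_sq_integrable {g : ℝ → ℝ} (hg : Nice1 g) : Integrable (fun y => g y ^ 2) :=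
  nice_integrable (nice_sq hg)

/-- profiles: measurable, bounded, support in `[-1,1]`. -/
theorem cv1_nice {φ : ℝ → ℝ} (hφ : Measurable φ) {B : ℝ} (hB : ∀ r, |φ r| ≤ B)
    (hs : ∀ r, 1 < |r| → φ r = 0) (k : ℤ) {g : ℝ → ℝ} (hg : Nice1 g) : Nice1 (cv1 φ k g) := by
  have hφn : Nice1 φ := ⟨hφ, ⟨B, hB⟩, 1, hs⟩
  obtain ⟨hm, ⟨M, hM⟩, R, hR⟩ := hg
  refine ⟨?_, ⟨∫ r, |φ r| * M, fun y => ?_⟩, R + 2 ^ k, fun y hy => ?_⟩
  · have : StronglyMeasurable (Function.uncurry fun (y r : ℝ) => φ r * g (y - (2 : ℝ) ^ k * r)) := by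
      apply Measurable.stronglyMeasurable
      exact (hφ.comp measurable_snd).mul
        (hm.comp (measurable_fst.sub (measurable_const.mul measurable_snd)))
    exact (this.integral_prod_right).measurable
  · have h1 : |cv1 φ k g y| ≤ ∫ r, |φ r * g (y - (2 : ℝ) ^ k * r)| := by
      simpa [cv1] using norm_integral_le_integral_norm (μ := volume)
        (fun r => φ r * g (y - (2 : ℝ) ^ k * r))
    refine h1.trans (integral_mono_of_nonneg (ae_of_all _ fun r => abs_nonneg _)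
      ((nice_integrable hφn).abs.mul_const M) (ae_of_all _ fun r => ?_))
    simp only [abs_mul]
    exact mul_le_mul_of_nonneg_left (hM _) (abs_nonneg _)
  · have h2 : ∀ r, φ r * g (y - (2 : ℝ) ^ k * r) = 0 := by
      intro r
      by_cases hr : 1 < |r|
      · simp [hs r hr]
      · have hk : (0 : ℝ) < 2 ^ k := by positivity
        have : R < |y - (2 : ℝ) ^ k * r| := by
          have h3 : |(2 : ℝ) ^ k * r| ≤ 2 ^ k := by
            rw [abs_mul, abs_of_pos hk]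
            nlinarith [not_lt.mp hr]
          have h4 := abs_sub_abs_le_abs_sub y ((2 : ℝ) ^ k * r)
          linarith
        simp [hR _ this]
    simp [cv1, h2]

/-- substitution in `cv1`. -/
theorem cv1_eq (φ : ℝ → ℝ) (k : ℤ) (g : ℝ → ℝ) (y : ℝ) :
    cv1 φ k g y = ∫ s, ((2 : ℝ) ^ k)⁻¹ * φ ((y - s) / 2 ^ k) * g s := by
  have hk : (0 : ℝ) < 2 ^ k := by positivity
  unfold cv1
  have h1 : ∫ s, ((2 : ℝ) ^ k)⁻¹ * φ ((y - s) / 2 ^ k) * g s =
      ∫ s, ((2 : ℝ) ^ k)⁻¹ * φ (s / 2 ^ k) * g (y - s) := by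
    rw [← integral_sub_left_eq_self (fun s => ((2 : ℝ) ^ k)⁻¹ * φ (s / 2 ^ k) * g (y - s)) volume y]
    congr 1; ext s; simp
  rw [h1]
  have h2 := Measure.integral_comp_div (fun r => φ r * g (y - (2 : ℝ) ^ k * r)) ((2 : ℝ) ^ k)
  simp only [smul_eq_mul, abs_of_pos hk] at h2
  have h3 : ∫ r, φ r * g (y - (2 : ℝ) ^ k * r) =
      ((2 : ℝ) ^ k)⁻¹ * ∫ x, φ (x / 2 ^ k) * g (y - (2 : ℝ) ^ k * (x / 2 ^ k)) := by
    rw [h2, ← mul_assoc, inv_mul_cancel₀ hk.ne', one_mul]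
  rw [h3, ← integral_const_mul]
  congr 1; ext s
  rw [mul_div_cancel₀ s hk.ne']
  ring

/-! ### The map `y ↦ y - w y` -/

/-- the map -/
def Ph (w : ℝ → ℝ) (y : ℝ) : ℝ := y - w y

section
variable {δ : ℝ} {w : ℝ → ℝ}

theorem ph_anti (h2 : δ ≤ 1 / 2) (hw : ∀ y y', |w y - w y'| ≤ δ * |y - y'|) (y y' : ℝ) :
    |y - y'| ≤ 2 * |Ph w y - Ph w y'| := by
  have h := hw y y'
  have h3 : |y - y'| - |w y - w y'| ≤ |(y - y') - (w y - w y')| := abs_sub_abs_le_abs_sub _ _
  have h4 : Ph w y - Ph w y' = (y - y') - (w y - w y') := by simp [Ph]; ring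
  rw [h4]
  nlinarith [abs_nonneg (y - y')]

theorem ph_lip (h2 : δ ≤ 1 / 2) (hw : ∀ y y', |w y - w y'| ≤ δ * |y - y'|) (y y' : ℝ) :
    |Ph w y - Ph w y'| ≤ 3 / 2 * |y - y'| := by
  have h := hw y y'
  have h3 : |(y - y') - (w y - w y')| ≤ |y - y'| + |w y - w y'| := abs_sub _ _
  have h4 : Ph w y - Ph w y' = (y - y') - (w y - w y') := by simp [Ph]; ring
  rw [h4]
  nlinarith [abs_nonneg (y - y')]

theorem dw_le (h0 : 0 ≤ δ) (hw : ∀ y y', |w y - w y'| ≤ δ * |y - y'|) (y : ℝ) :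
    |deriv w y| ≤ δ := by
  have hL : LipschitzWith (Real.toNNReal δ) w := LipschitzWith.of_dist_le_mul fun a b => by
    rw [Real.coe_toNNReal δ h0, Real.dist_eq, Real.dist_eq]; exact hw a b
  have h := norm_deriv_le_of_lipschitz (x₀ := y) hL
  rwa [Real.coe_toNNReal δ h0, Real.norm_eq_abs] at h

theorem ph_strictMono (h2 : δ ≤ 1 / 2) (hw : ∀ y y', |w y - w y'| ≤ δ * |y - y'|) :
    StrictMono (Ph w) := by
  intro a b hab
  have h := hw b a
  have h1 : |b - a| = b - a := abs_of_pos (by linarith)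
  have h3 := le_abs_self (w b - w a)
  rw [h1] at h
  simp only [Ph]
  nlinarith

theorem ph_surj (h2 : δ ≤ 1 / 2) (hc : Continuous w)
    (hw : ∀ y y', |w y - w y'| ≤ δ * |y - y'|) : Function.Surjective (Ph w) := by
  have hcont : Continuous (Ph w) := continuous_id.sub hc
  refine hcont.surjective ?_ ?_
  · -- atTop
    have hb : ∀ᶠ y in Filter.atTop, y / 2 - w 0 ≤ Ph w y := by
      filter_upwards [Filter.eventually_ge_atTop (0 : ℝ)] with y hy
      have h := hw y 0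
      have h3 := le_abs_self (w y - w 0)
      rw [sub_zero, abs_of_nonneg hy] at h
      simp only [Ph]; nlinarith
    refine Filter.tendsto_atTop_mono' _ hb ?_
    exact Filter.tendsto_atTop_add_const_right _ _ (Filter.tendsto_id.atTop_div_const (by norm_num))
  · have hb : ∀ᶠ y in Filter.atBot, Ph w y ≤ y / 2 - w 0 := by
      filter_upwards [Filter.eventually_le_atBot (0 : ℝ)] with y hy
      have h := hw y 0
      have h3 := neg_abs_le (w y - w 0)
      rw [sub_zero, abs_of_nonpos hy] at h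
      simp only [Ph]; nlinarith
    refine Filter.tendsto_atBot_mono' _ hb ?_
    exact Filter.tendsto_atBot_add_const_right _ _ (Filter.tendsto_id.atBot_div_const (by norm_num))

theorem ph_deriv (hc : ContDiff ℝ 1 w) (y : ℝ) : HasDerivAt (Ph w) (1 - deriv w y) y := by
  have h1 : HasDerivAt w (deriv w y) y := ((hc.differentiable (by norm_num)) y).hasDerivAt
  exact (hasDerivAt_id y).sub h1

/-- change of variables `s = y - w y`. -/
theorem cov (h0 : 0 ≤ δ) (h2 : δ ≤ 1 / 2) (hc : ContDiff ℝ 1 w)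
    (hw : ∀ y y', |w y - w y'| ≤ δ * |y - y'|) (F : ℝ → ℝ) :
    ∫ s, F s = ∫ y, (1 - deriv w y) * F (Ph w y) := by
  have h := integral_image_eq_integral_abs_deriv_smul (s := Set.univ) (f := Ph w)
    (f' := fun y => 1 - deriv w y) MeasurableSet.univ
    (fun y _ => (ph_deriv hc y).hasDerivWithinAt) ((ph_strictMono h2 hw).injective.injOn) F
  rw [Set.image_univ, (ph_surj h2 hc.continuous hw).range_eq] at h
  simp only [setIntegral_univ, smul_eq_mul] at h
  rw [h]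
  congr 1; ext y
  have := (abs_le.mp (dw_le h0 hw y)).2
  rw [abs_of_nonneg (by linarith)]

theorem cov_int (h0 : 0 ≤ δ) (h2 : δ ≤ 1 / 2) (hc : ContDiff ℝ 1 w)
    (hw : ∀ y y', |w y - w y'| ≤ δ * |y - y'|) {F : ℝ → ℝ} (hF : Integrable F) :
    Integrable (fun y => (1 - deriv w y) * F (Ph w y)) := by
  have h := (integrableOn_image_iff_integrableOn_abs_deriv_smul (s := Set.univ) (f := Ph w)
    (f' := fun y => 1 - deriv w y) MeasurableSet.univ
    (fun y _ => (ph_deriv hc y).hasDerivWithinAt) ((ph_strictMono h2 hw).injective.injOn) F).1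
    (by rw [Set.image_univ, (ph_surj h2 hc.continuous hw).range_eq]; exact hF.integrableOn)
  rw [integrableOn_univ] at h
  refine h.congr (ae_of_all _ fun y => ?_)
  have := (abs_le.mp (dw_le h0 hw y)).2
  simp only [smul_eq_mul]
  rw [abs_of_nonneg (by linarith)]

/-- `∫ F (y - w y) dy ≤ 2 ∫ F` for `F ≥ 0`. -/
theorem cov_le (h0 : 0 ≤ δ) (h2 : δ ≤ 1 / 2) (hc : ContDiff ℝ 1 w)
    (hw : ∀ y y', |w y - w y'| ≤ δ * |y - y'|) {F : ℝ → ℝ} (hF : Integrable F)
    (hp : ∀ s, 0 ≤ F s) : ∫ y, F (Ph w y) ≤ 2 * ∫ s, F s := by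
  rw [cov h0 h2 hc hw F, ← integral_const_mul]
  refine integral_mono_of_nonneg (ae_of_all _ fun y => hp _)
    ((cov_int h0 h2 hc hw hF).const_mul 2) (ae_of_all _ fun y => ?_)
  have h3 := (abs_le.mp (dw_le h0 hw y)).2
  have h4 := hp (Ph w y)
  simp only
  nlinarith

theorem nice_comp (h2 : δ ≤ 1 / 2) (hc : Continuous w)
    (hw : ∀ y y', |w y - w y'| ≤ δ * |y - y'|) {g : ℝ → ℝ} (hg : Nice1 g) :
    Nice1 (fun y => g (Ph w y)) := by
  obtain ⟨hm, ⟨M, hM⟩, R, hR⟩ := hg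
  refine ⟨hm.comp (continuous_id.sub hc).measurable, ⟨M, fun y => hM _⟩, 2 * (R + |Ph w 0|),
    fun y hy => hR _ ?_⟩
  have h3 := ph_anti h2 hw y 0
  rw [sub_zero] at h3
  have h4 : |Ph w y - Ph w 0| ≤ |Ph w y| + |Ph w 0| := abs_sub _ _
  linarith

/-- the derivative of `w` in the variable `s = y - w y`. -/
theorem exists_u (h0 : 0 ≤ δ) (h2 : δ ≤ 1 / 2) (hc : ContDiff ℝ 1 w)
    (hw : ∀ y y', |w y - w y'| ≤ δ * |y - y'|) :
    ∃ u : ℝ → ℝ, Measurable u ∧ (∀ s, |u s| ≤ δ) ∧ ∀ y, u (Ph w y) = deriv w y := by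
  let e := (ph_strictMono h2 hw).orderIsoOfSurjective (Ph w) (ph_surj h2 hc.continuous hw)
  have hcont : Continuous (fun s => deriv w (e.symm s)) :=
    (hc.continuous_deriv le_rfl).comp e.symm.continuous
  refine ⟨fun s => deriv w (e.symm s), hcont.measurable, fun s => dw_le h0 hw _, fun y => ?_⟩
  have : e.symm (Ph w y) = y := e.symm_apply_apply y
  simp only [this]

end

/-! ### The kernel -/

/-- constants of a profile -/
theorem prof_consts {φ : ℝ → ℝ} (hφ : PhiC φ) : ∃ B₀ B₁ B₂ : ℝ, 0 ≤ B₀ ∧ 0 ≤ B₁ ∧ 0 ≤ B₂ ∧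
    (∀ a, |φ a| ≤ B₀) ∧ (∀ a b, |φ a - φ b| ≤ B₁ * |a - b|) ∧
    (∀ a b, |deriv φ a - deriv φ b| ≤ B₂ * |a - b|) := by
  obtain ⟨hs, hsupp, -⟩ := hφ
  have hcs : HasCompactSupport φ := HasCompactSupport.intro (K := Set.Icc (-1) 1) isCompact_Icc
    fun x hx => hsupp x (by
      by_contra h
      exact hx (abs_le.mp (not_lt.mp h)))
  obtain ⟨B₀, hB₀⟩ := hcs.exists_bound_of_continuous hs.continuous
  obtain ⟨B₁, hB₁⟩ := hs.lipschitzWith_of_hasCompactSupport hcs (by simp)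
  have hd : ContDiff ℝ (⊤ : ℕ∞) (deriv φ) := (contDiff_infty_iff_deriv.mp hs).2
  obtain ⟨B₂, hB₂⟩ := hd.lipschitzWith_of_hasCompactSupport hcs.deriv (by simp)
  refine ⟨B₀, B₁, B₂, (norm_nonneg _).trans (hB₀ 0), B₁.2, B₂.2, fun a => by simpa using hB₀ a,
    fun a b => by simpa [Real.dist_eq] using hB₁.dist_le_mul a b,
    fun a b => by simpa [Real.dist_eq] using hB₂.dist_le_mul a b⟩

section
variable {φ : ℝ → ℝ} {B₁ B₂ δ : ℝ}

theorem dd (hd : Differentiable ℝ φ) (hB₁ : ∀ a b, |φ a - φ b| ≤ B₁ * |a - b|)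
    (hB₂ : ∀ a b, |deriv φ a - deriv φ b| ≤ B₂ * |a - b|) (a a' p p' : ℝ) :
    |(φ a - φ (a - p)) - (φ a' - φ (a' - p'))| ≤ B₁ * |p - p'| + B₂ * |p'| * |a - a'| := by
  have h1 : |φ (a - p') - φ (a - p)| ≤ B₁ * |p - p'| := by
    have := hB₁ (a - p') (a - p)
    rwa [show a - p' - (a - p) = p - p' by ring] at this
  have h2 : |(φ a - φ (a - p')) - (φ a' - φ (a' - p'))| ≤ B₂ * |p'| * |a - a'| := by
    have hdiff : ∀ x, HasDerivAt (fun x => φ x - φ (x - p')) (deriv φ x - deriv φ (x - p')) x := by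
      intro x
      have h3 := (hd x).hasDerivAt
      have h4 : HasDerivAt (fun x => φ (x - p')) (deriv φ (x - p')) x := by
        exact (hd (x - p')).hasDerivAt.comp_sub_const x p'
      exact h3.sub h4
    have h6 := Convex.norm_image_sub_le_of_norm_deriv_le (f := fun x => φ x - φ (x - p'))
      (C := B₂ * |p'|) (s := Set.univ) (x := a') (y := a) (fun x _ => (hdiff x).differentiableAt)
      (fun x _ => by
        rw [(hdiff x).deriv]
        have := hB₂ x (x - p')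
        simpa using this) convex_univ trivial trivial
    simpa using h6
  have h7 : (φ a - φ (a - p)) - (φ a' - φ (a' - p')) =
      (φ (a - p') - φ (a - p)) + ((φ a - φ (a - p')) - (φ a' - φ (a' - p'))) := by ring
  rw [h7]
  exact (abs_add_le _ _).trans (add_le_add h1 h2)

theorem far_zero (hsupp : ∀ r, 1 < |r| → φ r = 0) (h2 : δ ≤ 1 / 2) {a p : ℝ} (hp : |p| ≤ δ * |a|)
    (ha : 2 < |a|) : φ a - φ (a - p) = 0 := by
  have h1 : 1 < |a - p| := by
    have := abs_sub_abs_le_abs_sub a p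
    nlinarith
  rw [hsupp a (by linarith), hsupp _ h1, sub_zero]

theorem dd2_aux (hd : Differentiable ℝ φ) (hB₁ : ∀ a b, |φ a - φ b| ≤ B₁ * |a - b|)
    (hB₂ : ∀ a b, |deriv φ a - deriv φ b| ≤ B₂ * |a - b|) (hsupp : ∀ r, 1 < |r| → φ r = 0)
    (b1 : 0 ≤ B₁) (b2 : 0 ≤ B₂) (h0 : 0 ≤ δ) (h2 : δ ≤ 1 / 2) {a a' p p' : ℝ} (hp : |p| ≤ δ * |a|)
    (hp' : |p'| ≤ δ * |a'|) (hpp : |p - p'| ≤ δ * |a - a'|) (hle : |a'| ≤ |a|) :
    |(φ a - φ (a - p)) - (φ a' - φ (a' - p'))| ≤ (B₁ + 2 * B₂) * δ * |a - a'| := by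
  by_cases h : 2 < |a'|
  · rw [far_zero hsupp h2 hp (by linarith), far_zero hsupp h2 hp' h]
    simp only [sub_self, abs_zero]
    positivity
  · have h3 := dd hd hB₁ hB₂ a a' p p'
    have h4 : B₁ * |p - p'| ≤ B₁ * (δ * |a - a'|) := mul_le_mul_of_nonneg_left hpp b1
    have h5 : |p'| ≤ 2 * δ := by
      have := mul_le_mul_of_nonneg_left (not_lt.mp h) h0
      linarith
    have h6 : B₂ * |p'| * |a - a'| ≤ B₂ * (2 * δ) * |a - a'| :=
      mul_le_mul_of_nonneg_right (mul_le_mul_of_nonneg_left h5 b2) (abs_nonneg _)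
    calc _ ≤ B₁ * |p - p'| + B₂ * |p'| * |a - a'| := h3
      _ ≤ B₁ * (δ * |a - a'|) + B₂ * (2 * δ) * |a - a'| := add_le_add h4 h6
      _ = _ := by ring

theorem dd2 (hd : Differentiable ℝ φ) (hB₁ : ∀ a b, |φ a - φ b| ≤ B₁ * |a - b|)
    (hB₂ : ∀ a b, |deriv φ a - deriv φ b| ≤ B₂ * |a - b|) (hsupp : ∀ r, 1 < |r| → φ r = 0)
    (b1 : 0 ≤ B₁) (b2 : 0 ≤ B₂) (h0 : 0 ≤ δ) (h2 : δ ≤ 1 / 2) {a a' p p' : ℝ} (hp : |p| ≤ δ * |a|)
    (hp' : |p'| ≤ δ * |a'|) (hpp : |p - p'| ≤ δ * |a - a'|) :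
    |(φ a - φ (a - p)) - (φ a' - φ (a' - p'))| ≤ (B₁ + 2 * B₂) * δ * |a - a'| := by
  rcases le_total |a'| |a| with h | h
  · exact dd2_aux hd hB₁ hB₂ hsupp b1 b2 h0 h2 hp hp' hpp h
  · rw [abs_sub_comm, abs_sub_comm a a']
    exact dd2_aux hd hB₁ hB₂ hsupp b1 b2 h0 h2 hp' hp
      (by rw [abs_sub_comm, abs_sub_comm a' a]; exact hpp) h

/-- the kernel of the first part of the commutator -/
def KK (φ w : ℝ → ℝ) (k : ℤ) (y r : ℝ) : ℝ :=
  ((2 : ℝ) ^ k)⁻¹ * (φ ((y - r) / 2 ^ k) - φ ((Ph w y - Ph w r) / 2 ^ k))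

variable {w : ℝ → ℝ}

theorem ph_div (k : ℤ) (y r : ℝ) : (Ph w y - Ph w r) / (2 : ℝ) ^ k =
    (y - r) / 2 ^ k - (w y - w r) / 2 ^ k := by
  simp only [Ph]; ring

theorem p_le (hw : ∀ y y', |w y - w y'| ≤ δ * |y - y'|) (k : ℤ) (y r : ℝ) :
    |(w y - w r) / (2 : ℝ) ^ k| ≤ δ * |(y - r) / 2 ^ k| := by
  have hk : (0 : ℝ) < 2 ^ k := by positivity
  rw [abs_div, abs_div, abs_of_pos hk, ← mul_div_assoc]
  exact div_le_div_of_nonneg_right (hw y r) hk.le

theorem KK_meas (hφ : Continuous φ) (hc : Continuous w) (k : ℤ) :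
    Measurable (Function.uncurry (KK φ w k)) := by
  apply Continuous.measurable
  unfold Function.uncurry KK Ph
  fun_prop

theorem KK_size (hB₁ : ∀ a b, |φ a - φ b| ≤ B₁ * |a - b|) (hsupp : ∀ r, 1 < |r| → φ r = 0)
    (b1 : 0 ≤ B₁) (h0 : 0 ≤ δ) (h2 : δ ≤ 1 / 2) (hw : ∀ y y', |w y - w y'| ≤ δ * |y - y'|)
    (k : ℤ) (y r : ℝ) : |KK φ w k y r| ≤ 2 * B₁ * δ * ((2 : ℝ) ^ k)⁻¹ := by
  have hk : (0 : ℝ) < 2 ^ k := by positivity
  unfold KK
  rw [abs_mul, abs_of_pos (inv_pos.mpr hk), ph_div, mul_comm]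
  refine mul_le_mul_of_nonneg_right ?_ (inv_pos.mpr hk).le
  have hp := p_le hw k y r
  by_cases h : 2 < |(y - r) / (2 : ℝ) ^ k|
  · rw [far_zero hsupp h2 hp h, abs_zero]; positivity
  · have h1 := hB₁ ((y - r) / 2 ^ k) ((y - r) / 2 ^ k - (w y - w r) / 2 ^ k)
    rw [sub_sub_cancel] at h1
    refine h1.trans ?_
    have h3 : |(w y - w r) / (2 : ℝ) ^ k| ≤ δ * 2 :=
      hp.trans (mul_le_mul_of_nonneg_left (not_lt.mp h) h0)
    calc B₁ * |(w y - w r) / (2 : ℝ) ^ k| ≤ B₁ * (δ * 2) := mul_le_mul_of_nonneg_left h3 b1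
      _ = _ := by ring

theorem KK_supp (hsupp : ∀ r, 1 < |r| → φ r = 0) (h2 : δ ≤ 1 / 2)
    (hw : ∀ y y', |w y - w y'| ≤ δ * |y - y'|) (k : ℤ) (y r : ℝ)
    (h : 2 * (2 : ℝ) ^ k < |y - r|) : KK φ w k y r = 0 := by
  have hk : (0 : ℝ) < 2 ^ k := by positivity
  unfold KK
  rw [ph_div, far_zero hsupp h2 (p_le hw k y r), mul_zero]
  rw [abs_div, abs_of_pos hk, lt_div_iff₀ hk]
  exact h

theorem KK_lip (hd : Differentiable ℝ φ) (hB₁ : ∀ a b, |φ a - φ b| ≤ B₁ * |a - b|)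
    (hB₂ : ∀ a b, |deriv φ a - deriv φ b| ≤ B₂ * |a - b|) (hsupp : ∀ r, 1 < |r| → φ r = 0)
    (b1 : 0 ≤ B₁) (b2 : 0 ≤ B₂) (h0 : 0 ≤ δ) (h2 : δ ≤ 1 / 2)
    (hw : ∀ y y', |w y - w y'| ≤ δ * |y - y'|) (k : ℤ) (y r r' : ℝ) :
    |KK φ w k y r - KK φ w k y r'| ≤
      (B₁ + 2 * B₂) * δ * ((2 : ℝ) ^ k)⁻¹ * ((2 : ℝ) ^ k)⁻¹ * |r - r'| := by
  have hk : (0 : ℝ) < 2 ^ k := by positivity
  unfold KK
  rw [← mul_sub, abs_mul, abs_of_pos (inv_pos.mpr hk), ph_div, ph_div]
  have hpp : |(w y - w r) / (2 : ℝ) ^ k - (w y - w r') / 2 ^ k| ≤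
      δ * |(y - r) / 2 ^ k - (y - r') / 2 ^ k| := by
    rw [← sub_div, ← sub_div, abs_div, abs_div, abs_of_pos hk, ← mul_div_assoc]
    refine div_le_div_of_nonneg_right ?_ hk.le
    rw [show w y - w r - (w y - w r') = w r' - w r by ring,
      show y - r - (y - r') = r' - r by ring]
    exact hw r' r
  have h3 := dd2 hd hB₁ hB₂ hsupp b1 b2 h0 h2 (p_le hw k y r) (p_le hw k y r') hpp
  have h4 : |(y - r) / (2 : ℝ) ^ k - (y - r') / 2 ^ k| = ((2 : ℝ) ^ k)⁻¹ * |r - r'| := by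
    rw [← sub_div, show y - r - (y - r') = r' - r by ring, abs_div, abs_of_pos hk, abs_sub_comm,
      div_eq_inv_mul]
  rw [h4] at h3
  calc _ ≤ ((2 : ℝ) ^ k)⁻¹ * ((B₁ + 2 * B₂) * δ * (((2 : ℝ) ^ k)⁻¹ * |r - r'|)) :=
        mul_le_mul_of_nonneg_left h3 (inv_pos.mpr hk).le
    _ = _ := by ring

/-- the profile centred at `c`. -/
theorem prof_nice (hφ : Measurable φ) {B₀ : ℝ} (hB₀ : ∀ a, |φ a| ≤ B₀)
    (hsupp : ∀ r, 1 < |r| → φ r = 0) (k : ℤ) (c : ℝ) :
    Nice1 (fun s => ((2 : ℝ) ^ k)⁻¹ * φ ((c - s) / 2 ^ k)) := by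
  have hk : (0 : ℝ) < 2 ^ k := by positivity
  refine ⟨by fun_prop, ⟨((2 : ℝ) ^ k)⁻¹ * B₀, fun s => ?_⟩, |c| + 2 ^ k, fun s hs => ?_⟩
  · rw [abs_mul, abs_of_pos (inv_pos.mpr hk)]
    exact mul_le_mul_of_nonneg_left (hB₀ _) (inv_pos.mpr hk).le
  · have h1 : 1 < |(c - s) / (2 : ℝ) ^ k| := by
      rw [abs_div, abs_of_pos hk, lt_div_iff₀ hk, one_mul]
      have := abs_sub_abs_le_abs_sub s c
      rw [abs_sub_comm s c] at this
      linarith
    simp only [hsupp _ h1, mul_zero]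

theorem prof_int (hφ0 : ∫ r, φ r = 0) (k : ℤ) (c : ℝ) :
    ∫ s, ((2 : ℝ) ^ k)⁻¹ * φ ((c - s) / 2 ^ k) = 0 := by
  rw [integral_const_mul]
  have h1 := integral_sub_left_eq_self (fun s => φ (s / 2 ^ k)) volume c
  rw [h1, Measure.integral_comp_div, hφ0]
  simp

/-- the integral of the kernel over `r`, for `y` in a dyadic interval of length `2^n ≥ 2^k`. -/
theorem KK_int (hφc : Continuous φ) {B₀ : ℝ} (hB₀ : ∀ a, |φ a| ≤ B₀)
    (hsupp : ∀ r, 1 < |r| → φ r = 0) (hφ0 : ∫ r, φ r = 0) (h0 : 0 ≤ δ) (h2 : δ ≤ 1 / 2)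
    (hc : ContDiff ℝ 1 w) (hw : ∀ y y', |w y - w y'| ≤ δ * |y - y'|) {u : ℝ → ℝ}
    (hu : Measurable u) (hub : ∀ s, |u s| ≤ δ) (huw : ∀ y, u (Ph w y) = deriv w y)
    (k : ℤ) {n : ℤ} (hkn : k ≤ n) (y₀ y : ℝ) (hy : |y - y₀| ≤ 2 ^ n) :
    ∫ r, KK φ w k y r = - cv1 φ k
      (fun s => if |s - Ph w y₀| ≤ 3 * 2 ^ n then u s / (1 - u s) else 0) (Ph w y) := by
  have hk : (0 : ℝ) < 2 ^ k := by positivity
  have hkn' : (2 : ℝ) ^ k ≤ 2 ^ n := zpow_le_zpow_right₀ (by norm_num) hkn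
  have hpos : ∀ s, 1 / 2 ≤ 1 - u s := fun s => by
    have := (abs_le.mp (hub s)).2; linarith
  -- first profile
  have n1 := prof_nice hφc.measurable hB₀ hsupp k y
  have n2 := prof_nice hφc.measurable hB₀ hsupp k (Ph w y)
  have hb : Measurable (fun s => 1 / (1 - u s)) := measurable_const.div (measurable_const.sub hu)
  have hbb : ∀ s, |1 / (1 - u s)| ≤ 2 := fun s => by
    rw [abs_of_nonneg (by have := hpos s; positivity), div_le_iff₀ (by linarith [hpos s])]
    linarith [hpos s]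
  have n3 : Nice1 (fun s => (1 / (1 - u s)) * (((2 : ℝ) ^ k)⁻¹ * φ ((Ph w y - s) / 2 ^ k))) :=
    nice_mul hb hbb n2
  have e1 : ∫ s, (1 / (1 - u s)) * (((2 : ℝ) ^ k)⁻¹ * φ ((Ph w y - s) / 2 ^ k)) =
      ∫ r, ((2 : ℝ) ^ k)⁻¹ * φ ((Ph w y - Ph w r) / 2 ^ k) := by
    rw [cov h0 h2 hc hw]
    congr 1; ext r
    rw [huw]
    have h3 := (abs_le.mp (dw_le h0 hw r)).2
    have : (1 - deriv w r) ≠ 0 := by linarith
    field_simp
  have i1 : Integrable (fun r => ((2 : ℝ) ^ k)⁻¹ * φ ((Ph w y - Ph w r) / 2 ^ k)) :=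
    nice_integrable (nice_comp h2 hc.continuous hw n2)
  have e2 : ∫ r, KK φ w k y r = 0 - ∫ r, ((2 : ℝ) ^ k)⁻¹ * φ ((Ph w y - Ph w r) / 2 ^ k) := by
    rw [← prof_int hφ0 k y, ← integral_sub (nice_integrable n1) i1]
    congr 1; ext r; simp only [KK]; ring
  rw [e2, ← e1, cv1_eq, zero_sub, neg_inj]
  rw [← sub_eq_zero, ← integral_sub (nice_integrable n3)]
  · rw [← prof_int hφ0 k (Ph w y)]
    congr 1; ext s
    by_cases hs : |s - Ph w y₀| ≤ 3 * 2 ^ n
    · rw [if_pos hs]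
      have := hpos s
      have h5 : 1 - u s ≠ 0 := by linarith
      field_simp
    · rw [if_neg hs]
      have h6 : 1 < |(Ph w y - s) / (2 : ℝ) ^ k| := by
        rw [abs_div, abs_of_pos hk, lt_div_iff₀ hk, one_mul]
        have h7 := ph_lip h2 hw y y₀
        have h8 : |s - Ph w y₀| ≤ |Ph w y - s| + |Ph w y - Ph w y₀| := by
          have := abs_sub_le s (Ph w y) (Ph w y₀)
          rwa [abs_sub_comm s (Ph w y)] at this
        have h9 := not_le.mp hs
        nlinarith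
      rw [hsupp _ h6]
      simp
  · have hJ : Measurable (fun s => if |s - Ph w y₀| ≤ 3 * 2 ^ n then u s / (1 - u s) else 0) := by
      refine Measurable.ite ?_ (hu.div (measurable_const.sub hu)) measurable_const
      exact measurableSet_le (by fun_prop) measurable_const
    have hJb : ∀ s, |if |s - Ph w y₀| ≤ 3 * 2 ^ n then u s / (1 - u s) else 0| ≤ 1 := by
      intro s
      split_ifs
      · rw [abs_div, abs_of_nonneg (by linarith [hpos s] : 0 ≤ 1 - u s),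
          div_le_iff₀ (by linarith [hpos s])]
        linarith [hpos s, hub s]
      · simp
    refine (nice_integrable (nice_mul hJ hJb n2)).congr (ae_of_all _ fun s => ?_)
    simp only
    ring

/-- the localised Jacobian defect -/
def JJ (u : ℝ → ℝ) (c L s : ℝ) : ℝ := if |s - c| ≤ 3 * L then u s / (1 - u s) else 0

theorem JJ_nice {u : ℝ → ℝ} (hu : Measurable u) (hub : ∀ s, |u s| ≤ δ) (h2 : δ ≤ 1 / 2)
    (c L : ℝ) : Nice1 (JJ u c L) := by
  have hpos : ∀ s, 1 / 2 ≤ 1 - u s := fun s => by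
    have := (abs_le.mp (hub s)).2; linarith
  refine ⟨?_, ⟨1, fun s => ?_⟩, |c| + 3 * L, fun s hs => ?_⟩
  · unfold JJ
    refine Measurable.ite ?_ (hu.div (measurable_const.sub hu)) measurable_const
    exact measurableSet_le (by fun_prop) measurable_const
  · unfold JJ
    split_ifs
    · rw [abs_div, abs_of_nonneg (by linarith [hpos s] : 0 ≤ 1 - u s),
        div_le_iff₀ (by linarith [hpos s])]
      linarith [hpos s, hub s]
    · simp
  · unfold JJ
    rw [if_neg]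
    have := abs_sub_abs_le_abs_sub s c
    linarith

theorem JJ_sq {u : ℝ → ℝ} (hu : Measurable u) (hub : ∀ s, |u s| ≤ δ) (h0 : 0 ≤ δ)
    (h2 : δ ≤ 1 / 2) (c : ℝ) {L : ℝ} (hL : 0 ≤ L) : ∫ s, (JJ u c L s) ^ 2 ≤ 24 * δ ^ 2 * L := by
  have hpos : ∀ s, 1 / 2 ≤ 1 - u s := fun s => by
    have := (abs_le.mp (hub s)).2; linarith
  have h1 : ∀ s, (JJ u c L s) ^ 2 ≤ (Set.Icc (c - 3 * L) (c + 3 * L)).indicator
      (fun _ => 4 * δ ^ 2) s := by
    intro s
    unfold JJ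
    split_ifs with h
    · rw [Set.indicator_of_mem (by rw [Set.mem_Icc]; constructor <;> linarith [(abs_le.mp h).1, (abs_le.mp h).2])]
      have h3 : |u s / (1 - u s)| ≤ 2 * δ := by
        rw [abs_div, abs_of_nonneg (by linarith [hpos s] : 0 ≤ 1 - u s),
          div_le_iff₀ (by linarith [hpos s])]
        nlinarith [hpos s, hub s]
      calc (u s / (1 - u s)) ^ 2 = |u s / (1 - u s)| ^ 2 := (sq_abs _).symm
        _ ≤ (2 * δ) ^ 2 := pow_le_pow_left₀ (abs_nonneg _) h3 2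
        _ = _ := by ring
    · simp only [ne_eq, OfNat.ofNat_ne_zero, not_false_eq_true, zero_pow]
      exact Set.indicator_nonneg (fun _ _ => by positivity) s
  have h4 : Integrable ((Set.Icc (c - 3 * L) (c + 3 * L)).indicator
      (fun _ : ℝ => 4 * δ ^ 2)) := by
    rw [integrable_indicator_iff measurableSet_Icc]
    exact integrableOn_const (by simp)
  refine (integral_mono (nice_sq_integrable (JJ_nice hu hub h2 c L)) h4 h1).trans (le_of_eq ?_)
  rw [integral_indicator measurableSet_Icc, setIntegral_const]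
  simp only [measureReal_def, Real.volume_Icc, smul_eq_mul]
  rw [ENNReal.toReal_ofReal (by linarith)]
  ring

end

theorem lemL (hSQ : SQT1) (hLP : LPup) : LemL := by
  intro φ hφ
  obtain ⟨Cs, hCs0, hCs⟩ := hSQ
  obtain ⟨Cl, hCl0, hCl⟩ := hLP φ hφ
  obtain ⟨B₀, B₁, B₂, b0, b1, b2, hB₀, hB₁, hB₂⟩ := prof_consts hφ
  obtain ⟨hs, hsupp, hφ0⟩ := hφ
  have hφc : Continuous φ := hs.continuous
  have hd : Differentiable ℝ φ := hs.differentiable (by simp)
  set C₁ : ℝ := 2 * B₁ + 2 * B₂ + (48 * Cl + 1) with hC₁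
  have hC₁0 : 0 ≤ C₁ := by positivity
  have hC₁sq : 48 * Cl ≤ C₁ ^ 2 := by
    have : 48 * Cl + 1 ≤ C₁ := by rw [hC₁]; linarith
    nlinarith
  refine ⟨4 * Cs * C₁ ^ 2 + 16 * Cl, by positivity, ?_⟩
  intro δ w h0 h2 hc hw g hg F
  obtain ⟨u, hu, hub, huw⟩ := exists_u h0 h2 hc hw
  have hpos : ∀ s, 1 / 2 ≤ 1 - u s := fun s => by
    have := (abs_le.mp (hub s)).2; linarith
  have hgi := nice_sq_integrable hg
  set G : ℝ → ℝ := fun y => g (Ph w y) with hG
  have hGn : Nice1 G := nice_comp h2 hc.continuous hw hg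
  -- the square function part
  have hA : 0 ≤ C₁ * δ := mul_nonneg hC₁0 h0
  have part1 : ∑ k ∈ F, ∫ y, (∫ r, KK φ w k y r * G r) ^ 2 ≤
      Cs * (C₁ * δ) ^ 2 * ∫ y, (G y) ^ 2 := by
    refine hCs (C₁ * δ) (KK φ w) F hA (fun k _ => KK_meas hφc hc.continuous k)
      (fun k _ y r => ?_) (fun k _ y r h => KK_supp hsupp h2 hw k y r h)
      (fun k _ y r r' => ?_) (fun n m => ?_) G hGn
    · refine (KK_size hB₁ hsupp b1 h0 h2 hw k y r).trans ?_
      refine mul_le_mul_of_nonneg_right ?_ (by positivity)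
      refine mul_le_mul_of_nonneg_right ?_ h0
      rw [hC₁]; linarith
    · refine (KK_lip hd hB₁ hB₂ hsupp b1 b2 h0 h2 hw k y r r').trans ?_
      refine mul_le_mul_of_nonneg_right ?_ (abs_nonneg _)
      refine mul_le_mul_of_nonneg_right ?_ (by positivity)
      refine mul_le_mul_of_nonneg_right ?_ (by positivity)
      refine mul_le_mul_of_nonneg_right ?_ h0
      rw [hC₁]; linarith
    · -- Carleson condition
      have hn : (0 : ℝ) < 2 ^ n := by positivity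
      set y₀ : ℝ := (m : ℝ) * 2 ^ n with hy₀
      set J : ℝ → ℝ := JJ u (Ph w y₀) (2 ^ n) with hJ
      have hJn : Nice1 J := JJ_nice hu hub h2 _ _
      have step : ∀ k ∈ F.filter (· ≤ n),
          ∫ y in Set.Ico ((m : ℝ) * 2 ^ n) ((m + 1 : ℝ) * 2 ^ n), (∫ r, KK φ w k y r) ^ 2 ≤
            2 * ∫ s, (cv1 φ k J s) ^ 2 := by
        intro k hk
        have hkn : k ≤ n := (Finset.mem_filter.mp hk).2
        have hcvn : Nice1 (cv1 φ k J) := cv1_nice hφc.measurable hB₀ hsupp k hJn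
        have e1 : ∫ y in Set.Ico ((m : ℝ) * 2 ^ n) ((m + 1 : ℝ) * 2 ^ n),
            (∫ r, KK φ w k y r) ^ 2 =
            ∫ y in Set.Ico ((m : ℝ) * 2 ^ n) ((m + 1 : ℝ) * 2 ^ n), (cv1 φ k J (Ph w y)) ^ 2 := by
          refine setIntegral_congr_fun measurableSet_Ico fun y hy => ?_
          have hy' : |y - y₀| ≤ 2 ^ n := by
            rw [abs_le]
            constructor <;> nlinarith [hy.1, hy.2]
          have := KK_int hφc hB₀ hsupp hφ0 h0 h2 hc hw hu hub huw k hkn y₀ y hy'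
          simp only [this, neg_sq]
          rfl
        rw [e1]
        refine (setIntegral_le_integral (nice_sq_integrable (nice_comp h2 hc.continuous hw hcvn))
          (ae_of_all _ fun y => sq_nonneg _)).trans ?_
        exact cov_le h0 h2 hc hw (nice_sq_integrable hcvn) (fun s => sq_nonneg _)
      refine (Finset.sum_le_sum step).trans ?_
      rw [← Finset.mul_sum]
      have h5 := hCl J hJn (F.filter (· ≤ n))
      have h6 := JJ_sq hu hub h0 h2 (Ph w y₀) hn.le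
      have h7 : Cl * ∫ y, (J y) ^ 2 ≤ Cl * (24 * δ ^ 2 * 2 ^ n) :=
        mul_le_mul_of_nonneg_left h6 hCl0
      have h8 : 48 * Cl * (δ ^ 2 * 2 ^ n) ≤ C₁ ^ 2 * (δ ^ 2 * 2 ^ n) :=
        mul_le_mul_of_nonneg_right hC₁sq (by positivity)
      nlinarith
  -- the second part
  set h : ℝ → ℝ := fun s => (u s / (1 - u s)) * g s with hh
  have hbm : Measurable (fun s => u s / (1 - u s)) := hu.div (measurable_const.sub hu)
  have hbb : ∀ s, |u s / (1 - u s)| ≤ 2 * δ := fun s => by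
    rw [abs_div, abs_of_nonneg (by linarith [hpos s] : 0 ≤ 1 - u s),
      div_le_iff₀ (by linarith [hpos s])]
    nlinarith [hpos s, hub s]
  have hhn : Nice1 h := nice_mul hbm hbb hg
  have hhsq : ∫ s, (h s) ^ 2 ≤ 4 * δ ^ 2 * ∫ s, (g s) ^ 2 := by
    rw [← integral_const_mul]
    refine integral_mono (nice_sq_integrable hhn) (hgi.const_mul _) fun s => ?_
    simp only [hh, mul_pow]
    refine mul_le_mul_of_nonneg_right ?_ (sq_nonneg _)
    calc (u s / (1 - u s)) ^ 2 = |u s / (1 - u s)| ^ 2 := (sq_abs _).symm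
      _ ≤ (2 * δ) ^ 2 := pow_le_pow_left₀ (abs_nonneg _) (hbb s) 2
      _ = _ := by ring
  have hcvh : ∀ k, Nice1 (cv1 φ k h) := fun k => cv1_nice hφc.measurable hB₀ hsupp k hhn
  have part2 : ∑ k ∈ F, ∫ y, (cv1 φ k h (Ph w y)) ^ 2 ≤ 2 * (Cl * ∫ s, (h s) ^ 2) := by
    refine (Finset.sum_le_sum fun k _ => cov_le h0 h2 hc hw (nice_sq_integrable (hcvh k))
      (fun s => sq_nonneg _)).trans ?_
    rw [← Finset.mul_sum]
    exact mul_le_mul_of_nonneg_left (hCl h hhn F) (by norm_num)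
  -- the decomposition
  have dec : ∀ k y, cv1 φ k G y - cv1 φ k g (Ph w y) =
      (∫ r, KK φ w k y r * G r) + cv1 φ k h (Ph w y) := by
    intro k y
    have hk : (0 : ℝ) < 2 ^ k := by positivity
    rw [cv1_eq φ k G, cv1_eq φ k g, cv1_eq φ k h,
      cov h0 h2 hc hw (fun s => ((2 : ℝ) ^ k)⁻¹ * φ ((Ph w y - s) / 2 ^ k) * g s),
      cov h0 h2 hc hw (fun s => ((2 : ℝ) ^ k)⁻¹ * φ ((Ph w y - s) / 2 ^ k) * h s)]
    have m1 : Measurable (fun t => ((2 : ℝ) ^ k)⁻¹ * φ ((y - t) / 2 ^ k)) := by fun_prop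
    have m2 : Measurable (fun t => ((2 : ℝ) ^ k)⁻¹ * φ ((Ph w y - Ph w t) / 2 ^ k)) := by
      apply Continuous.measurable
      have := hc.continuous
      unfold Ph
      fun_prop
    have bb : ∀ a, |((2 : ℝ) ^ k)⁻¹ * φ a| ≤ ((2 : ℝ) ^ k)⁻¹ * B₀ := fun a => by
      rw [abs_mul, abs_of_pos (inv_pos.mpr hk)]
      exact mul_le_mul_of_nonneg_left (hB₀ _) (inv_pos.mpr hk).le
    have mw : Measurable (fun t => deriv w t) := (hc.continuous_deriv le_rfl).measurable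
    have n1 : Nice1 (fun t => (((2 : ℝ) ^ k)⁻¹ * φ ((y - t) / 2 ^ k)) * G t) :=
      nice_mul m1 (fun t => bb _) hGn
    have n2 : Nice1 (fun t => (((2 : ℝ) ^ k)⁻¹ * φ ((Ph w y - Ph w t) / 2 ^ k)) * G t) :=
      nice_mul m2 (fun t => bb _) hGn
    have n3 : Nice1 (fun t => deriv w t *
        ((((2 : ℝ) ^ k)⁻¹ * φ ((Ph w y - Ph w t) / 2 ^ k)) * G t)) :=
      nice_mul mw (fun t => dw_le h0 hw t) n2
    have e1 : ∫ t, (1 - deriv w t) *
        (((2 : ℝ) ^ k)⁻¹ * φ ((Ph w y - Ph w t) / 2 ^ k) * g (Ph w t)) =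
        (∫ t, (((2 : ℝ) ^ k)⁻¹ * φ ((Ph w y - Ph w t) / 2 ^ k)) * G t) -
        ∫ t, deriv w t * ((((2 : ℝ) ^ k)⁻¹ * φ ((Ph w y - Ph w t) / 2 ^ k)) * G t) := by
      rw [← integral_sub (nice_integrable n2) (nice_integrable n3)]
      congr 1; ext t; simp only [hG]; ring
    have e2 : ∫ t, (1 - deriv w t) *
        (((2 : ℝ) ^ k)⁻¹ * φ ((Ph w y - Ph w t) / 2 ^ k) * h (Ph w t)) =
        ∫ t, deriv w t * ((((2 : ℝ) ^ k)⁻¹ * φ ((Ph w y - Ph w t) / 2 ^ k)) * G t) := by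
      congr 1; ext t
      simp only [hh, hG, huw]
      have h3 := (abs_le.mp (dw_le h0 hw t)).2
      have : (1 - deriv w t) ≠ 0 := by linarith
      field_simp
    have e3 : ∫ r, KK φ w k y r * G r =
        (∫ t, (((2 : ℝ) ^ k)⁻¹ * φ ((y - t) / 2 ^ k)) * G t) -
        ∫ t, (((2 : ℝ) ^ k)⁻¹ * φ ((Ph w y - Ph w t) / 2 ^ k)) * G t := by
      rw [← integral_sub (nice_integrable n1) (nice_integrable n2)]
      congr 1; ext t; simp only [KK]; ring
    rw [e1, e2, e3]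
    ring
  have hD : ∀ k, Nice1 (fun y => cv1 φ k G y - cv1 φ k g (Ph w y)) := fun k =>
    nice_sub (cv1_nice hφc.measurable hB₀ hsupp k hGn)
      (nice_comp h2 hc.continuous hw (cv1_nice hφc.measurable hB₀ hsupp k hg))
  have hS : ∀ k, Nice1 (fun y => ∫ r, KK φ w k y r * G r) := fun k => by
    have := nice_sub (hD k) (nice_comp h2 hc.continuous hw (hcvh k))
    convert this using 2 with y
    rw [dec]; ring
  have key : ∀ k ∈ F, ∫ y, (cv1 φ k (fun y => g (y - w y)) y - cv1 φ k g (y - w y)) ^ 2 ≤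
      2 * (∫ y, (∫ r, KK φ w k y r * G r) ^ 2) + 2 * ∫ y, (cv1 φ k h (Ph w y)) ^ 2 := by
    intro k _
    have i1 := nice_sq_integrable (hS k)
    have i2 := nice_sq_integrable (nice_comp h2 hc.continuous hw (hcvh k))
    rw [← integral_const_mul, ← integral_const_mul,
      ← integral_add (i1.const_mul 2) (i2.const_mul 2)]
    refine integral_mono (nice_sq_integrable (hD k)) ((i1.const_mul 2).add (i2.const_mul 2))
      fun y => ?_
    have := dec k y
    show (cv1 φ k G y - cv1 φ k g (Ph w y)) ^ 2 ≤ _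
    rw [this]
    nlinarith [sq_nonneg ((∫ r, KK φ w k y r * G r) - cv1 φ k h (Ph w y))]
  have hG2 : ∫ y, (G y) ^ 2 ≤ 2 * ∫ s, (g s) ^ 2 :=
    cov_le h0 h2 hc hw hgi (fun s => sq_nonneg _)
  have hg0 : 0 ≤ ∫ s, (g s) ^ 2 := integral_nonneg fun s => sq_nonneg _
  calc ∑ k ∈ F, ∫ y, (cv1 φ k (fun y => g (y - w y)) y - cv1 φ k g (y - w y)) ^ 2
      ≤ ∑ k ∈ F, (2 * (∫ y, (∫ r, KK φ w k y r * G r) ^ 2) +
          2 * ∫ y, (cv1 φ k h (Ph w y)) ^ 2) := Finset.sum_le_sum key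
    _ = 2 * ∑ k ∈ F, (∫ y, (∫ r, KK φ w k y r * G r) ^ 2) +
          2 * ∑ k ∈ F, ∫ y, (cv1 φ k h (Ph w y)) ^ 2 := by
        rw [Finset.sum_add_distrib, Finset.mul_sum, Finset.mul_sum]
    _ ≤ 2 * (Cs * (C₁ * δ) ^ 2 * (2 * ∫ s, (g s) ^ 2)) +
          2 * (2 * (Cl * (4 * δ ^ 2 * ∫ s, (g s) ^ 2))) := by
        refine add_le_add (mul_le_mul_of_nonneg_left (part1.trans ?_) (by norm_num))
          (mul_le_mul_of_nonneg_left (part2.trans ?_) (by norm_num))
        · exact mul_le_mul_of_nonneg_left hG2 (by positivity)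
        · exact mul_le_mul_of_nonneg_left (mul_le_mul_of_nonneg_left hhsq hCl0) (by norm_num)
    _ = (4 * Cs * C₁ ^ 2 + 16 * Cl) * δ ^ 2 * ∫ s, (g s) ^ 2 := by ring

end Crest.Agent.R087.LemLx118
end
end

-- ▼ part R087/S12A_575
section

/-!
Row 87, SHELL S12, part A (helper575): general facts on `tk`: measurability, boundedness, and the
`L²` bound when the field is `c`-Lipschitz in `y` and the kernel lives in `|t| ≤ τ`, `τ c ≤ 1/2`.
-/

set_option autoImplicit false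

noncomputable section

open MeasureTheory Crest.Agent.R087.Sh0x283 Crest.Agent.R087.Sh1x283
open scoped ENNReal NNReal

namespace Crest.Agent.R087.S12Ax575

/-- change of variables inequality for `y ↦ y - w y`, `w` `1/2`-Lipschitz -/
theorem lintegral_sub_le {w : ℝ → ℝ} (hw : ∀ y y', |w y - w y'| ≤ 1 / 2 * |y - y'|)
    {h : ℝ → ℝ≥0∞} (hh : Measurable h) : ∫⁻ y, h (y - w y) ≤ 2 * ∫⁻ y, h y := by
  set Φ : ℝ → ℝ := fun y => y - w y with hΦ
  have hwL : LipschitzWith (1 / 2 : ℝ≥0) w := by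
    refine LipschitzWith.of_dist_le_mul fun y y' => ?_
    rw [Real.dist_eq, Real.dist_eq]
    simpa using hw y y'
  have hΦm : Measurable Φ := measurable_id.sub hwL.continuous.measurable
  have hanti : AntilipschitzWith 2 Φ := by
    refine AntilipschitzWith.of_le_mul_dist fun y y' => ?_
    rw [Real.dist_eq, Real.dist_eq]
    have h1 := hw y y'
    have h2 : |y - y'| ≤ |Φ y - Φ y'| + |w y - w y'| := by
      have : y - y' = (Φ y - Φ y') + (w y - w y') := by simp only [hΦ]; ring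
      rw [this]
      exact abs_add_le _ _
    have h3 : ((2 : ℝ≥0) : ℝ) = 2 := by norm_num
    rw [h3]
    linarith
  have hmap : Measure.map Φ volume ≤ (2 : ℝ≥0∞) • (volume : Measure ℝ) := by
    refine Measure.le_iff.2 fun s hs => ?_
    rw [Measure.map_apply hΦm hs, Measure.smul_apply, smul_eq_mul]
    have := hanti.hausdorffMeasure_preimage_le (d := 1) zero_le_one s
    rw [hausdorffMeasure_real] at this
    simpa using this
  calc ∫⁻ y, h (y - w y) = ∫⁻ y, h y ∂(Measure.map Φ volume) := by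
        rw [lintegral_map hh hΦm]
    _ ≤ ∫⁻ y, h y ∂((2 : ℝ≥0∞) • (volume : Measure ℝ)) := lintegral_mono' hmap le_rfl
    _ = 2 * ∫⁻ y, h y := by rw [lintegral_smul_measure, smul_eq_mul]

/-- the point map -/
def pt (U : ℝ × ℝ → ℝ) (t : ℝ) (z : ℝ × ℝ) : ℝ × ℝ := (z.1 - t, z.2 - t * U z)

theorem measurable_pt {U : ℝ × ℝ → ℝ} (hU : Measurable U) :
    Measurable (fun p : (ℝ × ℝ) × ℝ => pt U p.2 p.1) := by
  unfold pt
  have h1 : Measurable (fun p : (ℝ × ℝ) × ℝ => U p.1) := hU.comp measurable_fst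
  fun_prop

theorem lintegral_pt_le {U : ℝ × ℝ → ℝ} {c : ℝ} (hU : Measurable U)
    (hUL : ∀ x y y' : ℝ, |U (x, y) - U (x, y')| ≤ c * |y - y'|) {t : ℝ} (ht : |t| * c ≤ 1 / 2)
    {G : ℝ × ℝ → ℝ≥0∞} (hG : Measurable G) :
    ∫⁻ z, G (pt U t z) ≤ 2 * ∫⁻ z, G z := by
  have hm : Measurable (fun z => G (pt U t z)) :=
    hG.comp ((measurable_pt hU).comp (measurable_id.prodMk measurable_const))
  rw [Measure.volume_eq_prod, lintegral_prod _ hm.aemeasurable, lintegral_prod _ hG.aemeasurable]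
  have h1 : ∀ x : ℝ, ∫⁻ y, G (pt U t (x, y)) ≤ 2 * ∫⁻ y, G (x - t, y) := by
    intro x
    have hg : Measurable (fun y : ℝ => G (x - t, y)) := hG.comp (by fun_prop)
    refine lintegral_sub_le (w := fun y => t * U (x, y)) (fun y y' => ?_) hg
    rw [← mul_sub, abs_mul]
    calc |t| * |U (x, y) - U (x, y')| ≤ |t| * (c * |y - y'|) :=
          mul_le_mul_of_nonneg_left (hUL x y y') (abs_nonneg t)
      _ = (|t| * c) * |y - y'| := by ring
      _ ≤ 1 / 2 * |y - y'| := mul_le_mul_of_nonneg_right ht (abs_nonneg _)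
  calc ∫⁻ x, ∫⁻ y, G (pt U t (x, y)) ≤ ∫⁻ x, 2 * ∫⁻ y, G (x - t, y) := lintegral_mono h1
    _ = 2 * ∫⁻ x, ∫⁻ y, G (x - t, y) := by
        rw [lintegral_const_mul]
        exact Measurable.lintegral_prod_right' (f := fun p : ℝ × ℝ => G (p.1 - t, p.2))
          (hG.comp (by fun_prop))
    _ = 2 * ∫⁻ x, ∫⁻ y, G (x, y) := by
        rw [lintegral_sub_right_eq_self (fun x => ∫⁻ y, G (x, y)) t]

/-! ### Nice functions -/

theorem integrable_of_nice {f : ℝ × ℝ → ℝ} (hf : Nice f) : Integrable f := by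
  obtain ⟨hm, ⟨M, hM⟩, R, hR⟩ := hf
  have hsub : Function.support f ⊆ Metric.closedBall (0 : ℝ × ℝ) R := by
    intro z hz
    by_contra h
    apply hz
    apply hR
    simpa using h
  rw [← integrableOn_iff_integrable_of_support_subset hsub]
  refine Measure.integrableOn_of_bounded (M := M) ?_ hm.aestronglyMeasurable
    (Filter.Eventually.of_forall fun z => hM z)
  exact (isCompact_closedBall (0 : ℝ × ℝ) R).measure_lt_top.ne

theorem nice_sq {f : ℝ × ℝ → ℝ} (hf : Nice f) : Nice (fun z => (f z) ^ 2) := by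
  obtain ⟨hm, ⟨M, hM⟩, R, hR⟩ := hf
  refine ⟨hm.pow_const 2, ⟨M ^ 2, fun z => ?_⟩, R, fun z hz => ?_⟩
  · rw [abs_pow]
    exact pow_le_pow_left₀ (abs_nonneg _) (hM z) 2
  · show (f z) ^ 2 = 0
    rw [hR z hz]; ring

theorem nice_abs {f : ℝ × ℝ → ℝ} (hf : Nice f) : Nice (fun z => |f z|) := by
  obtain ⟨hm, ⟨M, hM⟩, R, hR⟩ := hf
  refine ⟨hm.abs, ⟨M, fun z => ?_⟩, R, fun z hz => ?_⟩
  · rw [abs_abs]; exact hM z
  · show |f z| = 0
    rw [hR z hz, abs_zero]

/-- kernels: measurable, bounded, supported in `[-1,1]` -/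
structure Ker (K : ℝ → ℝ) (M : ℝ) (τ : ℝ) : Prop where
  meas : Measurable K
  bound : ∀ t, |K t| ≤ M
  supp : ∀ t, τ < |t| → K t = 0

theorem Ker.nonneg {K : ℝ → ℝ} {M τ : ℝ} (h : Ker K M τ) : 0 ≤ M :=
  (abs_nonneg _).trans (h.bound 0)

theorem Ker.abs {K : ℝ → ℝ} {M τ : ℝ} (h : Ker K M τ) : Ker (fun t => |K t|) M τ :=
  ⟨h.meas.abs, fun t => by rw [abs_abs]; exact h.bound t, fun t ht => by rw [h.supp t ht, abs_zero]⟩

/-- products of a kernel with a bounded measurable function are integrable -/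
theorem Ker.integrable_mul {K : ℝ → ℝ} {M τ : ℝ} (h : Ker K M τ) {g : ℝ → ℝ} (hg : Measurable g)
    {N : ℝ} (hN : ∀ t, |g t| ≤ N) : Integrable (fun t => K t * g t) := by
  have hsub : Function.support (fun t => K t * g t) ⊆ Metric.closedBall (0 : ℝ) τ := by
    intro t ht
    by_contra h'
    apply ht
    have : τ < |t| := by simpa using h'
    show K t * g t = 0
    rw [h.supp t this, zero_mul]
  rw [← integrableOn_iff_integrable_of_support_subset hsub]
  refine Measure.integrableOn_of_bounded (M := M * N) ?_ (h.meas.mul hg).aestronglyMeasurable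
    (Filter.Eventually.of_forall fun t => ?_)
  · exact (isCompact_closedBall (0 : ℝ) τ).measure_lt_top.ne
  · rw [norm_mul]
    exact mul_le_mul (h.bound t) (hN t) (abs_nonneg _) h.nonneg

theorem Ker.integrable {K : ℝ → ℝ} {M τ : ℝ} (h : Ker K M τ) : Integrable K := by
  simpa using h.integrable_mul (g := fun _ => 1) measurable_const (N := 1) (fun t => by simp)

theorem tk_eq (K : ℝ → ℝ) (U f : ℝ × ℝ → ℝ) (z : ℝ × ℝ) :
    tk K U f z = ∫ t, K t * f (pt U t z) := rfl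

theorem measurable_tk {K : ℝ → ℝ} (hK : Measurable K) {U f : ℝ × ℝ → ℝ} (hU : Measurable U)
    (hf : Measurable f) : Measurable (tk K U f) := by
  have h1 : Measurable (fun p : (ℝ × ℝ) × ℝ => K p.2 * f (pt U p.2 p.1)) :=
    (hK.comp measurable_snd).mul (hf.comp (measurable_pt hU))
  exact (h1.stronglyMeasurable.integral_prod_right' (ν := volume)).measurable

theorem measurable_slice {U f : ℝ × ℝ → ℝ} (hU : Measurable U) (hf : Measurable f) (z : ℝ × ℝ) :
    Measurable (fun t => f (pt U t z)) := by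
  unfold pt
  exact hf.comp (by fun_prop)

theorem nice_tk {K : ℝ → ℝ} {M τ : ℝ} (hK : Ker K M τ) {U f : ℝ × ℝ → ℝ}
    (hU : Measurable U) (hUb : ∃ W : ℝ, ∀ z, |U z| ≤ W) (hf : Nice f) : Nice (tk K U f) := by
  obtain ⟨W, hW⟩ := hUb
  obtain ⟨hm, ⟨N, hN⟩, R, hR⟩ := hf
  refine ⟨measurable_tk hK.meas hU hm, ⟨(∫ t, |K t|) * N, fun z => ?_⟩, R + |τ| * (1 + W),
    fun z hz => ?_⟩
  · rw [tk_eq]
    calc |∫ t, K t * f (pt U t z)| ≤ ∫ t, |K t * f (pt U t z)| := abs_integral_le_integral_abs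
      _ ≤ ∫ t, |K t| * N := by
          refine integral_mono_of_nonneg (Filter.Eventually.of_forall fun t => abs_nonneg _)
            (hK.integrable.abs.mul_const N) (Filter.Eventually.of_forall fun t => ?_)
          show |K t * f (pt U t z)| ≤ |K t| * N
          rw [abs_mul]
          exact mul_le_mul_of_nonneg_left (hN _) (abs_nonneg _)
      _ = (∫ t, |K t|) * N := integral_mul_const _ _
  · rw [tk_eq]
    have h0 : ∀ t, K t * f (pt U t z) = 0 := by
      intro t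
      by_cases ht : τ < |t|
      · rw [hK.supp t ht, zero_mul]
      · rw [hR _ ?_, mul_zero]
        push Not at ht
        have h1 : ‖z‖ ≤ ‖pt U t z‖ + ‖((t, t * U z) : ℝ × ℝ)‖ := by
          have : z = pt U t z + (t, t * U z) := by
            ext <;> simp [pt]
          calc ‖z‖ = ‖pt U t z + (t, t * U z)‖ := by rw [← this]
            _ ≤ _ := norm_add_le _ _
        have hW0 : 0 ≤ W := (abs_nonneg _).trans (hW z)
        have h2 : ‖((t, t * U z) : ℝ × ℝ)‖ ≤ |τ| * (1 + W) := by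
          rw [Prod.norm_def, max_le_iff]
          simp only [Real.norm_eq_abs, abs_mul]
          have h3 : |t| ≤ |τ| := ht.trans (le_abs_self _)
          constructor
          · nlinarith [abs_nonneg τ, abs_nonneg t]
          · nlinarith [abs_nonneg τ, abs_nonneg t, hW z, abs_nonneg (U z),
              mul_le_mul h3 (hW z) (abs_nonneg _) (abs_nonneg _)]
        linarith
    simp [h0]

/-- Cauchy-Schwarz with weight -/
theorem cs_weight {p h : ℝ → ℝ} (hp : ∀ t, 0 ≤ p t) (h0 : Integrable p)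
    (h1 : Integrable (fun t => p t * h t)) (h2 : Integrable (fun t => p t * (h t) ^ 2)) :
    (∫ t, p t * h t) ^ 2 ≤ (∫ t, p t) * ∫ t, p t * (h t) ^ 2 := by
  have key : ∀ x : ℝ, 0 ≤ (∫ t, p t) * (x * x) + (-2 * ∫ t, p t * h t) * x +
      ∫ t, p t * (h t) ^ 2 := by
    intro x
    have e : (∫ t, p t) * (x * x) + (-2 * ∫ t, p t * h t) * x + ∫ t, p t * (h t) ^ 2
        = ∫ t, p t * (x - h t) ^ 2 := by
      have e1 : (fun t => p t * (x - h t) ^ 2) =
          fun t => (p t * (x * x) + (-2 * x) * (p t * h t)) + p t * (h t) ^ 2 := by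
        funext t; ring
      have i01 : Integrable (fun t => p t * (x * x) + (-2 * x) * (p t * h t)) :=
        (h0.mul_const _).add (h1.const_mul _)
      rw [e1, integral_add i01 h2,
        integral_add (h0.mul_const _) (h1.const_mul _), integral_mul_const, integral_const_mul]
      ring
    rw [e]
    exact integral_nonneg fun t => mul_nonneg (hp t) (sq_nonneg _)
  have := discrim_le_zero key
  rw [discrim] at this
  nlinarith

/-- the `L²` bound -/
theorem l2_tk {K : ℝ → ℝ} {M τ c : ℝ} (hK : Ker K M τ) (hc : 0 ≤ c) (hτ : τ * c ≤ 1 / 2)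
    {U f : ℝ × ℝ → ℝ} (hU : Measurable U)
    (hUL : ∀ x y y' : ℝ, |U (x, y) - U (x, y')| ≤ c * |y - y'|) (hf : Nice f) :
    ∫ z, (tk K U f z) ^ 2 ≤ 2 * (∫ t, |K t|) ^ 2 * ∫ z, (f z) ^ 2 := by
  set k : ℝ := ∫ t, |K t| with hk
  have hk0 : 0 ≤ k := integral_nonneg fun t => abs_nonneg _
  obtain ⟨N, hN⟩ := hf.2.1
  have hfm := hf.1
  set G : ℝ × ℝ → ℝ≥0∞ := fun z => ENNReal.ofReal ((f z) ^ 2) with hG
  have hGm : Measurable G := (hfm.pow_const 2).ennreal_ofReal
  have hint : Integrable (fun z => (f z) ^ 2) := integrable_of_nice (nice_sq hf)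
  have hGint : ∫⁻ z, G z = ENNReal.ofReal (∫ z, (f z) ^ 2) :=
    (ofReal_integral_eq_lintegral_ofReal hint
      (Filter.Eventually.of_forall fun z => sq_nonneg _)).symm
  -- pointwise
  have hpt : ∀ z, ENNReal.ofReal ((tk K U f z) ^ 2) ≤
      ENNReal.ofReal k * ∫⁻ t, ENNReal.ofReal |K t| * G (pt U t z) := by
    intro z
    have hms := measurable_slice hU hfm z
    have i0 : Integrable (fun t => |K t|) := hK.integrable.abs
    have i1 : Integrable (fun t => |K t| * |f (pt U t z)|) :=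
      hK.abs.integrable_mul hms.abs (N := N) fun t => by rw [abs_abs]; exact hN _
    have i2 : Integrable (fun t => |K t| * |f (pt U t z)| ^ 2) :=
      hK.abs.integrable_mul (hms.abs.pow_const 2) (N := N ^ 2) fun t => by
        rw [abs_pow, abs_abs]; exact pow_le_pow_left₀ (abs_nonneg _) (hN _) 2
    have h1 : (tk K U f z) ^ 2 ≤ k * ∫ t, |K t| * |f (pt U t z)| ^ 2 := by
      refine le_trans ?_ (cs_weight (fun t => abs_nonneg (K t)) i0 i1 i2)
      rw [← sq_abs]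
      refine pow_le_pow_left₀ (abs_nonneg _) ?_ 2
      rw [tk_eq]
      refine abs_integral_le_integral_abs.trans (le_of_eq ?_)
      simp only [abs_mul]
    calc ENNReal.ofReal ((tk K U f z) ^ 2)
        ≤ ENNReal.ofReal (k * ∫ t, |K t| * |f (pt U t z)| ^ 2) := ENNReal.ofReal_le_ofReal h1
      _ = ENNReal.ofReal k * ENNReal.ofReal (∫ t, |K t| * |f (pt U t z)| ^ 2) :=
          ENNReal.ofReal_mul hk0
      _ = ENNReal.ofReal k * ∫⁻ t, ENNReal.ofReal |K t| * G (pt U t z) := by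
          rw [ofReal_integral_eq_lintegral_ofReal i2 (Filter.Eventually.of_forall fun t =>
            mul_nonneg (abs_nonneg _) (sq_nonneg _))]
          congr 1
          refine lintegral_congr fun t => ?_
          rw [ENNReal.ofReal_mul (abs_nonneg _), sq_abs]
  have hlin : ∫⁻ z, ENNReal.ofReal ((tk K U f z) ^ 2) ≤
      ENNReal.ofReal (2 * k ^ 2 * ∫ z, (f z) ^ 2) := by
    have hm2 : Measurable (fun p : (ℝ × ℝ) × ℝ => ENNReal.ofReal |K p.2| * G (pt U p.2 p.1)) :=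
      ((hK.meas.comp measurable_snd).abs.ennreal_ofReal).mul (hGm.comp (measurable_pt hU))
    calc ∫⁻ z, ENNReal.ofReal ((tk K U f z) ^ 2)
        ≤ ∫⁻ z, ENNReal.ofReal k * ∫⁻ t, ENNReal.ofReal |K t| * G (pt U t z) := lintegral_mono hpt
      _ = ENNReal.ofReal k * ∫⁻ z, ∫⁻ t, ENNReal.ofReal |K t| * G (pt U t z) := by
          rw [lintegral_const_mul]
          exact hm2.lintegral_prod_right'
      _ = ENNReal.ofReal k * ∫⁻ t, ∫⁻ z, ENNReal.ofReal |K t| * G (pt U t z) := by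
          rw [lintegral_lintegral_swap (f := fun z t => ENNReal.ofReal |K t| * G (pt U t z))
            hm2.aemeasurable]
      _ ≤ ENNReal.ofReal k * ∫⁻ t, ENNReal.ofReal |K t| * (2 * ∫⁻ z, G z) := by
          gcongr with t
          have hmz : Measurable (fun z => G (pt U t z)) :=
            hGm.comp ((measurable_pt hU).comp (measurable_id.prodMk measurable_const))
          rw [lintegral_const_mul _ hmz]
          by_cases ht : τ < |t|
          · rw [hK.supp t ht]; simp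
          · push Not at ht
            gcongr
            exact lintegral_pt_le hU hUL
              ((mul_le_mul_of_nonneg_right ht hc).trans hτ) hGm
      _ = ENNReal.ofReal (2 * k ^ 2 * ∫ z, (f z) ^ 2) := by
          rw [lintegral_mul_const _ hK.meas.abs.ennreal_ofReal,
            ← ofReal_integral_eq_lintegral_ofReal hK.integrable.abs
              (Filter.Eventually.of_forall fun t => abs_nonneg _), hGint]
          have h2 : (2 : ℝ≥0∞) = ENNReal.ofReal 2 := by simp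
          have hI : 0 ≤ ∫ z, (f z) ^ 2 := integral_nonneg fun z => sq_nonneg _
          rw [h2, ← ENNReal.ofReal_mul (by norm_num), ← hk, ← ENNReal.ofReal_mul hk0,
            ← ENNReal.ofReal_mul hk0]
          congr 1
          ring
  rw [integral_eq_lintegral_of_nonneg_ae (Filter.Eventually.of_forall fun z => sq_nonneg _)
    ((measurable_tk hK.meas hU hfm).pow_const 2).aestronglyMeasurable]
  refine ENNReal.toReal_le_of_le_ofReal ?_ hlin
  have hI : 0 ≤ ∫ z, (f z) ^ 2 := integral_nonneg fun z => sq_nonneg _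
  positivity

end Crest.Agent.R087.S12Ax575
end
end

-- ▼ part R087/S12_575
section

/-!
Row 87, SHELL S12 (helper575): `MODL` for all cutoffs implies the local estimate `LOCR`.
-/

set_option autoImplicit false

noncomputable section

open MeasureTheory Crest.Agent.R087.Sh0x283 Crest.Agent.R087.Sh1x283 Crest.Agent.R087.S12Ax575
open scoped ENNReal NNReal

namespace Crest.Agent.R087.S12x575

theorem exists_eta : ∃ η : ℝ → ℝ, EtaC η := by
  let b : ContDiffBump (0 : ℝ) := ⟨1 / 2, 1, by norm_num, by norm_num⟩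
  refine ⟨b, b.contDiff, fun t => b.neg t, fun t => b.nonneg, fun t => b.le_one, fun t ht => ?_,
    fun t ht => ?_⟩
  · apply b.one_of_mem_closedBall
    simpa [b] using ht
  · apply b.zero_of_le_dist
    simpa [b] using ht

theorem clamp_le (b x y : ℝ) :
    |max (-b) (min b x) - max (-b) (min b y)| ≤ |x - y| := by
  have h1 : |max (-b) (min b x) - max (-b) (min b y)| ≤ max |(-b) - (-b)| |min b x - min b y| :=
    abs_max_sub_max_le_max _ _ _ _
  have h2 : |min b x - min b y| ≤ max |b - b| |x - y| := abs_min_sub_min_le_max _ _ _ _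
  rw [sub_self, abs_zero] at h1 h2
  have h3 : max 0 |min b x - min b y| = |min b x - min b y| := max_eq_right (abs_nonneg _)
  have h4 : max 0 |x - y| = |x - y| := max_eq_right (abs_nonneg _)
  rw [h3] at h1
  rw [h4] at h2
  exact h1.trans h2

/-- the extended slope field -/
theorem exists_field {v₁ v₂ : ℝ × ℝ → ℝ} (hv : ∀ z, v₁ z ^ 2 + v₂ z ^ 2 = 1)
    (hL : ∀ z z', (v₁ z - v₁ z') ^ 2 + (v₂ z - v₂ z') ^ 2 ≤ (z.1 - z'.1) ^ 2 + (z.2 - z'.2) ^ 2)
    (h1 : v₁ (0, 0) = 1) (h2 : v₂ (0, 0) = 0) {a : ℝ} (ha : 0 < a) (ha' : a < 1 / 20) :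
    ∃ U : ℝ × ℝ → ℝ, Fld 3 U ∧ (∀ z, |U z| ≤ 1 / 10) ∧
      ∀ z : ℝ × ℝ, z.1 ^ 2 + z.2 ^ 2 < a ^ 2 → 19 / 20 ≤ v₁ z ∧ v₁ z ≤ 1 ∧ v₂ z = v₁ z * U z := by
  set s : Set (ℝ × ℝ) := {z | z.1 ^ 2 + z.2 ^ 2 < a ^ 2} with hs
  have hb : ∀ z ∈ s, 19 / 20 ≤ v₁ z ∧ v₁ z ≤ 1 ∧ |v₂ z| ≤ 1 / 20 := by
    intro z hz
    have hz' : z.1 ^ 2 + z.2 ^ 2 < a ^ 2 := hz
    have h3 := hL z (0, 0)
    rw [h1, h2] at h3
    simp only [sub_zero] at h3
    have ha2 : a ^ 2 < (1 / 20) ^ 2 := by nlinarith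
    refine ⟨?_, ?_, ?_⟩
    · nlinarith [sq_nonneg (v₂ z)]
    · nlinarith [sq_nonneg (v₂ z), hv z]
    · refine abs_le_of_sq_le_sq ?_ (by norm_num)
      nlinarith [sq_nonneg (v₁ z - 1)]
  set u : ℝ × ℝ → ℝ := fun z => v₂ z / v₁ z with hu
  have hub : ∀ z ∈ s, |u z| ≤ 1 / 10 := by
    intro z hz
    obtain ⟨p1, p2, p3⟩ := hb z hz
    have hpos : 0 < v₁ z := by linarith
    rw [hu]
    show |v₂ z / v₁ z| ≤ 1 / 10
    rw [abs_div, abs_of_pos hpos, div_le_iff₀ hpos]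
    linarith
  have huL : LipschitzOnWith 2 u s := by
    refine LipschitzOnWith.of_dist_le_mul fun z hz z' hz' => ?_
    obtain ⟨p1, p2, p3⟩ := hb z hz
    obtain ⟨q1, q2, q3⟩ := hb z' hz'
    rw [Real.dist_eq]
    have hd1 : |z.1 - z'.1| ≤ dist z z' := by
      rw [← Real.dist_eq]; exact le_max_left _ _
    have hd2 : |z.2 - z'.2| ≤ dist z z' := by
      rw [← Real.dist_eq]; exact le_max_right _ _
    have hd0 : 0 ≤ dist z z' := dist_nonneg
    set d := dist z z' with hd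
    refine abs_le_of_sq_le_sq ?_ (by positivity)
    have e1 : (z.1 - z'.1) ^ 2 ≤ d ^ 2 := by
      rw [← sq_abs]; exact pow_le_pow_left₀ (abs_nonneg _) hd1 2
    have e2 : (z.2 - z'.2) ^ 2 ≤ d ^ 2 := by
      rw [← sq_abs]; exact pow_le_pow_left₀ (abs_nonneg _) hd2 2
    have e3 := hL z z'
    have hp : 0 < v₁ z := by linarith
    have hq : 0 < v₁ z' := by linarith
    have e4 : (v₂ z / v₁ z - v₂ z' / v₁ z') ^ 2 =
        (v₁ z * (v₂ z - v₂ z') - v₂ z * (v₁ z - v₁ z')) ^ 2 / (v₁ z * v₁ z') ^ 2 := by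
      field_simp
      ring
    have e5 : (v₁ z * (v₂ z - v₂ z') - v₂ z * (v₁ z - v₁ z')) ^ 2 ≤ 2 * d ^ 2 := by
      have e6 : (v₁ z * (v₂ z - v₂ z') - v₂ z * (v₁ z - v₁ z')) ^ 2 ≤
          (v₁ z ^ 2 + v₂ z ^ 2) * ((v₁ z - v₁ z') ^ 2 + (v₂ z - v₂ z') ^ 2) := by
        nlinarith [sq_nonneg (v₁ z * (v₁ z - v₁ z') + v₂ z * (v₂ z - v₂ z'))]
      rw [hv z, one_mul] at e6
      linarith
    show (v₂ z / v₁ z - v₂ z' / v₁ z') ^ 2 ≤ ((2 : ℝ≥0) * d) ^ 2
    have h20 : ((2 : ℝ≥0) : ℝ) = 2 := by norm_num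
    rw [e4, h20, div_le_iff₀ (by positivity)]
    have e7 : (361 / 400 : ℝ) ≤ v₁ z * v₁ z' := by nlinarith
    have e8 : (1 / 2 : ℝ) ≤ (v₁ z * v₁ z') ^ 2 := by nlinarith
    nlinarith [sq_nonneg d]
  obtain ⟨g, hgL, hgu⟩ := huL.extend_real
  set U : ℝ × ℝ → ℝ := fun z => max (-(1 / 10)) (min (1 / 10) (g z)) with hU
  have hUb : ∀ z, |U z| ≤ 1 / 10 := by
    intro z
    rw [abs_le]
    exact ⟨le_max_left _ _, max_le (by norm_num) (min_le_left _ _)⟩
  refine ⟨U, ⟨?_, ⟨1 / 10, hUb⟩, ?_⟩, hUb, ?_⟩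
  · exact (continuous_const.max (continuous_const.min hgL.continuous)).measurable
  · intro x y y'
    refine (clamp_le (1 / 10) _ _).trans ?_
    have h3 := hgL.dist_le_mul (x, y) (x, y')
    rw [Real.dist_eq] at h3
    have h4 : dist ((x, y) : ℝ × ℝ) (x, y') = |y - y'| := by
      rw [Prod.dist_eq]
      simp [Real.dist_eq]
    rw [h4] at h3
    have h20 : ((2 : ℝ≥0) : ℝ) = 2 := by norm_num
    rw [h20] at h3
    nlinarith [abs_nonneg (y - y')]
  · intro z hz
    obtain ⟨p1, p2, p3⟩ := hb z hz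
    refine ⟨p1, p2, ?_⟩
    have hpos : 0 < v₁ z := by linarith
    have h3 : U z = u z := by
      have h4 := hub z hz
      rw [abs_le] at h4
      show max (-(1 / 10)) (min (1 / 10) (g z)) = u z
      rw [← hgu hz, min_eq_right h4.2, max_eq_right h4.1]
    rw [h3]
    show v₂ z = v₁ z * (v₂ z / v₁ z)
    field_simp

/-! ### cutoff in space -/

def theta (a : ℝ) (z : ℝ × ℝ) : ℝ :=
  max 0 (min 1 ((25 * a ^ 2 - (z.1 ^ 2 + z.2 ^ 2)) / (9 * a ^ 2)))

theorem theta_nonneg (a : ℝ) (z : ℝ × ℝ) : 0 ≤ theta a z := le_max_left _ _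

theorem theta_le_one (a : ℝ) (z : ℝ × ℝ) : theta a z ≤ 1 := max_le zero_le_one (min_le_left _ _)

theorem theta_one {a : ℝ} (ha : 0 < a) {z : ℝ × ℝ} (hz : z.1 ^ 2 + z.2 ^ 2 ≤ 16 * a ^ 2) :
    theta a z = 1 := by
  unfold theta
  have : 1 ≤ (25 * a ^ 2 - (z.1 ^ 2 + z.2 ^ 2)) / (9 * a ^ 2) := by
    rw [le_div_iff₀ (by positivity)]; linarith
  rw [min_eq_left this, max_eq_right zero_le_one]

theorem theta_zero {a : ℝ} {z : ℝ × ℝ} (hz : 25 * a ^ 2 ≤ z.1 ^ 2 + z.2 ^ 2) :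
    theta a z = 0 := by
  unfold theta
  have : (25 * a ^ 2 - (z.1 ^ 2 + z.2 ^ 2)) / (9 * a ^ 2) ≤ 0 :=
    div_nonpos_of_nonpos_of_nonneg (by linarith) (by positivity)
  rw [max_eq_left ((min_le_right _ _).trans this)]

theorem theta_cont (a : ℝ) : Continuous (theta a) := by
  unfold theta
  fun_prop

theorem nice_g {a : ℝ} (ha : 0 < a) {f : ℝ × ℝ → ℝ} (hf : Continuous f)
    (hfb : ∃ M : ℝ, ∀ z, |f z| ≤ M) : Nice (fun z => f z * theta a z) := by
  obtain ⟨M, hM⟩ := hfb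
  refine ⟨(hf.mul (theta_cont a)).measurable, ⟨M, fun z => ?_⟩, 5 * a, fun z hz => ?_⟩
  · rw [abs_mul, abs_of_nonneg (theta_nonneg a z)]
    calc |f z| * theta a z ≤ |f z| * 1 :=
          mul_le_mul_of_nonneg_left (theta_le_one a z) (abs_nonneg _)
      _ ≤ M := by rw [mul_one]; exact hM z
  · show f z * theta a z = 0
    rw [theta_zero, mul_zero]
    rw [Prod.norm_def, lt_max_iff] at hz
    simp only [Real.norm_eq_abs] at hz
    rcases hz with h | h
    · nlinarith [sq_abs z.1, sq_nonneg z.2]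
    · nlinarith [sq_abs z.2, sq_nonneg z.1]

theorem int_g_le {a : ℝ} (ha : 0 < a) {f : ℝ × ℝ → ℝ} (hf : Continuous f)
    (hfb : ∃ M : ℝ, ∀ z, |f z| ≤ M) :
    ∫ z, (f z * theta a z) ^ 2 ≤
      ∫ z in {z : ℝ × ℝ | z.1 ^ 2 + z.2 ^ 2 < (5 * a) ^ 2}, (f z) ^ 2 := by
  obtain ⟨M, hM⟩ := hfb
  set s : Set (ℝ × ℝ) := {z : ℝ × ℝ | z.1 ^ 2 + z.2 ^ 2 < (5 * a) ^ 2} with hs
  have hsm : MeasurableSet s := by
    apply IsOpen.measurableSet
    exact isOpen_lt (by fun_prop) continuous_const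
  have hsub : s ⊆ Metric.closedBall (0 : ℝ × ℝ) (5 * a) := by
    intro z hz
    have hz' : z.1 ^ 2 + z.2 ^ 2 < (5 * a) ^ 2 := hz
    rw [mem_closedBall_zero_iff, Prod.norm_def, max_le_iff]
    simp only [Real.norm_eq_abs]
    constructor
    · exact abs_le_of_sq_le_sq (by nlinarith [sq_nonneg z.2]) (by positivity)
    · exact abs_le_of_sq_le_sq (by nlinarith [sq_nonneg z.1]) (by positivity)
  have hfin : volume s ≠ ⊤ :=
    ((measure_mono hsub).trans_lt (isCompact_closedBall (0 : ℝ × ℝ) (5 * a)).measure_lt_top).ne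
  have hfi : IntegrableOn (fun z => (f z) ^ 2) s := by
    refine Measure.integrableOn_of_bounded (M := M ^ 2) hfin
      (hf.pow 2).measurable.aestronglyMeasurable (Filter.Eventually.of_forall fun z => ?_)
    rw [Real.norm_eq_abs, abs_pow]
    exact pow_le_pow_left₀ (abs_nonneg _) (hM z) 2
  rw [← integral_indicator hsm]
  refine integral_mono_of_nonneg (Filter.Eventually.of_forall fun z => sq_nonneg _)
    (hfi.integrable_indicator hsm) (Filter.Eventually.of_forall fun z => ?_)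
  show (f z * theta a z) ^ 2 ≤ s.indicator (fun z => (f z) ^ 2) z
  by_cases hz : z ∈ s
  · rw [Set.indicator_of_mem hz, mul_pow]
    have h1 : theta a z ^ 2 ≤ 1 := pow_le_one₀ (theta_nonneg a z) (theta_le_one a z)
    nlinarith [sq_nonneg (f z)]
  · rw [Set.indicator_of_notMem hz, theta_zero]
    · simp
    · have : ¬ (z.1 ^ 2 + z.2 ^ 2 < (5 * a) ^ 2) := hz
      push Not at this
      linarith

/-! ### kernels -/

/-- the rescaled sharp kernel -/
def K1 (v ε a t : ℝ) : ℝ := if ε * v < |t| ∧ |t| < a * v then 1 / t else 0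

/-- the majorant of the difference -/
def Dbar (a ε t : ℝ) : ℝ :=
  (if |t| ≤ 2 * a then 4 / a else 0) + (if |t| ≤ 2 * ε then 4 / ε else 0)

theorem Dbar_nonneg {a ε : ℝ} (ha : 0 < a) (hε : 0 < ε) (t : ℝ) : 0 ≤ Dbar a ε t := by
  unfold Dbar
  split_ifs <;> positivity

theorem measurableSet_abs_le (c : ℝ) : MeasurableSet {t : ℝ | |t| ≤ c} :=
  (isClosed_le continuous_abs continuous_const).measurableSet

theorem ker_Dbar {a ε : ℝ} (ha : 0 < a) (hε : 0 < ε) (hεa : ε < a) :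
    Ker (Dbar a ε) (4 / a + 4 / ε) (2 * a) := by
  refine ⟨?_, fun t => ?_, fun t ht => ?_⟩
  · unfold Dbar
    exact (Measurable.ite (measurableSet_abs_le _) measurable_const measurable_const).add
      (Measurable.ite (measurableSet_abs_le _) measurable_const measurable_const)
  · rw [abs_of_nonneg (Dbar_nonneg ha hε t)]
    unfold Dbar
    have h1 : 0 < 4 / a := by positivity
    have h2 : 0 < 4 / ε := by positivity
    split_ifs <;> linarith
  · unfold Dbar
    rw [if_neg (by linarith), if_neg (by linarith), add_zero]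

theorem int_ite {c b : ℝ} (hc : 0 ≤ c) : ∫ t : ℝ, (if |t| ≤ c then b else 0) = 2 * c * b := by
  have h1 : (fun t : ℝ => if |t| ≤ c then b else 0) = (Set.Icc (-c) c).indicator (fun _ => b) := by
    funext t
    by_cases h : |t| ≤ c
    · have h' : t ∈ Set.Icc (-c) c := abs_le.1 h
      rw [if_pos h, Set.indicator_of_mem h']
    · have h' : t ∉ Set.Icc (-c) c := fun h' => h (abs_le.2 h')
      rw [if_neg h, Set.indicator_of_notMem h']
  rw [h1, integral_indicator measurableSet_Icc, setIntegral_const, smul_eq_mul,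
    Real.volume_real_Icc_of_le (by linarith)]
  ring

theorem int_Dbar {a ε : ℝ} (ha : 0 < a) (hε : 0 < ε) : ∫ t, |Dbar a ε t| = 32 := by
  have h0 : (fun t => |Dbar a ε t|) = fun t => (if |t| ≤ 2 * a then 4 / a else 0) +
      (if |t| ≤ 2 * ε then 4 / ε else 0) := by
    funext t
    rw [abs_of_nonneg (Dbar_nonneg ha hε t)]
    rfl
  have hk : ∀ c b : ℝ, 0 < b → Ker (fun t => if |t| ≤ c then b else 0) b c := by
    intro c b hb
    refine ⟨Measurable.ite (measurableSet_abs_le _) measurable_const measurable_const,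
      fun t => ?_, fun t ht => ?_⟩
    · show |if |t| ≤ c then b else 0| ≤ b
      split_ifs
      · rw [abs_of_pos hb]
      · simpa using hb.le
    · show (if |t| ≤ c then b else 0) = 0
      rw [if_neg (by linarith)]
  rw [h0, integral_add (hk _ _ (by positivity)).integrable (hk _ _ (by positivity)).integrable,
    int_ite (by positivity), int_ite (by positivity)]
  field_simp
  norm_num

theorem ker_K1 {v ε a : ℝ} (hv : 0 < v) (hv1 : v ≤ 1) (hε : 0 < ε) (ha : 0 < a) :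
    Ker (K1 v ε a) (1 / (ε * v)) (2 * a) := by
  refine ⟨?_, fun t => ?_, fun t ht => ?_⟩
  · unfold K1
    refine Measurable.ite ?_ (measurable_const.div measurable_id) measurable_const
    exact (isOpen_lt continuous_const continuous_abs).measurableSet.inter
      (isOpen_lt continuous_abs continuous_const).measurableSet
  · unfold K1
    split_ifs with h
    · rw [abs_div, abs_one]
      exact one_div_le_one_div_of_le (by positivity) h.1.le
    · rw [abs_zero]; positivity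
  · unfold K1
    rw [if_neg]
    rintro ⟨_, h⟩
    nlinarith

theorem abs_div_le {x t : ℝ} (hx : |x| ≤ 1) : |x / t| ≤ 1 / |t| := by
  rw [abs_div]
  exact div_le_div_of_nonneg_right hx (abs_nonneg _)

section eta

variable {η : ℝ → ℝ} (hη : EtaC η) {a ε : ℝ} (ha : 0 < a) (hε : 0 < ε) {S : ℕ}

include hη in
theorem abs_num (x y : ℝ) : |η x - η y| ≤ 1 := by
  obtain ⟨_, _, h0, h1, _⟩ := hη
  rw [abs_le]
  constructor <;> linarith [h0 x, h0 y, h1 x, h1 y]

include hη ha in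
theorem eta_one {t : ℝ} (ht : |t| ≤ a) : η (t / (2 * a)) = 1 := by
  apply hη.2.2.2.2.1
  rw [abs_div, abs_of_pos (show 0 < 2 * a by positivity), div_le_iff₀ (by positivity)]
  linarith

include hη ha in
theorem eta_zero {t : ℝ} (ht : 2 * a ≤ |t|) : η (t / (2 * a)) = 0 := by
  apply hη.2.2.2.2.2
  rw [abs_div, abs_of_pos (show 0 < 2 * a by positivity), le_div_iff₀ (by positivity)]
  linarith

include hη ha in
theorem kerE_zero_in {t : ℝ} (ht : 2 ^ S * |t| ≤ a) : kerE η (2 * a) S t = 0 := by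
  have h1 : |(2 : ℝ) ^ S * t| ≤ a := by
    rw [abs_mul, abs_of_pos (by positivity)]; exact ht
  have h2 : |t| ≤ a := by
    have : (1 : ℝ) ≤ 2 ^ S := one_le_pow₀ (by norm_num)
    nlinarith [abs_nonneg t]
  unfold kerE
  rw [eta_one hη ha h1, eta_one hη ha h2]
  simp

include hη ha in
theorem kerE_zero_out {t : ℝ} (ht : 2 * a ≤ |t|) : kerE η (2 * a) S t = 0 := by
  have h1 : 2 * a ≤ |(2 : ℝ) ^ S * t| := by
    rw [abs_mul, abs_of_pos (by positivity)]
    have : (1 : ℝ) ≤ 2 ^ S := one_le_pow₀ (by norm_num)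
    nlinarith [abs_nonneg t]
  unfold kerE
  rw [eta_zero hη ha h1, eta_zero hη ha ht]
  simp

include hη ha in
theorem kerE_mid {t : ℝ} (ht : |t| ≤ a) (ht' : 2 * a ≤ 2 ^ S * |t|) :
    kerE η (2 * a) S t = 1 / t := by
  have h1 : 2 * a ≤ |(2 : ℝ) ^ S * t| := by
    rw [abs_mul, abs_of_pos (by positivity)]; exact ht'
  unfold kerE
  rw [eta_zero hη ha h1, eta_one hη ha ht]
  simp

include hη ha in
theorem ker_kerE : Ker (kerE η (2 * a) S) (2 ^ S / a) (2 * a) := by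
  have hm : Measurable η := hη.1.continuous.measurable
  refine ⟨?_, fun t => ?_, fun t ht => kerE_zero_out hη ha ht.le⟩
  · unfold kerE
    exact ((hm.comp (by fun_prop)).sub (hm.comp (by fun_prop))).div measurable_id
  · by_cases h : 2 ^ S * |t| ≤ a
    · rw [kerE_zero_in hη ha h, abs_zero]; positivity
    · push Not at h
      have ht : 0 < |t| := by
        by_contra h'
        have : |t| = 0 := le_antisymm (not_lt.1 h') (abs_nonneg _)
        rw [this, mul_zero] at h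
        linarith
      refine (abs_div_le (abs_num hη _ _)).trans ?_
      rw [div_le_div_iff₀ ht ha]
      linarith

include hη ha hε in
theorem diff_le {v : ℝ} (hv : 19 / 20 ≤ v) (hv1 : v ≤ 1) (hεa : ε < a)
    (hS1 : a < 2 ^ S * ε) (hS2 : 2 ^ S * ε ≤ 2 * a) (t : ℝ) :
    |K1 v ε a t - kerE η (2 * a) S t| ≤ Dbar a ε t := by
  have hP : (1 : ℝ) ≤ 2 ^ S := one_le_pow₀ (by norm_num)
  rcases le_or_gt |t| (ε / 2) with h1 | h1
  · have e1 : K1 v ε a t = 0 := by
      unfold K1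
      rw [if_neg]
      rintro ⟨h, _⟩
      nlinarith
    have e2 : kerE η (2 * a) S t = 0 := by
      apply kerE_zero_in hη ha
      nlinarith
    rw [e1, e2, sub_zero, abs_zero]
    exact Dbar_nonneg ha hε t
  · have ht : 0 < |t| := by linarith
    have b1 : |K1 v ε a t| ≤ 1 / |t| := by
      unfold K1
      split_ifs
      · exact abs_div_le (by simp)
      · rw [abs_zero]; positivity
    have b2 : |kerE η (2 * a) S t| ≤ 1 / |t| := abs_div_le (abs_num hη _ _)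
    have c1 : 0 ≤ (if |t| ≤ 2 * a then 4 / a else 0) := by split_ifs <;> positivity
    have c2 : 0 ≤ (if |t| ≤ 2 * ε then 4 / ε else 0) := by split_ifs <;> positivity
    rcases le_or_gt |t| (2 * ε) with h2 | h2
    · have e3 : 1 / |t| ≤ 2 / ε := by
        rw [div_le_div_iff₀ ht hε]; linarith
      have e4 : (if |t| ≤ 2 * ε then 4 / ε else 0) = 4 / ε := if_pos h2
      unfold Dbar
      rw [e4]
      calc |K1 v ε a t - kerE η (2 * a) S t| ≤ |K1 v ε a t| + |kerE η (2 * a) S t| := abs_sub _ _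
        _ ≤ 2 / ε + 2 / ε := by linarith
        _ = 4 / ε := by ring
        _ ≤ _ := by linarith
    · rcases lt_or_ge |t| (a * v) with h3 | h3
      · have e1 : K1 v ε a t = 1 / t := by
          unfold K1
          rw [if_pos ⟨by nlinarith, h3⟩]
        have e2 : kerE η (2 * a) S t = 1 / t := by
          apply kerE_mid hη ha
          · nlinarith
          · nlinarith
        rw [e1, e2, sub_self, abs_zero]
        exact Dbar_nonneg ha hε t
      · have e1 : K1 v ε a t = 0 := by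
          unfold K1
          rw [if_neg]
          rintro ⟨_, h⟩
          linarith
        rw [e1, zero_sub, abs_neg]
        rcases le_or_gt |t| (2 * a) with h4 | h4
        · have e4 : (if |t| ≤ 2 * a then 4 / a else 0) = 4 / a := if_pos h4
          unfold Dbar
          rw [e4]
          have e5 : 1 / |t| ≤ 4 / a := by
            rw [div_le_div_iff₀ ht ha]
            nlinarith
          linarith
        · rw [kerE_zero_out hη ha h4.le, abs_zero]
          exact Dbar_nonneg ha hε t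

end eta

/-! ### the substitution -/

theorem subst_F {v₁ v₂ : ℝ × ℝ → ℝ} {U f : ℝ × ℝ → ℝ} {a ε : ℝ} (ha : 0 < a) (ha' : a < 1 / 20)
    (hε : 0 < ε) {z : ℝ × ℝ} (hz : z.1 ^ 2 + z.2 ^ 2 < a ^ 2)
    (hv1 : 19 / 20 ≤ v₁ z) (hv1' : v₁ z ≤ 1) (hvU : v₂ z = v₁ z * U z) (hU : |U z| ≤ 1 / 10) :
    (∫ t in Set.Ioo (-a) (-ε) ∪ Set.Ioo ε a, f (z.1 - t * v₁ z, z.2 - t * v₂ z) / t) =
      ∫ t, K1 (v₁ z) ε a t * (f (pt U t z) * theta a (pt U t z)) := by
  have hv : 0 < v₁ z := by linarith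
  have hms : MeasurableSet (Set.Ioo (-a) (-ε) ∪ Set.Ioo ε a) :=
    measurableSet_Ioo.union measurableSet_Ioo
  have key : ∀ t : ℝ, (Set.Ioo (-a) (-ε) ∪ Set.Ioo ε a).indicator
      (fun t => f (z.1 - t * v₁ z, z.2 - t * v₂ z) / t) t = v₁ z *
        (K1 (v₁ z) ε a (v₁ z * t) * (f (pt U (v₁ z * t) z) * theta a (pt U (v₁ z * t) z))) := by
    intro t
    have habs : |v₁ z * t| = v₁ z * |t| := by rw [abs_mul, abs_of_pos hv]
    by_cases ht : t ∈ Set.Ioo (-a) (-ε) ∪ Set.Ioo ε a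
    · rw [Set.indicator_of_mem ht]
      have ht' : ε < |t| ∧ |t| < a := by
        rcases ht with ⟨h1, h2⟩ | ⟨h1, h2⟩
        · rw [abs_of_neg (by linarith)]
          constructor <;> linarith
        · rw [abs_of_pos (by linarith)]
          exact ⟨h1, h2⟩
      have ht0 : t ≠ 0 := by
        rintro rfl
        rw [abs_zero] at ht'
        linarith [ht'.1]
      have hK : K1 (v₁ z) ε a (v₁ z * t) = 1 / (v₁ z * t) := by
        unfold K1
        rw [if_pos]
        rw [habs]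
        constructor <;> nlinarith [ht'.1, ht'.2]
      have hth : theta a (pt U (v₁ z * t) z) = 1 := by
        apply theta_one ha
        have e1 : |v₁ z * t| ≤ a := by rw [habs]; nlinarith [ht'.2, abs_nonneg t]
        have e2 : |v₁ z * t * U z| ≤ a := by
          rw [abs_mul]
          nlinarith [abs_nonneg (U z), abs_nonneg (v₁ z * t)]
        show (z.1 - v₁ z * t) ^ 2 + (z.2 - v₁ z * t * U z) ^ 2 ≤ 16 * a ^ 2
        have q1 : (v₁ z * t) ^ 2 ≤ a ^ 2 := by
          rw [← sq_abs]; exact pow_le_pow_left₀ (abs_nonneg _) e1 2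
        have q2 : (v₁ z * t * U z) ^ 2 ≤ a ^ 2 := by
          rw [← sq_abs]; exact pow_le_pow_left₀ (abs_nonneg _) e2 2
        nlinarith [sq_nonneg (z.1 + v₁ z * t), sq_nonneg (z.2 + v₁ z * t * U z)]
      rw [hK, hth, mul_one, hvU]
      unfold pt
      have e3 : z.1 - t * v₁ z = z.1 - v₁ z * t := by ring
      have e4 : z.2 - t * (v₁ z * U z) = z.2 - v₁ z * t * U z := by ring
      rw [e3, e4]
      field_simp
    · rw [Set.indicator_of_notMem ht]
      have hK : K1 (v₁ z) ε a (v₁ z * t) = 0 := by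
        unfold K1
        rw [if_neg]
        rw [habs]
        rintro ⟨h1, h2⟩
        apply ht
        have h1' : ε < |t| := by
          by_contra h
          push Not at h
          nlinarith
        have h2' : |t| < a := by
          by_contra h
          push Not at h
          nlinarith
        rcases le_total 0 t with h | h
        · rw [abs_of_nonneg h] at h1' h2'
          exact Or.inr ⟨h1', h2'⟩
        · rw [abs_of_nonpos h] at h1' h2'
          exact Or.inl ⟨by linarith, by linarith⟩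
      rw [hK, zero_mul, mul_zero]
  rw [← integral_indicator hms]
  simp_rw [key]
  rw [integral_const_mul,
    Measure.integral_comp_mul_left
      (fun t => K1 (v₁ z) ε a t * (f (pt U t z) * theta a (pt U t z))) (v₁ z),
    smul_eq_mul, abs_of_pos (inv_pos.2 hv)]
  field_simp

/-- the pointwise domination -/
theorem F_le {η : ℝ → ℝ} (hη : EtaC η) {U g : ℝ × ℝ → ℝ} {a ε v : ℝ} {S : ℕ} (ha : 0 < a)
    (hε : 0 < ε) (hεa : ε < a) (hS1 : a < 2 ^ S * ε) (hS2 : 2 ^ S * ε ≤ 2 * a)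
    (hv : 19 / 20 ≤ v) (hv1 : v ≤ 1) (hU : Measurable U) (hg : Nice g) (z : ℝ × ℝ) :
    |∫ t, K1 v ε a t * g (pt U t z)| ≤
      |tk (kerE η (2 * a) S) U g z| + tk (Dbar a ε) U (fun z => |g z|) z := by
  obtain ⟨N, hN⟩ := hg.2.1
  have hms := measurable_slice hU hg.1 z
  have i1 : Integrable (fun t => K1 v ε a t * g (pt U t z)) :=
    (ker_K1 (by linarith) hv1 hε ha).integrable_mul hms fun t => hN _
  have i2 : Integrable (fun t => kerE η (2 * a) S t * g (pt U t z)) :=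
    (ker_kerE hη ha (S := S)).integrable_mul hms fun t => hN _
  have i3 : Integrable (fun t => Dbar a ε t * |g (pt U t z)|) :=
    (ker_Dbar ha hε hεa).integrable_mul hms.abs (N := N) fun t => by rw [abs_abs]; exact hN _
  rw [tk_eq, tk_eq]
  have e1 : ∫ t, K1 v ε a t * g (pt U t z) = (∫ t, kerE η (2 * a) S t * g (pt U t z)) +
      ∫ t, (K1 v ε a t * g (pt U t z) - kerE η (2 * a) S t * g (pt U t z)) := by
    rw [integral_sub i1 i2]; ring
  rw [e1]
  refine (abs_add_le _ _).trans ?_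
  gcongr
  refine abs_integral_le_integral_abs.trans ?_
  refine integral_mono_of_nonneg (Filter.Eventually.of_forall fun t => abs_nonneg _) i3
    (Filter.Eventually.of_forall fun t => ?_)
  show |K1 v ε a t * g (pt U t z) - kerE η (2 * a) S t * g (pt U t z)| ≤
    Dbar a ε t * |g (pt U t z)|
  rw [← sub_mul, abs_mul]
  exact mul_le_mul_of_nonneg_right (diff_le hη ha hε hv hv1 hεa hS1 hS2 t) (abs_nonneg _)

theorem exists_S {a ε : ℝ} (hε : 0 < ε) (hεa : ε < a) :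
    ∃ S : ℕ, a < 2 ^ S * ε ∧ 2 ^ S * ε ≤ 2 * a := by
  have h1 : 1 ≤ a / ε := by rw [le_div_iff₀ hε]; linarith
  obtain ⟨n, hn1, hn2⟩ := exists_nat_pow_near h1 (show (1 : ℝ) < 2 by norm_num)
  refine ⟨n + 1, ?_, ?_⟩
  · rwa [div_lt_iff₀ hε] at hn2
  · rw [le_div_iff₀ hε] at hn1
    rw [pow_succ]
    linarith

/-- SHELL S12 -/
theorem s12 : Sh1x283.S12 := by
  intro hM
  obtain ⟨η, hη⟩ := exists_eta
  obtain ⟨lam, hl0, hl1, C, hC, hMod⟩ := hM η hη
  refine ⟨lam / 2, by positivity, by linarith, 2 * C + 4096, by positivity, ?_⟩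
  intro v₁ v₂ hv hL hv1 hv2 f hf hfb ε hε hεa
  have ha : 0 < lam / 2 := by positivity
  have ha' : lam / 2 < 1 / 20 := by linarith
  have hlam : lam = 2 * (lam / 2) := by ring
  generalize lam / 2 = a at *
  subst hlam
  obtain ⟨U, hUF, hUb, hUs⟩ := exists_field hv hL hv1 hv2 ha ha'
  obtain ⟨S, hS1, hS2⟩ := exists_S hε hεa
  set g : ℝ × ℝ → ℝ := fun z => f z * theta a z with hg
  have hgN : Nice g := nice_g ha hf hfb
  have hgC : Continuous g := hf.mul (theta_cont a)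
  set A : ℝ × ℝ → ℝ := tk (kerE η (2 * a) S) U g with hA
  set B : ℝ × ℝ → ℝ := tk (Dbar a ε) U (fun z => |g z|) with hB
  have hAN : Nice A := nice_tk (ker_kerE hη ha) hUF.1 ⟨_, hUb⟩ hgN
  have hBN : Nice B := nice_tk (ker_Dbar ha hε hεa) hUF.1 ⟨_, hUb⟩ (nice_abs hgN)
  have hA2 : ∫ z, (A z) ^ 2 ≤ C * ∫ z, (g z) ^ 2 := hMod U g hUF hgC hgN S
  have hB2 : ∫ z, (B z) ^ 2 ≤ 2 * 32 ^ 2 * ∫ z, (g z) ^ 2 := by
    have h1 := l2_tk (ker_Dbar ha hε hεa) (c := 3) (by norm_num) (by linarith) hUF.1 hUF.2.2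
      (nice_abs hgN)
    rw [int_Dbar ha hε] at h1
    simpa only [sq_abs] using h1
  have hIA := integrable_of_nice (nice_sq hAN)
  have hIB := integrable_of_nice (nice_sq hBN)
  have hI : Integrable (fun z => 2 * (A z) ^ 2 + 2 * (B z) ^ 2) :=
    (hIA.const_mul 2).add (hIB.const_mul 2)
  set s : Set (ℝ × ℝ) := {z : ℝ × ℝ | z.1 ^ 2 + z.2 ^ 2 < a ^ 2} with hs
  have hsm : MeasurableSet s := (isOpen_lt (by fun_prop) continuous_const).measurableSet
  have hpt : ∀ z ∈ s, (∫ t in Set.Ioo (-a) (-ε) ∪ Set.Ioo ε a,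
      f (z.1 - t * v₁ z, z.2 - t * v₂ z) / t) ^ 2 ≤ 2 * (A z) ^ 2 + 2 * (B z) ^ 2 := by
    intro z hz
    obtain ⟨p1, p2, p3⟩ := hUs z hz
    rw [subst_F ha ha' hε hz p1 p2 p3 (hUb z)]
    have h1 := F_le hη ha hε hεa hS1 hS2 p1 p2 hUF.1 hgN z
    have h2 : (∫ t, K1 (v₁ z) ε a t * g (pt U t z)) ^ 2 ≤ (|A z| + B z) ^ 2 := by
      rw [← sq_abs]
      exact pow_le_pow_left₀ (abs_nonneg _) h1 2
    refine h2.trans ?_
    nlinarith [sq_nonneg (|A z| - B z), sq_abs (A z)]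
  calc ∫ z in s, (∫ t in Set.Ioo (-a) (-ε) ∪ Set.Ioo ε a,
        f (z.1 - t * v₁ z, z.2 - t * v₂ z) / t) ^ 2
      ≤ ∫ z in s, (2 * (A z) ^ 2 + 2 * (B z) ^ 2) := by
        refine integral_mono_of_nonneg (Filter.Eventually.of_forall fun z => sq_nonneg _)
          hI.integrableOn ?_
        exact (ae_restrict_iff' hsm).2 (Filter.Eventually.of_forall hpt)
    _ ≤ ∫ z, (2 * (A z) ^ 2 + 2 * (B z) ^ 2) :=
        setIntegral_le_integral hI (Filter.Eventually.of_forall fun z => by positivity)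
    _ = 2 * (∫ z, (A z) ^ 2) + 2 * ∫ z, (B z) ^ 2 := by
        rw [integral_add (hIA.const_mul 2) (hIB.const_mul 2), integral_const_mul,
          integral_const_mul]
    _ ≤ (2 * C + 4096) * ∫ z, (g z) ^ 2 := by linarith
    _ ≤ (2 * C + 4096) * ∫ z in {z : ℝ × ℝ | z.1 ^ 2 + z.2 ^ 2 < (5 * a) ^ 2}, (f z) ^ 2 :=
        mul_le_mul_of_nonneg_left (int_g_le ha hf hfb) (by positivity)

end Crest.Agent.R087.S12x575
end
end

-- ▼ part R087/S13_738
section

/-!
Row 87 (S0115), outer shell leaf S13 (helper738): `LOCR → TGT`.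
Rotate so that `v p = e₁`, apply the local estimate in coordinates around `p`, average over `p`.
-/

set_option autoImplicit false

noncomputable section

open MeasureTheory Crest.Agent.R087.Sh0x283 Crest.Agent.R087.Sh1x283
open scoped RealInnerProductSpace ENNReal

namespace Crest.Agent.R087.S13x738

/-- the Euclidean plane -/
abbrev E2 := EuclideanSpace ℝ (Fin 2)

/-- orthonormal coordinates centred at `p` -/
def th (b : OrthonormalBasis (Fin 2) ℝ E2) (p : E2) (z : ℝ × ℝ) : E2 := p + (z.1 • b 0 + z.2 • b 1)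

theorem th_mp (b : OrthonormalBasis (Fin 2) ℝ E2) (p : E2) :
    MeasurePreserving (th b p) (volume : Measure (ℝ × ℝ)) (volume : Measure E2) := by
  have h1 : MeasurePreserving (MeasurableEquiv.finTwoArrow (α := ℝ)).symm
      (volume : Measure (ℝ × ℝ)) (volume : Measure (Fin 2 → ℝ)) :=
    (volume_preserving_finTwoArrow ℝ).symm _
  have h2 : MeasurePreserving (@WithLp.toLp 2 (Fin 2 → ℝ)) (volume : Measure (Fin 2 → ℝ))
      (volume : Measure E2) := PiLp.volume_preserving_toLp (Fin 2)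
  have h3 : MeasurePreserving b.repr.symm (volume : Measure E2) (volume : Measure E2) :=
    b.repr.symm.measurePreserving
  have h4 : MeasurePreserving (fun x : E2 => p + x) (volume : Measure E2) (volume : Measure E2) :=
    measurePreserving_add_left volume p
  have h := h4.comp (h3.comp (h2.comp h1))
  have he : th b p = (fun x : E2 => p + x) ∘ b.repr.symm ∘ (@WithLp.toLp 2 (Fin 2 → ℝ)) ∘
      (MeasurableEquiv.finTwoArrow (α := ℝ)).symm := by
    funext z
    simp only [Function.comp, th]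
    congr 1
    rw [← OrthonormalBasis.sum_repr_symm]
    simp [Fin.sum_univ_two, MeasurableEquiv.finTwoArrow]
  rw [he]
  exact h

theorem th_sub_norm (b : OrthonormalBasis (Fin 2) ℝ E2) (p : E2) (z w : ℝ × ℝ) :
    ‖th b p z - th b p w‖ ^ 2 = (z.1 - w.1) ^ 2 + (z.2 - w.2) ^ 2 := by
  have h : th b p z - th b p w = (z.1 - w.1) • b 0 + (z.2 - w.2) • b 1 := by
    simp only [th]; module
  rw [h]
  have := b.orthonormal
  have h0 : ‖b 0‖ = 1 := this.1 0
  have h1 : ‖b 1‖ = 1 := this.1 1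
  have h01 : ⟪b 0, b 1⟫ = 0 := this.2 (by decide)
  rw [norm_add_sq_real, norm_smul, norm_smul, h0, h1, inner_smul_left, inner_smul_right, h01]
  simp


/-- truncated Hilbert transform along `v`, for real functions on the plane -/
def HT (a ε : ℝ) (v : E2 → E2) (g : E2 → ℝ) (x : E2) : ℝ :=
  ∫ t in Set.Ioo (-a) (-ε) ∪ Set.Ioo ε a, g (x - t • v x) / t

theorem mS (a ε : ℝ) : MeasurableSet (Set.Ioo (-a) (-ε) ∪ Set.Ioo ε a) :=
  measurableSet_Ioo.union measurableSet_Ioo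

theorem HT_meas (a ε : ℝ) (v : E2 → E2) (hv : Continuous v) (g : E2 → ℝ) (hg : Continuous g) :
    StronglyMeasurable (HT a ε v g) := by
  unfold HT
  have h : StronglyMeasurable (fun q : E2 × ℝ => g (q.1 - q.2 • v q.1) / q.2) := by
    apply Measurable.stronglyMeasurable
    apply Measurable.div
    · apply Continuous.measurable
      fun_prop
    · exact measurable_snd
  exact h.integral_prod_right'

theorem HT_bd (a ε : ℝ) (hε : 0 < ε) (hεa : ε < a) (v : E2 → E2) (g : E2 → ℝ)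
    (M : ℝ) (hM : ∀ x, |g x| ≤ M) (x : E2) : |HT a ε v g x| ≤ M / ε * (2 * a) := by
  unfold HT
  have hM0 : 0 ≤ M := (abs_nonneg _).trans (hM x)
  have hvol : volume.real (Set.Ioo (-a) (-ε) ∪ Set.Ioo ε a) ≤ 2 * a := by
    refine (measureReal_union_le _ _).trans ?_
    rw [Real.volume_real_Ioo_of_le (by linarith), Real.volume_real_Ioo_of_le (by linarith)]
    linarith
  have hfin : volume (Set.Ioo (-a) (-ε) ∪ Set.Ioo ε a) < ⊤ :=
    measure_union_lt_top measure_Ioo_lt_top measure_Ioo_lt_top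
  have h := norm_setIntegral_le_of_norm_le_const (μ := volume) (f := fun t : ℝ => g (x - t • v x) / t)
    (C := M / ε) hfin ?_
  · rw [Real.norm_eq_abs] at h
    refine h.trans ?_
    gcongr
  · intro t ht
    rw [Real.norm_eq_abs, abs_div]
    have h1 : ε ≤ |t| := by
      rcases ht with ht | ht
      · rw [abs_of_neg (by linarith [ht.1, ht.2])]; linarith [ht.2]
      · exact ht.1.le.trans (le_abs_self t)
    exact div_le_div₀ hM0 (hM _) hε h1

/-- `∫_B F² ` as a lower integral, for bounded measurable `F` on a set of finite measure -/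
theorem ofReal_int_sq {α : Type*} [MeasurableSpace α] (μ : Measure α) (s : Set α) (hs : μ s < ⊤)
    (F : α → ℝ) (hF : StronglyMeasurable F) (M : ℝ) (hM : ∀ x, |F x| ≤ M) :
    ENNReal.ofReal (∫ x in s, (F x) ^ 2 ∂μ) = ∫⁻ x in s, ENNReal.ofReal ((F x) ^ 2) ∂μ := by
  apply ofReal_integral_eq_lintegral_ofReal
  · refine IntegrableOn.of_bound hs ?_ (M ^ 2) ?_
    · exact (hF.pow 2).aestronglyMeasurable
    · refine Filter.Eventually.of_forall fun x => ?_
      rw [Real.norm_eq_abs, abs_pow]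
      exact pow_le_pow_left₀ (abs_nonneg _) (hM x) 2
  · exact Filter.Eventually.of_forall fun x => sq_nonneg _

theorem th_ball (b : OrthonormalBasis (Fin 2) ℝ E2) (p : E2) (r : ℝ) (hr : 0 < r) :
    {z : ℝ × ℝ | z.1 ^ 2 + z.2 ^ 2 < r ^ 2} = th b p ⁻¹' Metric.ball p r := by
  ext z
  have h := th_sub_norm b p z (0, 0)
  have h0 : th b p (0, 0) = p := by simp [th]
  rw [h0] at h
  simp only [Set.mem_ofPred_eq, Set.mem_preimage, Metric.mem_ball, dist_eq_norm]
  rw [← pow_lt_pow_iff_left₀ (norm_nonneg _) hr.le (two_ne_zero), h]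
  simp

/-- the body of `LOCR` -/
def LocB (a C : ℝ) : Prop := ∀ v₁ v₂ : ℝ × ℝ → ℝ,
    (∀ z, v₁ z ^ 2 + v₂ z ^ 2 = 1) →
    (∀ z z', (v₁ z - v₁ z') ^ 2 + (v₂ z - v₂ z') ^ 2 ≤ (z.1 - z'.1) ^ 2 + (z.2 - z'.2) ^ 2) →
    v₁ (0, 0) = 1 → v₂ (0, 0) = 0 →
    ∀ f : ℝ × ℝ → ℝ, Continuous f → (∃ M : ℝ, ∀ z, |f z| ≤ M) → ∀ ε : ℝ, 0 < ε → ε < a →
    ∫ z in {z : ℝ × ℝ | z.1 ^ 2 + z.2 ^ 2 < a ^ 2},
        (∫ t in Set.Ioo (-a) (-ε) ∪ Set.Ioo ε a, f (z.1 - t * v₁ z, z.2 - t * v₂ z) / t) ^ 2 ≤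
      C * ∫ z in {z : ℝ × ℝ | z.1 ^ 2 + z.2 ^ 2 < (5 * a) ^ 2}, (f z) ^ 2

theorem exists_basis (e : E2) (he : ‖e‖ = 1) : ∃ b : OrthonormalBasis (Fin 2) ℝ E2, b 0 = e := by
  have hv : Orthonormal ℝ (Set.domRestrict ({0} : Set (Fin 2)) (fun _ : Fin 2 => e)) := by
    constructor
    · intro i; exact he
    · intro i j hij
      exact absurd (Subtype.ext ((Set.mem_singleton_iff.1 i.2).trans (Set.mem_singleton_iff.1 j.2).symm)) hij
  obtain ⟨b, hb⟩ := hv.exists_orthonormalBasis_extension_of_card_eq (by simp)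
  exact ⟨b, hb 0 rfl⟩

theorem local_lint (a C : ℝ) (ha : 0 < a) (hC : 0 ≤ C) (hloc : LocB a C) (v : E2 → E2)
    (hv : ∀ x, ‖v x‖ = 1) (hL : LipschitzWith 1 v) (g : E2 → ℝ) (hg : Continuous g) (M : ℝ)
    (hM : ∀ x, |g x| ≤ M) (p : E2) (ε : ℝ) (hε : 0 < ε) (hεa : ε < a) :
    ∫⁻ x in Metric.ball p a, ENNReal.ofReal ((HT a ε v g x) ^ 2) ≤
      ENNReal.ofReal C * ∫⁻ x in Metric.ball p (5 * a), ENNReal.ofReal ((g x) ^ 2) := by
  obtain ⟨b, hb⟩ := exists_basis (v p) (hv p)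
  have hmp := th_mp b p
  have hthc : Continuous (th b p) := by unfold th; fun_prop
  -- coordinates of the field
  set v₁ : ℝ × ℝ → ℝ := fun z => ⟪b 0, v (th b p z)⟫ with hv₁
  set v₂ : ℝ × ℝ → ℝ := fun z => ⟪b 1, v (th b p z)⟫ with hv₂
  have hexp : ∀ x : E2, x = ⟪b 0, x⟫ • b 0 + ⟪b 1, x⟫ • b 1 := by
    intro x
    have := b.sum_repr' x
    rw [Fin.sum_univ_two] at this
    exact this.symm
  have hnorm : ∀ x : E2, ⟪b 0, x⟫ ^ 2 + ⟪b 1, x⟫ ^ 2 = ‖x‖ ^ 2 := by
    intro x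
    have := b.sum_sq_norm_inner_right x
    rw [Fin.sum_univ_two] at this
    simpa using this
  have hth0 : th b p (0, 0) = p := by simp [th]
  have h1 : ∀ z, v₁ z ^ 2 + v₂ z ^ 2 = 1 := by
    intro z
    rw [hv₁, hv₂]
    simp only
    rw [hnorm, hv]; norm_num
  have h2 : ∀ z z', (v₁ z - v₁ z') ^ 2 + (v₂ z - v₂ z') ^ 2 ≤ (z.1 - z'.1) ^ 2 + (z.2 - z'.2) ^ 2 := by
    intro z z'
    have e1 : v₁ z - v₁ z' = ⟪b 0, v (th b p z) - v (th b p z')⟫ := by
      rw [inner_sub_right]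
    have e2 : v₂ z - v₂ z' = ⟪b 1, v (th b p z) - v (th b p z')⟫ := by
      rw [inner_sub_right]
    rw [e1, e2, hnorm, ← th_sub_norm b p z z']
    have := hL.dist_le_mul (th b p z) (th b p z')
    rw [dist_eq_norm, dist_eq_norm] at this
    apply pow_le_pow_left₀ (norm_nonneg _)
    simpa using this
  have h3 : v₁ (0, 0) = 1 := by
    rw [hv₁]; simp only [hth0, ← hb]
    rw [real_inner_self_eq_norm_sq, b.orthonormal.1 0]; norm_num
  have h4 : v₂ (0, 0) = 0 := by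
    rw [hv₂]; simp only [hth0, ← hb]
    exact b.orthonormal.2 (by decide)
  have key : ∀ z : ℝ × ℝ, ∀ t : ℝ, th b p (z.1 - t * v₁ z, z.2 - t * v₂ z) =
      th b p z - t • v (th b p z) := by
    intro z t
    have hx := hexp (v (th b p z))
    have : t • v (th b p z) = (t * v₁ z) • b 0 + (t * v₂ z) • b 1 := by
      conv_lhs => rw [hx]
      rw [smul_add, smul_smul, smul_smul]
    rw [this]
    simp only [th]
    module
  have hfc : Continuous (fun z => g (th b p z)) := hg.comp hthc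
  have hmain := hloc v₁ v₂ h1 h2 h3 h4 (fun z => g (th b p z)) hfc ⟨M, fun z => hM _⟩ ε hε hεa
  have hHT : ∀ z : ℝ × ℝ, (∫ t in Set.Ioo (-a) (-ε) ∪ Set.Ioo ε a,
      (fun z => g (th b p z)) (z.1 - t * v₁ z, z.2 - t * v₂ z) / t) = HT a ε v g (th b p z) := by
    intro z
    unfold HT
    congr 1
    funext t
    simp only
    rw [key z t]
  simp only [] at hHT hmain
  simp_rw [hHT] at hmain
  have hHm := HT_meas a ε v hL.continuous g hg
  have hHb := HT_bd a ε hε hεa v g M hM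
  rw [th_ball b p a ha, th_ball b p (5 * a) (by positivity)] at hmain
  have hfin : ∀ r : ℝ, volume (th b p ⁻¹' Metric.ball p r) < ⊤ := by
    intro r
    rw [hmp.measure_preimage measurableSet_ball.nullMeasurableSet]
    exact measure_ball_lt_top
  have hmain2 := ENNReal.ofReal_le_ofReal hmain
  rw [ENNReal.ofReal_mul hC] at hmain2
  rw [ofReal_int_sq volume _ (hfin a) (fun z => HT a ε v g (th b p z))
      (hHm.comp_measurable hthc.measurable) _ (fun z => hHb _),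
    ofReal_int_sq volume _ (hfin (5 * a)) (fun z => g (th b p z))
      hfc.stronglyMeasurable M (fun z => hM _)] at hmain2
  have t1 := hmp.setLIntegral_comp_preimage (s := Metric.ball p a) measurableSet_ball
    (f := fun x => ENNReal.ofReal ((HT a ε v g x) ^ 2))
    (ENNReal.measurable_ofReal.comp (hHm.measurable.pow_const 2))
  have t2 := hmp.setLIntegral_comp_preimage (s := Metric.ball p (5 * a)) measurableSet_ball
    (f := fun x => ENNReal.ofReal ((g x) ^ 2))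
    (ENNReal.measurable_ofReal.comp (hg.measurable.pow_const 2))
  rw [t1, t2] at hmain2
  exact hmain2

/-- complex truncated Hilbert transform -/
def HTc (a ε : ℝ) (v : E2 → E2) (f : E2 → ℂ) (x : E2) : ℂ :=
  ∫ t in Set.Ioo (-a) (-ε) ∪ Set.Ioo ε a, f (x - t • v x) / (t : ℂ)

theorem HTc_meas (a ε : ℝ) (v : E2 → E2) (hv : Continuous v) (f : E2 → ℂ) (hf : Continuous f) :
    StronglyMeasurable (HTc a ε v f) := by
  unfold HTc
  have h : StronglyMeasurable (fun q : E2 × ℝ => f (q.1 - q.2 • v q.1) / (q.2 : ℂ)) := by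
    apply Measurable.stronglyMeasurable
    apply Measurable.div
    · apply Continuous.measurable
      fun_prop
    · exact Complex.measurable_ofReal.comp measurable_snd
  exact h.integral_prod_right'

theorem HTc_int (a ε : ℝ) (hε : 0 < ε) (v : E2 → E2) (f : E2 → ℂ) (hf : Continuous f)
    (M : ℝ) (hM : ∀ x, ‖f x‖ ≤ M) (x : E2) :
    IntegrableOn (fun t : ℝ => f (x - t • v x) / (t : ℂ)) (Set.Ioo (-a) (-ε) ∪ Set.Ioo ε a) := by
  have hM0 : 0 ≤ M := (norm_nonneg _).trans (hM x)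
  have hfin : volume (Set.Ioo (-a) (-ε) ∪ Set.Ioo ε a) < ⊤ :=
    measure_union_lt_top measure_Ioo_lt_top measure_Ioo_lt_top
  refine IntegrableOn.of_bound hfin ?_ (M / ε) ?_
  · apply Measurable.aestronglyMeasurable
    apply Measurable.div
    · apply Continuous.measurable
      fun_prop
    · exact Complex.measurable_ofReal
  · refine (ae_restrict_iff' (mS a ε)).2 (Filter.Eventually.of_forall fun t ht => ?_)
    rw [norm_div, Complex.norm_real, Real.norm_eq_abs]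
    have h1 : ε ≤ |t| := by
      rcases ht with ht | ht
      · refine le_trans ?_ (neg_le_abs t); linarith [ht.2]
      · exact ht.1.le.trans (le_abs_self t)
    exact div_le_div₀ hM0 (hM _) hε h1

theorem HTc_re (a ε : ℝ) (hε : 0 < ε) (v : E2 → E2) (f : E2 → ℂ) (hf : Continuous f)
    (M : ℝ) (hM : ∀ x, ‖f x‖ ≤ M) (x : E2) :
    (HTc a ε v f x).re = HT a ε v (fun x => (f x).re) x := by
  unfold HTc HT
  have h := Complex.reCLM.integral_comp_comm (HTc_int a ε hε v f hf M hM x)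
  simp only [Complex.reCLM_apply] at h
  rw [← h]
  congr 1
  funext t
  rw [Complex.div_ofReal_re]

theorem HTc_im (a ε : ℝ) (hε : 0 < ε) (v : E2 → E2) (f : E2 → ℂ) (hf : Continuous f)
    (M : ℝ) (hM : ∀ x, ‖f x‖ ≤ M) (x : E2) :
    (HTc a ε v f x).im = HT a ε v (fun x => (f x).im) x := by
  unfold HTc HT
  have h := Complex.imCLM.integral_comp_comm (HTc_int a ε hε v f hf M hM x)
  simp only [Complex.imCLM_apply] at h
  rw [← h]
  congr 1
  funext t
  rw [Complex.div_ofReal_im]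

theorem enorm_sq_eq (w : ℂ) : ‖w‖ₑ ^ 2 = ENNReal.ofReal (w.re ^ 2) + ENNReal.ofReal (w.im ^ 2) := by
  rw [← ENNReal.ofReal_add (sq_nonneg _) (sq_nonneg _), ← ofReal_norm,
    ← ENNReal.ofReal_pow (norm_nonneg _), Complex.sq_norm, Complex.normSq_apply]
  congr 1; ring

theorem local_c (a C : ℝ) (ha : 0 < a) (hC : 0 ≤ C) (hloc : LocB a C) (v : E2 → E2)
    (hv : ∀ x, ‖v x‖ = 1) (hL : LipschitzWith 1 v) (f : E2 → ℂ) (hf : Continuous f) (M : ℝ)
    (hM : ∀ x, ‖f x‖ ≤ M) (p : E2) (ε : ℝ) (hε : 0 < ε) (hεa : ε < a) :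
    ∫⁻ x in Metric.ball p a, ‖HTc a ε v f x‖ₑ ^ 2 ≤
      ENNReal.ofReal C * ∫⁻ x in Metric.ball p (5 * a), ‖f x‖ₑ ^ 2 := by
  have hr := local_lint a C ha hC hloc v hv hL (fun x => (f x).re) (Complex.continuous_re.comp hf) M
    (fun x => (Complex.abs_re_le_norm _).trans (hM x)) p ε hε hεa
  have hi := local_lint a C ha hC hloc v hv hL (fun x => (f x).im) (Complex.continuous_im.comp hf) M
    (fun x => (Complex.abs_im_le_norm _).trans (hM x)) p ε hε hεa
  have e1 : ∀ x, ‖HTc a ε v f x‖ₑ ^ 2 = ENNReal.ofReal ((HT a ε v (fun x => (f x).re) x) ^ 2) +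
      ENNReal.ofReal ((HT a ε v (fun x => (f x).im) x) ^ 2) := by
    intro x
    rw [enorm_sq_eq, HTc_re a ε hε v f hf M hM, HTc_im a ε hε v f hf M hM]
  have e2 : ∀ x, ‖f x‖ₑ ^ 2 = ENNReal.ofReal ((f x).re ^ 2) + ENNReal.ofReal ((f x).im ^ 2) :=
    fun x => enorm_sq_eq _
  simp_rw [e1, e2]
  rw [lintegral_add_left, lintegral_add_left, mul_add]
  · exact add_le_add hr hi
  · exact ENNReal.measurable_ofReal.comp ((Complex.continuous_re.comp hf).measurable.pow_const 2)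
  · exact ENNReal.measurable_ofReal.comp
      ((HT_meas a ε v hL.continuous _ (Complex.continuous_re.comp hf)).measurable.pow_const 2)

/-- averaging over the centre -/
theorem avg (G : E2 → ℝ≥0∞) (hG : Measurable G) (r : ℝ) :
    ∫⁻ p, ∫⁻ x in Metric.ball p r, G x = volume (Metric.ball (0 : E2) r) * ∫⁻ x, G x := by
  have h1 : ∀ p : E2, ∫⁻ x in Metric.ball p r, G x =
      ∫⁻ x, (Set.indicator {q : E2 × E2 | dist q.2 q.1 < r} (fun q => G q.2)) (p, x) := by
    intro p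
    rw [← lintegral_indicator measurableSet_ball]
    rfl
  simp_rw [h1]
  have hm : MeasurableSet {q : E2 × E2 | dist q.2 q.1 < r} :=
    (isOpen_lt (by fun_prop) continuous_const).measurableSet
  rw [lintegral_lintegral_swap]
  · have h2 : ∀ x : E2, ∫⁻ p, (Set.indicator {q : E2 × E2 | dist q.2 q.1 < r} (fun q => G q.2)) (p, x) =
        volume (Metric.ball (0 : E2) r) * G x := by
      intro x
      have : ∀ p : E2, (Set.indicator {q : E2 × E2 | dist q.2 q.1 < r} (fun q => G q.2)) (p, x) =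
          (Metric.ball x r).indicator (fun _ => G x) p := by
        intro p
        simp only [Set.indicator, Metric.mem_ball, Set.mem_ofPred_eq, dist_comm]
      simp_rw [this]
      rw [lintegral_indicator measurableSet_ball, setLIntegral_const,
        Measure.addHaar_ball_center, mul_comm]
    simp_rw [h2]
    rw [lintegral_const_mul _ hG]
  · exact ((hG.comp measurable_snd).indicator hm).aemeasurable

theorem vol5 (a : ℝ) :
    volume (Metric.ball (0 : E2) (5 * a)) = 25 * volume (Metric.ball (0 : E2) a) := by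
  rw [EuclideanSpace.volume_ball_fin_two, EuclideanSpace.volume_ball_fin_two,
    ENNReal.ofReal_mul (by norm_num), mul_pow]
  rw [show ENNReal.ofReal 5 = 5 by norm_num]
  ring

theorem glob (a C : ℝ) (ha : 0 < a) (hC : 0 ≤ C) (hloc : LocB a C) (v : E2 → E2)
    (hv : ∀ x, ‖v x‖ = 1) (hL : LipschitzWith 1 v) (f : E2 → ℂ) (hf : Continuous f) (M : ℝ)
    (hM : ∀ x, ‖f x‖ ≤ M) (ε : ℝ) (hε : 0 < ε) (hεa : ε < a) :
    ∫⁻ x, ‖HTc a ε v f x‖ₑ ^ 2 ≤ ENNReal.ofReal (25 * C) * ∫⁻ x, ‖f x‖ₑ ^ 2 := by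
  have hFm : Measurable (fun x => ‖HTc a ε v f x‖ₑ ^ 2) :=
    (HTc_meas a ε v hL.continuous f hf).enorm.pow_const 2
  have hfm : Measurable (fun x => ‖f x‖ₑ ^ 2) := hf.measurable.enorm.pow_const 2
  have h1 : ∫⁻ p, ∫⁻ x in Metric.ball p a, ‖HTc a ε v f x‖ₑ ^ 2 ≤
      ∫⁻ p, ENNReal.ofReal C * ∫⁻ x in Metric.ball p (5 * a), ‖f x‖ₑ ^ 2 :=
    lintegral_mono fun p => local_c a C ha hC hloc v hv hL f hf M hM p ε hε hεa
  rw [lintegral_const_mul', avg _ hFm, avg _ hfm, vol5 a] at h1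
  · have hv0 : volume (Metric.ball (0 : E2) a) ≠ 0 := (Metric.measure_ball_pos _ _ ha).ne'
    have hvt : volume (Metric.ball (0 : E2) a) ≠ ⊤ := measure_ball_lt_top.ne
    have h2 : volume (Metric.ball (0 : E2) a) * ∫⁻ x, ‖HTc a ε v f x‖ₑ ^ 2 ≤
        volume (Metric.ball (0 : E2) a) * (ENNReal.ofReal (25 * C) * ∫⁻ x, ‖f x‖ₑ ^ 2) := by
      refine h1.trans (le_of_eq ?_)
      rw [ENNReal.ofReal_mul (by norm_num), show ENNReal.ofReal 25 = 25 by norm_num]
      ring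
    exact (ENNReal.mul_le_mul_iff_right hv0 hvt).1 h2
  · exact ENNReal.ofReal_ne_top

theorem s13 : Sh1x283.S13 := by
  rintro ⟨a, ha, ha2, C, hC, hloc⟩
  refine ⟨a, ha, ha2, Real.sqrt (25 * C), ?_⟩
  intro v hv hL f ε hε hεa
  obtain ⟨M, hM⟩ : ∃ M : ℝ, ∀ x, ‖f x‖ ≤ M := ⟨_, fun x => f.norm_le_seminorm ℝ x⟩
  have h := glob a C ha hC hloc v hv hL f f.continuous M hM ε hε hεa
  change eLpNorm (HTc a ε v f) 2 volume ≤ _
  have e1 := eLpNorm_nnreal_pow_eq_lintegral (f := HTc a ε v f) (μ := volume) (p := 2) two_ne_zero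
  have e2 := eLpNorm_nnreal_pow_eq_lintegral (f := ⇑f) (μ := volume) (p := 2) two_ne_zero
  simp only [NNReal.coe_ofNat, ENNReal.coe_ofNat, ENNReal.rpow_ofNat] at e1 e2
  rw [← e1, ← e2] at h
  have hs : ENNReal.ofReal (25 * C) = ENNReal.ofReal (Real.sqrt (25 * C)) ^ 2 := by
    rw [← ENNReal.ofReal_pow (Real.sqrt_nonneg _), Real.sq_sqrt (by positivity)]
  rw [hs, ← mul_pow] at h
  exact (ENNReal.pow_le_pow_left_iff two_ne_zero).1 h
end Crest.Agent.R087.S13x738
end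
end

-- ▼ part R087/Shell_283
section

/-!
Row 87 (S0115), the outer shell assembled: the statement follows from the single band estimate.
-/

namespace Crest.Agent.R087.Shellx283

open Crest.Agent.R087 Sh0x283 Sh1x283

theorem lemL : LemL := LemLx118.lemL DCEx90.sqt1 LPupx565.lpup

theorem comm : COMM := Commx824.comm lemL



end Crest.Agent.R087.Shellx283
end

-- ▼ part R087/ShellOne_168

/-!
Row 87, outer shell with ONE fixed family of kernel profiles: `psE η t = (η t - η (2 t)) / t`.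
`shell_one`: S0115 from `SB φ (psE η)` only (needed by the gating reduction, where
`kerS (psE η) S t = (η t - η (2^S t)) / t`).
`asm_one` is helper283's proof of `asm` with `ψ` fixed.
-/

set_option autoImplicit false

noncomputable section

open MeasureTheory Crest.Agent.R087.Sh0x283 Crest.Agent.R087.Sh1x283 Crest.Agent.R087.Asm1x283
  Crest.Agent.R087.Asm2x283 Crest.Agent.R087.Asm3x283
open scoped RealInnerProductSpace

namespace Crest.Agent.R087.ShellOnex168

theorem asm_one (hAB : ABS) (hA : ALG) (hX : APX) (hS : SBK) (hC : COMM) (hT : TB)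
    {ψ : ℝ → ℝ} (hψ : PsiC ψ) (h : ∀ φ, PhiC φ → SB φ ψ) : MOD ψ := by
  obtain ⟨χ, hχ⟩ := exists_chi
  obtain ⟨K, hK⟩ := hAB
  have pd := dk_phi hχ
  have pa := al_phi hχ
  have pd' := phiC_deriv pd.1 pd.2.1
  have pa' := phiC_deriv pa.1 pa.2.1
  obtain ⟨c1, hc1, B1, hB1, b1⟩ := hS _ _ (h _ pd')
  obtain ⟨c2, hc2, B2, hB2, b2⟩ := hS _ _ (h _ pa')
  obtain ⟨L1, hL1, l1⟩ := hC _ _ pd hψ
  obtain ⟨L2, hL2, l2⟩ := hC _ _ pa hψ
  obtain ⟨W1, hW1, w1⟩ := two_bound hA pd pd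
  obtain ⟨W2, hW2, w2⟩ := two_bound hA pa pa
  obtain ⟨W3, hW3, w3⟩ := two_bound hA pd pa
  -- constants
  set nd : ℝ := ∫ r, |deriv (dk χ) r| with hnd
  set na : ℝ := ∫ r, |deriv (al χ) r| with hna
  have hnd0 : 0 ≤ nd := integral_nonneg fun _ => abs_nonneg _
  have hna0 : 0 ≤ na := integral_nonneg fun _ => abs_nonneg _
  set C₀ : ℝ := W1 * nd + W2 * na with hC0
  set b : ℝ := Real.sqrt B1 + Real.sqrt B2 with hb
  set B : ℝ := (W2 + W3) * b with hBdef
  set L : ℝ := Real.sqrt L1 + Real.sqrt L2 with hLdef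
  have hb0 : 0 ≤ b := by positivity
  have hL0 : 0 ≤ L := by positivity
  have hB0 : 0 ≤ B := by positivity
  have hC00 : 0 ≤ C₀ := by positivity
  refine ⟨min (1 / 2) (min c1 c2), by positivity, (K C₀ * (B + L)) ^ 2, ?_⟩
  intro U f hU hU1 hf S
  have hU2 : Fld (1 / 2) U := fld_mono (min_le_left _ _) hU
  have hUc1 : Fld c1 U := fld_mono ((min_le_right _ _).trans (min_le_left _ _)) hU
  have hUc2 : Fld c2 U := fld_mono ((min_le_right _ _).trans (min_le_right _ _)) hU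
  obtain ⟨k1, k2, k3⟩ := kerS_props hψ S
  set T : NF →ₗ[ℝ] NF := TT hT (kerS ψ S) k1 k2 k3 U hU2 with hTdef
  set X : ℤ → NF →ₗ[ℝ] NF := fun m => op hA χ (sm_chi hχ) m with hXdef
  have hTn : ∀ f : NF, (T f).fn = tk (kerS ψ S) U f.fn := fun f => rfl
  have sqB1 : Real.sqrt B1 ^ 2 = B1 := Real.sq_sqrt hB1
  have sqB2 : Real.sqrt B2 ^ 2 = B2 := Real.sq_sqrt hB2
  have td : ∀ k g, ‖T (op hA (deriv (dk χ)) (sm_deriv (sm_of_phi pd)) k g)‖ ≤ b * ‖g‖ := by
    intro k g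
    have h1 : ‖T (op hA (deriv (dk χ)) (sm_deriv (sm_of_phi pd)) k g)‖ ≤ Real.sqrt B1 * ‖g‖ := by
      refine norm_le_of (Real.sqrt_nonneg _) ?_
      rw [sqB1]
      exact b1 U g.fn hUc1 g.nice k S
    exact h1.trans (mul_le_mul_of_nonneg_right (by rw [hb]; linarith [Real.sqrt_nonneg B2])
      (norm_nonneg _))
  have ta : ∀ k g, ‖T (op hA (deriv (al χ)) (sm_deriv (sm_of_phi pa)) k g)‖ ≤ b * ‖g‖ := by
    intro k g
    have h1 : ‖T (op hA (deriv (al χ)) (sm_deriv (sm_of_phi pa)) k g)‖ ≤ Real.sqrt B2 * ‖g‖ := by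
      refine norm_le_of (Real.sqrt_nonneg _) ?_
      rw [sqB2]
      exact b2 U g.fn hUc2 g.nice k S
    exact h1.trans (mul_le_mul_of_nonneg_right (by rw [hb]; linarith [Real.sqrt_nonneg B1])
      (norm_nonneg _))
  have chi1 : ∫ r, |χ r| = 1 := by
    rw [← hχ.2.2.2.2]
    congr 1; ext r; exact abs_of_nonneg (hχ.2.2.1 r)
  have eD : ∀ m f, DD X m f = op hA (dk χ) (sm_of_phi pd) m f := fun m f => DD_eq hA hχ m f
  have eA : ∀ m f, AA X m f = op hA (al χ) (sm_of_phi pa) m f := fun m f => AA_eq hA hχ m f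
  have nd1 : ∀ k g, ‖(LinearMap.id : NF →ₗ[ℝ] NF)
      (op hA (deriv (dk χ)) (sm_deriv (sm_of_phi pd)) k g)‖ ≤ nd * ‖g‖ :=
    fun k g => op_norm hA _ (sm_deriv (sm_of_phi pd)) k g
  have na1 : ∀ k g, ‖(LinearMap.id : NF →ₗ[ℝ] NF)
      (op hA (deriv (al χ)) (sm_deriv (sm_of_phi pa)) k g)‖ ≤ na * ‖g‖ :=
    fun k g => op_norm hA _ (sm_deriv (sm_of_phi pa)) k g
  have key := hK NF X T C₀ B L (Real.sqrt (2 * (∫ t, |kerS ψ S t|) ^ 2)) hC00 hB0 hL0
    (Real.sqrt_nonneg _)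
    (fun m f g => CV_symm hA χ _ _ hχ.2.1 m f g)
    (fun m f => by
      have := op_norm hA χ (sm_chi hχ) m f
      rw [chi1, one_mul] at this
      exact this)
    (fun m n f => op_comm hA χ χ _ _ m n f)
    (fun f => by
      have h1 := (hX χ hχ f.fn f.nice).1
      have h2 : ∀ N : ℕ, ‖X (-(N : ℤ)) f - f‖ =
          Real.sqrt (∫ z, (cv χ (-(N : ℤ)) f.fn z - f.fn z) ^ 2) := by
        intro N
        rw [← Real.sqrt_sq (norm_nonneg (X (-(N : ℤ)) f - f)), norm_sq_eq]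
        rfl
      simp only [h2]
      have h3 := (Real.continuous_sqrt.tendsto 0).comp h1
      rw [Real.sqrt_zero] at h3
      exact h3)
    (fun f => by
      have h1 := (hX χ hχ f.fn f.nice).2
      have h2 : ∀ N : ℕ, ‖X (N : ℤ) f‖ = Real.sqrt (∫ z, (cv χ (N : ℤ) f.fn z) ^ 2) := by
        intro N
        rw [← Real.sqrt_sq (norm_nonneg (X (N : ℤ) f)), norm_sq_eq]
        rfl
      simp only [h2]
      have h3 := (Real.continuous_sqrt.tendsto 0).comp h1
      rw [Real.sqrt_zero] at h3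
      exact h3)
    (fun k l f => by
      rw [eD, eD]
      have := w1 LinearMap.id nd hnd0 nd1 nd1 k l f
      refine this.trans ?_
      have h0 : 0 ≤ W2 * na := by positivity
      have : W1 * nd ≤ C₀ := by rw [hC0]; linarith
      gcongr)
    (fun k l f => by
      rw [eA, eA]
      have := w2 LinearMap.id na hna0 na1 na1 k l f
      refine this.trans ?_
      have h0 : 0 ≤ W1 * nd := by positivity
      have : W2 * na ≤ C₀ := by rw [hC0]; linarith
      gcongr)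
    (fun k m f => by
      rw [eD, eA]
      refine (w3 T b hb0 td ta k m f).trans ?_
      have : W3 * b ≤ B := by
        rw [hBdef]; nlinarith
      gcongr)
    (fun k m f => by
      rw [eA, eA]
      refine (w2 T b hb0 ta ta k m f).trans ?_
      have : W2 * b ≤ B := by
        rw [hBdef]; nlinarith
      gcongr)
    (fun F f => by
      have h1 := l1 U f.fn hU2 hU1 f.nice S F
      have h2 : ∀ k, ‖DD X k (T f) - T (DD X k f)‖ ^ 2 =
          ∫ z, (cv (dk χ) k (tk (kerS ψ S) U f.fn) z - tk (kerS ψ S) U (cv (dk χ) k f.fn) z) ^ 2 := by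
        intro k
        rw [eD, eD, norm_sq_eq]
        rfl
      simp only [h2]
      refine h1.trans ?_
      rw [norm_sq_eq]
      have h3 : 0 ≤ ∫ z, (f.fn z) ^ 2 := integral_nonneg fun _ => sq_nonneg _
      refine mul_le_mul_of_nonneg_right ?_ h3
      have e1 := Real.sq_sqrt hL1
      rw [hLdef]
      nlinarith [Real.sqrt_nonneg L1, Real.sqrt_nonneg L2])
    (fun F f => by
      have h1 := l2 U f.fn hU2 hU1 f.nice S F
      have h2 : ∀ k, ‖AA X k (T f) - T (AA X k f)‖ ^ 2 =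
          ∫ z, (cv (al χ) k (tk (kerS ψ S) U f.fn) z - tk (kerS ψ S) U (cv (al χ) k f.fn) z) ^ 2 := by
        intro k
        rw [eA, eA, norm_sq_eq]
        rfl
      simp only [h2]
      refine h1.trans ?_
      rw [norm_sq_eq]
      have h3 : 0 ≤ ∫ z, (f.fn z) ^ 2 := integral_nonneg fun _ => sq_nonneg _
      refine mul_le_mul_of_nonneg_right ?_ h3
      have e1 := Real.sq_sqrt hL2
      rw [hLdef]
      nlinarith [Real.sqrt_nonneg L1, Real.sqrt_nonneg L2])
    (fun f => by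
      refine norm_le_of (Real.sqrt_nonneg _) ?_
      rw [Real.sq_sqrt (by positivity)]
      exact (hT _ k1 k2 k3 U hU2).2.1 f.fn f.nice)
    (NF.mk f hf)
  have h1 : ‖T (NF.mk f hf)‖ ^ 2 ≤ (K C₀ * (B + L) * ‖NF.mk f hf‖) ^ 2 :=
    pow_le_pow_left₀ (norm_nonneg _) key 2
  rw [mul_pow, norm_sq_eq, norm_sq_eq] at h1
  exact h1


theorem s11_one {η : ℝ → ℝ} (hη : EtaC η) (hmod : MOD (S11x168.psE η)) : MODL η := by
  obtain ⟨c, hc, C, hC⟩ := hmod
  refine ⟨min (c / 3) (1 / 20), by positivity, ?_, max C 0, le_max_right _ _, ?_⟩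
  · exact (min_le_right _ _).trans_lt (by norm_num)
  · intro U f hU hfc hf S
    have hl : 0 < min (c / 3) (1 / 20) := by positivity
    have hlc : 3 * min (c / 3) (1 / 20) ≤ c := by
      have := min_le_left (c / 3) (1 / 20); linarith
    refine (S11x168.remove_c1 hη hl
      (fun U f hU hU1 hf S => S11x168.c1_case hC hl hlc U f hU hU1 hf S) U f hU hfc hf S).trans ?_
    exact mul_le_mul_of_nonneg_right (le_max_left _ _) (integral_nonneg fun z => sq_nonneg _)

/-- S0115 from the single band estimate for the profiles `psE η` only. -/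
theorem shell_one (h : ∀ η, EtaC η → ∀ φ, PhiC φ → SB φ (S11x168.psE η)) : TGT :=
  S13x738.s13 (S12x575.s12 fun η hη => s11_one hη
    (asm_one ABSx52.abs9 ALGx390.alg Apxx738.apx SBKx545.sbk Shellx283.comm TBx820.tb
      (S11x168.psE_PsiC hη) (h η hη)))

end Crest.Agent.R087.ShellOnex168
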