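import Crest.Agent.R087.RoundE_975_Mg
import Crest.Agent.R087.EDGE_621_Mg
import Crest.Agent.R087.ASM2s_556_Mg
import Crest.Agent.R087.E2K_752
import Crest.Agent.R087.ShellOne_168
import Crest.Agent.R087.Red_738
import Crest.Agent.R087.GateDef_273
import Crest.Agent.R087.OPker_799
import Crest.Agent.R087.OP0_270
import Crest.Agent.R087.Omega_627
import Crest.Agent.R087.Sq_282
import Crest.Agent.R087.Pair1_339
import Crest.Agent.R087.StopAvg_630
import Crest.Agent.R087.TreeIf_153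
import Crest.Agent.R087.Mass_546

-- ▼ part R087/MAINofF_575
section

/-!
Row 87, (E2): final form of MAINof (helper575), with the last rounding error of helper975.
-/

set_option autoImplicit false

noncomputable section

open MeasureTheory Filter Topology

namespace Crest.Agent.R087.MAINofFx575

open E2x542 MAINofx575

theorem err (hE : EDGE) (hF : FLAT) : ERR := by
  obtain ⟨C, hC0, hC⟩ := RoundEx975.last_error hE hF
  refine ⟨C, hC0, fun K n b M a kk θ M' ha hθ hM' => ?_⟩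
  refine hC K n b M a kk θ (fun k i => M' i k) ha hθ fun k i h => ?_
  obtain ⟨h1, h2, h3, h4⟩ := hM' i k h
  refine ⟨h2, h3, ?_⟩
  -- same sign
  have key : |M i - M' i k| = |M i| - |M' i k| := by
    rcases lt_trichotomy (M i) 0 with h5 | h5 | h5
    · have h6 : M' i k < 0 := by
        by_contra h7
        push Not at h7
        nlinarith
      rw [abs_of_neg h5, abs_of_neg h6] at *
      rw [abs_of_nonpos (by linarith)]
      ring
    · rw [h5, mul_zero] at h1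
      exact absurd h1 (lt_irrefl 0)
    · have h6 : 0 < M' i k := by
        by_contra h7
        push Not at h7
        nlinarith
      rw [abs_of_pos h5, abs_of_pos h6] at *
      rw [abs_of_nonneg (by linarith)]
  rw [key]
  linarith

/-- **leaf MAINof** -/
theorem mainof : MAINof := fun hM hT hEdge hFlat => mainof_of_err (err hEdge hFlat) hM hT

end Crest.Agent.R087.MAINofFx575
end
end

-- ▼ part R087/E2end_542
section

/-!
Row 87, the heart is closed: `E2s` and its fat version `E2K` (helper542, assembly of all leaves).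
-/

set_option autoImplicit false

namespace Crest.Agent.R087.E2endx542

open Crest.Agent.R087.E2x542

theorem main : MAIN :=
  MAINofFx575.mainof MARTx612.mart TB2x297.tb EDGEx621.edge EDGEx621.flat

theorem sq : SQ := SQofx199.sqof HLlinx975.hllin EDGEx621.edge EDGEx621.flat main

theorem e2s : E2s := ASM2x556.asm2s STOPsx819.stops sq

theorem e2K : E2Kx752.E2K := E2Kx752.e2K e2s

end Crest.Agent.R087.E2endx542
end

-- ▼ part R087/End_542
section

/-!
Row 87 (S0115), END (helper542): the statement from the two last open blocks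
* `GATE ζ N M` (helper273): gated bound => single band estimate for `psE η`;
* `OP ζ N M` (operator part): `E2K => GDN ζ N M`.
Everything else (heart `E2s`, outer shell, profile reduction) is proved.
-/

set_option autoImplicit false

namespace Crest.Agent.R087.Endx542

open Crest.Agent.R087.Sh0x283 Crest.Agent.R087.Sh1x283 Crest.Agent.R087.GateDefx273
open Crest.Agent.R087.Redx738 Crest.Agent.R087.S11x168 Crest.Agent.R087.E2Kx752

/-- the gating reduction -/
def GATE (ζ : ℝ → ℝ) (N M : ℕ) : Prop := ∀ η, EtaC η → GDN ζ N M → SBN (psE η) N M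

/-- the operator part -/
def OP (ζ : ℝ → ℝ) (N M : ℕ) : Prop := E2K → GDN ζ N M

/-- S0115 from the two blocks. -/
theorem fin {ζ : ℝ → ℝ} {N M : ℕ} (hN : 1 ≤ N) (hG : GATE ζ N M) (hO : OP ζ N M) : TGT :=
  ShellOnex168.shell_one fun η hη => red (psE_PsiC hη) hN (hG η hη (hO E2endx542.e2K))

end Crest.Agent.R087.Endx542
end

-- ▼ part R087/OPasm_799
section

/-!
Row 87 (S0115), operator part: OUTER ASSEMBLY (helper799).

`DEC ζ N M` (class agnostic decomposition of every interval truncation into kept pieces, removed pieces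
and a small remainder) implies `GDN ζ N M` (the target), by the a priori bound and bootstrap.
-/

set_option autoImplicit false

noncomputable section

open MeasureTheory Crest.Agent.R087.Sh0x283 Crest.Agent.R087.GateDefx273
open Crest.Agent.R087.OPdefx799 Crest.Agent.R087.OPkerx799 Crest.Agent.R087.TBx820
open scoped ENNReal

namespace Crest.Agent.R087.OPasmx799

/-- decomposition of a family of weights `H` (majorised by `h`) into kept pieces of size `κ` and
removed pieces (interval truncations) of size `δ` -/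
def DecN (φ ζ : ℝ → ℝ) (U : ℝ × ℝ → ℝ) (S : ℕ) (h : ℝ × ℝ → ℝ) (H : ℕ → ℝ × ℝ → ℝ)
    (κ δ : ℝ) : Prop :=
  ∃ (ι : Type) (_ : Fintype ι) (a : ι → ℝ) (Hk Hr : ι → ℕ → ℝ × ℝ → ℝ) (hr : ι → ℝ × ℝ → ℝ),
    (∀ i, 0 < a i) ∧ ∑ i, a i ≤ 1 ∧
    (∀ i, ∀ s < S, Nice (Hk i s)) ∧
    (∀ i, ∫ w, (TS φ ζ U S (Hk i) w) ^ 2 ≤ κ * a i ^ 2 * ∫ z, (h z) ^ 2) ∧
    (∀ i, Nice (hr i)) ∧ (∀ i z, 0 ≤ hr i z) ∧ (∀ i, Ch (hr i) (Hr i)) ∧
    (∀ i, ∫ z, (hr i z) ^ 2 ≤ δ * a i ^ 2 * ∫ z, (h z) ^ 2) ∧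
    ∀ s < S, ∀ z, H s z = ∑ i, (Hk i s z + Hr i s z)

/-- the same, up to a remainder of size `ε` -/
def Dec (φ ζ : ℝ → ℝ) (U : ℝ × ℝ → ℝ) (S : ℕ) (h : ℝ × ℝ → ℝ) (H : ℕ → ℝ × ℝ → ℝ)
    (κ δ ε : ℝ) : Prop :=
  ∃ (G : ℕ → ℝ × ℝ → ℝ) (h0 : ℝ × ℝ → ℝ) (H0 : ℕ → ℝ × ℝ → ℝ),
    DecN φ ζ U S h G κ δ ∧ Nice h0 ∧ (∀ z, 0 ≤ h0 z) ∧ Ch h0 H0 ∧ ∫ z, (h0 z) ^ 2 ≤ ε ∧
    ∀ s < S, ∀ z, H s z = G s z + H0 s z

/-- **DEC**: the class agnostic form of the operator part -/
def DEC (ζ : ℝ → ℝ) (N M : ℕ) : Prop :=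
  ∃ c : ℝ, 0 < c ∧ ∀ δ : ℝ, 0 < δ → ∃ κ : ℝ, 0 ≤ κ ∧
    ∀ φ : ℝ → ℝ, Prof N M φ → ∀ U : ℝ × ℝ → ℝ, Fld c U → ∀ S : ℕ,
    ∀ (h : ℝ × ℝ → ℝ) (H : ℕ → ℝ × ℝ → ℝ), Nice h → (∀ z, 0 ≤ h z) → Ch h H →
    ∀ ε : ℝ, 0 < ε → Dec φ ζ U S h H κ δ ε

/-! ### admissible profiles -/

theorem iterDeriv_supp {ω : ℝ → ℝ} (h : ∀ r, 1 < |r| → ω r = 0) (n : ℕ) :
    ∀ r, 1 < |r| → iteratedDeriv n ω r = 0 := by
  intro r hr
  have ho : IsOpen {r : ℝ | 1 < |r|} := isOpen_lt continuous_const continuous_abs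
  have h1 : ω =ᶠ[nhds r] fun _ => (0 : ℝ) := by
    filter_upwards [ho.mem_nhds hr] with t ht using h t ht
  rw [h1.iteratedDeriv_eq n]
  simp

theorem pz_of {ζ : ℝ → ℝ} (hζ : ZetC ζ) {N M : ℕ} (hNM : N ≤ M) :
    ∃ Cz : ℝ, ∀ φ, Prof N M φ → PZ φ ζ 1 Cz := by
  obtain ⟨h1, h2, -⟩ := hζ
  have hc : HasCompactSupport ζ := by
    refine HasCompactSupport.intro (isCompact_Icc (a := (1 / 8 : ℝ)) (b := 7 / 8)) ?_
    intro t ht
    by_contra h
    exact ht (h2 t h)
  obtain ⟨Cz, hCz⟩ := h1.continuous.bounded_above_of_compact_support hc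
  refine ⟨Cz, ?_⟩
  rintro φ ⟨ω, h3, h4, h5, rfl⟩
  refine ⟨?_, h1.continuous, fun r => h5 N hNM r, fun t => hCz t, iterDeriv_supp h4 N, h2⟩
  exact (h3.continuous_iteratedDeriv N (by exact_mod_cast le_top))

/-! ### weighted sums -/

theorem sum_sq_weight {ι : Type*} (F : Finset ι) (a : ι → ℝ) (ha : ∀ i ∈ F, 0 < a i)
    (hs : ∑ i ∈ F, a i ≤ 1) (f : ι → ℝ × ℝ → ℝ) (hf : ∀ i ∈ F, Nice (f i)) (Q : ℝ) (hQ : 0 ≤ Q)
    (h : ∀ i ∈ F, ∫ w, (f i w) ^ 2 ≤ Q * a i ^ 2) : ∫ w, (∑ i ∈ F, f i w) ^ 2 ≤ Q := by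
  have h1 : ∀ w, (∑ i ∈ F, f i w) ^ 2 ≤ ∑ i ∈ F, (a i)⁻¹ * (f i w) ^ 2 := by
    intro w
    have h2 := Finset.sum_sq_le_sum_mul_sum_of_sq_le_mul F (r := fun i => f i w) (f := a)
      (g := fun i => (a i)⁻¹ * (f i w) ^ 2) (fun i hi => (ha i hi).le)
      (fun i hi => mul_nonneg (inv_nonneg.2 (ha i hi).le) (sq_nonneg _)) (fun i hi => le_of_eq (by
        have := (ha i hi).ne'
        field_simp))
    refine h2.trans ?_
    have h3 : 0 ≤ ∑ i ∈ F, (a i)⁻¹ * (f i w) ^ 2 :=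
      Finset.sum_nonneg fun i hi => mul_nonneg (inv_nonneg.2 (ha i hi).le) (sq_nonneg _)
    calc (∑ i ∈ F, a i) * ∑ i ∈ F, (a i)⁻¹ * (f i w) ^ 2
        ≤ 1 * ∑ i ∈ F, (a i)⁻¹ * (f i w) ^ 2 := mul_le_mul_of_nonneg_right hs h3
      _ = _ := one_mul _
  have hi : ∀ i ∈ F, Integrable fun w => (a i)⁻¹ * (f i w) ^ 2 := fun i hi =>
    (nice_integrable_sq (hf i hi)).const_mul _
  calc ∫ w, (∑ i ∈ F, f i w) ^ 2 ≤ ∫ w, ∑ i ∈ F, (a i)⁻¹ * (f i w) ^ 2 :=
        integral_mono (nice_integrable_sq (nice_sum F hf)) (integrable_finsetSum _ hi) h1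
    _ = ∑ i ∈ F, (a i)⁻¹ * ∫ w, (f i w) ^ 2 := by
        rw [integral_finsetSum _ hi]
        exact Finset.sum_congr rfl fun i _ => integral_const_mul _ _
    _ ≤ ∑ i ∈ F, (a i)⁻¹ * (Q * a i ^ 2) := by
        refine Finset.sum_le_sum fun i hi => ?_
        exact mul_le_mul_of_nonneg_left (h i hi) (inv_nonneg.2 (ha i hi).le)
    _ = Q * ∑ i ∈ F, a i := by
        rw [Finset.mul_sum]
        refine Finset.sum_congr rfl fun i hi => ?_
        have := (ha i hi).ne'
        field_simp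
    _ ≤ Q := by
        calc Q * ∑ i ∈ F, a i ≤ Q * 1 := mul_le_mul_of_nonneg_left hs hQ
          _ = Q := mul_one _

theorem int_nonneg_sq (f : ℝ × ℝ → ℝ) : 0 ≤ ∫ z, (f z) ^ 2 :=
  integral_nonneg fun _ => sq_nonneg _

/-! ### the bootstrap step -/

theorem step {φ ζ : ℝ → ℝ} {Cp Cz : ℝ} (P : PZ φ ζ Cp Cz) {U : ℝ × ℝ → ℝ} {c : ℝ} (hU : Fld c U)
    (S : ℕ) {κ δ : ℝ} (hκ : 0 ≤ κ) (hδ0 : 0 ≤ δ) (hδ1 : 3 * δ ≤ 1 / 2)
    (hD : ∀ (h : ℝ × ℝ → ℝ) (H : ℕ → ℝ × ℝ → ℝ), Nice h → (∀ z, 0 ≤ h z) → Ch h H →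
      ∀ ε : ℝ, 0 < ε → Dec φ ζ U S h H κ δ ε)
    {A : ℝ} (hA0 : 0 ≤ A) (hA : NN φ ζ U S A) : NN φ ζ U S (3 * κ + A / 2) := by
  intro h H hh h0' hCh
  obtain ⟨W, hW⟩ := hU.2.1
  have key : ∀ ε : ℝ, 0 < ε → ∫ w, (TS φ ζ U S H w) ^ 2 ≤
      (3 * κ + A / 2) * (∫ z, (h z) ^ 2) + 3 * A * ε := by
    intro ε hε
    obtain ⟨G, h0, H0, ⟨ι, _, a, Hk, Hr, hr, ha, has, hkn, hkb, hrn, hr0, hrC, hrb, hsumG⟩,
      h0n, h00, h0C, h0b, hsumH⟩ := hD h H hh h0' hCh ε hε
    have hsum : ∀ s < S, ∀ z, H s z = ∑ i, (Hk i s z + Hr i s z) + H0 s z := fun s hs z => by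
      rw [hsumH s hs z, hsumG s hs z]
    have e1 : TS φ ζ U S H = TS φ ζ U S (fun s z => ∑ i, (Hk i s z + Hr i s z) + H0 s z) :=
      TS_congr S hsum
    have hrn' : ∀ i, ∀ s < S, Nice (Hr i s) := fun i s _ => ch_nice (hrn i) (hrC i) s
    have h0n' : ∀ s < S, Nice (H0 s) := fun s _ => ch_nice h0n h0C s
    have e2 : ∀ w, TS φ ζ U S H w = ∑ i, TS φ ζ U S (Hk i) w + ∑ i, TS φ ζ U S (Hr i) w +
        TS φ ζ U S H0 w := by
      intro w
      rw [e1]
      have e3 := TS_add P hU.1 S (H := fun s z => ∑ i, (Hk i s z + Hr i s z)) (G := H0)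
        (fun s hs => nice_sum _ fun i _ => nice_add (hkn i s hs) (hrn' i s hs)) h0n' w
      rw [e3]
      have e4 := TS_sum P hU.1 S (Finset.univ) (H := fun i s z => Hk i s z + Hr i s z)
        (fun i _ s hs => nice_add (hkn i s hs) (hrn' i s hs)) w
      rw [e4, ← Finset.sum_add_distrib]
      congr 1
      refine Finset.sum_congr rfl fun i _ => ?_
      exact TS_add P hU.1 S (hkn i) (hrn' i) w
    have nK : Nice (fun w => ∑ i, TS φ ζ U S (Hk i) w) :=
      nice_sum _ fun i _ => TS_nice P hU.1 hW S (hkn i)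
    have nR : Nice (fun w => ∑ i, TS φ ζ U S (Hr i) w) :=
      nice_sum _ fun i _ => TS_nice P hU.1 hW S (hrn' i)
    have n0 : Nice (TS φ ζ U S H0) := TS_nice P hU.1 hW S h0n'
    have nT : Nice (TS φ ζ U S H) := TS_nice P hU.1 hW S fun s _ => ch_nice hh hCh s
    have b1 : ∫ w, (TS φ ζ U S H w) ^ 2 ≤ 3 * (∫ w, (∑ i, TS φ ζ U S (Hk i) w) ^ 2) +
        3 * (∫ w, (∑ i, TS φ ζ U S (Hr i) w) ^ 2) + 3 * (∫ w, (TS φ ζ U S H0 w) ^ 2) := by
      have i1 : Integrable fun w => 3 * (∑ i, TS φ ζ U S (Hk i) w) ^ 2 :=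
        (nice_integrable_sq nK).const_mul _
      have i2 : Integrable fun w => 3 * (∑ i, TS φ ζ U S (Hr i) w) ^ 2 :=
        (nice_integrable_sq nR).const_mul _
      have i3 : Integrable fun w => 3 * (TS φ ζ U S H0 w) ^ 2 :=
        (nice_integrable_sq n0).const_mul _
      have i12 : Integrable fun w => 3 * (∑ i, TS φ ζ U S (Hk i) w) ^ 2 +
        3 * (∑ i, TS φ ζ U S (Hr i) w) ^ 2 := i1.add i2
      rw [← integral_const_mul, ← integral_const_mul, ← integral_const_mul,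
        ← integral_add i1 i2, ← integral_add i12 i3]
      refine integral_mono (nice_integrable_sq nT) (i12.add i3) ?_
      intro w
      simp only [e2 w]
      nlinarith [sq_nonneg (∑ i, TS φ ζ U S (Hk i) w - ∑ i, TS φ ζ U S (Hr i) w),
        sq_nonneg (∑ i, TS φ ζ U S (Hk i) w - TS φ ζ U S H0 w),
        sq_nonneg (∑ i, TS φ ζ U S (Hr i) w - TS φ ζ U S H0 w)]
    have b2 : ∫ w, (∑ i, TS φ ζ U S (Hk i) w) ^ 2 ≤ κ * ∫ z, (h z) ^ 2 := by
      refine sum_sq_weight Finset.univ a (fun i _ => ha i) has _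
        (fun i _ => TS_nice P hU.1 hW S (hkn i)) _ (mul_nonneg hκ (int_nonneg_sq h)) ?_
      intro i _
      refine (hkb i).trans (le_of_eq ?_); ring
    have b3 : ∫ w, (∑ i, TS φ ζ U S (Hr i) w) ^ 2 ≤ A * δ * ∫ z, (h z) ^ 2 := by
      refine sum_sq_weight Finset.univ a (fun i _ => ha i) has _
        (fun i _ => TS_nice P hU.1 hW S (hrn' i)) _
        (mul_nonneg (mul_nonneg hA0 hδ0) (int_nonneg_sq h)) ?_
      intro i _
      refine (hA (hr i) (Hr i) (hrn i) (hr0 i) (hrC i)).trans ?_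
      refine (mul_le_mul_of_nonneg_left (hrb i) hA0).trans (le_of_eq ?_)
      ring
    have b4 : ∫ w, (TS φ ζ U S H0 w) ^ 2 ≤ A * ε :=
      (hA h0 H0 h0n h00 h0C).trans (mul_le_mul_of_nonneg_left h0b hA0)
    have b5 : 3 * (A * δ * ∫ z, (h z) ^ 2) ≤ A / 2 * ∫ z, (h z) ^ 2 := by
      have := int_nonneg_sq h
      have h6 : 3 * δ * (A * ∫ z, (h z) ^ 2) ≤ 1 / 2 * (A * ∫ z, (h z) ^ 2) :=
        mul_le_mul_of_nonneg_right hδ1 (mul_nonneg hA0 this)
      nlinarith
    nlinarith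
  refine le_of_forall_pos_le_add fun η hη => ?_
  have h1 := key (η / (3 * A + 1)) (by positivity)
  refine h1.trans ?_
  have h2 : 3 * A * (η / (3 * A + 1)) ≤ η := by
    rw [mul_div_assoc', div_le_iff₀ (by positivity)]
    nlinarith
  linarith

theorem boot {φ ζ : ℝ → ℝ} {U : ℝ × ℝ → ℝ} {S : ℕ} {C0 A0 : ℝ} (hC0 : 0 ≤ C0) (hA0 : 0 ≤ A0)
    (h0 : NN φ ζ U S A0)
    (hs : ∀ A : ℝ, 0 ≤ A → NN φ ζ U S A → NN φ ζ U S (C0 + A / 2)) : NN φ ζ U S (2 * C0) := by
  have h1 : ∀ n : ℕ, NN φ ζ U S (2 * C0 + A0 / 2 ^ n) := by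
    intro n
    induction n with
    | zero =>
      intro h H hh h' hC
      refine (h0 h H hh h' hC).trans ?_
      refine mul_le_mul_of_nonneg_right ?_ (int_nonneg_sq h)
      simp; linarith
    | succ n ih =>
      intro h H hh h' hC
      have h2 := hs _ (by positivity) ih h H hh h' hC
      refine h2.trans (le_of_eq ?_)
      congr 1
      rw [pow_succ]; field_simp; ring
  intro h H hh h' hC
  have h2 : Filter.Tendsto (fun n : ℕ => (2 * C0 + A0 / 2 ^ n) * ∫ z, (h z) ^ 2) Filter.atTop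
      (nhds ((2 * C0 + 0) * ∫ z, (h z) ^ 2)) := by
    refine Filter.Tendsto.mul_const _ (Filter.Tendsto.const_add _ ?_)
    exact tendsto_const_nhds.div_atTop (tendsto_pow_atTop_atTop_of_one_lt (by norm_num))
  rw [add_zero] at h2
  exact ge_of_tendsto h2 (Filter.Eventually.of_forall fun n => h1 n h H hh h' hC)

/-! ### from `NN` to the target -/

theorem tst_eq {φ ζ : ℝ → ℝ} {Cp Cz : ℝ} (P : PZ φ ζ Cp Cz) {U : ℝ × ℝ → ℝ} (hU : Measurable U)
    (S : ℕ) {h : ℝ × ℝ → ℝ} (hh : Nice h) (w : ℝ × ℝ) :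
    Tst φ ζ S U h w = TS φ ζ U S (fun _ => h) w := by
  unfold Tst TS T1
  rw [← integral_finsetSum _ fun s _ => kk_int P hU s hh w]
  refine integral_congr_ae (Filter.Eventually.of_forall fun z => ?_)
  simp only [gk, kk, ln, ix, Finset.sum_mul]

theorem of_nn {φ ζ : ℝ → ℝ} {Cp Cz : ℝ} (P : PZ φ ζ Cp Cz) {U : ℝ × ℝ → ℝ} {c : ℝ} (hU : Fld c U)
    {S : ℕ} {A : ℝ} (hA : NN φ ζ U S A) {h : ℝ × ℝ → ℝ} (hh : Nice h) :
    ∫ w, (Tst φ ζ S U h w) ^ 2 ≤ 2 * A * ∫ z, (h z) ^ 2 := by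
  obtain ⟨W, hW⟩ := hU.2.1
  set hp : ℝ × ℝ → ℝ := fun z => max (h z) 0 with hhp
  set hm : ℝ × ℝ → ℝ := fun z => max (-h z) 0 with hhm
  have np : Nice hp := nice_of_le hh (hh.1.max measurable_const) fun z => by
    rw [hhp]; simp only
    rw [abs_of_nonneg (le_max_right _ _)]
    exact max_le (le_abs_self _) (abs_nonneg _)
  have nm : Nice hm := nice_of_le hh (hh.1.neg.max measurable_const) fun z => by
    rw [hhm]; simp only
    rw [abs_of_nonneg (le_max_right _ _)]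
    exact max_le (neg_le_abs _) (abs_nonneg _)
  have hdec : ∀ z, h z = hp z + (-1) * hm z := by
    intro z
    rw [hhp, hhm]; simp only
    rcases le_total 0 (h z) with h1 | h1
    · rw [max_eq_left h1, max_eq_right (by linarith)]; ring
    · rw [max_eq_right h1, max_eq_left (by linarith)]; ring
  have hsq : ∀ z, (hp z) ^ 2 + (hm z) ^ 2 = (h z) ^ 2 := by
    intro z
    rw [hhp, hhm]; simp only
    rcases le_total 0 (h z) with h1 | h1
    · rw [max_eq_left h1, max_eq_right (by linarith)]; ring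
    · rw [max_eq_right h1, max_eq_left (by linarith)]; ring
  have hch : ∀ g : ℝ × ℝ → ℝ, Ch g (fun s z => if s < S then g z else 0) := by
    intro g
    refine ⟨fun _ => 0, fun _ => S, measurable_const, measurable_const, fun s z => ?_⟩
    by_cases hs : s < S
    · simp [hs]
    · simp [hs]
  have hts : ∀ g : ℝ × ℝ → ℝ, TS φ ζ U S (fun s z => if s < S then g z else 0) =
      TS φ ζ U S (fun _ => g) := fun g => TS_congr S fun s hs z => by simp [hs]
  have e1 : ∀ w, Tst φ ζ S U h w = TS φ ζ U S (fun _ => hp) w - TS φ ζ U S (fun _ => hm) w := by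
    intro w
    rw [tst_eq P hU.1 S hh w]
    have e2 : TS φ ζ U S (fun _ => h) = TS φ ζ U S (fun _ z => hp z + (-1) * hm z) :=
      TS_congr S fun s _ z => hdec z
    rw [e2, TS_add P hU.1 S (H := fun _ => hp) (G := fun _ z => (-1) * hm z)
      (fun _ _ => np) (fun _ _ => nice_smul _ nm) w]
    have e3 : TS φ ζ U S (fun _ z => (-1) * hm z) w = - TS φ ζ U S (fun _ => hm) w := by
      unfold TS
      rw [← Finset.sum_neg_distrib]
      refine Finset.sum_congr rfl fun s _ => ?_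
      rw [T1_smul]; ring
    rw [e3]; ring
  have n1 : Nice (TS φ ζ U S (fun _ => hp)) := TS_nice P hU.1 hW S fun _ _ => np
  have n2 : Nice (TS φ ζ U S (fun _ => hm)) := TS_nice P hU.1 hW S fun _ _ => nm
  have b1 : ∫ w, (TS φ ζ U S (fun _ => hp) w) ^ 2 ≤ A * ∫ z, (hp z) ^ 2 := by
    rw [← hts hp]
    exact hA hp _ np (fun z => le_max_right _ _) (hch hp)
  have b2 : ∫ w, (TS φ ζ U S (fun _ => hm) w) ^ 2 ≤ A * ∫ z, (hm z) ^ 2 := by
    rw [← hts hm]
    exact hA hm _ nm (fun z => le_max_right _ _) (hch hm)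
  have b3 : ∫ w, (Tst φ ζ S U h w) ^ 2 ≤ 2 * (∫ w, (TS φ ζ U S (fun _ => hp) w) ^ 2) +
      2 * (∫ w, (TS φ ζ U S (fun _ => hm) w) ^ 2) := by
    rw [← integral_const_mul, ← integral_const_mul,
      ← integral_add ((nice_integrable_sq n1).const_mul _) ((nice_integrable_sq n2).const_mul _)]
    have hint : Integrable fun w => (Tst φ ζ S U h w) ^ 2 := by
      have : (fun w => (Tst φ ζ S U h w) ^ 2) = fun w => (TS φ ζ U S (fun _ => h) w) ^ 2 := by
        ext w; rw [tst_eq P hU.1 S hh w]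
      rw [this]
      exact nice_integrable_sq (TS_nice P hU.1 hW S fun _ _ => hh)
    refine integral_mono hint (((nice_integrable_sq n1).const_mul _).add
      ((nice_integrable_sq n2).const_mul _)) fun w => ?_
    simp only [e1 w]
    nlinarith [sq_nonneg (TS φ ζ U S (fun _ => hp) w + TS φ ζ U S (fun _ => hm) w)]
  have b4 : (∫ z, (hp z) ^ 2) + (∫ z, (hm z) ^ 2) = ∫ z, (h z) ^ 2 := by
    rw [← integral_add (nice_integrable_sq np) (nice_integrable_sq nm)]
    exact integral_congr_ae (Filter.Eventually.of_forall hsq)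
  calc ∫ w, (Tst φ ζ S U h w) ^ 2 ≤ 2 * (A * ∫ z, (hp z) ^ 2) + 2 * (A * ∫ z, (hm z) ^ 2) := by
        linarith
    _ = 2 * A * ((∫ z, (hp z) ^ 2) + (∫ z, (hm z) ^ 2)) := by ring
    _ = _ := by rw [b4]

theorem fld_mono {c c' : ℝ} (h : c ≤ c') {U : ℝ × ℝ → ℝ} (hU : Fld c U) : Fld c' U :=
  ⟨hU.1, hU.2.1, fun x y y' => (hU.2.2 x y y').trans (mul_le_mul_of_nonneg_right h (abs_nonneg _))⟩

/-- **outer assembly of the operator part** -/
theorem gdn_of_dec {ζ : ℝ → ℝ} (hζ : ZetC ζ) {N M : ℕ} (hNM : N ≤ M) (hD : DEC ζ N M) :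
    GDN ζ N M := by
  rw [gdn_iff]
  obtain ⟨Cz, hPZ⟩ := pz_of hζ hNM
  obtain ⟨c, hc, hB⟩ := hD
  obtain ⟨κ, hκ, hfin⟩ := hB (1 / 6) (by norm_num)
  refine ⟨min c (1 / 2), by positivity, 2 * (2 * (3 * κ)), ?_⟩
  intro φ hφ U h hU hh S
  have P := hPZ φ hφ
  have hUc : Fld c U := fld_mono (min_le_left _ _) hU
  have hNN : NN φ ζ U S (2 * (3 * κ)) := by
    refine boot (A0 := (S : ℝ) * S * CT 1 Cz) (by positivity) ?_
      (apriori P (min_le_right c (1 / 2)) hU S) ?_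
    · unfold CT; positivity
    · intro A hA0 hA
      exact step P hUc S hκ (by norm_num : (0 : ℝ) ≤ 1 / 6) (by norm_num)
        (fun h H h1 h2 h3 ε hε => hfin φ hφ U hUc S h H h1 h2 h3 ε hε) hA0 hA
  exact of_nn P hUc hNN hh

/-! ### calculus of decompositions -/

theorem DecN.mono {φ ζ : ℝ → ℝ} {U : ℝ × ℝ → ℝ} {S : ℕ} {h h' : ℝ × ℝ → ℝ}
    {H : ℕ → ℝ × ℝ → ℝ} {κ δ κ' δ' : ℝ} (hd : DecN φ ζ U S h H κ δ) (h1 : κ ≤ κ') (h2 : δ ≤ δ')
    (h3 : 0 ≤ κ) (h4 : 0 ≤ δ) (h5 : ∫ z, (h z) ^ 2 ≤ ∫ z, (h' z) ^ 2) :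
    DecN φ ζ U S h' H κ' δ' := by
  obtain ⟨ι, _, a, Hk, Hr, hr, ha, has, hkn, hkb, hrn, hr0, hrC, hrb, hsum⟩ := hd
  refine ⟨ι, _, a, Hk, Hr, hr, ha, has, hkn, fun i => (hkb i).trans ?_, hrn, hr0, hrC,
    fun i => (hrb i).trans ?_, hsum⟩
  · have := int_nonneg_sq h
    have h6 : 0 ≤ κ' * a i ^ 2 := mul_nonneg (h3.trans h1) (sq_nonneg _)
    exact mul_le_mul (mul_le_mul_of_nonneg_right h1 (sq_nonneg _)) h5 this h6
  · have := int_nonneg_sq h
    have h6 : 0 ≤ δ' * a i ^ 2 := mul_nonneg (h4.trans h2) (sq_nonneg _)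
    exact mul_le_mul (mul_le_mul_of_nonneg_right h2 (sq_nonneg _)) h5 this h6

/-- one kept piece and one removed piece -/
theorem DecN.single {φ ζ : ℝ → ℝ} {U : ℝ × ℝ → ℝ} {S : ℕ} {h hr : ℝ × ℝ → ℝ}
    {H Hk Hr : ℕ → ℝ × ℝ → ℝ} {κ δ : ℝ} (h1 : ∀ s < S, Nice (Hk s))
    (h2 : ∫ w, (TS φ ζ U S Hk w) ^ 2 ≤ κ * ∫ z, (h z) ^ 2)
    (h3 : Nice hr) (h4 : ∀ z, 0 ≤ hr z) (h5 : Ch hr Hr) (h6 : ∫ z, (hr z) ^ 2 ≤ δ * ∫ z, (h z) ^ 2)
    (h7 : ∀ s < S, ∀ z, H s z = Hk s z + Hr s z) : DecN φ ζ U S h H κ δ := by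
  refine ⟨Unit, inferInstance, fun _ => 1, fun _ => Hk, fun _ => Hr, fun _ => hr, ?_, ?_, ?_, ?_,
    ?_, ?_, ?_, ?_, ?_⟩
  · intro _; norm_num
  · simp
  · intro _; exact h1
  · intro _; simpa using h2
  · intro _; exact h3
  · intro _; exact h4
  · intro _; exact h5
  · intro _; simpa using h6
  · intro s hs z; simpa using h7 s hs z

/-- finite sums -/
theorem DecN.sum {φ ζ : ℝ → ℝ} {U : ℝ × ℝ → ℝ} {S : ℕ} {h : ℝ × ℝ → ℝ} {J : Type} [Fintype J]
    {H : ℕ → ℝ × ℝ → ℝ} (G : J → ℕ → ℝ × ℝ → ℝ) {κ δ : ℝ} (b : J → ℝ) (hb : ∀ j, 0 < b j)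
    (hbs : ∑ j, b j ≤ 1) (hG : ∀ j, DecN φ ζ U S h (G j) (κ * b j ^ 2) (δ * b j ^ 2))
    (hH : ∀ s < S, ∀ z, H s z = ∑ j, G j s z) : DecN φ ζ U S h H κ δ := by
  choose ι fi a Hk Hr hr ha has hkn hkb hrn hr0 hrC hrb hsum using hG
  refine ⟨Σ j, ι j, inferInstance, fun p => b p.1 * a p.1 p.2, fun p => Hk p.1 p.2,
    fun p => Hr p.1 p.2, fun p => hr p.1 p.2, ?_, ?_, ?_, ?_, ?_, ?_, ?_, ?_, ?_⟩
  · intro p; exact mul_pos (hb _) (ha _ _)
  · rw [Fintype.sum_sigma]
    calc ∑ j, ∑ i, b j * a j i = ∑ j, b j * ∑ i, a j i := by simp only [Finset.mul_sum]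
      _ ≤ ∑ j, b j * 1 := Finset.sum_le_sum fun j _ => mul_le_mul_of_nonneg_left (has j) (hb j).le
      _ ≤ 1 := by simpa using hbs
  · intro p; exact hkn _ _
  · intro p; refine (hkb p.1 p.2).trans (le_of_eq ?_); ring
  · intro p; exact hrn _ _
  · intro p; exact hr0 _ _
  · intro p; exact hrC _ _
  · intro p; refine (hrb p.1 p.2).trans (le_of_eq ?_); ring
  · intro s hs z
    rw [hH s hs z, Fintype.sum_sigma]
    exact Finset.sum_congr rfl fun j _ => hsum j s hs z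

/-- the zero family -/
theorem DecN.zero {φ ζ : ℝ → ℝ} {U : ℝ × ℝ → ℝ} {S : ℕ} {h : ℝ × ℝ → ℝ}
    {H : ℕ → ℝ × ℝ → ℝ} {κ δ : ℝ} (hH : ∀ s < S, ∀ z, H s z = 0) : DecN φ ζ U S h H κ δ := by
  refine ⟨Empty, inferInstance, fun _ => 1, fun _ _ _ => 0, fun _ _ _ => 0, fun _ _ => 0,
    fun i => i.elim, by simp, fun i => i.elim, fun i => i.elim, fun i => i.elim,
    fun i => i.elim, fun i => i.elim, fun i => i.elim, ?_⟩
  intro s hs z
  rw [hH s hs z]; simp

end Crest.Agent.R087.OPasmx799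
end
end

-- ▼ part R087/OPcls_799
section

/-!
Row 87 (S0115), operator part (helper799): classes + one class bound ⟹ `DEC` ⟹ `GDN`.

`ONEC ζ N M` : the bound for one density class `n` (chain `[lo z, hi z)` inside the class), in the form
of a decomposition into kept and removed pieces with geometric decay in `n`.
-/

set_option autoImplicit false

noncomputable section

open MeasureTheory Crest.Agent.R087.Sh0x283 Crest.Agent.R087.GateDefx273
open Crest.Agent.R087.OPdefx799 Crest.Agent.R087.OPkerx799 Crest.Agent.R087.TBx820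
open Crest.Agent.R087.OPasmx799 Crest.Agent.R087.OP0x270
open scoped ENNReal

namespace Crest.Agent.R087.OPclsx799

/-- the weights of a chain -/
def chw (h : ℝ × ℝ → ℝ) (lo hi : ℝ × ℝ → ℕ) (s : ℕ) (z : ℝ × ℝ) : ℝ :=
  if lo z ≤ s ∧ s < hi z then h z else 0

/-- **ONE CLASS** (target of 772's assembly) -/
def ONEC (ζ : ℝ → ℝ) (N M : ℕ) : Prop :=
  ∃ c : ℝ, 0 < c ∧ ∃ ρ : ℝ, 0 < ρ ∧ ρ < 1 ∧ ∀ δ : ℝ, 0 < δ → ∃ κ : ℝ, 0 ≤ κ ∧
    ∀ φ : ℝ → ℝ, Prof N M φ → ∀ U : ℝ × ℝ → ℝ, Fld c U →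
    ∀ (S : ℕ) (h : ℝ × ℝ → ℝ) (n : ℕ) (lo hi : ℝ × ℝ → ℕ),
      Nice h → (∀ z, 0 ≤ h z) → Gap h → Chain S lo hi → UppAt U h AA n lo hi → LowAt U h AA n lo hi →
      DecN φ ζ U S h (chw h lo hi) (κ * ρ ^ n) (δ * ρ ^ n)

theorem geo_le {r : ℝ} (h0 : 0 ≤ r) (n : ℕ) :
    ∑ j : Fin n, (1 - r) * r ^ (j : ℕ) ≤ 1 := by
  rw [Fin.sum_univ_eq_sum_range (fun j => (1 - r) * r ^ j) n, ← Finset.mul_sum]
  have h2 : (1 - r) * ∑ j ∈ Finset.range n, r ^ j = 1 - r ^ n := by
    have := mul_neg_geom_sum r n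
    exact this
  rw [h2]
  have := pow_nonneg h0 n
  linarith

/-- classes + one class ⟹ DEC -/
theorem dec_of_onec {ζ : ℝ → ℝ} {N M : ℕ} (hcls : CLS) (hone : ONEC ζ N M) : DEC ζ N M := by
  obtain ⟨c, hc, ρ, hρ0, hρ1, hone⟩ := hone
  refine ⟨c, hc, ?_⟩
  set r : ℝ := Real.sqrt ρ with hr
  have hr0 : 0 < r := Real.sqrt_pos.2 hρ0
  have hr1 : r < 1 := by
    rw [hr, Real.sqrt_lt' one_pos]; simpa using hρ1
  have hr2 : r ^ 2 = ρ := Real.sq_sqrt hρ0.le
  have hr3 : 0 < 1 - r := by linarith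
  intro δ hδ
  obtain ⟨κ, hκ, hK⟩ := hone (δ * (1 - r) ^ 2) (by positivity)
  refine ⟨κ / (1 - r) ^ 2, by positivity, ?_⟩
  intro φ hφ U hU S h H hh h0 hCh ε hε
  -- small values
  obtain ⟨hm, ⟨Mb, hMb⟩, R, hR⟩ := id hh
  set V : ℝ := (volume (Metric.closedBall (0 : ℝ × ℝ) R)).toReal with hV
  have hV0 : 0 ≤ V := ENNReal.toReal_nonneg
  obtain ⟨η, hη0, hη⟩ : ∃ η : ℝ, 0 < η ∧ η ^ 2 * V ≤ ε / 2 := by
    refine ⟨min 1 (ε / 2 / (V + 1)), by positivity, ?_⟩
    set η : ℝ := min 1 (ε / 2 / (V + 1)) with hηd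
    have a1 : 0 < η := by positivity
    have a2 : η ≤ 1 := min_le_left _ _
    have a3 : η ≤ ε / 2 / (V + 1) := min_le_right _ _
    calc η ^ 2 * V ≤ η * (V + 1) := by
            have a4 : η * V ≤ 1 * V := mul_le_mul_of_nonneg_right a2 hV0
            have a5 : η * (η * V) ≤ η * (1 * V) := mul_le_mul_of_nonneg_left a4 a1.le
            nlinarith
      _ ≤ ε / 2 / (V + 1) * (V + 1) := by gcongr
      _ = ε / 2 := by field_simp
  set h1 : ℝ × ℝ → ℝ := fun z => if η ≤ h z then h z else 0 with hh1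
  have h1le : ∀ z, |h1 z| ≤ |h z| := by
    intro z; rw [hh1]; simp only
    split_ifs
    · exact le_rfl
    · simp
  have h1m : Measurable h1 := Measurable.ite (measurableSet_le measurable_const hm) hm
    measurable_const
  have h1n : Nice h1 := nice_of_le hh h1m h1le
  have h10 : ∀ z, 0 ≤ h1 z := by
    intro z; rw [hh1]; simp only
    split_ifs
    · exact h0 z
    · exact le_rfl
  have h1g : Gap h1 := by
    refine ⟨η, hη0, fun z => ?_⟩
    rw [hh1]; simp only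
    split_ifs with h2
    · right; rw [abs_of_nonneg (h0 z)]; exact h2
    · left; rfl
  obtain ⟨lo, hi, hlo, hhi, hHeq⟩ := hCh
  set hi' : ℝ × ℝ → ℕ := fun z => min (hi z) S with hhi'
  have hch1 : Chain S lo hi' := ⟨hlo, hhi.min measurable_const, fun z => min_le_right _ _⟩
  obtain ⟨n0, lc, hcc, Q, hQm, hcl, hQs, hid⟩ := hcls AA (by unfold AA; norm_num) U h1 S lo hi'
    hU.1 h1n hch1 (ε / 2) (by linarith)
  classical
  -- the remainder
  set Bad : Set (ℝ × ℝ) := {z | h z < η} ∪ Q with hBad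
  have hBm : MeasurableSet Bad := (measurableSet_lt hm measurable_const).union hQm
  set hrem : ℝ × ℝ → ℝ := Bad.indicator h with hhrem
  have hremn : Nice hrem := nice_of_le hh (hm.indicator hBm) fun z => by
    rw [hhrem]
    by_cases hz : z ∈ Bad
    · rw [Set.indicator_of_mem hz]
    · rw [Set.indicator_of_notMem hz]; simp
  have hremi : ∫ z, (hrem z) ^ 2 ≤ ε := by
    have e1 : ∀ z, (hrem z) ^ 2 ≤ (Metric.closedBall (0 : ℝ × ℝ) R).indicator (fun _ => η ^ 2) z +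
        Q.indicator (fun z => (h1 z) ^ 2) z := by
      intro z
      by_cases hz : z ∈ Bad
      · rw [hhrem, Set.indicator_of_mem hz]
        by_cases hz2 : h z < η
        · by_cases hz3 : z ∈ Metric.closedBall (0 : ℝ × ℝ) R
          · rw [Set.indicator_of_mem hz3]
            have : 0 ≤ Q.indicator (fun z => (h1 z) ^ 2) z :=
              Set.indicator_nonneg (fun _ _ => sq_nonneg _) _
            have h2 : (h z) ^ 2 ≤ η ^ 2 := pow_le_pow_left₀ (h0 z) hz2.le 2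
            linarith
          · have h3 : h z = 0 := hR z (by simpa using hz3)
            rw [h3]
            have : 0 ≤ Q.indicator (fun z => (h1 z) ^ 2) z :=
              Set.indicator_nonneg (fun _ _ => sq_nonneg _) _
            have h4 : 0 ≤ (Metric.closedBall (0 : ℝ × ℝ) R).indicator (fun _ => η ^ 2) z :=
              Set.indicator_nonneg (fun _ _ => sq_nonneg _) _
            nlinarith
        · have hz4 : z ∈ Q := by
            rcases hz with h5 | h5
            · exact absurd h5 hz2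
            · exact h5
          rw [Set.indicator_of_mem hz4]
          have h6 : h1 z = h z := by
            rw [hh1]; simp only; rw [if_pos (not_lt.1 hz2)]
          rw [h6]
          have h4 : 0 ≤ (Metric.closedBall (0 : ℝ × ℝ) R).indicator (fun _ => η ^ 2) z :=
            Set.indicator_nonneg (fun _ _ => sq_nonneg _) _
          linarith
      · rw [hhrem, Set.indicator_of_notMem hz]
        have : 0 ≤ Q.indicator (fun z => (h1 z) ^ 2) z :=
          Set.indicator_nonneg (fun _ _ => sq_nonneg _) _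
        have h4 : 0 ≤ (Metric.closedBall (0 : ℝ × ℝ) R).indicator (fun _ => η ^ 2) z :=
          Set.indicator_nonneg (fun _ _ => sq_nonneg _) _
        nlinarith
    have i1 : Integrable ((Metric.closedBall (0 : ℝ × ℝ) R).indicator (fun _ => η ^ 2)) :=
      (integrable_indicator_iff measurableSet_closedBall).2
        (integrableOn_const (measure_closedBall_lt_top).ne)
    have i2 : Integrable (Q.indicator (fun z => (h1 z) ^ 2)) :=
      (nice_integrable_sq h1n).indicator hQm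
    calc ∫ z, (hrem z) ^ 2 ≤ ∫ z, ((Metric.closedBall (0 : ℝ × ℝ) R).indicator (fun _ => η ^ 2) z +
        Q.indicator (fun z => (h1 z) ^ 2) z) :=
          integral_mono (nice_integrable_sq hremn) (i1.add i2) e1
      _ = (∫ z, (Metric.closedBall (0 : ℝ × ℝ) R).indicator (fun _ => η ^ 2) z) +
          ∫ z, Q.indicator (fun z => (h1 z) ^ 2) z := integral_add i1 i2
      _ = η ^ 2 * V + ∫ z in Q, (h1 z) ^ 2 := by
          rw [integral_indicator measurableSet_closedBall, integral_indicator hQm,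
            setIntegral_const, smul_eq_mul, mul_comm]
          rfl
      _ ≤ ε / 2 + ε / 2 := add_le_add hη hQs
      _ = ε := by ring
  -- class chains, empty on Q
  set hc2 : ℕ → ℝ × ℝ → ℕ := fun n z => if z ∈ Q then 0 else hcc n z with hhc2
  have hc2lt : ∀ n z, lc n z < hc2 n z → z ∉ Q ∧ hc2 n z = hcc n z := by
    intro n z hz
    rw [hhc2] at hz ⊢
    simp only at hz ⊢
    by_cases hq : z ∈ Q
    · rw [if_pos hq] at hz; omega
    · exact ⟨hq, if_neg hq⟩
  have hchn : ∀ n, Chain S (lc n) (hc2 n) := by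
    intro n
    obtain ⟨⟨g1, g2, g3⟩, -, -⟩ := hcl n
    refine ⟨g1, Measurable.ite hQm measurable_const g2, ?_⟩
    intro z
    rw [hhc2]; simp only
    split_ifs with hz
    · exact Nat.zero_le _
    · exact g3 z
  have hupp : ∀ n, UppAt U h1 AA n (lc n) (hc2 n) := by
    intro n z hz hlt k hk
    obtain ⟨hq, heq⟩ := hc2lt n z hlt
    rw [heq]
    rw [heq] at hlt
    exact (hcl n).2.1 z hz hlt k hk
  have hlow : ∀ n, LowAt U h1 AA n (lc n) (hc2 n) := by
    intro n z hz hlt k hk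
    obtain ⟨hq, heq⟩ := hc2lt n z hlt
    rw [heq] at hlt
    exact (hcl n).2.2 z hz hlt k hk
  refine ⟨fun s z => ∑ n : Fin n0, chw h1 (lc n) (hc2 n) s z, hrem,
    fun s z => if lo z ≤ s ∧ s < hi z then hrem z else 0, ?_, hremn, ?_,
    ⟨lo, hi, hlo, hhi, fun s z => rfl⟩, hremi, ?_⟩
  · refine DecN.sum (J := Fin n0) (fun n => chw h1 (lc n) (hc2 n))
      (fun n => (1 - r) * r ^ (n : ℕ)) (fun n => by positivity) (geo_le hr0.le n0) ?_
      (fun s _ z => rfl)
    intro n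
    have e3 := hK φ hφ U hU S h1 n (lc n) (hc2 n) h1n h10 h1g (hchn n) (hupp n) (hlow n)
    have e4 : ∫ z, (h1 z) ^ 2 ≤ ∫ z, (h z) ^ 2 :=
      integral_mono (nice_integrable_sq h1n) (nice_integrable_sq hh) fun z => sq_le_sq.2 (h1le z)
    have e5 : ρ ^ (n : ℕ) = (r ^ (n : ℕ)) ^ 2 := by
      rw [← hr2, ← pow_mul, ← pow_mul, mul_comm]
    refine e3.mono (le_of_eq ?_) (le_of_eq ?_) (by positivity) (by positivity) e4
    · rw [e5]; field_simp
    · rw [e5]; ring
  · intro z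
    rw [hhrem]
    exact Set.indicator_nonneg (fun z _ => h0 z) z
  · intro s hs z
    rw [hHeq s z]
    show (if lo z ≤ s ∧ s < hi z then h z else 0) =
      (∑ n : Fin n0, chw h1 (lc n) (hc2 n) s z) + (if lo z ≤ s ∧ s < hi z then hrem z else 0)
    by_cases hb : z ∈ Bad
    · have e1 : hrem z = h z := by rw [hhrem, Set.indicator_of_mem hb]
      have e2 : ∀ n : Fin n0, chw h1 (lc n) (hc2 n) s z = 0 := by
        intro n
        unfold chw
        rcases hb with h5 | h5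
        · have : h1 z = 0 := by
            rw [hh1]; simp only; rw [if_neg (not_le.2 h5)]
          rw [this]; simp
        · rw [if_neg]
          rintro ⟨h6, h7⟩
          exact (hc2lt n z (lt_of_le_of_lt h6 h7)).1 h5
      simp only [e1, e2]
      simp
    · have e1 : hrem z = 0 := by rw [hhrem, Set.indicator_of_notMem hb]
      have hz1 : η ≤ h z := by
        by_contra h5; exact hb (Or.inl (not_le.1 h5))
      have hz2 : z ∉ Q := fun h5 => hb (Or.inr h5)
      have e2 : h1 z = h z := by rw [hh1]; simp only; rw [if_pos hz1]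
      have e3 : h1 z ≠ 0 := by rw [e2]; exact (hη0.trans_le hz1).ne'
      have e4 := hid z e3 hz2 (fun t => if t = s then (1 : ℝ) else 0)
      simp only [Finset.sum_ite_eq', Finset.mem_Ico] at e4
      rw [e1]
      have e5 : (if lo z ≤ s ∧ s < hi z then (0 : ℝ) else 0) = 0 := by simp
      rw [e5, add_zero]
      have e6 : ∀ n : Fin n0, chw h1 (lc n) (hc2 n) s z =
          h z * (if lc n z ≤ s ∧ s < hcc n z then (1 : ℝ) else 0) := by
        intro n
        unfold chw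
        have : hc2 n z = hcc n z := by rw [hhc2]; simp only; rw [if_neg hz2]
        rw [this, e2]
        split_ifs <;> simp
      rw [Finset.sum_congr rfl fun n _ => e6 n, ← Finset.mul_sum,
        Fin.sum_univ_eq_sum_range (fun n => if lc n z ≤ s ∧ s < hcc n z then (1 : ℝ) else 0) n0,
        ← e4]
      have e7 : (lo z ≤ s ∧ s < hi' z) ↔ (lo z ≤ s ∧ s < hi z) := by
        rw [hhi']; simp only [lt_min_iff]; tauto
      rw [if_congr e7 rfl rfl]
      split_ifs <;> simp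

/-- classes + one class bound ⟹ target -/
theorem gdn_of_onec {ζ : ℝ → ℝ} (hζ : ZetC ζ) {N M : ℕ} (hNM : N ≤ M) (hcls : CLS)
    (hone : ONEC ζ N M) : GDN ζ N M :=
  gdn_of_dec hζ hNM (dec_of_onec hcls hone)

/-! ### the bridge between `Tc` and `TS` -/

theorem chw_ch {h : ℝ × ℝ → ℝ} {S : ℕ} {lo hi : ℝ × ℝ → ℕ} (hc : Chain S lo hi) :
    Ch h (chw h lo hi) := ⟨lo, hi, hc.1, hc.2.1, fun _ _ => rfl⟩

theorem tc_eq {φ ζ : ℝ → ℝ} {Cp Cz : ℝ} (P : PZ φ ζ Cp Cz) {U : ℝ × ℝ → ℝ} (hU : Measurable U)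
    {S : ℕ} {lo hi : ℝ × ℝ → ℕ} (hc : Chain S lo hi) {h : ℝ × ℝ → ℝ} (hh : Nice h) :
    Tc φ ζ U lo hi h = TS φ ζ U S (chw h lo hi) := by
  ext w
  unfold Tc TS T1
  rw [← integral_finsetSum _ fun s _ => kk_int P hU s (ch_nice hh (chw_ch hc) s) w]
  refine integral_congr_ae (Filter.Eventually.of_forall fun z => ?_)
  show (∑ s ∈ Finset.Ico (lo z) (hi z), tau φ ζ U s z w) * h z =
    ∑ s ∈ Finset.range S, kk φ ζ U s z w * chw h lo hi s z
  rw [Finset.sum_mul]
  have h1 : ∀ s ∈ Finset.range S, kk φ ζ U s z w * chw h lo hi s z =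
      if s ∈ Finset.Ico (lo z) (hi z) then tau φ ζ U s z w * h z else 0 := by
    intro s _
    unfold chw
    by_cases h2 : lo z ≤ s ∧ s < hi z
    · rw [if_pos h2, if_pos (Finset.mem_Ico.2 h2)]; rfl
    · rw [if_neg h2, if_neg (fun h3 => h2 (Finset.mem_Ico.1 h3)), mul_zero]
  rw [Finset.sum_congr rfl h1, ← Finset.sum_filter]
  refine Finset.sum_congr ?_ fun _ _ => rfl
  ext s
  simp only [Finset.mem_filter, Finset.mem_range, Finset.mem_Ico]
  constructor
  · rintro ⟨h3, h4⟩; exact ⟨h4.trans_le (hc.2.2 z), h3, h4⟩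
  · rintro ⟨-, h3⟩; exact h3

/-- polynomial times decaying exponential is bounded -/
theorem poly_exp (k : ℕ) {r : ℝ} (h0 : 0 < r) (h1 : r < 1) :
    ∃ C : ℝ, 0 < C ∧ ∀ n : ℕ, ((n : ℝ) + 8) ^ k * r ^ n ≤ C := by
  have h2 : Filter.Tendsto (fun n : ℕ => (n : ℝ) ^ k * r ^ n) Filter.atTop (nhds 0) :=
    tendsto_pow_const_mul_const_pow_of_abs_lt_one k (by rw [abs_of_pos h0]; exact h1)
  obtain ⟨C, hC⟩ := h2.bddAbove_range
  have hC' : ∀ n : ℕ, (n : ℝ) ^ k * r ^ n ≤ C := fun n => hC ⟨n, rfl⟩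
  refine ⟨(|C| + 1) / r ^ 8, by positivity, fun n => ?_⟩
  have h3 := hC' (n + 8)
  rw [le_div_iff₀ (by positivity)]
  calc ((n : ℝ) + 8) ^ k * r ^ n * r ^ 8 = ((n + 8 : ℕ) : ℝ) ^ k * r ^ (n + 8) := by
        rw [pow_add]; push_cast; ring
    _ ≤ C := h3
    _ ≤ |C| + 1 := (le_abs_self C).trans (by linarith)

/-- one class in 270's form ⟹ one class in the form of decompositions -/
theorem onec_of_classn {ζ : ℝ → ℝ} (hζ : ZetC ζ) (hcl : CLASSN ζ) :
    ONEC ζ (2 * qq + 2) (2 * qq + 8) := by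
  obtain ⟨Cz, hPZ⟩ := pz_of hζ (show 2 * qq + 2 ≤ 2 * qq + 8 by omega)
  obtain ⟨c, hc, C, hC, hcl⟩ := hcl
  set t : ℝ := (2 : ℝ) ^ (-(1 / 16 : ℝ)) with ht
  have ht0 : 0 < t := by positivity
  have ht1 : t < 1 := by
    rw [ht]; exact Real.rpow_lt_one_of_one_lt_of_neg (by norm_num) (by norm_num)
  obtain ⟨C3, hC30, hC3⟩ := poly_exp 3 ht0 ht1
  refine ⟨c, hc, t, ht0, ht1, ?_⟩
  intro δ hδ
  -- Λ = Λ0 t^-n
  set Λ0 : ℝ := 1 + C * C3 / δ with hΛ0
  have hΛ01 : 1 ≤ Λ0 := by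
    have : 0 ≤ C * C3 / δ := by positivity
    linarith
  refine ⟨C * Λ0 * C3, by positivity, ?_⟩
  rintro φ ⟨ω, hω1, hω2, hω3, rfl⟩ U hU S h n lo hi hh h0 hg hch hup hlow
  have P := hPZ _ ⟨ω, hω1, hω2, hω3, rfl⟩
  set Λ : ℝ := Λ0 * (t ^ n)⁻¹ with hΛ
  have htn : 0 < t ^ n := by positivity
  have htn1 : t ^ n ≤ 1 := pow_le_one₀ ht0.le ht1.le
  have hΛ1 : 1 ≤ Λ := by
    rw [hΛ]
    have : 1 ≤ (t ^ n)⁻¹ := (one_le_inv₀ htn).2 htn1
    nlinarith
  obtain ⟨lc, hcc, h1, h2⟩ := hcl ω ⟨hω1, hω2, hω3⟩ U h n S lo hi Λ hU hh hg hch hup hlow hΛ1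
  have hn8 : (0 : ℝ) < (n : ℝ) + 8 := by positivity
  have hquart : (2 : ℝ) ^ (-(n : ℝ) / 4) = (t ^ n) ^ 4 := by
    rw [ht, ← Real.rpow_natCast, ← Real.rpow_natCast, ← Real.rpow_mul (by positivity),
      ← Real.rpow_mul (by positivity)]
    congr 1
    push_cast
    ring
  have hB : ((n : ℝ) + 8) ^ 3 * t ^ n ≤ C3 := hC3 n
  have hI0 := int_nonneg_sq h
  refine DecN.sum (J := Fin (n + 8)) (fun i => chw h (lc i) (hcc i)) (fun _ => ((n : ℝ) + 8)⁻¹)
    (fun _ => by positivity) ?_ ?_ ?_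
  · rw [Finset.sum_const, Finset.card_univ, Fintype.card_fin, nsmul_eq_mul]
    push_cast
    rw [mul_inv_cancel₀ hn8.ne']
  · intro i
    obtain ⟨hchi, hi', g1, g2, g3, g4⟩ := h1 i
    have hch' : Chain S (lc i) hi' := ⟨hchi.1, g1, fun z => (g2 z).trans (hchi.2.2 z)⟩
    set R : Set (ℝ × ℝ) := {z | lc i z < hcc i z ∧ hi' z < hcc i z} with hR
    have hRm : MeasurableSet R :=
      (measurableSet_lt hchi.1 hchi.2.1).inter (measurableSet_lt g1 hchi.2.1)
    have hrn : Nice (R.indicator h) := nice_of_le hh (hh.1.indicator hRm) fun z => by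
      by_cases hz : z ∈ R
      · rw [Set.indicator_of_mem hz]
      · rw [Set.indicator_of_notMem hz]; simp
    refine DecN.single (Hk := chw h (lc i) hi') (hr := R.indicator h)
      (Hr := chw (R.indicator h) (fun z => max (lc i z) (hi' z)) (hcc i))
      (fun s _ => ch_nice hh (chw_ch hch') s) ?_ hrn
      (fun z => Set.indicator_nonneg (fun z _ => h0 z) z)
      (chw_ch (S := S) ⟨hchi.1.max g1, hchi.2.1, hchi.2.2⟩) ?_ ?_
    · have e1 : Tc (ph ω) ζ U (lc i) hi' h = TS (iteratedDeriv (2 * qq + 2) ω) ζ U S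
          (chw h (lc i) hi') := tc_eq P hU.1 hch' hh
      rw [← e1]
      refine g3.trans ?_
      refine mul_le_mul_of_nonneg_right ?_ hI0
      rw [hquart, hΛ]
      have e2 : ((n : ℝ) + 8) ^ 2 * (t ^ n) ^ 2 ≤ C3 := by
        have e3 : ((n : ℝ) + 8) ^ 2 ≤ ((n : ℝ) + 8) ^ 3 :=
          pow_le_pow_right₀ (by linarith [(Nat.cast_nonneg n : (0 : ℝ) ≤ n)]) (by norm_num)
        have e4 : (t ^ n) ^ 2 ≤ t ^ n := by nlinarith
        calc ((n : ℝ) + 8) ^ 2 * (t ^ n) ^ 2 ≤ ((n : ℝ) + 8) ^ 3 * t ^ n :=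
              mul_le_mul e3 e4 (by positivity) (by positivity)
          _ ≤ C3 := hB
      have e5 : C * (Λ0 * (t ^ n)⁻¹) * (t ^ n) ^ 4 =
          C * Λ0 * t ^ n * ((((n : ℝ) + 8) ^ 2 * (t ^ n) ^ 2) * (((n : ℝ) + 8)⁻¹) ^ 2) := by
        field_simp
      rw [e5]
      calc C * Λ0 * t ^ n * ((((n : ℝ) + 8) ^ 2 * (t ^ n) ^ 2) * (((n : ℝ) + 8)⁻¹) ^ 2)
          ≤ C * Λ0 * t ^ n * (C3 * (((n : ℝ) + 8)⁻¹) ^ 2) := by gcongr
        _ = _ := by ring
    · have e1 : ∫ z, (R.indicator h z) ^ 2 = ∫ z in R, (h z) ^ 2 := by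
        rw [← integral_indicator hRm]
        congr 1
        ext z
        by_cases hz : z ∈ R
        · rw [Set.indicator_of_mem hz, Set.indicator_of_mem hz]
        · rw [Set.indicator_of_notMem hz, Set.indicator_of_notMem hz]; simp
      rw [e1]
      refine g4.trans ?_
      refine mul_le_mul_of_nonneg_right ?_ hI0
      have e2 : C * ((n : ℝ) + 1) * (1 / Λ) ^ 2 ≤
          C * (((n : ℝ) + 8) ^ 3 * t ^ n) * (t ^ n * (((n : ℝ) + 8)⁻¹) ^ 2) * (1 / Λ0) ^ 2 := by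
        rw [hΛ]
        have e3 : (1 / (Λ0 * (t ^ n)⁻¹)) ^ 2 = (1 / Λ0) ^ 2 * (t ^ n) ^ 2 := by
          field_simp
        rw [e3]
        have e4 : C * (((n : ℝ) + 8) ^ 3 * t ^ n) * (t ^ n * (((n : ℝ) + 8)⁻¹) ^ 2) *
            (1 / Λ0) ^ 2 = C * ((n : ℝ) + 8) * ((1 / Λ0) ^ 2 * (t ^ n) ^ 2) := by
          field_simp
        rw [e4]
        gcongr
        norm_num
      refine e2.trans ?_
      have e5 : C * C3 * (1 / Λ0) ^ 2 ≤ δ := by
        have e6 : C * C3 ≤ δ * Λ0 := by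
          rw [hΛ0]
          have : δ * (1 + C * C3 / δ) = δ + C * C3 := by field_simp
          rw [this]; linarith
        have e7 : C * C3 * (1 / Λ0) ^ 2 ≤ δ * Λ0 * (1 / Λ0) ^ 2 := by gcongr
        refine e7.trans ?_
        have e8 : δ * Λ0 * (1 / Λ0) ^ 2 = δ / Λ0 := by field_simp
        rw [e8]
        exact div_le_self hδ.le hΛ01
      calc C * (((n : ℝ) + 8) ^ 3 * t ^ n) * (t ^ n * (((n : ℝ) + 8)⁻¹) ^ 2) * (1 / Λ0) ^ 2
          ≤ C * C3 * (t ^ n * (((n : ℝ) + 8)⁻¹) ^ 2) * (1 / Λ0) ^ 2 := by gcongr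
        _ = (C * C3 * (1 / Λ0) ^ 2) * (t ^ n * (((n : ℝ) + 8)⁻¹) ^ 2) := by ring
        _ ≤ δ * (t ^ n * (((n : ℝ) + 8)⁻¹) ^ 2) := by gcongr
        _ = _ := by ring
    · intro s hs z
      unfold chw
      by_cases a1 : lc i z ≤ s ∧ s < hcc i z
      · rw [if_pos a1]
        by_cases a2 : s < hi' z
        · rw [if_pos ⟨a1.1, a2⟩, if_neg]
          · ring
          · rintro ⟨a3, -⟩
            exact absurd (lt_of_le_of_lt (le_trans (le_max_right _ _) a3) a2) (lt_irrefl _)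
        · rw [if_neg (fun a3 => a2 a3.2), if_pos ⟨max_le a1.1 (not_lt.1 a2), a1.2⟩]
          have a4 : z ∈ R := ⟨lt_of_le_of_lt a1.1 a1.2, lt_of_le_of_lt (not_lt.1 a2) a1.2⟩
          rw [Set.indicator_of_mem a4]; ring
      · rw [if_neg a1, if_neg, if_neg]
        · ring
        · rintro ⟨a3, a4⟩; exact a1 ⟨(le_max_left _ _).trans a3, a4⟩
        · rintro ⟨a3, a4⟩; exact a1 ⟨a3, a4.trans_le (g2 z)⟩
  · intro s hs z
    by_cases hz : h z = 0
    · have e1 : chw h lo hi s z = 0 := by unfold chw; rw [hz]; simp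
      rw [e1]; symm
      refine Finset.sum_eq_zero fun i _ => ?_
      unfold chw; rw [hz]; simp
    · have e4 := h2 z hz (fun t => if t = s then h z else 0)
      simp only [Finset.sum_ite_eq', Finset.mem_Ico] at e4
      rw [Fin.sum_univ_eq_sum_range (fun i => chw h (lc i) (hcc i) s z) (n + 8)]
      exact e4

/-- **leaf `L_BOOT`** -/
theorem l_boot : L_BOOT := by
  intro ζ hζ hcls hcl
  exact gdn_of_onec hζ (by omega) hcls (onec_of_classn hζ hcl)

end Crest.Agent.R087.OPclsx799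
end
end

-- ▼ part R087/TopN_52
section

/-!
Row 87 (S0115), OPERATOR PART, leaf TOPN (helper52): TOP chains of one class (one scale at every point,
absolute values, own integer lines).

`PairB ζ`  : bound of one pairing (339), `TopStop` : stopping of the tops (736);
`main`     : `PairB ζ → TopStop → SQ ζ → MASS3 → OMEGA → HNORM → REMSUM → TOPN ζ`.
-/

set_option autoImplicit false

noncomputable section

open MeasureTheory
open scoped ENNReal

namespace Crest.Agent.R087.TopNx52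

open Crest.Agent.R087.Sh0x283 Crest.Agent.R087.E2x542 Crest.Agent.R087.E2Kx752
  Crest.Agent.R087.GateDefx273 Crest.Agent.R087.OP0x270

/-- bound of one pairing -/
def PairB (ζ : ℝ → ℝ) : Prop :=
  ∃ C : ℝ, 0 ≤ C ∧ ∀ ω : ℝ → ℝ, PW (2 * qq + 8) ω → ∀ U : ℝ × ℝ → ℝ, Measurable U →
    (∃ W, ∀ z, |U z| ≤ W) → ∀ s s' : ℕ, s ≤ s' → ∀ z z' : ℝ × ℝ,
      |pr (ph ω) ζ U s s' z z'| ≤ C * 2 ^ s /
        (1 + |U z' - U z| * (1 / 2 : ℝ) ^ s' + |z'.2 - (z.2 + (z'.1 - z.1) * U z)|) ^ qq ∧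
      (jx s z'.1 ≠ jx s z.1 → pr (ph ω) ζ U s s' z z' = 0)

/-- stopping of the tops -/
def TopStop : Prop :=
  ∃ C : ℝ, 0 ≤ C ∧ ∀ (U h : ℝ × ℝ → ℝ) (n S : ℕ) (lo hi : ℝ × ℝ → ℕ) (Lam : ℝ), Measurable U →
    Nice h → Chain S lo hi → UppAt U h AA n lo hi → 1 ≤ Lam →
    ∀ (N : ℕ) (R : Fin N → Tube) (kk : Fin N → ℤ) (ii : Fin N → ℕ) (E B : Fin N → Set (ℝ × ℝ)),
      IsTops U h AA n lo hi N R kk ii E B → (∀ z, hi z ≤ lo z + 1) →
      ∃ hi' : ℝ × ℝ → ℕ, Measurable hi' ∧ (∀ z, hi' z ≤ hi z) ∧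
        (∫ z in {z | lo z < hi z ∧ hi' z < hi z}, (h z) ^ 2 ≤
          C * (n + 1) * (1 / Lam) ^ 2 * ∫ z, (h z) ^ 2) ∧
        ∀ m x, ∑ s ∈ Finset.range S, ENNReal.ofReal (2 ^ s) *
          ∫⁻ z in {z | z ∈ B m ∧ lo z = s ∧ s < hi' z ∧ jx s z.1 = jx s x}, ENNReal.ofReal |h z| ≤
            ENNReal.ofReal (C * Lam * (2 ^ (kk m) * 2 ^ (AA * ii m) * (1 / 2) ^ n))

/-! ### geometry -/

theorem jx_succ (s : ℕ) (x : ℝ) : jx s x = jx (s + 1) x / 2 := by
  unfold jx
  have h : (2 : ℝ) ^ s * x = ((2 : ℝ) ^ (s + 1) * x) / ((2 : ℕ) : ℝ) := by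
    rw [pow_succ]; push_cast; ring
  rw [h, Int.floor_div_natCast]; rfl

theorem jx_mono {r s : ℕ} (h : r ≤ s) {x y : ℝ} (hxy : jx s x = jx s y) : jx r x = jx r y := by
  induction s with
  | zero => have : r = 0 := by omega
            subst this; exact hxy
  | succ s ih =>
    rcases Nat.lt_or_ge r (s + 1) with h1 | h1
    · apply ih (by omega)
      rw [jx_succ s x, jx_succ s y, hxy]
    · have : r = s + 1 := by omega
      subst this; exact hxy

theorem mem_I (R : Tube) (x : ℝ) : x ∈ R.I ↔ jx R.k x = R.j := by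
  unfold Tube.I Tube.len jx
  rw [Int.floor_eq_iff, Set.mem_Ico]
  have h2 : (0 : ℝ) < 2 ^ R.k := by positivity
  have e1 : (R.j : ℝ) * (1 / 2) ^ R.k = R.j / 2 ^ R.k := by rw [one_div, inv_pow]; rfl
  have e2 : ((R.j : ℝ) + 1) * (1 / 2) ^ R.k = (R.j + 1) / 2 ^ R.k := by
    rw [one_div, inv_pow]; rfl
  rw [e1, e2, div_le_iff₀ h2, lt_div_iff₀ h2, mul_comm x]

theorem jx_dist {s : ℕ} {x y : ℝ} (h : jx s x = jx s y) : |x - y| ≤ (1 / 2 : ℝ) ^ s := by
  unfold jx at h
  have h1 := Int.floor_le ((2 : ℝ) ^ s * x)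
  have h2 := Int.lt_floor_add_one ((2 : ℝ) ^ s * x)
  have h3 := Int.floor_le ((2 : ℝ) ^ s * y)
  have h4 := Int.lt_floor_add_one ((2 : ℝ) ^ s * y)
  rw [h] at h1 h2
  have h5 : |(2 : ℝ) ^ s * (x - y)| ≤ 1 := by
    rw [abs_le]; constructor <;> nlinarith
  rw [abs_mul, abs_of_pos (by positivity : (0 : ℝ) < 2 ^ s)] at h5
  have h6 : (1 / 2 : ℝ) ^ s * 2 ^ s = 1 := by rw [← mul_pow]; norm_num
  have h7 : (0 : ℝ) < (1 / 2 : ℝ) ^ s := by positivity
  calc |x - y| = (1 / 2 : ℝ) ^ s * (2 ^ s * |x - y|) := by rw [← mul_assoc, h6, one_mul]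
    _ ≤ (1 / 2 : ℝ) ^ s * 1 := by gcongr
    _ = _ := mul_one _

/-- nearest integer -/
def rd (x : ℝ) : ℤ := ⌊x + 1 / 2⌋

theorem rd_le (x : ℝ) : |x - rd x| ≤ 1 / 2 := by
  unfold rd
  have h1 := Int.floor_le (x + 1 / 2)
  have h2 := Int.lt_floor_add_one (x + 1 / 2)
  rw [abs_le]; constructor <;> linarith

theorem measurable_rd : Measurable rd := by
  unfold rd
  exact Int.measurable_floor.comp (by fun_prop)

/-- integer slope near the field at `z` -/
def mU (U : ℝ × ℝ → ℝ) (z : ℝ × ℝ) : ℤ := rd (U z)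

/-- integer intercept -/
def bU (U : ℝ × ℝ → ℝ) (z : ℝ × ℝ) : ℤ := rd (z.2 - mU U z * z.1)

/-- own integer tube of `z` at the scale `lo z` -/
def R0 (U : ℝ × ℝ → ℝ) (lo : ℝ × ℝ → ℕ) (z : ℝ × ℝ) : Tube :=
  ⟨lo z, jx (lo z) z.1, bU U z, mU U z⟩

theorem R0_int (U : ℝ × ℝ → ℝ) (lo : ℝ × ℝ → ℕ) (z : ℝ × ℝ) : IntT (R0 U lo z) :=
  ⟨⟨bU U z, rfl⟩, ⟨mU U z, rfl⟩⟩

/-- the integer line is close to the line of the field on the cell -/
theorem R0_close (U : ℝ × ℝ → ℝ) {lo : ℝ × ℝ → ℕ} {z : ℝ × ℝ} {x : ℝ}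
    (hx : jx (lo z) x = jx (lo z) z.1) :
    |z.2 + (x - z.1) * U z - (bU U z + mU U z * x)| ≤ 1 := by
  have h1 : |z.2 - mU U z * z.1 - bU U z| ≤ 1 / 2 := rd_le _
  have h2 : |U z - mU U z| ≤ 1 / 2 := rd_le _
  have h3 : |x - z.1| ≤ 1 := (jx_dist hx).trans (pow_le_one₀ (by norm_num) (by norm_num))
  have e : z.2 + (x - z.1) * U z - (bU U z + mU U z * x) =
      (z.2 - mU U z * z.1 - bU U z) + (x - z.1) * (U z - mU U z) := by ring
  rw [e]
  refine (abs_add_le _ _).trans ?_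
  rw [abs_mul]
  have h4 : |x - z.1| * |U z - mU U z| ≤ 1 * (1 / 2) := by gcongr
  linarith

/-- own unit tubes lie in the fat tops -/
theorem fat_sub {U : ℝ × ℝ → ℝ} {lo : ℝ × ℝ → ℕ} {z w : ℝ × ℝ} {R : Tube} {i : ℕ}
    (h1 : z.1 ∈ R.I) (h2 : R.k ≤ lo z) (h3 : near U (5 * 2 ^ i) R.b R.m (lo z) z)
    (hw : w ∈ fat 1 (R0 U lo z)) : w ∈ fat (32 * 2 ^ i) R := by
  obtain ⟨hw1, hw2⟩ := hw
  rw [mem_I] at hw1
  have hc : jx (lo z) w.1 = jx (lo z) z.1 := hw1
  obtain ⟨h4, h5⟩ := h3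
  have hp : (1 : ℝ) ≤ 2 ^ i := one_le_pow₀ (by norm_num)
  refine ⟨?_, ?_⟩
  · rw [mem_I] at h1 ⊢
    rw [← h1]
    exact jx_mono h2 hc
  · have hw3 : |w.2 - (bU U z + mU U z * w.1)| ≤ 1 := hw2
    have h6 := R0_close U hc
    have h7 : |w.1 - z.1| * |U z - R.m| ≤ 5 * 2 ^ i := by
      calc |w.1 - z.1| * |U z - R.m| ≤ (1 / 2 : ℝ) ^ lo z * |U z - R.m| := by
            gcongr; exact jx_dist hc
        _ = |U z - R.m| * (1 / 2 : ℝ) ^ lo z := mul_comm _ _
        _ ≤ _ := h5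
    rw [← abs_mul] at h7
    have e : w.2 - R.line w.1 = (w.2 - (bU U z + mU U z * w.1)) -
        (z.2 + (w.1 - z.1) * U z - (bU U z + mU U z * w.1)) +
        ((z.2 - (R.b + R.m * z.1)) + (w.1 - z.1) * (U z - R.m)) := by
      unfold Tube.line; ring
    rw [e]
    have a1 := abs_le.1 hw3
    have a2 := abs_le.1 h6
    have a3 := abs_le.1 h4
    have a4 := abs_le.1 h7
    rw [abs_le]
    constructor <;> linarith [a1.1, a1.2, a2.1, a2.2, a3.1, a3.2, a4.1, a4.2]

/-- the weight with the own line is controlled by the weight with the integer line -/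
theorem weight_le {U : ℝ × ℝ → ℝ} {lo : ℝ × ℝ → ℕ} {z z' : ℝ × ℝ} {s' q : ℕ}
    (hx : jx (lo z) z'.1 = jx (lo z) z.1) :
    1 / (1 + |U z' - U z| * (1 / 2 : ℝ) ^ s' + |z'.2 - (z.2 + (z'.1 - z.1) * U z)|) ^ q ≤
      3 ^ q / (1 + |U z' - mU U z| * (1 / 2 : ℝ) ^ s' + |z'.2 - (bU U z + mU U z * z'.1)|) ^ q := by
  have h1 := R0_close U hx
  have h2 : |U z - mU U z| ≤ 1 / 2 := rd_le _
  have hs : (1 / 2 : ℝ) ^ s' ≤ 1 := pow_le_one₀ (by norm_num) (by norm_num)
  have hs0 : (0 : ℝ) < (1 / 2 : ℝ) ^ s' := by positivity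
  have h3 : |U z' - mU U z| * (1 / 2 : ℝ) ^ s' ≤ |U z' - U z| * (1 / 2 : ℝ) ^ s' + 1 / 2 := by
    have e : |U z' - mU U z| ≤ |U z' - U z| + |U z - mU U z| := by
      have := abs_add_le (U z' - U z) (U z - mU U z)
      simpa using this
    calc |U z' - mU U z| * (1 / 2 : ℝ) ^ s' ≤ (|U z' - U z| + |U z - mU U z|) * (1 / 2 : ℝ) ^ s' := by
          gcongr
      _ = |U z' - U z| * (1 / 2 : ℝ) ^ s' + |U z - mU U z| * (1 / 2 : ℝ) ^ s' := by ring
      _ ≤ |U z' - U z| * (1 / 2 : ℝ) ^ s' + 1 / 2 * 1 := by gcongr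
      _ = _ := by ring
  have h4 : |z'.2 - (bU U z + mU U z * z'.1)| ≤ |z'.2 - (z.2 + (z'.1 - z.1) * U z)| + 1 := by
    have e : z'.2 - (bU U z + mU U z * z'.1) = (z'.2 - (z.2 + (z'.1 - z.1) * U z)) +
        (z.2 + (z'.1 - z.1) * U z - (bU U z + mU U z * z'.1)) := by ring
    rw [e]
    exact (abs_add_le _ _).trans (by gcongr)
  set a := |U z' - U z| * (1 / 2 : ℝ) ^ s'
  set d := |z'.2 - (z.2 + (z'.1 - z.1) * U z)|
  have ha : 0 ≤ a := by positivity
  have hd : 0 ≤ d := abs_nonneg _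
  rw [div_le_div_iff₀ (by positivity) (by positivity), one_mul, ← mul_pow]
  gcongr
  linarith

/-! ### profiles -/

theorem ph_cont {ω : ℝ → ℝ} {M : ℕ} (h : PW M ω) : Continuous (ph ω) := by
  unfold ph
  exact h.1.continuous_iteratedDeriv _ (WithTop.coe_le_coe.2 le_top)

theorem ph_supp {ω : ℝ → ℝ} {M : ℕ} (h : PW M ω) : ∀ r, 1 < |r| → ph ω r = 0 := by
  intro r hr
  unfold ph
  have h1 : ω =ᶠ[nhds r] fun _ => (0 : ℝ) := by
    have : {x : ℝ | 1 < |x|} ∈ nhds r := (isOpen_lt continuous_const continuous_abs).mem_nhds hr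
    filter_upwards [this] with x hx
    exact h.2.1 x hx
  rw [h1.iteratedDeriv_eq]
  simp

/-! ### the kernel -/

/-- majorant of the pairing -/
def KK (U : ℝ × ℝ → ℝ) (lo hi : ℝ × ℝ → ℕ) (c : ℝ) (z z' : ℝ × ℝ) : ℝ≥0∞ :=
  {p : (ℝ × ℝ) × (ℝ × ℝ) | lo p.1 < hi p.1 ∧ lo p.2 < hi p.2 ∧ lo p.1 ≤ lo p.2 ∧
    jx (lo p.1) p.2.1 = jx (lo p.1) p.1.1}.indicator (fun p => ENNReal.ofReal (c * 2 ^ lo p.1) *
      ENNReal.ofReal (1 / (1 + |U p.2 - mU U p.1| * (1 / 2 : ℝ) ^ lo p.2 +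
        |p.2.2 - (bU U p.1 + mU U p.1 * p.2.1)|) ^ qq)) (z, z')

theorem KK_mem {U : ℝ × ℝ → ℝ} {lo hi : ℝ × ℝ → ℕ} {c : ℝ} {z z' : ℝ × ℝ} (h1 : lo z < hi z)
    (h2 : lo z' < hi z') (h3 : lo z ≤ lo z') (h4 : jx (lo z) z'.1 = jx (lo z) z.1) :
    KK U lo hi c z z' = ENNReal.ofReal (c * 2 ^ lo z) *
      ENNReal.ofReal (1 / (1 + |U z' - mU U z| * (1 / 2 : ℝ) ^ lo z' +
        |z'.2 - (bU U z + mU U z * z'.1)|) ^ qq) := by
  unfold KK
  rw [Set.indicator_of_mem]
  exact ⟨h1, h2, h3, h4⟩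

theorem measurable_two {a : ℝ} {X : Type*} [MeasurableSpace X] {f : X → ℕ} (hf : Measurable f) :
    Measurable fun x => a ^ f x :=
  (measurable_of_countable (fun s : ℕ => a ^ s)).comp hf

theorem measurable_jx {X : Type*} [MeasurableSpace X] {f : X → ℕ} {g : X → ℝ} (hf : Measurable f)
    (hg : Measurable g) : Measurable fun x => jx (f x) (g x) := by
  unfold jx
  have h1 : Measurable fun x => (2 : ℝ) ^ f x * g x := (measurable_two hf).mul hg
  exact Int.measurable_floor.comp h1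

theorem measurable_mU {U : ℝ × ℝ → ℝ} (hU : Measurable U) : Measurable fun z => ((mU U z : ℤ) : ℝ) :=
  (Measurable.of_discrete (f := fun n : ℤ => (n : ℝ))).comp (measurable_rd.comp hU)

theorem measurable_bU {U : ℝ × ℝ → ℝ} (hU : Measurable U) : Measurable fun z => ((bU U z : ℤ) : ℝ) := by
  refine (Measurable.of_discrete (f := fun n : ℤ => (n : ℝ))).comp (measurable_rd.comp ?_)
  exact measurable_snd.sub ((measurable_mU hU).mul measurable_fst)

theorem measurable_KK {U : ℝ × ℝ → ℝ} (hU : Measurable U) {lo hi : ℝ × ℝ → ℕ} (hlo : Measurable lo)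
    (hhi : Measurable hi) (c : ℝ) :
    Measurable fun p : (ℝ × ℝ) × (ℝ × ℝ) => KK U lo hi c p.1 p.2 := by
  have e0 : (fun p : (ℝ × ℝ) × (ℝ × ℝ) => KK U lo hi c p.1 p.2) =
      {p : (ℝ × ℝ) × (ℝ × ℝ) | lo p.1 < hi p.1 ∧ lo p.2 < hi p.2 ∧ lo p.1 ≤ lo p.2 ∧
        jx (lo p.1) p.2.1 = jx (lo p.1) p.1.1}.indicator (fun p => ENNReal.ofReal (c * 2 ^ lo p.1) *
      ENNReal.ofReal (1 / (1 + |U p.2 - mU U p.1| * (1 / 2 : ℝ) ^ lo p.2 +
        |p.2.2 - (bU U p.1 + mU U p.1 * p.2.1)|) ^ qq)) := by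
    ext p; rfl
  rw [e0]
  have hA : Measurable fun p : (ℝ × ℝ) × (ℝ × ℝ) => ENNReal.ofReal (c * 2 ^ lo p.1) := by
    have h1 : Measurable fun p : (ℝ × ℝ) × (ℝ × ℝ) => (2 : ℝ) ^ lo p.1 :=
      measurable_two (hlo.comp measurable_fst)
    exact (h1.const_mul c).ennreal_ofReal
  have hB1 : Measurable fun p : (ℝ × ℝ) × (ℝ × ℝ) =>
      |U p.2 - mU U p.1| * (1 / 2 : ℝ) ^ lo p.2 := by
    have h1 : Measurable fun p : (ℝ × ℝ) × (ℝ × ℝ) => |U p.2 - mU U p.1| :=
      continuous_abs.measurable.comp ((hU.comp measurable_snd).sub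
          ((measurable_mU hU).comp measurable_fst))
    have h2 : Measurable fun p : (ℝ × ℝ) × (ℝ × ℝ) => (1 / 2 : ℝ) ^ lo p.2 :=
      measurable_two (hlo.comp measurable_snd)
    exact h1.mul h2
  have hB2 : Measurable fun p : (ℝ × ℝ) × (ℝ × ℝ) =>
      |p.2.2 - (bU U p.1 + mU U p.1 * p.2.1)| := by
    refine continuous_abs.measurable.comp ((measurable_snd.snd).sub ?_)
    exact ((measurable_bU hU).comp measurable_fst).add
          (((measurable_mU hU).comp measurable_fst).mul measurable_snd.fst)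
  have hB : Measurable fun p : (ℝ × ℝ) × (ℝ × ℝ) => ENNReal.ofReal (1 / (1 +
      |U p.2 - mU U p.1| * (1 / 2 : ℝ) ^ lo p.2 +
        |p.2.2 - (bU U p.1 + mU U p.1 * p.2.1)|) ^ qq) :=
    ((((hB1.const_add 1).add hB2).pow_const qq).const_div 1).ennreal_ofReal
  refine Measurable.indicator (hA.mul hB) ?_
  · have h1 : MeasurableSet {p : (ℝ × ℝ) × (ℝ × ℝ) | lo p.1 < hi p.1} :=
      measurableSet_lt (hlo.comp measurable_fst) (hhi.comp measurable_fst)
    have h2 : MeasurableSet {p : (ℝ × ℝ) × (ℝ × ℝ) | lo p.2 < hi p.2} :=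
      measurableSet_lt (hlo.comp measurable_snd) (hhi.comp measurable_snd)
    have h3 : MeasurableSet {p : (ℝ × ℝ) × (ℝ × ℝ) | lo p.1 ≤ lo p.2} :=
      measurableSet_le (hlo.comp measurable_fst) (hlo.comp measurable_snd)
    have h4 : MeasurableSet {p : (ℝ × ℝ) × (ℝ × ℝ) | jx (lo p.1) p.2.1 = jx (lo p.1) p.1.1} :=
      measurableSet_eq_fun (measurable_jx (hlo.comp measurable_fst) measurable_snd.fst)
        (measurable_jx (hlo.comp measurable_fst) measurable_fst.fst)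
    exact h1.inter (h2.inter (h3.inter h4))

theorem abs_cc_le (s s' : ℕ) : |cc s s'| ≤ 1 := by
  unfold cc
  split_ifs <;> norm_num

theorem cc_zero {s s' : ℕ} (h : s' < s) : cc s s' = 0 := by
  unfold cc
  rw [if_neg (by omega)]

/-- expansion and absolute values -/
theorem step1 {ζ : ℝ → ℝ} (hP : PairB ζ) (hSQ : SQ ζ) :
    ∃ C : ℝ, 0 ≤ C ∧ ∀ ω : ℝ → ℝ, PW (2 * qq + 8) ω → ∀ (U h : ℝ × ℝ → ℝ) (S : ℕ)
      (lo hi : ℝ × ℝ → ℕ), Measurable U → (∃ W, ∀ z, |U z| ≤ W) → Nice h → Chain S lo hi →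
      (∀ z, hi z ≤ lo z + 1) →
      ENNReal.ofReal (∫ w, (Tc (ph ω) ζ U lo hi h w) ^ 2) ≤
        2 * ∫⁻ z, ENNReal.ofReal |h z| * ∫⁻ z', ENNReal.ofReal |h z'| * KK U lo hi C z z' := by
  obtain ⟨C, hC, hP⟩ := hP
  refine ⟨C * 3 ^ qq, by positivity, ?_⟩
  intro ω hω U h S lo hi hU hW hn hch hone
  have hpt : ∀ z z' : ℝ × ℝ, ∀ s ∈ Finset.Ico (lo z) (hi z), ∀ s' ∈ Finset.Ico (lo z') (hi z'),
      ENNReal.ofReal |cc s s' * pr (ph ω) ζ U s s' z z'| ≤ KK U lo hi (C * 3 ^ qq) z z' := by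
    intro z z' s hs s' hs'
    rw [Finset.mem_Ico] at hs hs'
    have e1 : s = lo z := by have := hone z; omega
    have e2 : s' = lo z' := by have := hone z'; omega
    subst e1 e2
    by_cases h1 : lo z ≤ lo z'
    · by_cases h2 : jx (lo z) z'.1 = jx (lo z) z.1
      · rw [KK_mem hs.2 hs'.2 h1 h2, ← ENNReal.ofReal_mul (by positivity)]
        apply ENNReal.ofReal_le_ofReal
        rw [abs_mul]
        have h3 := (hP ω hω U hU hW (lo z) (lo z') h1 z z').1
        have h4 := weight_le (U := U) (lo := lo) (z := z) (z' := z') (s' := lo z') (q := qq) h2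
        calc |cc (lo z) (lo z')| * |pr (ph ω) ζ U (lo z) (lo z') z z'|
            ≤ 1 * (C * 2 ^ lo z * (1 / (1 + |U z' - U z| * (1 / 2 : ℝ) ^ lo z' +
                |z'.2 - (z.2 + (z'.1 - z.1) * U z)|) ^ qq)) := by
              gcongr
              · exact abs_cc_le _ _
              · rw [mul_one_div]; exact h3
          _ ≤ 1 * (C * 2 ^ lo z * (3 ^ qq / (1 + |U z' - mU U z| * (1 / 2 : ℝ) ^ lo z' +
                |z'.2 - (bU U z + mU U z * z'.1)|) ^ qq)) := by gcongr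
          _ = _ := by ring
      · rw [(hP ω hω U hU hW (lo z) (lo z') h1 z z').2 h2]; simp
    · rw [cc_zero (not_le.1 h1)]; simp
  refine (ENNReal.ofReal_le_ofReal
    (hSQ (ph ω) (ph_cont hω) (ph_supp hω) U h S lo hi hU hW hn hch)).trans ?_
  rw [ENNReal.ofReal_mul (by norm_num), ENNReal.ofReal_ofNat]
  gcongr 2 * ?_
  have a1 : ENNReal.ofReal (∫ z', h z' * Pair (ph ω) ζ U Set.univ lo hi h (lo z') (hi z') z') ≤
      ∫⁻ z', ENNReal.ofReal |h z'| * ∫⁻ z, ENNReal.ofReal |h z| * KK U lo hi (C * 3 ^ qq) z z' := by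
    refine (ENNReal.ofReal_le_ofReal (le_abs_self _)).trans ?_
    rw [← Real.enorm_eq_ofReal_abs]
    refine (enorm_integral_le_lintegral_enorm _).trans ?_
    refine lintegral_mono fun z' => ?_
    simp only
    rw [enorm_mul, ← Real.enorm_eq_ofReal_abs]
    gcongr
    unfold Pair
    by_cases hal : lo z' < hi z'
    · have e1 : Finset.Ico (lo z') (hi z') = {lo z'} := by
        have h1 := hone z'
        have : hi z' = lo z' + 1 := by omega
        rw [this]; simp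
      rw [e1, Finset.sum_singleton]
      refine (enorm_integral_le_lintegral_enorm _).trans ?_
      refine lintegral_mono fun z => ?_
      simp only
      rw [enorm_mul, Set.indicator_univ, ← Real.enorm_eq_ofReal_abs]
      gcongr
      by_cases hal2 : lo z < hi z
      · have e2 : Finset.Ico (lo z) (hi z) = {lo z} := by
          have h1 := hone z
          have : hi z = lo z + 1 := by omega
          rw [this]; simp
        rw [e2, Finset.sum_singleton, Real.enorm_eq_ofReal_abs]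
        exact hpt z z' _ (Finset.mem_Ico.2 ⟨le_refl _, hal2⟩) _ (Finset.mem_Ico.2 ⟨le_refl _, hal⟩)
      · rw [Finset.Ico_eq_empty (by omega), Finset.sum_empty, enorm_zero]
        exact zero_le
    · rw [Finset.Ico_eq_empty (by omega), Finset.sum_empty, enorm_zero]
      exact zero_le
  refine a1.trans (le_of_eq ?_)
  have hhm : Measurable fun z => ENNReal.ofReal |h z| :=
    (continuous_abs.measurable.comp hn.1).ennreal_ofReal
  have hKm := measurable_KK hU hch.1 hch.2.1 (C * 3 ^ qq)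
  calc ∫⁻ z', ENNReal.ofReal |h z'| * ∫⁻ z, ENNReal.ofReal |h z| * KK U lo hi (C * 3 ^ qq) z z'
      = ∫⁻ z', ∫⁻ z, ENNReal.ofReal |h z'| *
          (ENNReal.ofReal |h z| * KK U lo hi (C * 3 ^ qq) z z') := by
        refine lintegral_congr fun z' => ?_
        exact (lintegral_const_mul _ (hhm.mul
          (hKm.comp (measurable_id.prodMk measurable_const)))).symm
    _ = ∫⁻ z, ∫⁻ z', ENNReal.ofReal |h z'| *
          (ENNReal.ofReal |h z| * KK U lo hi (C * 3 ^ qq) z z') := by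
        refine lintegral_lintegral_swap ?_
        refine Measurable.aemeasurable ?_
        exact (hhm.comp measurable_fst).mul ((hhm.comp measurable_snd).mul
          (hKm.comp measurable_swap))
    _ = _ := by
        refine lintegral_congr fun z => ?_
        have hm2 : Measurable fun z' : ℝ × ℝ =>
            ENNReal.ofReal |h z'| * KK U lo hi (C * 3 ^ qq) z z' :=
          hhm.mul (hKm.comp (measurable_const.prodMk measurable_id))
        rw [← lintegral_const_mul _ hm2]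
        refine lintegral_congr fun z' => ?_
        ring

/-- the short side, for a fixed long point -/
theorem step2 {C : ℝ} {U h : ℝ × ℝ → ℝ} {S : ℕ} {lo hi hi' : ℝ × ℝ → ℕ} (hU : Measurable U)
    (hn : Nice h) (hch : Chain S lo hi) (hle : ∀ z, hi' z ≤ hi z)
    (hone : ∀ z, hi z ≤ lo z + 1) {W : ℝ × ℝ → ℝ} (hW0 : ∀ w, 0 ≤ W w)
    (hW : ∀ R0 : Tube, IntT R0 → IntegrableOn W (fat 1 R0) ∧
        ∫ z in {z | z.1 ∈ R0.I ∧ lo z < hi z ∧ R0.k < hi z},
          |h z| / (1 + |U z - R0.m| * (1 / 2 : ℝ) ^ (hi z - 1) + |z.2 - R0.line z.1|) ^ qq ≤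
          ∫ w in fat 1 R0, W w) (z : ℝ × ℝ) :
    ∫⁻ z', ENNReal.ofReal |h z'| * KK U lo hi' C z z' ≤
      {z | lo z < hi' z}.indicator (fun z => ENNReal.ofReal (C * 2 ^ lo z)) z *
        ∫⁻ w in fat 1 (R0 U lo z), ENNReal.ofReal (W w) := by
  by_cases hz : lo z < hi' z
  · rw [Set.indicator_of_mem (show z ∈ {z | lo z < hi' z} from hz)]
    obtain ⟨hWi, hWle⟩ := hW (R0 U lo z) (R0_int U lo z)
    set A : Set (ℝ × ℝ) := {z' | z'.1 ∈ (R0 U lo z).I ∧ lo z' < hi z' ∧ (R0 U lo z).k < hi z'} with hA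
    set f : ℝ × ℝ → ℝ := fun z' => |h z'| / (1 + |U z' - (R0 U lo z).m| *
      (1 / 2 : ℝ) ^ (hi z' - 1) + |z'.2 - (R0 U lo z).line z'.1|) ^ qq with hf
    have hAm : MeasurableSet A := by
      have h1 : MeasurableSet {z' : ℝ × ℝ | z'.1 ∈ (R0 U lo z).I} :=
        measurable_fst (R0 U lo z).measurableSet_I
      have h2 : MeasurableSet {z' : ℝ × ℝ | lo z' < hi z'} := measurableSet_lt hch.1 hch.2.1
      have h3 : MeasurableSet {z' : ℝ × ℝ | (R0 U lo z).k < hi z'} :=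
        measurableSet_lt measurable_const hch.2.1
      exact h1.inter (h2.inter h3)
    have hfm : Measurable f := by
      refine Measurable.div (continuous_abs.measurable.comp hn.1) (Measurable.pow_const ?_ _)
      refine Measurable.add (Measurable.add measurable_const (Measurable.mul ?_ ?_)) ?_
      · exact continuous_abs.measurable.comp (hU.sub measurable_const)
      · exact measurable_two ((measurable_of_countable (fun k : ℕ => k - 1)).comp hch.2.1)
      · exact continuous_abs.measurable.comp (measurable_snd.sub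
          ((R0 U lo z).measurable_line.comp measurable_fst))
    have hf0 : ∀ z', 0 ≤ f z' := fun z' => by positivity
    have hfle : ∀ z', f z' ≤ |h z'| := by
      intro z'
      refine div_le_self (abs_nonneg _) (one_le_pow₀ ?_)
      have h1 : 0 ≤ |U z' - (R0 U lo z).m| * (1 / 2 : ℝ) ^ (hi z' - 1) := by positivity
      have h2 : 0 ≤ |z'.2 - (R0 U lo z).line z'.1| := abs_nonneg _
      linarith
    have hint : Integrable h := by
      obtain ⟨hm, ⟨M, hM⟩, ⟨r, hr⟩⟩ := hn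
      have h1 : IntegrableOn h (Metric.closedBall 0 r) volume := by
        refine Measure.integrableOn_of_bounded (M := M) ?_ hm.aestronglyMeasurable
          (Filter.Eventually.of_forall hM)
        exact (isCompact_closedBall 0 r).measure_lt_top.ne
      refine (integrableOn_iff_integrable_of_support_subset ?_).1 h1
      intro z hz
      simp only [Metric.mem_closedBall, dist_zero_right]
      by_contra hcon
      exact hz (hr z (not_le.1 hcon))
    have hfi : Integrable f := by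
      refine Integrable.mono' hint.abs hfm.aestronglyMeasurable (Filter.Eventually.of_forall ?_)
      intro z'
      rw [Real.norm_eq_abs, abs_of_nonneg (hf0 z')]
      exact hfle z'
    have hpt : ∀ z', ENNReal.ofReal |h z'| * KK U lo hi' C z z' ≤
        ENNReal.ofReal (C * 2 ^ lo z) * A.indicator (fun z' => ENNReal.ofReal (f z')) z' := by
      intro z'
      by_cases hk : lo z' < hi' z' ∧ lo z ≤ lo z' ∧ jx (lo z) z'.1 = jx (lo z) z.1
      · obtain ⟨h1, h2, h3⟩ := hk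
        have h4 := hle z'
        have h5 := hone z'
        have hmem : z' ∈ A := by
          refine ⟨?_, by omega, ?_⟩
          · rw [mem_I]; exact h3
          · change lo z < hi z'; omega
        rw [KK_mem hz h1 h2 h3, Set.indicator_of_mem hmem]
        have e1 : hi z' - 1 = lo z' := by omega
        rw [mul_left_comm, ← ENNReal.ofReal_mul (abs_nonneg _)]
        refine le_of_eq ?_
        congr 2
        rw [hf]
        simp only
        rw [e1, mul_one_div]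
        rfl
      · have : KK U lo hi' C z z' = 0 := by
          unfold KK
          rw [Set.indicator_of_notMem]
          rintro ⟨_, h2, h3, h4⟩
          exact hk ⟨h2, h3, h4⟩
        rw [this, mul_zero]
        exact zero_le
    calc ∫⁻ z', ENNReal.ofReal |h z'| * KK U lo hi' C z z'
        ≤ ∫⁻ z', ENNReal.ofReal (C * 2 ^ lo z) * A.indicator (fun z' => ENNReal.ofReal (f z')) z' :=
          lintegral_mono hpt
      _ = ENNReal.ofReal (C * 2 ^ lo z) * ∫⁻ z' in A, ENNReal.ofReal (f z') := by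
          rw [lintegral_const_mul _ (hfm.ennreal_ofReal.indicator hAm), lintegral_indicator hAm]
      _ = ENNReal.ofReal (C * 2 ^ lo z) * ENNReal.ofReal (∫ z' in A, f z') := by
          rw [ofReal_integral_eq_lintegral_ofReal hfi.integrableOn
            (Filter.Eventually.of_forall hf0)]
      _ ≤ ENNReal.ofReal (C * 2 ^ lo z) * ENNReal.ofReal (∫ w in fat 1 (R0 U lo z), W w) := by
          gcongr
      _ = _ := by
          rw [ofReal_integral_eq_lintegral_ofReal hWi (Filter.Eventually.of_forall hW0)]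
  · have : ∀ z', KK U lo hi' C z z' = 0 := by
      intro z'
      unfold KK
      rw [Set.indicator_of_notMem]
      rintro ⟨h1, _⟩
      exact hz h1
    simp [this]

/-- the long side at a point `w` -/
theorem step3 {U h : ℝ × ℝ → ℝ} {n S N : ℕ} {lo hi hi' : ℝ × ℝ → ℕ} {R : Fin N → Tube}
    {kk : Fin N → ℤ} {ii : Fin N → ℕ} {E B : Fin N → Set (ℝ × ℝ)} (hn : Nice h)
    (hch : Chain S lo hi) (hm' : Measurable hi') (hle : ∀ z, hi' z ≤ hi z)
    (hT : IsTops U h AA n lo hi N R kk ii E B) {a : Fin N → ℝ} (ha : ∀ m, 0 ≤ a m)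
    (hS : ∀ m x, ∑ s ∈ Finset.range S, ENNReal.ofReal (2 ^ s) *
          ∫⁻ z in {z | z ∈ B m ∧ lo z = s ∧ s < hi' z ∧ jx s z.1 = jx s x}, ENNReal.ofReal |h z| ≤
            ENNReal.ofReal (a m)) (w : ℝ × ℝ) :
    ∫⁻ z, ENNReal.ofReal |h z| * {z | lo z < hi' z}.indicator (fun z => ENNReal.ofReal (2 ^ lo z)) z *
      (fat 1 (R0 U lo z)).indicator (fun _ => 1) w ≤
      ENNReal.ofReal (∑ m, a m * (fat (32 * 2 ^ ii m) (R m)).indicator 1 w) := by
  classical
  have hhm : Measurable fun z => ENNReal.ofReal |h z| :=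
    (continuous_abs.measurable.comp hn.1).ennreal_ofReal
  set Q : Fin N → ℕ → Set (ℝ × ℝ) := fun m s =>
    {z | z ∈ B m ∧ lo z = s ∧ s < hi' z ∧ jx s z.1 = jx s w.1} with hQ
  have hQm : ∀ m s, MeasurableSet (Q m s) := by
    intro m s
    have h2 : MeasurableSet {z : ℝ × ℝ | lo z = s} := hch.1 (MeasurableSet.singleton s)
    have h3 : MeasurableSet {z : ℝ × ℝ | s < hi' z} := measurableSet_lt measurable_const hm'
    have h4 : MeasurableSet {z : ℝ × ℝ | jx s z.1 = jx s w.1} :=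
      (measurable_jx measurable_const measurable_fst) (MeasurableSet.singleton _)
    exact (hT.mB m).inter (h2.inter (h3.inter h4))
  have hpt : ∀ z, ENNReal.ofReal |h z| *
      {z | lo z < hi' z}.indicator (fun z => ENNReal.ofReal (2 ^ lo z)) z *
      (fat 1 (R0 U lo z)).indicator (fun _ => 1) w ≤
      ∑ m, (fat (32 * 2 ^ ii m) (R m)).indicator (fun _ => (1 : ℝ≥0∞)) w *
        ∑ s ∈ Finset.range S, ENNReal.ofReal (2 ^ s) *
          (Q m s).indicator (fun z => ENNReal.ofReal |h z|) z := by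
    intro z
    by_cases h1 : h z = 0
    · rw [h1]; simp
    by_cases h2 : lo z < hi' z
    swap
    · rw [Set.indicator_of_notMem (show z ∉ {z | lo z < hi' z} from h2)]; simp
    by_cases h3 : w ∈ fat 1 (R0 U lo z)
    swap
    · rw [Set.indicator_of_notMem h3]; simp
    have h4 : lo z < hi z := lt_of_lt_of_le h2 (hle z)
    obtain ⟨m, hm⟩ := hT.unB z h1 h4
    obtain ⟨t1, t2, t3⟩ := hT.top m z hm h4
    have h5 := fat_sub t1 t2 t3 h3
    have h6 : jx (lo z) w.1 = jx (lo z) z.1 := (mem_I _ _).1 h3.1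
    have h7 : lo z < S := lt_of_lt_of_le h4 (hch.2.2 z)
    have h8 : z ∈ Q m (lo z) := ⟨hm, rfl, h2, h6.symm⟩
    have e1 : ENNReal.ofReal |h z| *
      {z | lo z < hi' z}.indicator (fun z => ENNReal.ofReal (2 ^ lo z)) z *
      (fat 1 (R0 U lo z)).indicator (fun _ => 1) w =
      (fat (32 * 2 ^ ii m) (R m)).indicator (fun _ => (1 : ℝ≥0∞)) w *
        (ENNReal.ofReal (2 ^ lo z) * (Q m (lo z)).indicator (fun z => ENNReal.ofReal |h z|) z) := by
      rw [Set.indicator_of_mem (show z ∈ {z | lo z < hi' z} from h2), Set.indicator_of_mem h3,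
        Set.indicator_of_mem h5, Set.indicator_of_mem h8]
      ring
    rw [e1]
    refine le_trans ?_ (Finset.single_le_sum (f := fun m =>
      (fat (32 * 2 ^ ii m) (R m)).indicator (fun _ => (1 : ℝ≥0∞)) w *
        ∑ s ∈ Finset.range S, ENNReal.ofReal (2 ^ s) *
          (Q m s).indicator (fun z => ENNReal.ofReal |h z|) z) (fun _ _ => zero_le)
      (Finset.mem_univ m))
    gcongr
    exact Finset.single_le_sum (f := fun s => ENNReal.ofReal (2 ^ s) *
          (Q m s).indicator (fun z => ENNReal.ofReal |h z|) z) (fun _ _ => zero_le)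
      (Finset.mem_range.2 h7)
  have hmI : ∀ m s, Measurable fun z => ENNReal.ofReal (2 ^ s) *
      (Q m s).indicator (fun z => ENNReal.ofReal |h z|) z := fun m s =>
    (hhm.indicator (hQm m s)).const_mul _
  calc ∫⁻ z, ENNReal.ofReal |h z| *
      {z | lo z < hi' z}.indicator (fun z => ENNReal.ofReal (2 ^ lo z)) z *
      (fat 1 (R0 U lo z)).indicator (fun _ => 1) w
      ≤ ∫⁻ z, ∑ m, (fat (32 * 2 ^ ii m) (R m)).indicator (fun _ => (1 : ℝ≥0∞)) w *
        ∑ s ∈ Finset.range S, ENNReal.ofReal (2 ^ s) *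
          (Q m s).indicator (fun z => ENNReal.ofReal |h z|) z := lintegral_mono hpt
    _ = ∑ m, (fat (32 * 2 ^ ii m) (R m)).indicator (fun _ => (1 : ℝ≥0∞)) w *
        ∑ s ∈ Finset.range S, ENNReal.ofReal (2 ^ s) *
          ∫⁻ z in Q m s, ENNReal.ofReal |h z| := by
        rw [lintegral_finsetSum _ fun m _ =>
          (Finset.measurable_fun_sum _ fun s _ => hmI m s).const_mul _]
        refine Finset.sum_congr rfl fun m _ => ?_
        rw [lintegral_const_mul _ (Finset.measurable_fun_sum _ fun s _ => hmI m s),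
          lintegral_finsetSum _ fun s _ => hmI m s]
        congr 1
        refine Finset.sum_congr rfl fun s _ => ?_
        rw [lintegral_const_mul _ (hhm.indicator (hQm m s)), lintegral_indicator (hQm m s)]
    _ ≤ ∑ m, (fat (32 * 2 ^ ii m) (R m)).indicator (fun _ => (1 : ℝ≥0∞)) w *
          ENNReal.ofReal (a m) := by
        gcongr with m
        exact hS m w.1
    _ = ENNReal.ofReal (∑ m, a m * (fat (32 * 2 ^ ii m) (R m)).indicator 1 w) := by
        rw [ENNReal.ofReal_sum_of_nonneg]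
        · refine Finset.sum_congr rfl fun m _ => ?_
          by_cases hw : w ∈ fat (32 * 2 ^ ii m) (R m)
          · rw [Set.indicator_of_mem hw, Set.indicator_of_mem hw]; simp
          · rw [Set.indicator_of_notMem hw, Set.indicator_of_notMem hw]; simp
        · intro m _
          exact mul_nonneg (ha m) (Set.indicator_nonneg (fun _ _ => by simp) _)

theorem measurableSet_R0 {U : ℝ × ℝ → ℝ} (hU : Measurable U) {lo : ℝ × ℝ → ℕ} (hlo : Measurable lo) :
    MeasurableSet {p : (ℝ × ℝ) × (ℝ × ℝ) | p.2 ∈ fat 1 (R0 U lo p.1)} := by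
  have e : {p : (ℝ × ℝ) × (ℝ × ℝ) | p.2 ∈ fat 1 (R0 U lo p.1)} =
      {p : (ℝ × ℝ) × (ℝ × ℝ) | jx (lo p.1) p.2.1 = jx (lo p.1) p.1.1} ∩
      {p : (ℝ × ℝ) × (ℝ × ℝ) | |p.2.2 - (bU U p.1 + mU U p.1 * p.2.1)| ≤ 1} := by
    ext p
    have h1 := mem_I (R0 U lo p.1) p.2.1
    exact ⟨fun h => ⟨h1.1 h.1, h.2⟩, fun h => ⟨h1.2 h.1, h.2⟩⟩
  rw [e]
  refine MeasurableSet.inter ?_ ?_
  · exact measurableSet_eq_fun (measurable_jx (hlo.comp measurable_fst) measurable_snd.fst)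
        (measurable_jx (hlo.comp measurable_fst) measurable_fst.fst)
  · refine measurableSet_le ?_ measurable_const
    refine continuous_abs.measurable.comp ((measurable_snd.snd).sub ?_)
    exact ((measurable_bU hU).comp measurable_fst).add
          (((measurable_mU hU).comp measurable_fst).mul measurable_snd.fst)


/-- **TOPN** from the bound of one pairing and the stopping of the tops. -/
theorem main {ζ : ℝ → ℝ} (hP : PairB ζ) (hStop : TopStop) (hSQ : SQ ζ) (hO : OMEGA) (hH : HNORM) :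
    TOPN ζ := by
  obtain ⟨C1, hC1, h1⟩ := step1 hP hSQ
  obtain ⟨C2, hC2, h2⟩ := hStop
  obtain ⟨C3, hC3, h3⟩ := hO
  obtain ⟨c, hc, C4, hC4, h4⟩ := hH
  refine ⟨c, hc, 2 * C1 * C2 * Real.sqrt (C3 * C4) + C2, by positivity, ?_⟩
  intro ω hω U h n S lo hi Λ hU hn hch hup hΛ N R kk ii E B hT hone
  obtain ⟨hi', hm', hle, hrem, hkeep⟩ := h2 U h n S lo hi Λ hU.1 hn hch hup hΛ N R kk ii E B hT hone
  have hI0 : 0 ≤ ∫ z, (h z) ^ 2 := integral_nonneg fun z => sq_nonneg _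
  refine ⟨hi', hm', hle, ?_, ?_⟩
  swap
  · refine hrem.trans ?_
    gcongr
    have : 0 ≤ 2 * C1 * C2 * Real.sqrt (C3 * C4) := by positivity
    linarith
  have hch' : Chain S lo hi' := ⟨hch.1, hm', fun z => (hle z).trans (hch.2.2 z)⟩
  have hone' : ∀ z, hi' z ≤ lo z + 1 := fun z => (hle z).trans (hone z)
  obtain ⟨W, hWm, hW0, hWi, hWle, hWR⟩ := h3 n U h S lo hi hU.1 hn hch hup N R kk ii E B hT
  set I : ℝ := ∫ z, (h z) ^ 2 with hI
  set a : Fin N → ℝ := fun m => C2 * Λ * (2 ^ (kk m) * 2 ^ (AA * ii m) * (1 / 2) ^ n) with ha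
  have ha0 : ∀ m, 0 ≤ a m := fun m => by simp only [ha]; positivity
  set Hs : ℝ × ℝ → ℝ := fun w => ∑ m, a m * (fat (32 * 2 ^ ii m) (R m)).indicator 1 w with hHs
  have hHs0 : ∀ w, 0 ≤ Hs w := fun w =>
    Finset.sum_nonneg fun m _ => mul_nonneg (ha0 m) (Set.indicator_nonneg (fun _ _ => by simp) _)
  have hhm : Measurable fun z => ENNReal.ofReal |h z| :=
    (continuous_abs.measurable.comp hn.1).ennreal_ofReal
  have hWe : Measurable fun w => ENNReal.ofReal (W w) := hWm.ennreal_ofReal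
  have hfm : ∀ m, MeasurableSet (fat (32 * 2 ^ ii m) (R m)) := fun m => by
    have h5 : MeasurableSet {z : ℝ × ℝ | z.1 ∈ (R m).I} := measurable_fst (R m).measurableSet_I
    have h6 : MeasurableSet {z : ℝ × ℝ | |z.2 - (R m).line z.1| ≤ 32 * 2 ^ ii m} := by
      apply measurableSet_le _ measurable_const
      have := (R m).measurable_line
      fun_prop
    exact h5.inter h6
  have hff : ∀ m, volume (fat (32 * 2 ^ ii m) (R m)) ≠ ⊤ := fun m => by
    rw [volume_fat]; exact ENNReal.ofReal_ne_top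
  -- the chain of inequalities
  set V : ℝ × ℝ → ℝ≥0∞ := fun w => ∫⁻ z, ENNReal.ofReal |h z| *
    {z | lo z < hi' z}.indicator (fun z => ENNReal.ofReal (2 ^ lo z)) z *
      (fat 1 (R0 U lo z)).indicator (fun _ => 1) w with hV
  have hVle : ∀ w, V w ≤ ENNReal.ofReal (Hs w) := fun w =>
    step3 hn hch hm' hle hT ha0 hkeep w
  have hal : MeasurableSet {z : ℝ × ℝ | lo z < hi' z} := measurableSet_lt hch.1 hm'
  have h2m : Measurable fun z => {z | lo z < hi' z}.indicator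
      (fun z => ENNReal.ofReal (2 ^ lo z)) z := by
    have h5 : Measurable fun z : ℝ × ℝ => (2 : ℝ) ^ lo z := measurable_two hch.1
    exact h5.ennreal_ofReal.indicator hal
  have hRm : Measurable fun p : (ℝ × ℝ) × (ℝ × ℝ) =>
      (fat 1 (R0 U lo p.1)).indicator (fun _ => (1 : ℝ≥0∞)) p.2 := by
    have e : (fun p : (ℝ × ℝ) × (ℝ × ℝ) =>
      (fat 1 (R0 U lo p.1)).indicator (fun _ => (1 : ℝ≥0∞)) p.2) =
      {p : (ℝ × ℝ) × (ℝ × ℝ) | p.2 ∈ fat 1 (R0 U lo p.1)}.indicator (fun _ => 1) := by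
      ext p
      by_cases hp : p.2 ∈ fat 1 (R0 U lo p.1)
      · have hp2 : p ∈ {p : (ℝ × ℝ) × (ℝ × ℝ) | p.2 ∈ fat 1 (R0 U lo p.1)} := hp
        rw [Set.indicator_of_mem hp, Set.indicator_of_mem hp2]
      · have hp2 : p ∉ {p : (ℝ × ℝ) × (ℝ × ℝ) | p.2 ∈ fat 1 (R0 U lo p.1)} := hp
        rw [Set.indicator_of_notMem hp, Set.indicator_of_notMem hp2]
    rw [e]
    exact measurable_const.indicator (measurableSet_R0 hU.1 hch.1)
  have key : ENNReal.ofReal (∫ w, (Tc (ph ω) ζ U lo hi' h w) ^ 2) ≤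
      2 * (ENNReal.ofReal C1 * ∫⁻ w, ENNReal.ofReal (W w) * V w) := by
    refine (h1 ω hω U h S lo hi' hU.1 hU.2.1 hn hch' hone').trans ?_
    gcongr 2 * ?_
    calc ∫⁻ z, ENNReal.ofReal |h z| * ∫⁻ z', ENNReal.ofReal |h z'| * KK U lo hi' C1 z z'
        ≤ ∫⁻ z, ENNReal.ofReal C1 * ∫⁻ w, (ENNReal.ofReal |h z| *
            {z | lo z < hi' z}.indicator (fun z => ENNReal.ofReal (2 ^ lo z)) z *
            (fat 1 (R0 U lo z)).indicator (fun _ => 1) w) * ENNReal.ofReal (W w) := by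
          refine lintegral_mono fun z => ?_
          simp only
          have h5 := step2 (C := C1) hU.1 hn hch hle hone hW0 hWR z
          have h6 : MeasurableSet (fat 1 (R0 U lo z)) := by
            have h5 : MeasurableSet {w : ℝ × ℝ | w.1 ∈ (R0 U lo z).I} :=
              measurable_fst (R0 U lo z).measurableSet_I
            have h6 : MeasurableSet {w : ℝ × ℝ | |w.2 - (R0 U lo z).line w.1| ≤ 1} := by
              apply measurableSet_le _ measurable_const
              have := (R0 U lo z).measurable_line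
              fun_prop
            exact h5.inter h6
          calc ENNReal.ofReal |h z| * ∫⁻ z', ENNReal.ofReal |h z'| * KK U lo hi' C1 z z'
              ≤ ENNReal.ofReal |h z| * ({z | lo z < hi' z}.indicator
                (fun z => ENNReal.ofReal (C1 * 2 ^ lo z)) z *
                ∫⁻ w in fat 1 (R0 U lo z), ENNReal.ofReal (W w)) := by gcongr
            _ = ENNReal.ofReal C1 * ((ENNReal.ofReal |h z| *
                {z | lo z < hi' z}.indicator (fun z => ENNReal.ofReal (2 ^ lo z)) z) *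
                ∫⁻ w in fat 1 (R0 U lo z), ENNReal.ofReal (W w)) := by
                by_cases hz : lo z < hi' z
                · rw [Set.indicator_of_mem (show z ∈ {z | lo z < hi' z} from hz),
                    Set.indicator_of_mem (show z ∈ {z | lo z < hi' z} from hz),
                    ENNReal.ofReal_mul hC1]
                  ring
                · rw [Set.indicator_of_notMem (show z ∉ {z | lo z < hi' z} from hz),
                    Set.indicator_of_notMem (show z ∉ {z | lo z < hi' z} from hz)]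
                  ring
            _ = _ := by
                congr 1
                rw [← lintegral_indicator h6, ← lintegral_const_mul _ (hWe.indicator h6)]
                refine lintegral_congr fun w => ?_
                by_cases hw : w ∈ fat 1 (R0 U lo z)
                · rw [Set.indicator_of_mem hw, Set.indicator_of_mem hw]; ring
                · rw [Set.indicator_of_notMem hw, Set.indicator_of_notMem hw]; ring
      _ = ENNReal.ofReal C1 * ∫⁻ z, ∫⁻ w, (ENNReal.ofReal |h z| *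
            {z | lo z < hi' z}.indicator (fun z => ENNReal.ofReal (2 ^ lo z)) z *
            (fat 1 (R0 U lo z)).indicator (fun _ => 1) w) * ENNReal.ofReal (W w) :=
          lintegral_const_mul' _ _ ENNReal.ofReal_ne_top
      _ = ENNReal.ofReal C1 * ∫⁻ w, ∫⁻ z, (ENNReal.ofReal |h z| *
            {z | lo z < hi' z}.indicator (fun z => ENNReal.ofReal (2 ^ lo z)) z *
            (fat 1 (R0 U lo z)).indicator (fun _ => 1) w) * ENNReal.ofReal (W w) := by
          congr 1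
          refine lintegral_lintegral_swap (Measurable.aemeasurable ?_)
          exact (((hhm.mul h2m).comp measurable_fst).mul hRm).mul (hWe.comp measurable_snd)
      _ = ENNReal.ofReal C1 * ∫⁻ w, ENNReal.ofReal (W w) * V w := by
          congr 1
          refine lintegral_congr fun w => ?_
          rw [lintegral_mul_const' _ _ ENNReal.ofReal_ne_top, mul_comm]
  -- Cauchy-Schwarz
  have hWL : MemLp W 2 volume := (memLp_two_iff_integrable_sq hWm.aestronglyMeasurable).2 hWi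
  have hHL : MemLp Hs 2 volume :=
    Omegax627.mem_ind volume Finset.univ (fun m => fat (32 * 2 ^ ii m) (R m)) a
      (fun m _ => hfm m) (fun m _ => hff m)
  have hWH : ∫⁻ w, ENNReal.ofReal (W w) * V w ≤ ENNReal.ofReal (∫ w, W w * Hs w) := by
    have hint : Integrable (fun w => W w * Hs w) := hWL.integrable_mul hHL
    rw [ofReal_integral_eq_lintegral_ofReal hint
      (Filter.Eventually.of_forall fun w => mul_nonneg (hW0 w) (hHs0 w))]
    refine lintegral_mono fun w => ?_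
    simp only
    rw [ENNReal.ofReal_mul (hW0 w)]
    gcongr
    exact hVle w
  have hcs := Omegax627.cs_mem_sqrt hWL hHL
  have hHs2 : ∫ w, (Hs w) ^ 2 ≤ (C2 * Λ) ^ 2 * (C4 * (2 : ℝ) ^ ((n : ℝ) / 16) * I) := by
    have e : ∀ w, (Hs w) ^ 2 = (C2 * Λ) ^ 2 * (∑ m, (2 : ℝ) ^ kk m * 2 ^ (AA * ii m) * (1 / 2 : ℝ) ^ n *
        (fat (32 * 2 ^ ii m) (R m)).indicator 1 w) ^ 2 := by
      intro w
      rw [← mul_pow, Finset.mul_sum]
      congr 1
      refine Finset.sum_congr rfl fun m _ => ?_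
      simp only [ha]; ring
    simp_rw [e]
    rw [integral_const_mul]
    gcongr
    exact h4 n U h lo hi hU hn N R kk ii E B hT
  have hfin : ∫ w, W w * Hs w ≤ C2 * Real.sqrt (C3 * C4) * (Λ * (2 : ℝ) ^ (-(n : ℝ) / 4) * I) := by
    have hΛ0 : 0 ≤ Λ := by linarith
    refine hcs.trans ?_
    have h5 : Real.sqrt (∫ w, (W w) ^ 2) * Real.sqrt (∫ w, (Hs w) ^ 2) ≤
        Real.sqrt ((C3 * (1 / 2 : ℝ) ^ n * I) *
          ((C2 * Λ) ^ 2 * (C4 * (2 : ℝ) ^ ((n : ℝ) / 16) * I))) := by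
      rw [Real.sqrt_mul (by positivity)]
      gcongr
    refine h5.trans ?_
    have h6 : (1 / 2 : ℝ) ^ n * (2 : ℝ) ^ ((n : ℝ) / 16) ≤ ((2 : ℝ) ^ (-(n : ℝ) / 4)) ^ 2 := by
      have e1 : (1 / 2 : ℝ) ^ n = (2 : ℝ) ^ (-(n : ℝ)) := by
        rw [Real.rpow_neg (by norm_num), Real.rpow_natCast, one_div, inv_pow]
      rw [e1, ← Real.rpow_add (by norm_num), ← Real.rpow_natCast, ← Real.rpow_mul (by norm_num)]
      apply Real.rpow_le_rpow_of_exponent_le (by norm_num)
      have : (0 : ℝ) ≤ n := Nat.cast_nonneg n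
      push_cast
      linarith
    have h7 : (C3 * (1 / 2 : ℝ) ^ n * I) * ((C2 * Λ) ^ 2 * (C4 * (2 : ℝ) ^ ((n : ℝ) / 16) * I)) ≤
        (C3 * C4) * (C2 * (Λ * (2 : ℝ) ^ (-(n : ℝ) / 4) * I)) ^ 2 := by
      calc (C3 * (1 / 2 : ℝ) ^ n * I) * ((C2 * Λ) ^ 2 * (C4 * (2 : ℝ) ^ ((n : ℝ) / 16) * I))
          = (C3 * C4) * ((C2 * Λ) ^ 2 * I ^ 2) * ((1 / 2 : ℝ) ^ n * (2 : ℝ) ^ ((n : ℝ) / 16)) := by
            ring
        _ ≤ (C3 * C4) * ((C2 * Λ) ^ 2 * I ^ 2) * ((2 : ℝ) ^ (-(n : ℝ) / 4)) ^ 2 := by gcongr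
        _ = _ := by ring
    refine (Real.sqrt_le_sqrt h7).trans (le_of_eq ?_)
    rw [Real.sqrt_mul (by positivity), Real.sqrt_sq (by positivity)]
    ring
  have hlast : ENNReal.ofReal (∫ w, (Tc (ph ω) ζ U lo hi' h w) ^ 2) ≤
      ENNReal.ofReal (2 * (C1 * (C2 * Real.sqrt (C3 * C4) *
        (Λ * (2 : ℝ) ^ (-(n : ℝ) / 4) * I)))) := by
    refine key.trans ?_
    rw [ENNReal.ofReal_mul (by norm_num : (0 : ℝ) ≤ 2), ENNReal.ofReal_ofNat,
      ENNReal.ofReal_mul hC1]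
    gcongr
    exact hWH.trans (ENNReal.ofReal_le_ofReal hfin)
  have hΛ0 : 0 ≤ Λ := by linarith
  have hreal := (ENNReal.ofReal_le_ofReal_iff (by positivity)).1 hlast
  refine hreal.trans ?_
  have h8 : 0 ≤ C2 * (Λ * (2 : ℝ) ^ (-(n : ℝ) / 4) * I) := by positivity
  calc 2 * (C1 * (C2 * Real.sqrt (C3 * C4) * (Λ * (2 : ℝ) ^ (-(n : ℝ) / 4) * I)))
      ≤ 2 * (C1 * (C2 * Real.sqrt (C3 * C4) * (Λ * (2 : ℝ) ^ (-(n : ℝ) / 4) * I))) +
        C2 * (Λ * (2 : ℝ) ^ (-(n : ℝ) / 4) * I) := by linarith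
    _ = _ := by ring

end Crest.Agent.R087.TopNx52
end
end

-- ▼ part R087/Top1_339
section

/-!
Row 87 (S0115), operator part, leaf OP PAIR-TOP, half TOP1 (helper339): the square function of a
family with few active scales, in absolute values.
-/

set_option autoImplicit false

noncomputable section

open MeasureTheory Crest.Agent.R087.Sh0x283 Crest.Agent.R087.GateDefx273
open Crest.Agent.R087.OPdefx799 (ix ln kk T1 TS Ch nr)
open Crest.Agent.R087.Sqx282
open Crest.Agent.R087.Pair1x339 (Om Xi pair1)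
open scoped ENNReal

namespace Crest.Agent.R087.Top1x339






theorem ix_close {s : ℕ} {x u : ℝ} (h : ix s x = ix s u) : |x - u| ≤ (1 / 2 : ℝ) ^ s := by
  unfold ix at h
  have h3 := Int.abs_sub_lt_one_of_floor_eq_floor h
  have h4 : (0 : ℝ) < 2 ^ s := by positivity
  have h5 : (2 : ℝ) ^ s * x - 2 ^ s * u = 2 ^ s * (x - u) := by ring
  rw [h5, abs_mul, abs_of_pos h4] at h3
  rw [one_div, inv_pow, ← one_div, le_div_iff₀ h4]
  linarith








end Crest.Agent.R087.Top1x339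
end
end

-- ▼ part R087/TopP_339
section

/-!
Row 87 (S0115), operator part: absolute bound of one pairing, weight form (helper339).
-/

set_option autoImplicit false

noncomputable section

open MeasureTheory Crest.Agent.R087.Sh0x283 Crest.Agent.R087.GateDefx273

namespace Crest.Agent.R087.TopPx339

open Crest.Agent.R087.OP0x270

/-- absolute bound of one pairing, any exponent `q ≤ 2N`. -/
theorem pairq {ζ : ℝ → ℝ} (hz : ZetC ζ) {N M q : ℕ} (hNM : N + 1 ≤ M) (hq : q ≤ 2 * N) :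
    ∃ C : ℝ, 0 ≤ C ∧ ∀ ω : ℝ → ℝ, PW M ω → ∀ (U : ℝ × ℝ → ℝ) (s s' : ℕ), s ≤ s' →
      ∀ z z' : ℝ × ℝ,
      |pr (iteratedDeriv N ω) ζ U s s' z z'| ≤ C * 2 ^ s /
        (1 + |U z' - U z| * (1 / 2) ^ s' + |z'.2 - (z.2 + (z'.1 - z.1) * U z)|) ^ q ∧
      (jx s z'.1 ≠ jx s z.1 → pr (iteratedDeriv N ω) ζ U s s' z z' = 0) := by
  obtain ⟨C, hC0, hC⟩ := Pair1x339.pair1 hz hNM
  refine ⟨C * 5 ^ q, by positivity, ?_⟩
  intro ω hω U s s' hss z z'
  obtain ⟨h1, -, h3⟩ := hC ω hω U s s' z z' hss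
  have epr : pr (iteratedDeriv N ω) ζ U s s' z z' =
    ∫ w, Pair1x339.kk (iteratedDeriv N ω) ζ U s z w * Pair1x339.kk (iteratedDeriv N ω) ζ U s' z' w := rfl
  rw [← epr] at h3
  have h1' : ∀ n ≤ 2 * N, (|U z - U z'| * ((2 : ℝ) ^ s')⁻¹) ^ n *
      |pr (iteratedDeriv N ω) ζ U s s' z z'| ≤ C * 2 ^ s := h1
  set P := pr (iteratedDeriv N ω) ζ U s s' z z' with hP
  set b : ℝ := |U z - U z'| * ((2 : ℝ) ^ s')⁻¹ with hb
  have hb0 : 0 ≤ b := by positivity
  have e12 : (1 / 2 : ℝ) ^ s' = ((2 : ℝ) ^ s')⁻¹ := by rw [one_div, inv_pow]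
  have eb : |U z' - U z| * (1 / 2) ^ s' = b := by rw [e12, abs_sub_comm]
  rw [eb]
  constructor
  · by_cases h0 : P = 0
    · rw [h0, abs_zero]
      positivity
    · obtain ⟨h4, u, h5, h6⟩ := h3 h0
      have h7 : |z'.1 - u| ≤ ((2 : ℝ) ^ s')⁻¹ := by
        rw [← e12]
        exact Top1x339.ix_close (by unfold OPdefx799.ix; exact h5.symm)
      have h8 : |z'.2 - (z.2 + (z'.1 - z.1) * U z)| ≤ 2 + b := by
        have e : z'.2 - (z.2 + (z'.1 - z.1) * U z) =
            -(Pair1x339.ln U z u - Pair1x339.ln U z' u) - (U z - U z') * (z'.1 - u) := by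
          unfold Pair1x339.ln
          ring
        rw [e]
        calc _ ≤ |-(Pair1x339.ln U z u - Pair1x339.ln U z' u)| + |(U z - U z') * (z'.1 - u)| :=
              abs_sub _ _
          _ ≤ 2 + |U z - U z'| * ((2 : ℝ) ^ s')⁻¹ := by
              rw [abs_neg, abs_mul]
              gcongr
      have h9 : 1 + b + |z'.2 - (z.2 + (z'.1 - z.1) * U z)| ≤ 5 * max 1 b := by
        have h3 : b ≤ max 1 b := le_max_right _ _
        have h4 : 1 ≤ max 1 b := le_max_left _ _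
        linarith
      have hG : |P| * (max 1 b) ^ q ≤ C * 2 ^ s := by
        rcases le_total b 1 with hb1 | hb1
        · rw [max_eq_left hb1, one_pow, mul_one]
          have := h1' 0 (Nat.zero_le _)
          rw [pow_zero, one_mul] at this
          exact this
        · rw [max_eq_right hb1, mul_comm]
          exact h1' q hq
      rw [le_div_iff₀ (by positivity)]
      calc |P| * (1 + b + |z'.2 - (z.2 + (z'.1 - z.1) * U z)|) ^ q
          ≤ |P| * (5 * max 1 b) ^ q := by gcongr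
        _ = 5 ^ q * (|P| * (max 1 b) ^ q) := by rw [mul_pow]; ring
        _ ≤ 5 ^ q * (C * 2 ^ s) := by gcongr
        _ = _ := by ring
  · intro hne
    by_contra h0
    exact hne (h3 h0).1.symm

theorem pairb {ζ : ℝ → ℝ} (hz : ZetC ζ) : ∃ C : ℝ, 0 ≤ C ∧ ∀ ω : ℝ → ℝ, PW (2 * qq + 8) ω →
    ∀ U : ℝ × ℝ → ℝ, Measurable U → (∃ W, ∀ z, |U z| ≤ W) → ∀ s s' : ℕ, s ≤ s' →
      ∀ z z' : ℝ × ℝ,
      |pr (ph ω) ζ U s s' z z'| ≤ C * 2 ^ s /
        (1 + |U z' - U z| * (1 / 2) ^ s' + |z'.2 - (z.2 + (z'.1 - z.1) * U z)|) ^ qq ∧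
      (jx s z'.1 ≠ jx s z.1 → pr (ph ω) ζ U s s' z z' = 0) := by
  obtain ⟨C, hC0, hC⟩ := pairq hz (N := 2 * qq + 2) (M := 2 * qq + 8) (q := qq) (by omega) (by omega)
  exact ⟨C, hC0, fun ω hω U _ _ s s' hss z z' => hC ω hω U s s' hss z z'⟩

end Crest.Agent.R087.TopPx339
end
end

-- ▼ part R087/Sig_630
section

/-!
# Row 87 (S0115), operator part: the stopping scale given by averages of `Θ` (helper630)

`sig Θ lam s0 S x` : first scale `s` with `S ≤ s` or `stp Θ lam s0 s x`.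
-/

set_option autoImplicit false

noncomputable section

open MeasureTheory ENNReal

namespace Crest.Agent.R087.Sigx630

open Crest.Agent.R087.Massx546 Crest.Agent.R087.StopAvgx630 Crest.Agent.R087.TreeIfx153
open Crest.Agent.R087.T1x90 (Tree)

open scoped Classical in
/-- the stopping scale -/
def sig (Θ : ℝ → ℝ≥0∞) (lam : ℝ≥0∞) (s0 S : ℕ) (x : ℝ) : ℕ :=
  Nat.find (⟨S, Or.inl le_rfl⟩ : ∃ s, S ≤ s ∨ stp Θ lam s0 s x)

variable {Θ : ℝ → ℝ≥0∞} {lam : ℝ≥0∞} {s0 S : ℕ}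

theorem lt_sig {s : ℕ} {x : ℝ} : s < sig Θ lam s0 S x ↔ s < S ∧ ¬ stp Θ lam s0 s x := by
  classical
  constructor
  · intro h
    have := Nat.find_min (⟨S, Or.inl le_rfl⟩ : ∃ s, S ≤ s ∨ stp Θ lam s0 s x) h
    push Not at this
    exact this
  · rintro ⟨h1, h2⟩
    by_contra hcon
    rw [not_lt] at hcon
    rcases Nat.find_spec (⟨S, Or.inl le_rfl⟩ : ∃ s, S ≤ s ∨ stp Θ lam s0 s x) with h | h
    · have h3 : S ≤ sig Θ lam s0 S x := h
      omega
    · exact h2 (stp_mono hcon h)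

theorem sig_le (x : ℝ) : sig Θ lam s0 S x ≤ S := by
  by_contra hcon
  rw [not_le, lt_sig] at hcon
  omega

theorem sig_cell {s : ℕ} {x y : ℝ} (h : cel s x = cel s y) :
    s < sig Θ lam s0 S x ↔ s < sig Θ lam s0 S y := by
  rw [lt_sig, lt_sig, stp_congr h]

theorem measurable_sig : Measurable (sig Θ lam s0 S) := by
  apply measurable_of_Ioi
  intro s
  exact meas_of_congr s fun _ _ h => sig_cell h

theorem stopS : StopS S (sig Θ lam s0 S) where
  meas := measurable_sig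
  le := sig_le
  cell := fun _ _ _ h => sig_cell h

theorem sig_lt_sub : {x | sig Θ lam s0 S x < S} ⊆ {x | stp Θ lam s0 S x} := by
  intro x hx
  have hx : sig Θ lam s0 S x < S := hx
  by_contra hcon
  have h1 : ¬ stp Θ lam s0 (sig Θ lam s0 S x) x := fun h => hcon (stp_mono hx.le h)
  have := lt_sig.2 ⟨hx, h1⟩
  omega

theorem vol_stp (hlam : lam ≠ 0) (hlam' : lam ≠ ⊤) {A : ℝ≥0∞} (hΘ : ∫⁻ x, Θ x ≤ A) (s : ℕ) :
    volume {x | stp Θ lam s0 s x} ≤ A / lam := by
  rw [ENNReal.le_div_iff_mul_le (Or.inl hlam) (Or.inl hlam'), mul_comm]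
  exact (weak s0 s).trans ((setLIntegral_le_lintegral _ _).trans hΘ)

theorem vol_sig (hlam : lam ≠ 0) (hlam' : lam ≠ ⊤) {A : ℝ≥0∞} (hΘ : ∫⁻ x, Θ x ≤ A) :
    volume {x | sig Θ lam s0 S x < S} ≤ A / lam :=
  (measure_mono sig_lt_sub).trans (vol_stp hlam hlam' hΘ S)

/-- removed points -/
theorem vol_remv {m0 : ℤ} {h : ℝ × ℝ → ℝ} {act : ℕ → Set (ℝ × ℝ)} {Z : Set (ℝ × ℝ)} {H D : ℝ}
    (T : Tree S s0 m0 h act Z H D) (hlam : lam ≠ 0) (hlam' : lam ≠ ⊤) {A : ℝ≥0∞}
    (hΘ : ∫⁻ x, Θ x ≤ A) :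
    volume (remv act Z (sig Θ lam s0 S)) ≤ ENNReal.ofReal D * (A / lam) := by
  have h1 : remv act Z (sig Θ lam s0 S) ⊆
      {z | z ∈ Z ∧ ∃ s, z ∈ act s ∧ stp Θ lam s0 s z.1} := by
    rintro z ⟨hz, s, hs, hle⟩
    refine ⟨hz, s, hs, ?_⟩
    have hsS : s < S := by
      by_contra hcon
      exact Set.disjoint_left.1 (T.hi s (not_lt.1 hcon)) hs hz
    by_contra hcon
    have := lt_sig.2 ⟨hsS, hcon⟩
    omega
  refine (measure_mono h1).trans ((rem volume (fun z : ℝ × ℝ => z.1) Z act s0 S (ENNReal.ofReal D)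
    (fun s hs => T.hi s hs.le) ?_).trans ?_)
  · intro z hz s hs0 hex
    refine (T.dens z hz s hs0 hex).trans (le_of_eq ?_)
    rw [ENNReal.ofReal_mul T.D0]
  · gcongr
    exact vol_stp hlam hlam' hΘ S

/-- below the stopping scale the averages are not hit -/
theorem not_hit {s q : ℕ} {x : ℝ} (h : s < sig Θ lam s0 S x) (h0 : s0 ≤ q) (hq : q ≤ s) :
    ¬ hit Θ lam q x := fun hh => (lt_sig.1 h).2 ⟨q, h0, hq, hh⟩

end Crest.Agent.R087.Sigx630
end
end

-- ▼ part R087/PCarl_546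
section

/-!
Row 87 (S0115), operator part: positive Carleson sums (T2c of the text 1723), abstract form (helper546).

`pc s x = 2^s ∫_{z ∈ Z, z over the s-cell of x} w s z`, `w s z = 0` for `s > κ z`, `∑_s w s z ≤ a`.
Under the density hypothesis of the mass lemma,
`∫ pcs ≤ 2 a M |cover|`, `∫ pcs² ≤ 8 a² M² |cover|`, `pcs = ∑_{s<S} pc s`.
-/

set_option autoImplicit false

noncomputable section

open MeasureTheory ENNReal

namespace Crest.Agent.R087.PCarlx546

open Crest.Agent.R087.Massx546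

theorem lintegral_cel (s : ℕ) (Φ : ℤ → ℝ≥0∞) :
    ∫⁻ x, Φ (cel s x) = ENNReal.ofReal ((1 / 2 : ℝ) ^ s) * ∑' j, Φ j := by
  have h1 : ∫⁻ x, Φ (cel s x) = ∫⁻ j, Φ j ∂(Measure.map (cel s) (volume : Measure ℝ)) :=
    (lintegral_map (measurable_of_countable Φ) (measurable_cel s)).symm
  rw [h1, lintegral_countable', ← ENNReal.tsum_mul_left]
  congr 1
  ext j
  rw [Measure.map_apply (measurable_cel s) (MeasurableSet.singleton j)]
  have : cel s ⁻¹' {j} = {x : ℝ | cel s x = j} := rfl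
  rw [this, volume_cel, mul_comm]

theorem tsum_fiber {X : Type*} [MeasurableSpace X] (p : X → ℝ) (μ : Measure X) (hp : Measurable p)
    (Z : Set X) (s : ℕ) (Φ : ℤ → ℝ≥0∞) (w : X → ℝ≥0∞) (hw : Measurable w) :
    ∑' j, Φ j * ∫⁻ z in Z, (if cel s (p z) = j then w z else 0) ∂μ =
      ∫⁻ z in Z, Φ (cel s (p z)) * w z ∂μ := by
  classical
  have hm : ∀ j : ℤ, Measurable fun z => if cel s (p z) = j then w z else 0 := fun j =>
    Measurable.ite (((measurable_cel s).comp hp) (MeasurableSet.singleton j)) hw measurable_const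
  calc ∑' j, Φ j * ∫⁻ z in Z, (if cel s (p z) = j then w z else 0) ∂μ
      = ∑' j, ∫⁻ z in Z, Φ j * (if cel s (p z) = j then w z else 0) ∂μ := by
        congr 1; ext j; rw [lintegral_const_mul _ (hm j)]
    _ = ∫⁻ z in Z, ∑' j, Φ j * (if cel s (p z) = j then w z else 0) ∂μ := by
        rw [lintegral_tsum fun j => ((hm j).const_mul (Φ j)).aemeasurable]
    _ = ∫⁻ z in Z, Φ (cel s (p z)) * w z ∂μ := by
        refine lintegral_congr fun z => ?_
        rw [tsum_eq_single (cel s (p z)) (fun j hj => by simp [hj.symm])]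
        simp

section

variable {X : Type*} [MeasurableSpace X] (p : X → ℝ) (μ : Measure X) (Z : Set X)
  (w : ℕ → X → ℝ≥0∞)

/-- one scale of the positive Carleson sum -/
def pc (s : ℕ) (x : ℝ) : ℝ≥0∞ :=
  ENNReal.ofReal ((2 : ℝ) ^ s) * ∫⁻ z in Z, (if cel s (p z) = cel s x then w s z else 0) ∂μ

/-- partial sums of the positive Carleson sum: scales `< r` -/
def pcs (r : ℕ) (x : ℝ) : ℝ≥0∞ := ∑ s ∈ Finset.range r, pc p μ Z w s x

theorem pc_congr {s : ℕ} {x y : ℝ} (h : cel s x = cel s y) : pc p μ Z w s x = pc p μ Z w s y := by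
  unfold pc; rw [h]

theorem pcs_congr {r : ℕ} {x y : ℝ} (h : cel r x = cel r y) :
    pcs p μ Z w (r + 1) x = pcs p μ Z w (r + 1) y := by
  unfold pcs
  refine Finset.sum_congr rfl fun s hs => pc_congr p μ Z w (cel_mono ?_ h)
  have := Finset.mem_range.1 hs; omega

theorem pcs_mono {r r' : ℕ} (h : r ≤ r') (x : ℝ) : pcs p μ Z w r x ≤ pcs p μ Z w r' x :=
  Finset.sum_le_sum_of_subset (Finset.range_mono h)

theorem measurable_pc (s : ℕ) : Measurable (pc p μ Z w s) := by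
  have : pc p μ Z w s = (fun j : ℤ => ENNReal.ofReal ((2 : ℝ) ^ s) *
      ∫⁻ z in Z, (if cel s (p z) = j then w s z else 0) ∂μ) ∘ cel s := rfl
  rw [this]
  exact (measurable_of_countable _).comp (measurable_cel s)

theorem measurable_pcs (r : ℕ) : Measurable (pcs p μ Z w r) :=
  Finset.measurable_fun_sum _ fun s _ => measurable_pc p μ Z w s

/-- integration of `pc s` against a function which is constant on the `s`-cells -/
theorem lintegral_pc_mul (hp : Measurable p) (s : ℕ) (hw : Measurable (w s)) (F : ℝ → ℝ≥0∞)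
    (hF : ∀ x y, cel s x = cel s y → F x = F y) :
    ∫⁻ x, pc p μ Z w s x * F x = ∫⁻ z in Z, w s z * F (p z) ∂μ := by
  classical
  -- `F` is a function of the cell
  let Ψ : ℤ → ℝ≥0∞ := fun j => F ((j : ℝ) * (1 / 2) ^ s)
  have hrep : ∀ x, F x = Ψ (cel s x) := by
    intro x
    apply hF
    have h2 : (0 : ℝ) < 2 ^ s := by positivity
    show cel s x = ⌊(2 : ℝ) ^ s * ((cel s x : ℝ) * (1 / 2) ^ s)⌋
    have : (2 : ℝ) ^ s * ((cel s x : ℝ) * (1 / 2) ^ s) = (cel s x : ℝ) := by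
      rw [one_div, inv_pow]; field_simp
    rw [this, Int.floor_intCast]
  have h1 : ∀ x, pc p μ Z w s x * F x = (fun j : ℤ => ENNReal.ofReal ((2 : ℝ) ^ s) *
      (Ψ j * ∫⁻ z in Z, (if cel s (p z) = j then w s z else 0) ∂μ)) (cel s x) := by
    intro x
    rw [hrep x]; unfold pc; ring
  rw [lintegral_congr h1, lintegral_cel s (fun j : ℤ => ENNReal.ofReal ((2 : ℝ) ^ s) *
      (Ψ j * ∫⁻ z in Z, (if cel s (p z) = j then w s z else 0) ∂μ)), ENNReal.tsum_mul_left, tsum_fiber p μ hp Z s Ψ (w s) hw, ← mul_assoc,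
    ← ENNReal.ofReal_mul (by positivity), ← mul_pow]
  norm_num
  refine lintegral_congr fun z => ?_
  rw [hrep (p z), mul_comm]

/-- total mass of the Carleson sum -/
theorem lintegral_pcs (hp : Measurable p) (hw : ∀ s, Measurable (w s)) (r : ℕ) :
    ∫⁻ x, pcs p μ Z w r x = ∫⁻ z in Z, ∑ s ∈ Finset.range r, w s z ∂μ := by
  unfold pcs
  rw [lintegral_finsetSum _ fun s _ => measurable_pc p μ Z w s,
    lintegral_finsetSum _ fun s _ => hw s]
  refine Finset.sum_congr rfl fun s _ => ?_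
  have := lintegral_pc_mul p μ Z w hp s (hw s) (fun _ => 1) (fun _ _ _ => rfl)
  simpa using this

theorem sq_sum_le (n : ℕ → ℝ≥0∞) (S : ℕ) :
    (∑ s ∈ Finset.range S, n s) ^ 2 ≤
      2 * ∑ s ∈ Finset.range S, n s * ∑ r ∈ Finset.range (s + 1), n r := by
  induction S with
  | zero => simp
  | succ S ih =>
    rw [Finset.sum_range_succ, Finset.sum_range_succ, add_sq, mul_add]
    have h1 : 2 * (∑ s ∈ Finset.range S, n s) * n S + n S ^ 2 ≤
        2 * (n S * ∑ r ∈ Finset.range (S + 1), n r) := by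
      rw [Finset.sum_range_succ, mul_add, mul_add]
      have e1 : 2 * (∑ s ∈ Finset.range S, n s) * n S = 2 * (n S * ∑ s ∈ Finset.range S, n s) := by
        ring
      rw [e1]
      gcongr
      rw [sq, two_mul]
      exact le_self_add
    calc (∑ s ∈ Finset.range S, n s) ^ 2 + 2 * (∑ s ∈ Finset.range S, n s) * n S + n S ^ 2
        = (∑ s ∈ Finset.range S, n s) ^ 2 + (2 * (∑ s ∈ Finset.range S, n s) * n S + n S ^ 2) := by
          rw [add_assoc]
      _ ≤ _ := add_le_add ih h1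

/-- POSITIVE CARLESON SUM, `L²` bound. -/
theorem carl (hp : Measurable p) (hZ : MeasurableSet Z) (hw : ∀ s, Measurable (w s)) (κ : X → ℕ)
    (S : ℕ) (hS : ∀ z ∈ Z, κ z < S) (hwκ : ∀ z ∈ Z, ∀ s, κ z < s → w s z = 0) (a : ℝ≥0∞)
    (ha : ∀ z ∈ Z, ∑ s ∈ Finset.range S, w s z ≤ a) (M : ℝ≥0∞)
    (H : ∀ r < S, ∀ z'' ∈ Z, r ≤ κ z'' →
      μ {z | z ∈ Z ∧ κ z ≤ r ∧ cel r (p z) = cel r (p z'')} ≤ M * ENNReal.ofReal ((1 / 2 : ℝ) ^ r)) :
    ∫⁻ x, pcs p μ Z w S x ≤ 2 * a * M * volume (cover p κ Z) ∧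
    ∫⁻ x, pcs p μ Z w S x ^ 2 ≤ 8 * a ^ 2 * M ^ 2 * volume (cover p κ Z) := by
  have h1 : ∫⁻ x, pcs p μ Z w S x ≤ 2 * a * M * volume (cover p κ Z) := by
    rw [lintegral_pcs p μ Z w hp hw S]
    calc ∫⁻ z in Z, ∑ s ∈ Finset.range S, w s z ∂μ ≤ ∫⁻ _z in Z, a ∂μ :=
          setLIntegral_mono' hZ ha
      _ = a * μ Z := by rw [setLIntegral_const]
      _ ≤ a * (2 * M * volume (cover p κ Z)) := by
          gcongr; exact mass_one p κ Z μ hp hZ S hS M H
      _ = _ := by ring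
  refine ⟨h1, ?_⟩
  have m1 : ∀ s, Measurable fun x => pc p μ Z w s x * pcs p μ Z w (s + 1) x := fun s =>
    (measurable_pc p μ Z w s).mul (measurable_pcs p μ Z w (s + 1))
  have m2 : ∀ s, Measurable fun z => w s z * pcs p μ Z w (s + 1) (p z) := fun s =>
    (hw s).mul ((measurable_pcs p μ Z w (s + 1)).comp hp)
  have h2 : ∫⁻ x, pcs p μ Z w S x ^ 2 ≤
      2 * ∑ s ∈ Finset.range S, ∫⁻ x, pc p μ Z w s x * pcs p μ Z w (s + 1) x := by
    rw [← lintegral_finsetSum _ fun s _ => m1 s,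
      ← lintegral_const_mul _ (Finset.measurable_fun_sum _ fun s _ => m1 s)]
    refine lintegral_mono fun x => ?_
    exact sq_sum_le (fun s => pc p μ Z w s x) S
  have h3 : ∀ s ∈ Finset.range S, ∫⁻ x, pc p μ Z w s x * pcs p μ Z w (s + 1) x =
      ∫⁻ z in Z, w s z * pcs p μ Z w (s + 1) (p z) ∂μ := fun s _ =>
    lintegral_pc_mul p μ Z w hp s (hw s) _ fun x y h => pcs_congr p μ Z w h
  rw [Finset.sum_congr rfl h3, ← lintegral_finsetSum _ fun s _ => m2 s] at h2
  have h4 : ∫⁻ z in Z, ∑ s ∈ Finset.range S, w s z * pcs p μ Z w (s + 1) (p z) ∂μ ≤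
      ∫⁻ z in Z, a * pcs p μ Z w (κ z + 1) (p z) ∂μ := by
    refine setLIntegral_mono' hZ fun z hz => ?_
    calc ∑ s ∈ Finset.range S, w s z * pcs p μ Z w (s + 1) (p z)
        ≤ ∑ s ∈ Finset.range S, w s z * pcs p μ Z w (κ z + 1) (p z) := by
          refine Finset.sum_le_sum fun s _ => ?_
          rcases Nat.lt_or_ge (κ z) s with h | h
          · rw [hwκ z hz s h]; simp
          · gcongr; exact pcs_mono p μ Z w (by omega) (p z)
      _ = (∑ s ∈ Finset.range S, w s z) * pcs p μ Z w (κ z + 1) (p z) := by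
          rw [Finset.sum_mul]
      _ ≤ _ := by gcongr; exact ha z hz
  have h5 : ∫⁻ z in Z, a * pcs p μ Z w (κ z + 1) (p z) ∂μ ≤
      2 * M * ∫⁻ x in cover p κ Z, a * pcs p μ Z w S x := by
    refine mass p κ Z μ hp hZ S hS M H _ _ fun z hz x hx => ?_
    rw [← pcs_congr p μ Z w hx]
    gcongr
    exact pcs_mono p μ Z w (by have := hS z hz; omega) x
  have h6 : ∫⁻ x in cover p κ Z, a * pcs p μ Z w S x ≤
      a * (2 * a * M * volume (cover p κ Z)) := by
    rw [lintegral_const_mul _ (measurable_pcs p μ Z w S)]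
    gcongr
    exact le_trans (setLIntegral_le_lintegral _ _) h1
  calc ∫⁻ x, pcs p μ Z w S x ^ 2
      ≤ 2 * (2 * M * (a * (2 * a * M * volume (cover p κ Z)))) := by
        refine le_trans h2 ?_
        gcongr
        exact le_trans h4 (le_trans h5 (by gcongr))
    _ = _ := by ring

end

end Crest.Agent.R087.PCarlx546
end
end

-- ▼ part R087/T3P_630
section

/-!
# Row 87 (S0115), operator part, leaf T3P: stopping of the positive sums (helper630)
-/

set_option autoImplicit false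

noncomputable section

open MeasureTheory ENNReal

namespace Crest.Agent.R087.T3Px630

open Crest.Agent.R087.Massx546 Crest.Agent.R087.StopAvgx630 Crest.Agent.R087.TreeIfx153
open Crest.Agent.R087.Sigx630 Crest.Agent.R087.PCarlx546
open Crest.Agent.R087.T1x90 (Tree)

section

variable {S s0 : ℕ} {m0 : ℤ} {h : ℝ × ℝ → ℝ} {act : ℕ → Set (ℝ × ℝ)} {Z : Set (ℝ × ℝ)} {H D : ℝ}
  {w : ℕ → ℝ × ℝ → ℝ}

/-- active points -/
def Z' (act : ℕ → Set (ℝ × ℝ)) (Z : Set (ℝ × ℝ)) : Set (ℝ × ℝ) := Z ∩ ⋃ s, act s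

open scoped Classical in
/-- last active scale -/
def kap (act : ℕ → Set (ℝ × ℝ)) (S : ℕ) (z : ℝ × ℝ) : ℕ := Nat.findGreatest (fun s => z ∈ act s) (S - 1)

open scoped Classical in
/-- the weights, as `ENNReal` valued functions -/
def wE (w : ℕ → ℝ × ℝ → ℝ) (h : ℝ × ℝ → ℝ) (act : ℕ → Set (ℝ × ℝ)) (s : ℕ) (z : ℝ × ℝ) : ℝ≥0∞ :=
  if z ∈ act s then ENNReal.ofReal (|h z| * w s z) else 0

theorem lt_S (T : Tree S s0 m0 h act Z H D) {s : ℕ} {z : ℝ × ℝ} (hz : z ∈ Z) (hs : z ∈ act s) :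
    s < S := by
  by_contra hcon
  exact Set.disjoint_left.1 (T.hi s (not_lt.1 hcon)) hs hz

theorem s0_le (T : Tree S s0 m0 h act Z H D) {s : ℕ} {z : ℝ × ℝ} (hz : z ∈ Z) (hs : z ∈ act s) :
    s0 ≤ s := by
  by_contra hcon
  exact Set.disjoint_left.1 (T.lo s (not_le.1 hcon)) hs hz

theorem kap_spec (T : Tree S s0 m0 h act Z H D) {z : ℝ × ℝ} (hz : z ∈ Z' act Z) :
    z ∈ act (kap act S z) := by
  classical
  obtain ⟨hz1, hz2⟩ := hz
  rw [Set.mem_iUnion] at hz2
  obtain ⟨s, hs⟩ := hz2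
  have hsS := lt_S T hz1 hs
  exact Nat.findGreatest_spec (P := fun s => z ∈ act s) (n := S - 1) (m := s) (by omega) hs

theorem le_kap (T : Tree S s0 m0 h act Z H D) {s : ℕ} {z : ℝ × ℝ} (hz : z ∈ Z) (hs : z ∈ act s) :
    s ≤ kap act S z := by
  classical
  have hsS := lt_S T hz hs
  exact Nat.le_findGreatest (by omega) hs

theorem kap_lt (T : Tree S s0 m0 h act Z H D) {z : ℝ × ℝ} (hz : z ∈ Z' act Z) : kap act S z < S :=
  lt_S T hz.1 (kap_spec T hz)

theorem meas_Z' (T : Tree S s0 m0 h act Z H D) : MeasurableSet (Z' act Z) :=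
  T.mZ.inter (MeasurableSet.iUnion T.mact)

theorem meas_wE (T : Tree S s0 m0 h act Z H D) (hw : ∀ s, Measurable (w s)) (s : ℕ) :
    Measurable (wE w h act s) := by
  classical
  exact Measurable.ite (T.mact s) ((T.nice.1.abs.mul (hw s)).ennreal_ofReal) measurable_const

/-- `L²` bound of the positive sums -/
theorem carlE (T : Tree S s0 m0 h act Z H D) (hH : 0 ≤ H) (hw : ∀ s, Measurable (w s))
    (hw0 : ∀ s z, 0 ≤ w s z)
    (hw1 : ∀ z ∈ Z, ∀ A : Finset ℕ, (∀ s ∈ A, z ∈ act s) → ∑ s ∈ A, w s z ≤ 1) :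
    ∫⁻ x, pcs (fun z : ℝ × ℝ => z.1) volume (Z' act Z) (wE w h act) S x ^ 2 ≤
      ENNReal.ofReal (8 * (H * D) ^ 2 * (1 / 2) ^ s0) := by
  classical
  have h1 := (carl (fun z : ℝ × ℝ => z.1) volume (Z' act Z) (wE w h act) measurable_fst (meas_Z' T)
    (meas_wE T hw) (kap act S) S (fun z hz => kap_lt T hz) ?_ (ENNReal.ofReal H) ?_
    (ENNReal.ofReal D) ?_).2
  · refine h1.trans ?_
    have h2 : volume (cover (fun z : ℝ × ℝ => z.1) (kap act S) (Z' act Z)) ≤
        ENNReal.ofReal ((1 / 2) ^ s0) := by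
      rw [← volume_cel s0 m0]
      refine measure_mono ?_
      rintro x ⟨z, hz, hx⟩
      show cel s0 x = m0
      rw [cel_mono (s0_le T hz.1 (kap_spec T hz)) hx]
      exact T.top z hz.1
    calc 8 * ENNReal.ofReal H ^ 2 * ENNReal.ofReal D ^ 2 *
        volume (cover (fun z : ℝ × ℝ => z.1) (kap act S) (Z' act Z))
        ≤ 8 * ENNReal.ofReal H ^ 2 * ENNReal.ofReal D ^ 2 * ENNReal.ofReal ((1 / 2) ^ s0) := by
          gcongr
      _ = ENNReal.ofReal (8 * (H * D) ^ 2 * (1 / 2) ^ s0) := by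
          have hD := T.D0
          rw [← ENNReal.ofReal_pow hH, ← ENNReal.ofReal_pow hD, ← ENNReal.ofReal_ofNat 8,
            ← ENNReal.ofReal_mul (by norm_num), ← ENNReal.ofReal_mul (by positivity),
            ← ENNReal.ofReal_mul (by positivity)]
          congr 1; ring
  · intro z hz s hs
    rw [wE, if_neg]
    intro hcon
    have := le_kap T hz.1 hcon
    omega
  · intro z hz
    have h3 : ∑ s ∈ Finset.range S, wE w h act s z =
        ENNReal.ofReal (|h z|) * ∑ s ∈ (Finset.range S).filter (fun s => z ∈ act s), ENNReal.ofReal (w s z) := by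
      rw [Finset.sum_filter, Finset.mul_sum]
      refine Finset.sum_congr rfl fun s _ => ?_
      rw [wE]
      split_ifs
      · rw [ENNReal.ofReal_mul (abs_nonneg _)]
      · rw [mul_zero]
    rw [h3, ← ENNReal.ofReal_sum_of_nonneg fun s _ => hw0 s z]
    have h4 : ∑ s ∈ (Finset.range S).filter (fun s => z ∈ act s), w s z ≤ 1 :=
      hw1 z hz.1 _ fun s hs => (Finset.mem_filter.1 hs).2
    calc ENNReal.ofReal (|h z|) * ENNReal.ofReal _ ≤ ENNReal.ofReal H * ENNReal.ofReal 1 := by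
          gcongr
          exact T.bd z
      _ = ENNReal.ofReal H := by rw [ENNReal.ofReal_one, mul_one]
  · intro r hr z'' hz'' hrk
    rcases Nat.lt_or_ge r s0 with h5 | h5
    · have : {z | z ∈ Z' act Z ∧ kap act S z ≤ r ∧ cel r z.1 = cel r z''.1} = ∅ := by
        rw [Set.eq_empty_iff_forall_notMem]
        rintro z ⟨hz, hk, -⟩
        have := s0_le T hz.1 (kap_spec T hz)
        omega
      rw [this]; simp
    · have h6 := T.dens z'' hz''.1 r h5 ⟨kap act S z'', hrk, kap_spec T hz''⟩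
      rw [ENNReal.ofReal_mul T.D0] at h6
      refine le_trans (measure_mono ?_) h6
      rintro z ⟨hz, -, hc⟩
      exact ⟨hz.1, hc⟩

/-- the real sums are bounded by the `ENNReal` sums -/
theorem pL_le (T : Tree S s0 m0 h act Z H D) (hw : ∀ s, Measurable (w s))
    (hw0 : ∀ s z, 0 ≤ w s z) (s : ℕ) (x : ℝ) :
    ENNReal.ofReal (pL w h act s x) ≤
      pc (fun z : ℝ × ℝ => z.1) volume (Z' act Z) (wE w h act) s x := by
  classical
  unfold pL pc
  rw [ENNReal.ofReal_mul (by positivity)]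
  refine mul_le_mul_right ?_ _
  have hm : Measurable fun z => |h z| * w s z := T.nice.1.abs.mul (hw s)
  have hA : MeasurableSet ({z : ℝ × ℝ | T1x90.cel s z.1 = T1x90.cel s x} ∩ act s) :=
    ((measurable_cel s).comp measurable_fst (MeasurableSet.singleton (cel s x))).inter (T.mact s)
  rw [integral_eq_lintegral_of_nonneg_ae (Filter.Eventually.of_forall fun z =>
    mul_nonneg (abs_nonneg _) (hw0 s z)) hm.aestronglyMeasurable]
  refine ENNReal.ofReal_toReal_le.trans ?_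
  rw [← lintegral_indicator hA, ← lintegral_indicator (meas_Z' T)]
  refine lintegral_mono fun z => ?_
  by_cases hz : z ∈ {z : ℝ × ℝ | T1x90.cel s z.1 = T1x90.cel s x} ∩ act s
  · rw [Set.indicator_of_mem hz]
    by_cases hzZ : z ∈ Z
    · have hz' : z ∈ Z' act Z := ⟨hzZ, Set.mem_iUnion.2 ⟨s, hz.2⟩⟩
      rw [Set.indicator_of_mem hz']
      have : cel s z.1 = cel s x := hz.1
      simp only [this, if_true, wE, if_pos hz.2, le_refl]
    · rw [T.off z hzZ]; simp
  · rw [Set.indicator_of_notMem hz]; exact bot_le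

theorem pL_nonneg (hw0 : ∀ s z, 0 ≤ w s z) (act : ℕ → Set (ℝ × ℝ)) (s : ℕ) (x : ℝ) :
    0 ≤ pL w h act s x := by
  unfold pL
  refine mul_nonneg (by positivity) (integral_nonneg fun z => mul_nonneg (abs_nonneg _) (hw0 s z))

/-- kept sums: one scale -/
theorem pL_kact {σ : ℝ → ℕ} (hσ : StopS S σ) (s : ℕ) (x : ℝ) :
    pL w h (kact act σ) s x = if s < σ x then pL w h act s x else 0 := by
  split_ifs with hs
  · have : {z : ℝ × ℝ | T1x90.cel s z.1 = T1x90.cel s x} ∩ kact act σ s =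
        {z : ℝ × ℝ | T1x90.cel s z.1 = T1x90.cel s x} ∩ act s := by
      ext z
      constructor
      · rintro ⟨h1, h2⟩; exact ⟨h1, h2.1⟩
      · rintro ⟨h1, h2⟩; exact ⟨h1, h2, (hσ.cell s _ _ h1).2 hs⟩
    unfold pL; rw [this]
  · have : {z : ℝ × ℝ | T1x90.cel s z.1 = T1x90.cel s x} ∩ kact act σ s = ∅ := by
      rw [Set.eq_empty_iff_forall_notMem]
      rintro z ⟨h1, h2⟩
      exact hs ((hσ.cell s _ _ h1).1 h2.2)
    unfold pL; rw [this]; simp

theorem t3p : T3P := by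
  refine ⟨8, by norm_num, ?_⟩
  intro S s0 m0 h act Z H D w hS T hH hw hw0 hw1 Tr hHD hTr
  set P : ℝ → ℝ≥0∞ := pcs (fun z : ℝ × ℝ => z.1) volume (Z' act Z) (wE w h act) S with hP
  set Θ : ℝ → ℝ≥0∞ := fun x => P x ^ 2 with hΘ
  set lam : ℝ≥0∞ := ENNReal.ofReal (Tr ^ 2) with hlamdef
  have hlam : lam ≠ 0 := by rw [hlamdef, Ne, ENNReal.ofReal_eq_zero, not_le]; positivity
  have hlam' : lam ≠ ⊤ := ENNReal.ofReal_ne_top
  have hE : ∫⁻ x, Θ x ≤ ENNReal.ofReal (8 * (H * D) ^ 2 * (1 / 2) ^ s0) := carlE T hH hw hw0 hw1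
  have hdiv : ENNReal.ofReal (8 * (H * D) ^ 2 * (1 / 2) ^ s0) / lam =
      ENNReal.ofReal (8 * (H * D / Tr) ^ 2 * (1 / 2) ^ s0) := by
    rw [hlamdef, ← ENNReal.ofReal_div_of_pos (by positivity)]
    congr 1; rw [div_pow]; ring
  refine ⟨sig Θ lam s0 S, stopS, ?_, ?_, ?_⟩
  · rw [← hdiv]; exact vol_sig hlam hlam' hE
  · refine (vol_remv T hlam hlam' hE).trans (le_of_eq ?_)
    rw [hdiv, ← ENNReal.ofReal_mul T.D0]
    congr 1; ring
  · intro x
    set c := sig Θ lam s0 S x with hc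
    have hcS : c ≤ S := sig_le x
    have h1 : ∑ s ∈ Finset.range S, pL w h (kact act (sig Θ lam s0 S)) s x =
        ∑ s ∈ Finset.range c, pL w h act s x := by
      rw [Finset.sum_congr rfl fun s _ => pL_kact (stopS (Θ := Θ) (lam := lam) (s0 := s0) (S := S)) s x]
      rw [← Finset.sum_filter]
      congr 1
      ext s
      simp only [Finset.mem_filter, Finset.mem_range]
      omega
    rw [h1]
    rcases Nat.lt_or_ge s0 c with h2 | h2
    · obtain ⟨q, hq⟩ : ∃ q, c = q + 1 := ⟨c - 1, by omega⟩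
      have hqc : q < sig Θ lam s0 S x := by omega
      have hnh : ¬ hit Θ lam q x := not_hit hqc (by omega) le_rfl
      have h3 := lint_le_of_not_hit hnh
      have h4 : ∀ y ∈ cell q x, ENNReal.ofReal (∑ s ∈ Finset.range c, pL w h act s x) ^ 2 ≤ Θ y := by
        intro y hy
        have h5 : ENNReal.ofReal (∑ s ∈ Finset.range c, pL w h act s x) ≤
            pcs (fun z : ℝ × ℝ => z.1) volume (Z' act Z) (wE w h act) c x := by
          rw [ENNReal.ofReal_sum_of_nonneg fun s _ => pL_nonneg hw0 act s x]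
          exact Finset.sum_le_sum fun s _ => pL_le T hw hw0 s x
        have h6 : pcs (fun z : ℝ × ℝ => z.1) volume (Z' act Z) (wE w h act) c x ≤ P y := by
          rw [hq, ← pcs_congr (fun z : ℝ × ℝ => z.1) volume (Z' act Z) (wE w h act) (mem_cell.1 hy)]
          exact pcs_mono _ _ _ _ (by omega) y
        show _ ≤ P y ^ 2
        exact pow_le_pow_left' (h5.trans h6) 2
      have h7 : ENNReal.ofReal (∑ s ∈ Finset.range c, pL w h act s x) ^ 2 *
          ENNReal.ofReal ((1 / 2) ^ q) ≤ lam * ENNReal.ofReal ((1 / 2 : ℝ) ^ q) := by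
        refine le_trans ?_ h3
        rw [← vol_cell q x, ← setLIntegral_const]
        exact setLIntegral_mono' (measurableSet_cell q x) h4
      have hpq : ENNReal.ofReal ((1 / 2 : ℝ) ^ q) ≠ 0 := by
        rw [Ne, ENNReal.ofReal_eq_zero, not_le]; positivity
      have h8 : ENNReal.ofReal (∑ s ∈ Finset.range c, pL w h act s x) ^ 2 ≤ lam :=
        (ENNReal.mul_le_mul_iff_left hpq ENNReal.ofReal_ne_top).1 h7
      have h0 : 0 ≤ ∑ s ∈ Finset.range c, pL w h act s x :=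
        Finset.sum_nonneg fun s _ => pL_nonneg hw0 act s x
      rw [← ENNReal.ofReal_pow h0, ENNReal.ofReal_le_ofReal_iff (by positivity)] at h8
      have h9 := abs_le_of_sq_le_sq h8 hTr.le
      have h10 := le_of_abs_le h9
      linarith
    · have h3 : ∑ s ∈ Finset.range c, pL w h act s x = 0 := by
        refine Finset.sum_eq_zero fun s hs => ?_
        have hs0 : s < s0 := by have := Finset.mem_range.1 hs; omega
        unfold pL
        have : ∫ z in {z : ℝ × ℝ | T1x90.cel s z.1 = T1x90.cel s x} ∩ act s, |h z| * w s z = 0 := by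
          refine setIntegral_eq_zero_of_forall_eq_zero fun z hz => ?_
          have hzZ : z ∉ Z := fun hcon => Set.disjoint_left.1 (T.lo s hs0) hz.2 hcon
          rw [T.off z hzZ]; simp
        rw [this, mul_zero]
      rw [h3]; positivity

end

end Crest.Agent.R087.T3Px630
end
end

-- ▼ part R087/TopOne_929
section

/-!
Row 87, operator part, leaf TOPN, part STOP (S1) (helper929): stopping of one top, from `T3P` to the
notation of `OP0_270`.
-/

set_option autoImplicit false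

noncomputable section

open MeasureTheory

namespace Crest.Agent.R087.TopOnex929

open Crest.Agent.R087.Sh0x283 Crest.Agent.R087.E2x542 Crest.Agent.R087.E2Kx752
open Crest.Agent.R087.GateDefx273 Crest.Agent.R087.OP0x270 Crest.Agent.R087.TreeIfx153
open Crest.Agent.R087.T1x90 (Tree cel ga al)

/-- the cell of a tube -/
theorem cel_of_mem {R : Tube} {x : ℝ} (h : x ∈ R.I) : cel R.k x = R.j := by
  have h2 : (0 : ℝ) < 2 ^ R.k := by positivity
  have hl : R.len * 2 ^ R.k = 1 := by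
    rw [Tube.len, ← mul_pow]; norm_num
  obtain ⟨h3, h4⟩ := h
  rw [cel, Int.floor_eq_iff]
  constructor
  · calc (R.j : ℝ) = R.j * R.len * 2 ^ R.k := by rw [mul_assoc, hl, mul_one]
      _ ≤ x * 2 ^ R.k := by gcongr
      _ = 2 ^ R.k * x := mul_comm _ _
  · calc (2 : ℝ) ^ R.k * x = x * 2 ^ R.k := mul_comm _ _
      _ < ((R.j : ℝ) + 1) * R.len * 2 ^ R.k := by gcongr
      _ = (R.j : ℝ) + 1 := by rw [mul_assoc, hl, mul_one]

theorem measurable_jx (s : ℕ) : Measurable (jx s) :=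
  Int.measurable_floor.comp (measurable_const.mul measurable_id)

/-- alive points of `B` -/
def ZB (B : Set (ℝ × ℝ)) (lo hi : ℝ × ℝ → ℕ) : Set (ℝ × ℝ) := {z | z ∈ B ∧ lo z < hi z}

/-- activity: the single scale `lo z` -/
def aB (B : Set (ℝ × ℝ)) (lo hi : ℝ × ℝ → ℕ) (s : ℕ) : Set (ℝ × ℝ) :=
  {z | z ∈ B ∧ lo z = s ∧ s < hi z}

theorem measurableSet_ZB {B : Set (ℝ × ℝ)} {lo hi : ℝ × ℝ → ℕ} (hB : MeasurableSet B)
    (hlo : Measurable lo) (hhi : Measurable hi) : MeasurableSet (ZB B lo hi) :=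
  hB.inter (measurableSet_lt hlo hhi)

theorem measurableSet_aB {B : Set (ℝ × ℝ)} {lo hi : ℝ × ℝ → ℕ} (hB : MeasurableSet B)
    (hlo : Measurable lo) (hhi : Measurable hi) (s : ℕ) : MeasurableSet (aB B lo hi s) :=
  hB.inter ((hlo (measurableSet_singleton s)).inter (measurableSet_lt measurable_const hhi))

theorem nice_ind {h : ℝ × ℝ → ℝ} (hh : Nice h) {Z : Set (ℝ × ℝ)} (hZ : MeasurableSet Z) :
    Nice (Z.indicator h) := by
  obtain ⟨h1, ⟨M, hM⟩, ⟨R, hR⟩⟩ := hh
  refine ⟨h1.indicator hZ, ⟨M, fun z => ?_⟩, ⟨R, fun z hz => ?_⟩⟩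
  · by_cases hz : z ∈ Z
    · rw [Set.indicator_of_mem hz]; exact hM z
    · rw [Set.indicator_of_notMem hz, abs_zero]; exact (abs_nonneg _).trans (hM z)
  · by_cases hz' : z ∈ Z
    · rw [Set.indicator_of_mem hz']; exact hR z hz
    · rw [Set.indicator_of_notMem hz']

/-- a set on which a nice function does not vanish has finite volume -/
theorem volume_lt_top {h : ℝ × ℝ → ℝ} (hh : Nice h) {Z : Set (ℝ × ℝ)} (hZ : ∀ z ∈ Z, h z ≠ 0) :
    volume Z ≠ ⊤ := by
  obtain ⟨_, _, ⟨R, hR⟩⟩ := hh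
  have h1 : Z ⊆ Metric.closedBall (0 : ℝ × ℝ) R := by
    intro z hz
    rw [mem_closedBall_zero_iff]
    by_contra hcon
    exact hZ z hz (hR z (not_le.1 hcon))
  exact ne_top_of_le_ne_top measure_closedBall_lt_top.ne (measure_mono h1)

theorem integrable_nice {h : ℝ × ℝ → ℝ} (hh : Nice h) : Integrable h := by
  obtain ⟨h1, ⟨M, hM⟩, ⟨R, hR⟩⟩ := hh
  have h2 : Integrable ((Metric.closedBall (0 : ℝ × ℝ) R).indicator fun _ : ℝ × ℝ => M) :=
    (integrable_indicator_iff Metric.isClosed_closedBall.measurableSet).2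
      (integrableOn_const measure_closedBall_lt_top.ne)
  refine h2.mono' h1.aestronglyMeasurable (Filter.Eventually.of_forall fun z => ?_)
  by_cases hz : z ∈ Metric.closedBall (0 : ℝ × ℝ) R
  · rw [Set.indicator_of_mem hz]; exact hM z
  · rw [Set.indicator_of_notMem hz, hR z, norm_zero]
    rw [mem_closedBall_zero_iff] at hz
    exact not_le.1 hz

theorem ne_zero_of_col {h : ℝ × ℝ → ℝ} {k : ℤ} {z : ℝ × ℝ} (hz : z ∈ col h k) : h z ≠ 0 := by
  intro h0
  have h1 : (2 : ℝ) ^ k ≤ |h z| := hz.1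
  rw [h0, abs_zero] at h1
  exact absurd h1 (not_le.2 (by positivity))

/-- the tree of one top -/
theorem tree_one {h : ℝ × ℝ → ℝ} {S : ℕ} {lo hi : ℝ × ℝ → ℕ} {B : Set (ℝ × ℝ)} {R0 : Tube}
    {k : ℤ} {D : ℝ} (hh : Nice h) (hc : Chain S lo hi) (hB : MeasurableSet B)
    (hBk : B ⊆ col h k) (hD : 0 < D)
    (htop : ∀ z ∈ B, lo z < hi z → z.1 ∈ R0.I ∧ R0.k ≤ lo z) (hm : Mass3 B lo hi R0.k D) :
    Tree S R0.k R0.j ((ZB B lo hi).indicator h) (aB B lo hi) (ZB B lo hi) (2 ^ (k + 1)) D := by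
  have hZm := measurableSet_ZB hB hc.1 hc.2.1
  refine ⟨nice_ind hh hZm, ?_, hD.le, hZm, ?_, ?_, fun s => measurableSet_aB hB hc.1 hc.2.1 s,
    ?_, ?_, ?_, ?_⟩
  · intro z
    by_cases hz : z ∈ ZB B lo hi
    · rw [Set.indicator_of_mem hz]
      exact (hBk hz.1).2.le
    · rw [Set.indicator_of_notMem hz, abs_zero]
      positivity
  · intro z hz
    exact Set.indicator_of_notMem hz _
  · intro z hz
    exact cel_of_mem (htop z hz.1 hz.2).1
  · intro s hs
    rw [Set.disjoint_left]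
    rintro z ⟨_, h2, _⟩ ⟨h4, h5⟩
    have := (htop z h4 h5).2
    omega
  · intro s hs
    rw [Set.disjoint_left]
    rintro z ⟨_, h2, h3⟩ _
    have := hc.2.2 z
    omega
  · rintro z hz s s' s'' h1 h2 ⟨_, h4, _⟩ ⟨h5, h6, h7⟩
    exact ⟨h5, by omega, by omega⟩
  · rintro z hz s hs ⟨s', hs', h1, h2, h3⟩
    have h4 := hm s hs (jx s z.1) ⟨z, hz.1, hz.2, by omega, rfl⟩
    have h5 : ZB B lo hi ∩ {w : ℝ × ℝ | cel s w.1 = cel s z.1} =
        {w | w ∈ B ∧ lo w < hi w ∧ jx s w.1 = jx s z.1} := by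
      ext w
      constructor
      · rintro ⟨⟨a, b⟩, c⟩; exact ⟨a, b, c⟩
      · rintro ⟨a, b, c⟩; exact ⟨⟨a, b⟩, c⟩
    have h6 : volume (ZB B lo hi ∩ {w : ℝ × ℝ | cel s w.1 = cel s z.1}) ≠ ⊤ :=
      volume_lt_top hh fun w hw => ne_zero_of_col (hBk hw.1.1)
    rw [← h5] at h4
    rw [← ENNReal.ofReal_toReal h6]
    exact ENNReal.ofReal_le_ofReal h4

/-- **stopping of one top** -/
theorem topone : ∃ C : ℝ, 0 ≤ C ∧ ∀ (h : ℝ × ℝ → ℝ) (S : ℕ) (lo hi : ℝ × ℝ → ℕ)
    (B : Set (ℝ × ℝ)) (R0 : Tube) (k : ℤ) (D Λ : ℝ), Nice h → Chain S lo hi →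
    MeasurableSet B → B ⊆ col h k → 0 < D → 1 ≤ Λ →
    (∀ z ∈ B, lo z < hi z → z.1 ∈ R0.I ∧ R0.k ≤ lo z) → (∀ z ∈ B, hi z ≤ lo z + 1) →
    Mass3 B lo hi R0.k D →
    ∃ st : ℝ → ℕ, Measurable st ∧
      volume {z | z ∈ B ∧ lo z < hi z ∧ st z.1 < hi z} ≤
        ENNReal.ofReal (C * (1 / Λ) ^ 2 * D * R0.len) ∧
      ∀ x, ∑ s ∈ Finset.range S, ENNReal.ofReal (2 ^ s) *
          ∫⁻ z in {z | z ∈ B ∧ lo z = s ∧ s < min (hi z) (st z.1) ∧ jx s z.1 = jx s x},
            ENNReal.ofReal |h z| ≤ ENNReal.ofReal (C * Λ * 2 ^ k * D) := by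
  obtain ⟨C, hC0, hC⟩ := T3Px630.t3p
  refine ⟨2 * C, by positivity, ?_⟩
  intro h S lo hi B R0 k D Λ hh hc hB hBk hD hΛ htop hone hm
  have hΛ0 : 0 < Λ := lt_of_lt_of_le one_pos hΛ
  have hT := tree_one hh hc hB hBk hD htop hm
  have hk : (0 : ℝ) < 2 ^ (k + 1) := by positivity
  rcases Nat.lt_or_ge S R0.k with hS | hS
  · -- nothing is alive
    have hemp : ∀ z ∈ B, ¬ lo z < hi z := by
      intro z hz hlt
      have h1 := (htop z hz hlt).2
      have h2 := hc.2.2 z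
      omega
    refine ⟨fun _ => 0, measurable_const, ?_, fun x => ?_⟩
    · have : {z | z ∈ B ∧ lo z < hi z ∧ 0 < hi z} = ∅ := by
        ext z
        simp only [Set.mem_ofPred_eq, Set.mem_empty_iff_false, iff_false]
        rintro ⟨h1, h2, _⟩
        exact hemp z h1 h2
      rw [this]
      simp
    · refine le_trans (le_of_eq ?_) bot_le
      refine Finset.sum_eq_zero fun s _ => ?_
      have : {z | z ∈ B ∧ lo z = s ∧ s < min (hi z) 0 ∧ jx s z.1 = jx s x} = ∅ := by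
        ext z
        simp
      rw [this]
      simp
  · obtain ⟨σ, hσ, _, hrem, hsum⟩ := hC S R0.k R0.j ((ZB B lo hi).indicator h) (aB B lo hi)
      (ZB B lo hi) (2 ^ (k + 1)) D (fun _ _ => 1) hS hT hk.le (fun _ => measurable_const)
      (fun _ _ => zero_le_one) (by
        intro z hz A hA
        rw [Finset.sum_const, nsmul_eq_mul, mul_one]
        have : A ⊆ {lo z} := by
          intro s hs
          rw [Finset.mem_singleton]
          exact (hA s hs).2.1.symm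
        have h2 := Finset.card_le_card this
        rw [Finset.card_singleton] at h2
        exact_mod_cast h2) (Λ * (2 ^ (k + 1) * D)) (by
        have : 0 < 2 ^ (k + 1) * D := by positivity
        nlinarith) (by positivity)
    refine ⟨σ, hσ.meas, ?_, fun x => ?_⟩
    · refine (measure_mono ?_).trans (hrem.trans (ENNReal.ofReal_le_ofReal ?_))
      · rintro z ⟨h1, h2, h3⟩
        have h4 := hone z h1
        exact ⟨⟨h1, h2⟩, lo z, ⟨h1, rfl, h2⟩, by omega⟩
      · have e1 : (2 : ℝ) ^ (k + 1) * D / (Λ * (2 ^ (k + 1) * D)) = 1 / Λ := by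
          field_simp
        rw [e1]
        have e2 : R0.len = (1 / 2 : ℝ) ^ R0.k := rfl
        rw [e2]
        have : 0 ≤ C * D * (1 / Λ) ^ 2 * (1 / 2) ^ R0.k := by positivity
        nlinarith
    · have hx := hsum x
      have key : ∀ s ∈ Finset.range S, ENNReal.ofReal (2 ^ s) *
          ∫⁻ z in {z | z ∈ B ∧ lo z = s ∧ s < min (hi z) (σ z.1) ∧ jx s z.1 = jx s x},
            ENNReal.ofReal |h z| =
          ENNReal.ofReal (pL (fun _ _ => 1) ((ZB B lo hi).indicator h)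
            (kact (aB B lo hi) σ) s x) := by
        intro s _
        have hset : {z : ℝ × ℝ | cel s z.1 = cel s x} ∩ kact (aB B lo hi) σ s =
            {z | z ∈ B ∧ lo z = s ∧ s < min (hi z) (σ z.1) ∧ jx s z.1 = jx s x} := by
          ext z
          constructor
          · rintro ⟨h1, ⟨h2, h3, h4⟩, h5⟩
            exact ⟨h2, h3, lt_min h4 h5, h1⟩
          · rintro ⟨h2, h3, h4, h1⟩
            exact ⟨h1, ⟨h2, h3, (lt_min_iff.1 h4).1⟩, (lt_min_iff.1 h4).2⟩
        have hms : MeasurableSet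
            {z | z ∈ B ∧ lo z = s ∧ s < min (hi z) (σ z.1) ∧ jx s z.1 = jx s x} := by
          refine hB.inter ((hc.1 (measurableSet_singleton s)).inter
            ((measurableSet_lt measurable_const
              (hc.2.1.min (hσ.meas.comp measurable_fst))).inter
            ((measurable_jx s).comp measurable_fst (measurableSet_singleton _))))
        have hint : Integrable (fun z => |(ZB B lo hi).indicator h z| * 1) := by
          simp only [mul_one]
          exact (integrable_nice hT.nice).abs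
        rw [pL, hset, ENNReal.ofReal_mul (by positivity),
          ofReal_integral_eq_lintegral_ofReal hint.integrableOn
            (Filter.Eventually.of_forall fun z => by positivity)]
        congr 1
        refine setLIntegral_congr_fun hms fun z hz => ?_
        have hz' : z ∈ ZB B lo hi := by
          obtain ⟨h2, h3, h4, _⟩ := hz
          exact ⟨h2, by have := (lt_min_iff.1 h4).1; omega⟩
        show ENNReal.ofReal |h z| = ENNReal.ofReal (|(ZB B lo hi).indicator h z| * 1)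
        rw [Set.indicator_of_mem hz', mul_one]
      rw [Finset.sum_congr rfl key, ← ENNReal.ofReal_sum_of_nonneg]
      · refine ENNReal.ofReal_le_ofReal (hx.trans (le_of_eq ?_))
        rw [zpow_add₀ (by norm_num)]
        ring
      · intro s _
        exact mul_nonneg (by positivity) (integral_nonneg fun z => by positivity)

end Crest.Agent.R087.TopOnex929
end
end

-- ▼ part R087/TopS_929

/-!
Row 87, operator part, leaf TOPN, part STOP (helper929): stopping of all tops of one class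
(one-scale chains).
-/

set_option autoImplicit false

noncomputable section

open MeasureTheory

namespace Crest.Agent.R087.TopSx929

open Crest.Agent.R087.Sh0x283 Crest.Agent.R087.E2x542 Crest.Agent.R087.E2Kx752
open Crest.Agent.R087.GateDefx273 Crest.Agent.R087.OP0x270 Crest.Agent.R087.TopOnex929

theorem near_mono_K {U : ℝ × ℝ → ℝ} {K K' b m : ℝ} {s : ℕ} {z : ℝ × ℝ} (hK : K ≤ K')
    (h : near U K b m s z) : near U K' b m s z := ⟨h.1.trans hK, h.2.trans hK⟩

/-- integral of `h²` over a set inside one colour -/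
theorem int_col {h : ℝ × ℝ → ℝ} (hh : Nice h) {k : ℤ} {A : Set (ℝ × ℝ)} (hA : MeasurableSet A)
    (hAk : A ⊆ col h k) {c : ℝ} (hc : 0 ≤ c) (hv : volume A ≤ ENNReal.ofReal c) :
    ∫ z in A, (h z) ^ 2 ≤ 4 * 4 ^ k * c := by
  have hfin : volume A ≠ ⊤ := ne_top_of_le_ne_top ENNReal.ofReal_ne_top hv
  have h1 : ∀ z ∈ A, (h z) ^ 2 ≤ 4 * 4 ^ k := by
    intro z hz
    have h2 := (hAk hz).2.le
    have h3 : (0 : ℝ) ≤ |h z| := abs_nonneg _
    calc (h z) ^ 2 = |h z| ^ 2 := (sq_abs _).symm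
      _ ≤ ((2 : ℝ) ^ (k + 1)) ^ 2 := by gcongr
      _ = 4 * 4 ^ k := by
        rw [zpow_add₀ (by norm_num), zpow_one, mul_pow]
        have : (4 : ℝ) ^ k = ((2 : ℝ) ^ k) ^ 2 := by
          rw [← zpow_natCast, ← zpow_mul, mul_comm k, zpow_mul]
          norm_num
        rw [this]
        ring
  have h2 : ∫ z in A, (h z) ^ 2 ≤ ∫ _z in A, (4 * 4 ^ k : ℝ) := by
    refine setIntegral_mono_on ?_ (integrableOn_const hfin) hA h1
    have h3 : Nice (A.indicator h) := nice_ind hh hA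
    have h4 : Nice (fun z => (A.indicator h z) ^ 2) := by
      obtain ⟨a1, ⟨M, a2⟩, ⟨r, a3⟩⟩ := h3
      refine ⟨a1.pow_const 2, ⟨M ^ 2, fun z => ?_⟩, ⟨r, fun z hz => ?_⟩⟩
      · rw [abs_pow]
        have := a2 z
        gcongr
      · simp only [a3 z hz]; norm_num
    refine (integrable_nice h4).integrableOn.congr_fun (fun z hz => ?_) hA
    show (A.indicator h z) ^ 2 = (h z) ^ 2
    rw [Set.indicator_of_mem hz]
  refine h2.trans ?_
  rw [setIntegral_const, smul_eq_mul, mul_comm]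
  have h3 : (volume A).toReal ≤ c := ENNReal.toReal_le_of_le_ofReal hc hv
  have h4 : volume.real A ≤ c := h3
  gcongr

/-- **STOP** for the TOP chains of one class -/
theorem topstop (hM : MASS3) (hR : REMSUM) : ∃ C : ℝ, 0 ≤ C ∧ ∀ (U h : ℝ × ℝ → ℝ) (n S : ℕ)
    (lo hi : ℝ × ℝ → ℕ) (Λ : ℝ), Measurable U → Nice h → Chain S lo hi →
    UppAt U h AA n lo hi → 1 ≤ Λ →
    ∀ (N : ℕ) (R : Fin N → Tube) (kk : Fin N → ℤ) (ii : Fin N → ℕ) (E B : Fin N → Set (ℝ × ℝ)),
      IsTops U h AA n lo hi N R kk ii E B → (∀ z, hi z ≤ lo z + 1) →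
      ∃ hi' : ℝ × ℝ → ℕ, Measurable hi' ∧ (∀ z, hi' z ≤ hi z) ∧
        (∫ z in {z | lo z < hi z ∧ hi' z < hi z}, (h z) ^ 2 ≤
          C * (n + 1) * (1 / Λ) ^ 2 * ∫ z, (h z) ^ 2) ∧
        ∀ (m : Fin N) (x : ℝ), ∑ s ∈ Finset.range S, ENNReal.ofReal (2 ^ s) *
            ∫⁻ z in {z | z ∈ B m ∧ lo z = s ∧ s < hi' z ∧ jx s z.1 = jx s x},
              ENNReal.ofReal |h z| ≤
            ENNReal.ofReal (C * Λ * (2 ^ kk m * 2 ^ (AA * ii m) * (1 / 2) ^ n)) := by
  obtain ⟨C1, hC1, hT⟩ := topone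
  refine ⟨32 * C1 * 2 ^ (AA * 3), by positivity, ?_⟩
  intro U h n S lo hi Λ hU hh hc hUpp hΛ N R kk ii E B hI hone
  have hΛ0 : 0 < Λ := lt_of_lt_of_le one_pos hΛ
  set P : ℝ := 2 ^ (AA * 3) with hP
  have hP0 : 0 < P := by positivity
  have hA2 : 2 ≤ AA := by unfold AA; norm_num
  -- the density of one top
  have hD : ∀ m, (4 * 2 ^ (AA * (ii m + 3)) * (1 / 2 : ℝ) ^ n) =
      4 * P * (2 ^ (AA * ii m) * (1 / 2 : ℝ) ^ n) := by
    intro m
    rw [Nat.mul_add, pow_add]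
    ring
  have hst : ∀ m, ∃ st : ℝ → ℕ, Measurable st ∧
      volume {z | z ∈ B m ∧ lo z < hi z ∧ st z.1 < hi z} ≤
        ENNReal.ofReal (C1 * (1 / Λ) ^ 2 * (4 * 2 ^ (AA * (ii m + 3)) * (1 / 2 : ℝ) ^ n) *
          (R m).len) ∧
      ∀ x, ∑ s ∈ Finset.range S, ENNReal.ofReal (2 ^ s) *
          ∫⁻ z in {z | z ∈ B m ∧ lo z = s ∧ s < min (hi z) (st z.1) ∧ jx s z.1 = jx s x},
            ENNReal.ofReal |h z| ≤ ENNReal.ofReal (C1 * Λ * 2 ^ kk m *
              (4 * 2 ^ (AA * (ii m + 3)) * (1 / 2 : ℝ) ^ n)) := by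
    intro m
    have h1 : ∀ z ∈ B m, lo z < hi z → z.1 ∈ (R m).I ∧ (R m).k ≤ lo z ∧
        near U (2 ^ (ii m + 3)) (R m).b (R m).m (lo z) z := by
      intro z hz hlt
      obtain ⟨a1, a2, a3⟩ := hI.top m z hz hlt
      refine ⟨a1, a2, near_mono_K ?_ a3⟩
      rw [pow_add]
      have : (0 : ℝ) < 2 ^ ii m := by positivity
      linarith
    have h2 := hM AA n hA2 U h S lo hi hU hh hc hUpp (kk m) (ii m + 3) (R m) (B m) (hI.intT m)
      (hI.mB m) (hI.subB m) h1
    exact hT h S lo hi (B m) (R m) (kk m) _ Λ hh hc (hI.mB m) (hI.subB m) (by positivity) hΛ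
      (fun z hz hlt => ⟨(h1 z hz hlt).1, (h1 z hz hlt).2.1⟩) (fun z _ => hone z) h2
  choose st hstm hrem hkept using hst
  -- the new chain
  set Bu : Set (ℝ × ℝ) := ⋃ m, B m with hBu
  have hBum : MeasurableSet Bu := MeasurableSet.iUnion hI.mB
  set gg : ℝ × ℝ → ℕ := fun z =>
    ∑ m, (B m).indicator (fun z => st m z.1) z + Buᶜ.indicator hi z with hgg
  have hggm : Measurable gg := by
    refine Measurable.add ?_ (hc.2.1.indicator hBum.compl)
    exact Finset.measurable_sum _ fun m _ => ((hstm m).comp measurable_fst).indicator (hI.mB m)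
  have hggB : ∀ m, ∀ z ∈ B m, gg z = st m z.1 := by
    intro m z hz
    have h1 : ∑ m', (B m').indicator (fun z => st m' z.1) z = st m z.1 := by
      rw [Finset.sum_eq_single m]
      · exact Set.indicator_of_mem hz _
      · intro m' _ hne
        refine Set.indicator_of_notMem (fun hz' => ?_) _
        exact Set.disjoint_left.1 (hI.disB hne) hz' hz
      · intro hm
        exact absurd (Finset.mem_univ m) hm
    have h2 : Buᶜ.indicator hi z = 0 := by
      refine Set.indicator_of_notMem ?_ _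
      intro hz'
      exact hz' (Set.mem_iUnion.2 ⟨m, hz⟩)
    rw [hgg]
    simp only
    rw [h1, h2, add_zero]
  refine ⟨fun z => min (hi z) (gg z), hc.2.1.min hggm, fun z => min_le_left _ _, ?_, ?_⟩
  · -- the removed part
    have hAm : ∀ m, MeasurableSet {z | z ∈ B m ∧ lo z < hi z ∧ st m z.1 < hi z} := fun m =>
      (hI.mB m).inter ((measurableSet_lt hc.1 hc.2.1).inter
        (measurableSet_lt ((hstm m).comp measurable_fst) hc.2.1))
    have hsq : Nice (fun z => (h z) ^ 2) := by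
      obtain ⟨a1, ⟨M, a2⟩, ⟨r, a3⟩⟩ := hh
      refine ⟨a1.pow_const 2, ⟨M ^ 2, fun z => ?_⟩, ⟨r, fun z hz => ?_⟩⟩
      · rw [abs_pow]
        have := a2 z
        gcongr
      · simp only [a3 z hz]; norm_num
    have hsqi : Integrable (fun z => (h z) ^ 2) := integrable_nice hsq
    have hrm : MeasurableSet {z | lo z < hi z ∧ min (hi z) (gg z) < hi z} :=
      (measurableSet_lt hc.1 hc.2.1).inter (measurableSet_lt (hc.2.1.min hggm) hc.2.1)
    have h1 : ∫ z in {z | lo z < hi z ∧ min (hi z) (gg z) < hi z}, (h z) ^ 2 ≤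
        ∑ m, ∫ z in {z | z ∈ B m ∧ lo z < hi z ∧ st m z.1 < hi z}, (h z) ^ 2 := by
      rw [← integral_indicator hrm]
      have h2 : ∀ m, ∫ z in {z | z ∈ B m ∧ lo z < hi z ∧ st m z.1 < hi z}, (h z) ^ 2 =
          ∫ z, {z | z ∈ B m ∧ lo z < hi z ∧ st m z.1 < hi z}.indicator (fun z => (h z) ^ 2) z :=
        fun m => (integral_indicator (hAm m)).symm
      simp_rw [h2]
      rw [← integral_finsetSum _ fun m _ => hsqi.indicator (hAm m)]
      refine integral_mono (hsqi.indicator hrm)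
        (integrable_finsetSum _ fun m _ => hsqi.indicator (hAm m)) fun z => ?_
      have hnn : ∀ m, 0 ≤ {z | z ∈ B m ∧ lo z < hi z ∧ st m z.1 < hi z}.indicator
          (fun z => (h z) ^ 2) z := fun m => Set.indicator_nonneg (fun z _ => sq_nonneg _) z
      by_cases hz : z ∈ {z | lo z < hi z ∧ min (hi z) (gg z) < hi z}
      · rw [Set.indicator_of_mem hz]
        by_cases h0 : h z = 0
        · rw [h0]
          simp only [ne_eq, OfNat.ofNat_ne_zero, not_false_eq_true, zero_pow]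
          exact Finset.sum_nonneg fun m _ => hnn m
        · obtain ⟨m, hm⟩ := hI.unB z h0 hz.1
          have h3 : z ∈ {z | z ∈ B m ∧ lo z < hi z ∧ st m z.1 < hi z} := by
            refine ⟨hm, hz.1, ?_⟩
            have h4 := hz.2
            rw [hggB m z hm] at h4
            rcases min_lt_iff.1 h4 with h5 | h5
            · exact absurd h5 (lt_irrefl _)
            · exact h5
          calc (h z) ^ 2 = {z | z ∈ B m ∧ lo z < hi z ∧ st m z.1 < hi z}.indicator
                (fun z => (h z) ^ 2) z := by rw [Set.indicator_of_mem h3]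
            _ ≤ _ := Finset.single_le_sum (f := fun m =>
                {z | z ∈ B m ∧ lo z < hi z ∧ st m z.1 < hi z}.indicator (fun z => (h z) ^ 2) z)
                (fun m _ => hnn m) (Finset.mem_univ m)
      · rw [Set.indicator_of_notMem hz]
        exact Finset.sum_nonneg fun m _ => hnn m
    have h2 : ∀ m, ∫ z in {z | z ∈ B m ∧ lo z < hi z ∧ st m z.1 < hi z}, (h z) ^ 2 ≤
        16 * C1 * P * (1 / Λ) ^ 2 *
          ((4 : ℝ) ^ kk m * 2 ^ (AA * ii m) * (1 / 2 : ℝ) ^ n * (R m).len) := by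
      intro m
      have h3 := (R m).len_pos
      refine (int_col hh (hAm m) (fun z hz => hI.subB m hz.1) (by positivity) (hrem m)).trans
        (le_of_eq ?_)
      rw [hD m]
      ring
    have h4 := (hR n U h lo hi hU hh N R kk ii E B hI).2
    have hint0 : 0 ≤ ∫ z, (h z) ^ 2 := integral_nonneg fun z => sq_nonneg _
    calc ∫ z in {z | lo z < hi z ∧ min (hi z) (gg z) < hi z}, (h z) ^ 2
        ≤ ∑ m, ∫ z in {z | z ∈ B m ∧ lo z < hi z ∧ st m z.1 < hi z}, (h z) ^ 2 := h1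
      _ ≤ ∑ m, 16 * C1 * P * (1 / Λ) ^ 2 *
          ((4 : ℝ) ^ kk m * 2 ^ (AA * ii m) * (1 / 2 : ℝ) ^ n * (R m).len) :=
          Finset.sum_le_sum fun m _ => h2 m
      _ = 16 * C1 * P * (1 / Λ) ^ 2 *
          ∑ m, (4 : ℝ) ^ kk m * 2 ^ (AA * ii m) * (1 / 2 : ℝ) ^ n * (R m).len := by
          rw [Finset.mul_sum]
      _ ≤ 16 * C1 * P * (1 / Λ) ^ 2 * ((n + 2) * ∫ z, (h z) ^ 2) := by gcongr
      _ ≤ 16 * C1 * P * (1 / Λ) ^ 2 * (2 * (n + 1) * ∫ z, (h z) ^ 2) := by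
          have h5 : ((n : ℝ) + 2) ≤ 2 * (n + 1) := by
            have : (0 : ℝ) ≤ n := Nat.cast_nonneg n
            linarith
          gcongr
      _ = 32 * C1 * P * (n + 1) * (1 / Λ) ^ 2 * ∫ z, (h z) ^ 2 := by ring
  · intro m x
    have h1 := hkept m x
    have h2 : ∀ s, {z | z ∈ B m ∧ lo z = s ∧ s < min (hi z) (gg z) ∧ jx s z.1 = jx s x} =
        {z | z ∈ B m ∧ lo z = s ∧ s < min (hi z) (st m z.1) ∧ jx s z.1 = jx s x} := by
      intro s
      ext z
      constructor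
      · rintro ⟨a1, a2, a3, a4⟩
        refine ⟨a1, a2, ?_, a4⟩
        rw [← hggB m z a1]
        exact a3
      · rintro ⟨a1, a2, a3, a4⟩
        refine ⟨a1, a2, ?_, a4⟩
        rw [hggB m z a1]
        exact a3
    simp_rw [h2]
    refine h1.trans (ENNReal.ofReal_le_ofReal ?_)
    rw [hD m]
    have h3 : 0 ≤ C1 * P * Λ * ((2 : ℝ) ^ kk m * 2 ^ (AA * ii m) * (1 / 2 : ℝ) ^ n) := by
      positivity
    nlinarith

end Crest.Agent.R087.TopSx929
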